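import Crest.Agent.R17.Block2

/-!
# R17 / Block : elementary properties of log-Gaussian blocks
-/

set_option autoImplicit false

noncomputable section

open scoped Classical ComplexConjugate
open MeasureTheory

namespace Crest.Agent.R17

theorem ls_circle {H : ℂ → ℂ} (hH : Differentiable ℂ H) (r : ℝ) :
    2 * Real.pi * ‖H 0‖ ≤ ∫ θ in Set.Ioo (-Real.pi) Real.pi,
      ‖H ((r * Real.cos θ : ℝ) + (r * Real.sin θ : ℝ) * Complex.I)‖ := by
  have hπ := Real.pi_pos
  have h := (hH.diffContOnCl (s := Metric.ball 0 |r|)).circleAverage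
  rw [Real.circleAverage_eq_integral_add (-Real.pi),
    intervalIntegral.integral_comp_add_right (fun θ => H (circleMap 0 r θ)), zero_add,
    show 2 * Real.pi + -Real.pi = Real.pi by ring] at h
  rw [← h, norm_smul, Real.norm_of_nonneg (by positivity), mul_inv_cancel_left₀ (by positivity),
    ← integral_Ioc_eq_integral_Ioo, ← intervalIntegral.integral_of_le (by linarith)]
  refine (intervalIntegral.norm_integral_le_integral_norm (by linarith)).trans_eq ?_
  congr 1
  funext θ
  congr 2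
  rw [circleMap, Complex.exp_mul_I]
  push_cast
  ring

/-- area mean value inequality -/
theorem ls_mean {H : ℂ → ℂ} (hH : Differentiable ℂ H) {g : ℝ × ℝ → ℝ} (hg : Continuous g)
    (hg0 : ∀ p, 0 ≤ g p) (hb : ∀ p : ℝ × ℝ, |p.1| ≤ 1 → ‖H (p.1 + p.2 * Complex.I)‖ ≤ g p) :
    Real.pi * ‖H 0‖ ≤ ∫ x in Set.Icc (-2 : ℝ) 2, ∫ τ in Set.Icc (-1 : ℝ) 1, g (x, τ) := by
  have hπ := Real.pi_pos
  have hc := hH.continuous
  set h : ℝ × ℝ → ℝ := fun p => ‖H (p.1 + p.2 * Complex.I)‖ with hh
  have hhc : Continuous h := by fun_prop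
  set B : Set (ℝ × ℝ) := {p | p.1 ^ 2 + p.2 ^ 2 < 1} with hB
  have hBm : MeasurableSet B := (isOpen_lt (by fun_prop) continuous_const).measurableSet
  have hB1 : ∀ p ∈ B, |p.1| ≤ 1 ∧ |p.2| ≤ 1 := fun p hp => by
    have hp : p.1 ^ 2 + p.2 ^ 2 < 1 := hp
    constructor <;> rw [← sq_le_one_iff_abs_le_one] <;> nlinarith [sq_nonneg p.1, sq_nonneg p.2]
  have hBS : B ⊆ Set.Icc (-2 : ℝ) 2 ×ˢ Set.Icc (-1 : ℝ) 1 := fun p hp => by
    have h1 := abs_le.1 (hB1 p hp).1
    exact ⟨⟨by linarith [h1.1], by linarith [h1.2]⟩, abs_le.1 (hB1 p hp).2⟩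
  have hK := (isCompact_Icc (a := (-2 : ℝ)) (b := 2)).prod (isCompact_Icc (a := (-1 : ℝ)) (b := 1))
  have ig : IntegrableOn g (Set.Icc (-2 : ℝ) 2 ×ˢ Set.Icc (-1 : ℝ) 1) :=
    hg.continuousOn.integrableOn_compact hK
  have h1 : ∫ p in B, h p ≤ ∫ x in Set.Icc (-2 : ℝ) 2, ∫ τ in Set.Icc (-1 : ℝ) 1, g (x, τ) := by
    rw [← setIntegral_prod g ig]
    refine (setIntegral_mono_on ((hhc.continuousOn.integrableOn_compact hK).mono_set hBS)
      (ig.mono_set hBS) hBm fun p hp => hb p (hB1 p hp).1).trans ?_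
    exact setIntegral_mono_set ig (Filter.Eventually.of_forall hg0) hBS.eventuallyLE
  set F : ℝ × ℝ → ℝ := fun p => p.1 * h (p.1 * Real.cos p.2, p.1 * Real.sin p.2) with hF
  have hFc : Continuous F := by fun_prop
  have iF : IntegrableOn F (Set.Ioo (0 : ℝ) 1 ×ˢ Set.Ioo (-Real.pi) Real.pi) :=
    (hFc.continuousOn.integrableOn_compact (isCompact_Icc.prod isCompact_Icc)).mono_set
      (Set.prod_mono Set.Ioo_subset_Icc_self Set.Ioo_subset_Icc_self)
  have h2 : ∫ p in B, h p = ∫ p in Set.Ioo (0 : ℝ) 1 ×ˢ Set.Ioo (-Real.pi) Real.pi, F p := by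
    rw [← integral_indicator hBm, ← integral_comp_polarCoord_symm,
      setIntegral_congr_fun (g := {p : ℝ × ℝ | p.1 < 1}.indicator F)
        polarCoord.open_target.measurableSet, setIntegral_indicator
        (isOpen_lt continuous_fst continuous_const).measurableSet]
    · congr 2
      ext p
      simp only [polarCoord_target, Set.mem_inter_iff, Set.mem_prod, Set.mem_Ioi, Set.mem_Ioo,
        Set.mem_setOf_eq]
      tauto
    · intro p hp
      have hp0 : 0 < p.1 := hp.1
      have e : (p.1 * Real.cos p.2) ^ 2 + (p.1 * Real.sin p.2) ^ 2 = p.1 ^ 2 := by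
        linear_combination p.1 ^ 2 * Real.cos_sq_add_sin_sq p.2
      have e2 : (p.1 * Real.cos p.2, p.1 * Real.sin p.2) ∈ B ↔ p ∈ {p : ℝ × ℝ | p.1 < 1} := by
        simp only [hB, Set.mem_setOf_eq, e]
        exact sq_lt_one_iff₀ hp0.le
      simp only [polarCoord_symm_apply, smul_eq_mul]
      by_cases h3 : p ∈ {p : ℝ × ℝ | p.1 < 1}
      · rw [Set.indicator_of_mem h3, Set.indicator_of_mem (e2.2 h3)]
      · rw [Set.indicator_of_notMem h3, Set.indicator_of_notMem (mt e2.1 h3), mul_zero]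
  have h3 : ∫ r in Set.Ioo (0 : ℝ) 1, r * (2 * Real.pi * ‖H 0‖) ≤
      ∫ p in Set.Ioo (0 : ℝ) 1 ×ˢ Set.Ioo (-Real.pi) Real.pi, F p := by
    rw [Measure.volume_eq_prod, setIntegral_prod F iF]
    refine setIntegral_mono_on ((by fun_prop : Continuous fun r : ℝ =>
      r * (2 * Real.pi * ‖H 0‖)).continuousOn.integrableOn_Icc.mono_set Set.Ioo_subset_Icc_self)
      ?_ measurableSet_Ioo fun r hr => ?_
    · have := iF
      rw [IntegrableOn, Measure.volume_eq_prod, ← Measure.prod_restrict] at this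
      exact this.integral_prod_left
    · simp only [hF]
      rw [integral_const_mul]
      exact mul_le_mul_of_nonneg_left (ls_circle hH r) hr.1.le
  rw [integral_mul_const, ← integral_Ioc_eq_integral_Ioo,
    ← intervalIntegral.integral_of_le zero_le_one, integral_id] at h3
  linarith

theorem ls_diff {a : O → ℂ} (ha : PolyBd a) (y : ℝ) : Differentiable ℂ (blks a y) := by
  intro s
  have hU : IsOpen {w : ℂ | s.re - 1 < w.re} := isOpen_lt continuous_const Complex.continuous_re
  refine (Complex.differentiableOn_tsum_of_summable_norm (summable_blks ha y (s.re - 1 : ℝ))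
    (fun n => ?_) hU fun n w hw => ?_).differentiableAt (hU.mem_nhds (by simp))
  · by_cases hn : n = 0
    · simp only [hn, if_true]; exact differentiableOn_const _
    · simp only [hn, if_false]
      refine (Differentiable.mul_const (Differentiable.const_mul ?_ _) _).differentiableOn
      exact differentiable_neg.const_cpow (Or.inl (Complex.ofReal_ne_zero.2 (N_pos hn).ne'))
  · by_cases hn : n = 0
    · simp only [hn, if_true, le_refl]
    · simp only [hn, if_false, norm_mul, Complex.norm_cpow_eq_rpow_re_of_pos (N_pos hn),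
        Complex.neg_re, Complex.ofReal_re]
      have hw : s.re - 1 < w.re := hw
      gcongr
      exact one_le_N hn

/-- **Local sup bound.**  `blk a y t = e^{-ity - t²/4} F(y - it/2)` with
`F(ζ) = ∑ a(n) N(n)^{-1/2} exp(-(log N n - ζ)²)` entire.  Mean value inequality for `F²` on circles of
radius `r ∈ [ρ, 2ρ]`, `ρ = 1/(4(1+|t|))`, integrated over `r` (polar coordinates); on these circles
`e^{(t'² - t²)/2} ≤ C`. -/
theorem local_sup : ∃ C, ∀ (a : O → ℂ), PolyBd a → ∀ y t : ℝ,
    ‖blk a y t‖ ^ 2 ≤ C * (1 + |t|) ^ 2 *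
      ∫ y' in Set.Icc (y - 1) (y + 1), ∫ t' in Set.Icc (t - 1) (t + 1), ‖blk a y' t'‖ ^ 2 := by
  refine ⟨4, fun a ha y t => ?_⟩
  have hd := ls_diff ha y
  have hc := continuous_blk ha
  have h := ls_mean (H := fun w => (Complex.exp (w * y) * blks a y (1 / 2 + t * Complex.I + w)) ^ 2)
    (by fun_prop) (g := fun p => 3 * ‖blk a (y - p.1 / 2) (t + p.2)‖ ^ 2)
    (continuous_const.mul ((hc.comp (by fun_prop : Continuous fun p : ℝ × ℝ =>
      (y - p.1 / 2, t + p.2))).norm.pow 2)) (fun p => by positivity) fun p hp => by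
      have e := blks_shift a y (-p.1) (1 / 2 + (t + p.2 : ℝ) * Complex.I)
      have e1 : (1 / 2 + t * Complex.I + (p.1 + p.2 * Complex.I) : ℂ) =
          1 / 2 + (t + p.2 : ℝ) * Complex.I - (-p.1 : ℝ) := by push_cast; ring
      have e2 : (((p.1 : ℂ) + p.2 * Complex.I) * y).re = p.1 * y := by simp
      beta_reduce
      rw [e1, e, norm_pow, norm_mul, norm_mul, Complex.norm_exp, e2, Complex.norm_real,
        Real.norm_of_nonneg (Real.exp_pos _).le, ← mul_assoc, ← Real.exp_add, mul_pow,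
        ← Real.exp_nat_mul, show y + -p.1 / 2 = y - p.1 / 2 by ring]
      refine mul_le_mul_of_nonneg_right ?_ (sq_nonneg _)
      have h1 : p.1 ^ 2 ≤ 1 := (sq_le_one_iff_abs_le_one _).2 hp
      refine (Real.exp_le_exp.2 ?_).trans Real.exp_one_lt_three.le
      push_cast
      linarith
  set I := ∫ y' in Set.Icc (y - 1) (y + 1), ∫ t' in Set.Icc (t - 1) (t + 1), ‖blk a y' t'‖ ^ 2
    with hI
  have hI0 : 0 ≤ I := integral_nonneg fun _ => integral_nonneg fun _ => sq_nonneg _
  have e : ∫ x in Set.Icc (-2 : ℝ) 2, ∫ τ in Set.Icc (-1 : ℝ) 1,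
      3 * ‖blk a (y - x / 2) (t + τ)‖ ^ 2 = 6 * I := by
    have e1 : ∀ y', ∫ τ in Set.Icc (-1 : ℝ) 1, 3 * ‖blk a y' (t + τ)‖ ^ 2 =
        3 * ∫ t' in Set.Icc (t - 1) (t + 1), ‖blk a y' t'‖ ^ 2 := fun y' => by
      rw [integral_const_mul, integral_Icc_eq_integral_Ioc, integral_Icc_eq_integral_Ioc,
        ← intervalIntegral.integral_of_le (by norm_num),
        ← intervalIntegral.integral_of_le (by linarith),
        intervalIntegral.integral_comp_add_left fun t' => ‖blk a y' t'‖ ^ 2, sub_eq_add_neg]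
    simp only [e1]
    rw [integral_const_mul, hI, integral_Icc_eq_integral_Ioc,
      integral_Icc_eq_integral_Ioc (x := y - 1), ← intervalIntegral.integral_of_le (by norm_num),
      ← intervalIntegral.integral_of_le (by linarith),
      intervalIntegral.integral_comp_sub_div
        (fun y' => ∫ t' in Set.Icc (t - 1) (t + 1), ‖blk a y' t'‖ ^ 2) two_ne_zero,
      show y - 2 / 2 = y - 1 by ring, show y - -2 / 2 = y + 1 by ring, smul_eq_mul]
    ring
  simp only [zero_mul, Complex.exp_zero, one_mul, add_zero, norm_pow] at h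
  rw [e] at h
  have h2 : 3 * ‖blk a y t‖ ^ 2 ≤ 6 * I :=
    (mul_le_mul_of_nonneg_right Real.pi_gt_three.le (sq_nonneg _)).trans h
  have h3 : 1 ≤ (1 + |t|) ^ 2 := one_le_pow₀ (by linarith [abs_nonneg t])
  nlinarith

end Crest.Agent.R17
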