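import Crest.Agent.R17.Recip

/-!
# R17 / CharsAux : auxiliary lemmas for `Chars`
(finiteness of the set of characters, the class group of `𝒫₀` mod `q`, primary associates,
valuations)
-/

set_option autoImplicit false

noncomputable section

open scoped Classical ComplexConjugate

namespace Crest.Agent.R17

namespace ChA

/-! ## The finite ring `O / q` -/

theorem mk_eq_iff {q a b : O} :
    Ideal.Quotient.mk (Ideal.span {q}) a = Ideal.Quotient.mk (Ideal.span {q}) b ↔ q ∣ a - b := by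
  rw [Ideal.Quotient.eq, Ideal.mem_span_singleton]

theorem finite_quot {q : O} (hq : q ≠ 0) : Finite (O ⧸ Ideal.span {q}) := by
  refine Finite.of_surjective
    (fun r : res q => Ideal.Quotient.mk (Ideal.span {q}) (r : O)) (fun x => ?_)
  obtain ⟨y, rfl⟩ := Ideal.Quotient.mk_surjective x
  obtain ⟨r, hr, h⟩ := exists_res hq y
  exact ⟨⟨r, hr⟩, (mk_eq_iff.2 h).symm⟩

theorem isUnit_mk_iff {q n : O} :
    IsUnit (Ideal.Quotient.mk (Ideal.span {q}) n) ↔ IsCoprime n q := by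
  constructor
  · intro h
    obtain ⟨x, hx⟩ := h.exists_left_inv
    obtain ⟨y, rfl⟩ := Ideal.Quotient.mk_surjective x
    rw [← map_mul, ← map_one (Ideal.Quotient.mk (Ideal.span {q})), mk_eq_iff] at hx
    obtain ⟨c, hc⟩ := hx
    exact ⟨y, -c, by linear_combination hc⟩
  · rintro ⟨a, b, h⟩
    refine IsUnit.of_mul_eq_one (Ideal.Quotient.mk (Ideal.span {q}) a) ?_
    rw [← map_mul, ← map_one (Ideal.Quotient.mk (Ideal.span {q})), mk_eq_iff]
    exact ⟨-b, by linear_combination h⟩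

theorem finite_isChar {q : O} (hq : q ≠ 0) : {ψ : O → ℂ | IsChar q ψ}.Finite := by
  have := finite_quot hq
  refine (Set.finite_range (fun χ : MulChar (O ⧸ Ideal.span {q}) ℂ =>
    fun n : O => χ (Ideal.Quotient.mk (Ideal.span {q}) n))).subset (fun ψ hψ => ?_)
  have hψ : IsChar q ψ := hψ
  set s : O ⧸ Ideal.span {q} → O := Function.surjInv Ideal.Quotient.mk_surjective with hs
  have hs' : ∀ x, Ideal.Quotient.mk (Ideal.span {q}) (s x) = x :=
    fun x => Function.surjInv_eq _ x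
  have key : ∀ n : O, ψ (s (Ideal.Quotient.mk (Ideal.span {q}) n)) = ψ n :=
    fun n => hψ.per.congr (mk_eq_iff.1 (hs' _))
  refine ⟨{ toFun := fun x => ψ (s x), map_one' := ?_, map_mul' := ?_, map_nonunit' := ?_ }, ?_⟩
  · rw [← map_one (Ideal.Quotient.mk (Ideal.span {q})), key, hψ.one]
  · intro x y
    obtain ⟨a, rfl⟩ := Ideal.Quotient.mk_surjective x
    obtain ⟨b, rfl⟩ := Ideal.Quotient.mk_surjective y
    rw [← map_mul, key, key, key, hψ.mul]
  · intro x hx
    obtain ⟨a, rfl⟩ := Ideal.Quotient.mk_surjective x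
    show ψ (s _) = 0
    rw [key, hψ.zero_iff, ← isUnit_mk_iff]
    exact hx
  · funext n
    exact key n

/-! ## Small facts about levels and coprimality -/

theorem three_dvd (Q : Lev) : (3 : O) ∣ Q.q := Dvd.dvd.trans ⟨24, by norm_num⟩ Q.dvd
theorem six_dvd (Q : Lev) : (6 : O) ∣ Q.q := Dvd.dvd.trans ⟨12, by norm_num⟩ Q.dvd
theorem four_dvd (Q : Lev) : (4 : O) ∣ Q.q := Dvd.dvd.trans ⟨18, by norm_num⟩ Q.dvd

theorem cop_three {Q : Lev} {n : O} (h : IsCoprime n Q.q) : IsCoprime n 3 :=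
  h.of_isCoprime_of_dvd_right (three_dvd Q)
theorem cop_six {Q : Lev} {n : O} (h : IsCoprime n Q.q) : IsCoprime n 6 :=
  h.of_isCoprime_of_dvd_right (six_dvd Q)
theorem cop_six' {Q : Lev} {n : O} (h : IsCoprime n Q.q) : IsCoprime n ((6 : ℕ) : O) := by
  simpa using cop_six h

theorem ne_zero_of_cop {Q : Lev} {n : O} (h : IsCoprime n Q.q) : n ≠ 0 := by
  rintro rfl
  have h3 := cop_three h
  rw [isCoprime_zero_left, isUnit_iff_nm] at h3
  have := nm_natCast 3
  rw [Nat.cast_ofNat, h3] at this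
  norm_num at this

theorem cop_unit {u : O} (hu : IsUnit u) (x : O) : IsCoprime u x := by
  obtain ⟨v, hv⟩ := hu.exists_left_inv
  exact ⟨v, 0, by rw [hv]; simp⟩

theorem cop_congr {q a b : O} (h : q ∣ a - b) (hb : IsCoprime b q) : IsCoprime a q := by
  obtain ⟨c, hc⟩ := h
  have : a = b + q * c := by linear_combination hc
  rw [this]
  exact hb.add_mul_left_left c

theorem prim_congr {a b : O} (h : (3 : O) ∣ a - b) (hb : Prim b) : Prim a := by
  have := dvd_add h hb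
  unfold Prim
  simpa using this

theorem P0_congr {Q : Lev} {a b : O} (h : Q.q ∣ a - b) (hb : P0 Q b) : P0 Q a :=
  ⟨prim_congr ((three_dvd Q).trans h) hb.1, cop_congr h hb.2⟩

theorem exists_inv {Q : Lev} {n : O} (hn : P0 Q n) : ∃ m, P0 Q m ∧ Q.q ∣ n * m - 1 := by
  obtain ⟨a, b, h⟩ := hn.2
  have h1 : Q.q ∣ n * a - 1 := ⟨-b, by linear_combination h⟩
  have h2 : P0 Q (n * a) := P0_congr h1 (P0.one Q)
  exact ⟨a, ⟨h2.1.of_mul_left hn.1, h2.2.of_mul_left_right⟩, h1⟩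

/-- Chinese remainder theorem -/
theorem crt {q1 q2 : O} (h : IsCoprime q1 q2) (x y : O) : ∃ n, q1 ∣ n - x ∧ q2 ∣ n - y := by
  obtain ⟨a, b, hab⟩ := h
  refine ⟨y * a * q1 + x * b * q2, ⟨a * (y - x), ?_⟩, ⟨b * (x - y), ?_⟩⟩
  · linear_combination x * hab
  · linear_combination y * hab

theorem IsChar_pow {q : O} {ψ : O → ℂ} (h : IsChar q ψ) (a : O) (j : ℕ) :
    ψ (a ^ j) = ψ a ^ j := by
  induction j with
  | zero => simp [h.one]
  | succ j ih => rw [pow_succ, h.mul, ih, pow_succ]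

theorem chi_isChar {n : O} (hn : IsCoprime n 6) : IsChar n (chi n) :=
  sym_isChar (k := 6) (by simp) (by simpa using hn)

theorem chi_pow_six {n : O} (hn : IsCoprime n 6) (a : O) :
    chi n (a ^ 6) = if IsCoprime n a then 1 else 0 := by
  rw [IsChar_pow (chi_isChar hn)]
  have := sym_pow_eq (k := 6) (by simp) (n := n) (by simpa using hn) a
  unfold chi
  rw [this]
  simp only [isCoprime_comm (x := a)]

theorem chi_one_left (d : O) : chi 1 d = 1 := sym_one 6 d

/-! ## Primary associates -/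

/-- the primary associate of `n` (for `n` coprime to `3`) -/
def pr (n : O) : O := if h : IsCoprime n 3 then (exists_unit_mul_prim h).choose * n else n

theorem pr_spec {n : O} (h : IsCoprime n 3) : Prim (pr n) ∧ Associated n (pr n) := by
  unfold pr
  rw [dif_pos h]
  obtain ⟨hu, hp⟩ := (exists_unit_mul_prim h).choose_spec
  exact ⟨hp, (associated_unit_mul_left n _ hu).symm⟩

theorem pr_eq {n b : O} (hb : Prim b) (h : Associated n b) : pr n = b := by
  have hn : IsCoprime n 3 := hb.isCoprime_three.of_isCoprime_of_dvd_left h.dvd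
  exact (pr_spec hn).1.eq_of_associated hb ((pr_spec hn).2.symm.trans h)

theorem pr_mul {a b : O} (ha : IsCoprime a 3) (hb : IsCoprime b 3) : pr (a * b) = pr a * pr b :=
  pr_eq ((pr_spec ha).1.mul (pr_spec hb).1) ((pr_spec ha).2.mul_mul (pr_spec hb).2)

theorem pr_P0 {Q : Lev} {n : O} (h : IsCoprime n Q.q) : P0 Q (pr n) :=
  ⟨(pr_spec (cop_three h)).1, h.of_isCoprime_of_dvd_left (pr_spec (cop_three h)).2.symm.dvd⟩

theorem pr_congr {Q : Lev} {a b : O} (ha : IsCoprime a Q.q) (h : Q.q ∣ a - b) :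
    Q.q ∣ pr a - pr b := by
  obtain ⟨hp, u, hu⟩ := pr_spec (cop_three ha)
  have h1 : Q.q ∣ b * u - pr a := by
    rw [← hu]
    have := (h.mul_right (u : O)).neg_right
    convert this using 1
    ring
  have h2 : pr b = b * u := pr_eq (prim_congr ((three_dvd Q).trans h1) hp) ⟨u, rfl⟩
  rw [h2]
  have := h1.neg_right
  convert this using 1
  ring

/-- a prime not dividing the level has a primary associate -/
theorem exists_prim_prime {Q : Lev} {p : O} (hp : Prime p) (hq : ¬ p ∣ Q.q) :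
    ∃ p', Prime p' ∧ Prim p' ∧ Associated p p' := by
  have h := pr_spec (cop_three (hp.coprime_iff_not_dvd.2 hq))
  exact ⟨pr p, h.2.prime hp, h.1, h.2⟩

/-! ## Fourier expansion on a finite abelian group -/

theorem fourier_add {α : Type} [AddCommGroup α] [Fintype α] (F : α → ℂ) (hF : ∀ a, ‖F a‖ ≤ 1) :
    ∃ c : AddChar α ℂ → ℂ, (∀ ψ, ‖c ψ‖ ≤ 1) ∧ ∀ g, F g = ∑ ψ, c ψ * ψ g := by
  have hc : (0 : ℝ) < Fintype.card α := by exact_mod_cast Fintype.card_pos
  have hc' : (Fintype.card α : ℂ) ≠ 0 := by exact_mod_cast Fintype.card_ne_zero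
  refine ⟨fun ψ => (Fintype.card α : ℂ)⁻¹ * ∑ a, F a * ψ (-a), fun ψ => ?_, fun g => ?_⟩
  · rw [norm_mul, norm_inv, Complex.norm_natCast, inv_mul_le_iff₀ hc, mul_one]
    refine (norm_sum_le _ _).trans ?_
    calc ∑ a, ‖F a * ψ (-a)‖ ≤ ∑ _a : α, (1 : ℝ) := by
          refine Finset.sum_le_sum (fun a _ => ?_)
          rw [norm_mul, AddChar.norm_apply, mul_one]
          exact hF a
      _ = Fintype.card α := by simp
  · have : ∀ ψ : AddChar α ℂ, ((Fintype.card α : ℂ)⁻¹ * ∑ a, F a * ψ (-a)) * ψ g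
        = ∑ a, (Fintype.card α : ℂ)⁻¹ * F a * ψ (g - a) := by
      intro ψ
      rw [Finset.mul_sum, Finset.sum_mul]
      refine Finset.sum_congr rfl (fun a _ => ?_)
      rw [sub_eq_add_neg, AddChar.map_add_eq_mul]
      ring
    simp only [this]
    rw [Finset.sum_comm]
    simp only [← Finset.mul_sum, AddChar.sum_apply_eq_ite, sub_eq_zero, mul_ite, mul_zero]
    rw [Finset.sum_ite_eq, if_pos (Finset.mem_univ _)]
    field_simp

/-- the subgroup of classes of `𝒫₀` -/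
def G0 (Q : Lev) : Subgroup (O ⧸ Ideal.span {Q.q})ˣ where
  carrier := {x | ∃ n, P0 Q n ∧ Ideal.Quotient.mk (Ideal.span {Q.q}) n = x}
  one_mem' := ⟨1, P0.one Q, by simp⟩
  mul_mem' := by
    rintro x y ⟨a, ha, hx⟩ ⟨b, hb, hy⟩
    exact ⟨a * b, ha.mul hb, by rw [map_mul, hx, hy, Units.val_mul]⟩
  inv_mem' := by
    rintro x ⟨a, ha, hx⟩
    obtain ⟨m, hm, h⟩ := exists_inv ha
    refine ⟨m, hm, ?_⟩
    rw [← mk_eq_iff, map_mul, map_one, hx] at h
    exact (Units.inv_eq_of_mul_eq_one_right h).symm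

/-- the class of an element of `𝒫₀` -/
def cls (Q : Lev) (n : O) : G0 Q :=
  if h : P0 Q n then ⟨(isUnit_mk_iff.2 h.2).unit, n, h, rfl⟩ else 1

theorem cls_val {Q : Lev} {n : O} (h : P0 Q n) :
    ((cls Q n : (O ⧸ Ideal.span {Q.q})ˣ) : O ⧸ Ideal.span {Q.q})
      = Ideal.Quotient.mk (Ideal.span {Q.q}) n := by
  unfold cls
  rw [dif_pos h]
  rfl

theorem exists_cls (Q : Lev) : ∃ (G : Type) (_ : AddCommGroup G) (_ : Fintype G) (π : O → G),
    π 1 = 0 ∧ (∀ a b, P0 Q a → P0 Q b → π (a * b) = π a + π b) ∧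
    (∀ a b, P0 Q a → P0 Q b → (π a = π b ↔ Q.q ∣ a - b)) ∧ ∀ g, ∃ n, P0 Q n ∧ π n = g := by
  have := finite_quot Q.ne
  refine ⟨Additive (G0 Q), inferInstance, Fintype.ofFinite _, fun n => Additive.ofMul (cls Q n),
    ?_, ?_, ?_, ?_⟩
  · have : cls Q 1 = 1 := by
      apply Subtype.ext
      apply Units.ext
      rw [cls_val (P0.one Q)]
      simp
    simp only [this, ofMul_one]
  · intro a b ha hb
    have : cls Q (a * b) = cls Q a * cls Q b := by
      apply Subtype.ext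
      apply Units.ext
      rw [cls_val (ha.mul hb), Subgroup.coe_mul, Units.val_mul, cls_val ha, cls_val hb, map_mul]
    simp only [this, ofMul_mul]
  · intro a b ha hb
    rw [← mk_eq_iff, ← cls_val ha, ← cls_val hb]
    simp only [EmbeddingLike.apply_eq_iff_eq, Units.val_inj, SetLike.coe_eq_coe]
  · intro g
    obtain ⟨n, hn, h⟩ := (Additive.toMul g).2
    refine ⟨n, hn, ?_⟩
    have : cls Q n = Additive.toMul g := by
      apply Subtype.ext
      apply Units.ext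
      rw [cls_val hn, h]
    simp only [this, ofMul_toMul]

/-! ## Valuations -/

theorem val_unique {p x y : O} (hp : Prime p) {i j : ℕ} (hx : ¬ p ∣ x) (hy : ¬ p ∣ y)
    (h : p ^ i * x = p ^ j * y) : i = j := by
  have aux : ∀ {x y : O} {i j : ℕ}, ¬ p ∣ x → p ^ i * x = p ^ j * y → j ≤ i := by
    intro x y i j hx h
    by_contra hlt
    obtain ⟨k, rfl⟩ := Nat.exists_eq_add_of_lt (not_le.1 hlt)
    apply hx
    refine ⟨p ^ k * y, mul_left_cancel₀ (pow_ne_zero i hp.ne_zero) ?_⟩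
    rw [h]; ring
  exact le_antisymm (aux hy h.symm) (aux hx h)

/-- an element all of whose prime factors divide `q` divides a power of `q` -/
theorem dvd_pow_of_primes {q d : O} (hd : d ≠ 0) (h : ∀ p, Prime p → p ∣ d → p ∣ q) :
    ∃ j : ℕ, d ∣ q ^ j := by
  induction d using UniqueFactorizationMonoid.induction_on_prime with
  | h₁ => exact absurd rfl hd
  | h₂ x hx => exact ⟨0, hx.dvd⟩
  | h₃ a p ha hp ih =>
    obtain ⟨j, hj⟩ := ih ha (fun p' hp' h' => h p' hp' (h'.mul_left p))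
    refine ⟨j + 1, ?_⟩
    rw [pow_succ']
    exact mul_dvd_mul (h p hp (dvd_mul_right p a)) hj

theorem sixfree (Q : Lev) {d : O} (hd : d ≠ 0) :
    ∃ d' a, P0 Q a ∧ d = d' * a ^ 6 ∧ ∀ p, Prime p → ¬ p ∣ Q.q → ¬ p ^ 6 ∣ d' := by
  induction hn : nm d using Nat.strong_induction_on generalizing d with
  | _ n ih =>
    by_cases h : ∀ p, Prime p → ¬ p ∣ Q.q → ¬ p ^ 6 ∣ d
    · exact ⟨d, 1, P0.one Q, by simp, h⟩
    · push Not at h
      obtain ⟨p0, hp0, hq0, hd0⟩ := h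
      obtain ⟨p, hp, hpp, has⟩ := exists_prim_prime hp0 hq0
      have hq : ¬ p ∣ Q.q := fun h => hq0 (has.dvd.trans h)
      obtain ⟨d1, rfl⟩ := (has.pow_pow (n := 6)).symm.dvd.trans hd0
      have hd1 : d1 ≠ 0 := right_ne_zero_of_mul hd
      have hlt : nm d1 < n := by
        have h1 : N d1 < N (p ^ 6 * d1) := by
          rw [N_mul, N_pow]
          have h2 := Prime.two_le_N hp
          have h3 : (1 : ℝ) < N p ^ 6 := one_lt_pow₀ (by linarith) (by norm_num)
          exact lt_mul_of_one_lt_left (N_pos hd1) h3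
        rw [← hn]
        unfold N at h1
        exact_mod_cast h1
      obtain ⟨d', a, ha, h1, h2⟩ := ih _ hlt hd1 rfl
      refine ⟨d', p * a, P0.mul ⟨hpp, hp.coprime_iff_not_dvd.2 hq⟩ ha, ?_, h2⟩
      rw [h1]; ring

theorem exc_zero (Q : Lev) : Exc Q 0 := ⟨1, 0, 0, by simp, by simp⟩

theorem exists_bad (Q : Lev) {d : O} (hd : ¬ Exc Q d) :
    ∃ (p : O) (w : ℕ) (d2 : O), Prime p ∧ Prim p ∧ ¬ p ∣ Q.q ∧ ¬ p ∣ d2 ∧ ¬ 6 ∣ w ∧
      d = p ^ w * d2 := by
  have hd0 : d ≠ 0 := fun h => hd (h ▸ exc_zero Q)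
  obtain ⟨d', a, ha, rfl, h6⟩ := sixfree Q hd0
  have hd' : d' ≠ 0 := left_ne_zero_of_mul hd0
  have : ¬ ∀ p, Prime p → p ∣ d' → p ∣ Q.q := by
    intro h
    obtain ⟨j, hj⟩ := dvd_pow_of_primes hd' h
    exact hd ⟨d', a, j, hj, rfl⟩
  push Not at this
  obtain ⟨p0, hp0, hpd0, hq0⟩ := this
  obtain ⟨p, hp, hpp, has⟩ := exists_prim_prime hp0 hq0
  have hq : ¬ p ∣ Q.q := fun h => hq0 (has.dvd.trans h)
  have hpd : p ∣ d' := has.symm.dvd.trans hpd0
  obtain ⟨v, d'', hv, rfl⟩ := WfDvdMonoid.max_power_factor hd' hp.irreducible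
  obtain ⟨t, a', ht, rfl⟩ := WfDvdMonoid.max_power_factor ha.1.ne_zero hp.irreducible
  have hv0 : v ≠ 0 := by
    rintro rfl
    exact hv (by simpa using hpd)
  have hv6 : v < 6 := by
    by_contra h
    exact h6 p hp hq ((pow_dvd_pow p (not_lt.1 h)).mul_right _)
  refine ⟨p, v + 6 * t, d'' * a' ^ 6, hp, hpp, hq, ?_, by omega, by ring⟩
  intro h
  rcases hp.dvd_or_dvd h with h | h
  · exact hv h
  · exact ht (hp.dvd_of_dvd_pow h)

theorem not_exc_of_bad (Q : Lev) {p d2 : O} {w : ℕ} (hp : Prime p) (hq : ¬ p ∣ Q.q)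
    (hd : ¬ p ∣ d2) (hw : ¬ 6 ∣ w) : ¬ Exc Q (p ^ w * d2) := by
  rintro ⟨d0, a, j, hj, h⟩
  have hd2 : d2 ≠ 0 := by
    rintro rfl
    exact hd (dvd_zero p)
  have hne : d0 * a ^ 6 ≠ 0 := h ▸ mul_ne_zero (pow_ne_zero w hp.ne_zero) hd2
  have ha : a ≠ 0 := by
    rintro rfl
    simp at hne
  obtain ⟨t, a', ht, rfl⟩ := WfDvdMonoid.max_power_factor ha hp.irreducible
  have h1 : ¬ p ∣ d0 * a' ^ 6 := by
    intro h
    rcases hp.dvd_or_dvd h with h | h
    · exact hq (hp.dvd_of_dvd_pow (h.trans hj))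
    · exact ht (hp.dvd_of_dvd_pow h)
  have := val_unique hp (i := w) (j := 6 * t) hd h1 (by rw [h]; ring)
  exact hw ⟨t, this⟩

theorem zeta_pow_ne_one {w : ℕ} (hw : ¬ 6 ∣ w) : (-om ^ 2 : O) ^ w ≠ 1 := by
  have h6 : (-om ^ 2 : O) ^ 6 = 1 := by
    have : (-om ^ 2 : O) ^ 6 = (om ^ 3) ^ 4 := by ring
    rw [this, om_cube, one_pow]
  have hz : (-om ^ 2 : O) = ⟨1, 1⟩ := by
    have : (-om ^ 2 : O) = om + 1 := by linear_combination -om_sq_add
    rw [this]
    ext <;> simp [om, QuadraticAlgebra.re_one, QuadraticAlgebra.im_one]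
  rw [← Nat.div_add_mod w 6, pow_add, pow_mul, h6, one_pow, one_mul, hz]
  have h1 : w % 6 < 6 := Nat.mod_lt _ (by norm_num)
  have h2 : w % 6 ≠ 0 := fun h => hw (Nat.dvd_of_mod_eq_zero h)
  generalize w % 6 = r at h1 h2
  intro h
  have hre := congrArg QuadraticAlgebra.re h
  have him := congrArg QuadraticAlgebra.im h
  interval_cases r <;>
    simp [pow_succ, QuadraticAlgebra.re_one, QuadraticAlgebra.im_one] at hre him h2

end ChA

end Crest.Agent.R17
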