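import Crest.Agent.R17.Recip
import Crest.Agent.R17.CharsAux

/-!
# R17 / Chars : Hecke characters of a level, row characters, exceptional rows

`(O/q)ˣ = units × (primary classes)` because `3 ∣ q`, so Hecke characters mod `q` are the same as
characters of the finite abelian group `G₀` of classes mod `q` of elements of `𝒫₀`.
-/

set_option autoImplicit false

noncomputable section

open scoped Classical ComplexConjugate

namespace Crest.Agent.R17

theorem mem_hchars {q : O} (hq : q ≠ 0) {ψ : O → ℂ} : ψ ∈ hchars q ↔ IsHChar q ψ := by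
  have hf : {ψ : O → ℂ | IsHChar q ψ}.Finite := (ChA.finite_isChar hq).subset (fun _ h => h.1)
  unfold hchars
  rw [dif_pos hf, Set.Finite.mem_toFinset]
  rfl
theorem one0_mem (Q : Lev) : one0 Q ∈ hchars Q.q := by
  rw [mem_hchars Q.ne]
  refine ⟨⟨?_, ?_, ?_, ?_⟩, ?_⟩
  · simp [one0, isCoprime_one_left]
  · intro a b
    simp only [one0, IsCoprime.mul_left_iff]
    by_cases ha : IsCoprime a Q.q <;> by_cases hb : IsCoprime b Q.q <;> simp [ha, hb]
  · intro x t
    simp only [one0, IsCoprime.add_mul_left_left_iff]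
  · intro n
    simp [one0]
  · intro u hu
    simp [one0, ChA.cop_unit hu]
theorem mul_mem_hchars (Q : Lev) {ν ν' : O → ℂ} (h : ν ∈ hchars Q.q) (h' : ν' ∈ hchars Q.q) :
    (fun n => ν n * ν' n) ∈ hchars Q.q := by
  rw [mem_hchars Q.ne] at h h' ⊢
  exact ⟨h.1.mul_char h'.1, fun u hu => by simp only [h.2 u hu, h'.2 u hu, mul_one]⟩
theorem conj_mem_hchars (Q : Lev) {ν : O → ℂ} (h : ν ∈ hchars Q.q) :
    (fun n => conj (ν n)) ∈ hchars Q.q := by
  rw [mem_hchars Q.ne] at h ⊢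
  exact ⟨h.1.conj, fun u hu => by simp only [h.2 u hu, map_one]⟩
theorem norm_hchar_le (Q : Lev) {ν : O → ℂ} (h : ν ∈ hchars Q.q) (n : O) : ‖ν n‖ ≤ 1 := by
  rw [mem_hchars Q.ne] at h
  exact h.1.norm_le Q.ne n
theorem eq_one0_of_not_nonPrinc (Q : Lev) {ν : O → ℂ} (h : ν ∈ hchars Q.q)
    (hn : ¬ NonPrinc Q.q ν) : ν = one0 Q := by
  rw [mem_hchars Q.ne] at h
  funext n
  unfold one0
  split_ifs with hc
  · by_contra h1
    exact hn ⟨n, hc, h1⟩
  · exact (h.1.zero_iff n).2 hc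
/-- a multiplicative class function on `𝒫₀` extends to a Hecke character
(`ν n = f (u n)` with `u n` primary) -/
theorem exists_hchar (Q : Lev) {f : O → ℂ} (h1 : f 1 = 1)
    (hmul : ∀ a b, P0 Q a → P0 Q b → f (a * b) = f a * f b)
    (hper : ∀ a b, P0 Q a → P0 Q b → Q.q ∣ a - b → f a = f b) :
    ∃ ν ∈ hchars Q.q, ∀ n, P0 Q n → ν n = f n := by
  refine ⟨fun n => if IsCoprime n Q.q then f (ChA.pr n) else 0, ?_, ?_⟩
  · rw [mem_hchars Q.ne]
    have hu : ∀ u : O, IsUnit u → (if IsCoprime u Q.q then f (ChA.pr u) else 0) = 1 := by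
      intro u hu
      rw [if_pos (ChA.cop_unit hu _), ChA.pr_eq Prim.one (associated_one_iff_isUnit.2 hu), h1]
    refine ⟨⟨hu 1 isUnit_one, ?_, ?_, ?_⟩, hu⟩
    · intro a b
      simp only [IsCoprime.mul_left_iff]
      by_cases ha : IsCoprime a Q.q
      · by_cases hb : IsCoprime b Q.q
        · simp only [ha, hb, and_self, if_true]
          rw [ChA.pr_mul (ChA.cop_three ha) (ChA.cop_three hb), hmul _ _ (ChA.pr_P0 ha) (ChA.pr_P0 hb)]
        · simp [hb]
      · simp [ha]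
    · intro x t
      simp only [IsCoprime.add_mul_left_left_iff]
      split_ifs with hx
      · have hx' : IsCoprime (x + Q.q * t) Q.q := hx.add_mul_left_left t
        exact hper _ _ (ChA.pr_P0 hx') (ChA.pr_P0 hx) (ChA.pr_congr hx' ⟨t, by ring⟩)
      · rfl
    · intro n
      by_cases hn : IsCoprime n Q.q
      · simp only [hn, if_true, not_true, iff_false]
        obtain ⟨m, hm, h⟩ := ChA.exists_inv (ChA.pr_P0 hn)
        have h2 := hper _ _ ((ChA.pr_P0 hn).mul hm) (P0.one Q) h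
        rw [hmul _ _ (ChA.pr_P0 hn) hm, h1] at h2
        exact left_ne_zero_of_mul_eq_one h2
      · simp [hn]
  · intro n hn
    simp only [hn.2, if_true]
    rw [ChA.pr_eq hn.1 (Associated.refl n)]
theorem exists_hchar_sg (Q : Lev) {r : O} (hr : IsCoprime r 2) :
    ∃ ν ∈ hchars Q.q, ∀ n, P0 Q n → ν n = sg n r := by
  refine exists_hchar Q (f := fun n => sg n r) (sg_one r hr)
    (fun a b ha hb => sg_mul_left ha.isCoprime_two hb.isCoprime_two hr)
    (fun a b _ _ h => (sg_per r).congr ((ChA.four_dvd Q).trans h))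
/-- symbols of level-smooth elements are Hecke characters of the level (`chi_congr`) -/
theorem exists_hchar_smooth (Q : Lev) {d0 : O} {j : ℕ} (hd : d0 ∣ Q.q ^ j) :
    ∃ ν ∈ hchars Q.q, ∀ n, IsCoprime n Q.q → ν n = chi n d0 := by
  have hd0 : d0 ≠ 0 := ne_zero_of_dvd_ne_zero (pow_ne_zero j Q.ne) hd
  obtain ⟨ν, hν, h⟩ := exists_hchar Q (f := fun n => chi n d0) (ChA.chi_one_left d0)
    (fun a b ha hb => sym_mul_left 6 ha.1.ne_zero hb.1.ne_zero d0)
    (fun a b ha _ h => chi_congr hd0 ha.isCoprime_six (Q.dvd.trans h)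
      (fun p hp hpd => (hp.dvd_of_dvd_pow (hpd.trans hd)).trans h))
  refine ⟨ν, hν, fun n hn => ?_⟩
  have hν' := (mem_hchars Q.ne).1 hν
  obtain ⟨-, has⟩ := ChA.pr_spec (ChA.cop_three hn)
  have h1 := h _ (ChA.pr_P0 hn)
  have h2 : chi (ChA.pr n) d0 = chi n d0 := sym_assoc 6 has.symm d0
  obtain ⟨u, hu⟩ := has
  rw [← h2, ← h1, ← hu, hν'.1.mul, hν'.2 u u.isUnit, mul_one]
/-- Fourier expansion of a class function on `𝒫₀` -/
theorem expand_class (Q : Lev) {F : O → ℂ} (hb : ∀ n, P0 Q n → ‖F n‖ ≤ 1)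
    (hper : ∀ a b, P0 Q a → P0 Q b → Q.q ∣ a - b → F a = F b) :
    ∃ c : (O → ℂ) → ℂ, (∀ ν, ‖c ν‖ ≤ 1) ∧ ∀ n, P0 Q n → F n = ∑ ν ∈ hchars Q.q, c ν * ν n := by
  obtain ⟨G, _, _, π, hπ1, hπm, hπe, hπs⟩ := ChA.exists_cls Q
  choose s hs hs' using hπs
  obtain ⟨c, hc, hF⟩ := ChA.fourier_add (fun g => F (s g)) (fun g => hb _ (hs g))
  have hex : ∀ ψ : AddChar G ℂ, ∃ ν ∈ hchars Q.q, ∀ n, P0 Q n → ν n = ψ (π n) := by
    intro ψ
    refine exists_hchar Q (f := fun n => ψ (π n)) (by rw [hπ1, AddChar.map_zero_eq_one]) ?_ ?_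
    · intro a b ha hb
      rw [hπm a b ha hb, AddChar.map_add_eq_mul]
    · intro a b ha hb h
      rw [(hπe a b ha hb).2 h]
  choose T hT hT' using hex
  have hinj : Function.Injective T := by
    intro ψ ψ' h
    ext g
    rw [← hs' g, ← hT' ψ _ (hs g), ← hT' ψ' _ (hs g), h]
  refine ⟨fun ν => ∑ ψ ∈ Finset.univ.filter (fun ψ => T ψ = ν), c ψ, fun ν => ?_, fun n hn => ?_⟩
  · by_cases h : ∃ ψ, T ψ = ν
    · obtain ⟨ψ, rfl⟩ := h
      have : Finset.univ.filter (fun ψ' => T ψ' = T ψ) = {ψ} := by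
        ext ψ'
        simp [hinj.eq_iff]
      simp only [this, Finset.sum_singleton]
      exact hc ψ
    · push Not at h
      have : Finset.univ.filter (fun ψ' => T ψ' = ν) = ∅ := by
        ext ψ'
        simp [h ψ']
      simp [this]
  · have h1 : F n = F (s (π n)) :=
      hper _ _ hn (hs _) ((hπe _ _ hn (hs _)).1 (hs' _).symm)
    rw [h1, hF (π n), ← Finset.sum_fiberwise_of_maps_to (s := Finset.univ) (t := hchars Q.q)
      (g := T) (fun ψ _ => hT ψ)]
    refine Finset.sum_congr rfl (fun ν _ => ?_)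
    rw [Finset.sum_mul]
    refine Finset.sum_congr rfl (fun ψ hψ => ?_)
    rw [← (Finset.mem_filter.1 hψ).2, hT' ψ n hn]
/-- expansion of the reciprocity sign -/
theorem expand_sg (Q : Lev) : ∃ c : (O → ℂ) → (O → ℂ) → ℂ, (∀ ν ν', ‖c ν ν'‖ ≤ 1) ∧
    ∀ a b, P0 Q a → P0 Q b → sg a b = ∑ ν ∈ hchars Q.q, ∑ ν' ∈ hchars Q.q, c ν ν' * ν a * ν' b :=
  by
  have hex : ∀ F : O → ℂ, ∃ c : (O → ℂ) → ℂ, (∀ ν, ‖c ν‖ ≤ 1) ∧
      ((∀ n, P0 Q n → ‖F n‖ ≤ 1) → (∀ a b, P0 Q a → P0 Q b → Q.q ∣ a - b → F a = F b) →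
        ∀ n, P0 Q n → F n = ∑ ν ∈ hchars Q.q, c ν * ν n) := by
    intro F
    by_cases h : (∀ n, P0 Q n → ‖F n‖ ≤ 1) ∧ (∀ a b, P0 Q a → P0 Q b → Q.q ∣ a - b → F a = F b)
    · obtain ⟨c, hc, hF⟩ := expand_class Q h.1 h.2
      exact ⟨c, hc, fun _ _ => hF⟩
    · exact ⟨0, fun _ => by simp, fun h1 h2 => absurd ⟨h1, h2⟩ h⟩
  choose C hC hC' using hex
  refine ⟨fun ν => C (fun b => C (fun a => sg a b) ν), fun ν ν' => hC _ _, fun a b ha hb => ?_⟩
  have h1 := hC' (fun a => sg a b) (fun n hn => (norm_sg hn.isCoprime_two hb.isCoprime_two).le)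
    (fun x y _ _ h => (sg_per b).congr ((ChA.four_dvd Q).trans h)) a ha
  rw [h1]
  refine Finset.sum_congr rfl (fun ν _ => ?_)
  have h2 := hC' (fun b => C (fun a => sg a b) ν) (fun n _ => hC _ _) (fun x y _ _ h => by
    have : (fun a => sg a x) = (fun a => sg a y) := by
      funext a
      rw [sg_comm a x, sg_comm a y]
      exact (sg_per a).congr ((ChA.four_dvd Q).trans h)
    rw [this]) b hb
  rw [h2, Finset.sum_mul]
  refine Finset.sum_congr rfl (fun ν' _ => ?_)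
  ring

/-- the radical of the part of `d` prime to the level -/
def radq (Q : Lev) (d : O) : O := ∏ p ∈ (pdiv d).filter (fun p => Prime p ∧ ¬ p ∣ Q.q), p

theorem radq_ne_zero (Q : Lev) (d : O) : radq Q d ≠ 0 :=
  Finset.prod_ne_zero_iff.2 (fun _ hp => (Finset.mem_filter.1 hp).2.1.ne_zero)

/-- the level of the row characters of the row `d` -/
def levd (Q : Lev) (d : O) : Lev :=
  ⟨Q.q * radq Q d, mul_ne_zero Q.ne (radq_ne_zero Q d), Q.dvd.mul_right _⟩

theorem radq_spec (Q : Lev) {d : O} (hd : d ≠ 0) :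
    P0 Q (radq Q d) ∧ Squarefree (radq Q d) ∧ radq Q d ∣ d ∧
      ∀ p, Prime p → p ∣ d → p ∣ Q.q ∨ p ∣ radq Q d := by
  have hmem : ∀ p ∈ (pdiv d).filter (fun p => Prime p ∧ ¬ p ∣ Q.q),
      Prim p ∧ p ∣ d ∧ Prime p ∧ ¬ p ∣ Q.q := by
    intro p hp
    obtain ⟨h1, h2⟩ := Finset.mem_filter.1 hp
    obtain ⟨h3, h4⟩ := (mem_pdiv hd).1 h1
    exact ⟨h3, h4, h2⟩
  have hpw : (((pdiv d).filter (fun p => Prime p ∧ ¬ p ∣ Q.q) : Finset O) : Set O).Pairwise
      (Function.onFun IsCoprime (fun p => p)) := by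
    intro p hp p' hp' hne
    obtain ⟨h1, -, h2, -⟩ := hmem p hp
    obtain ⟨h1', -, h2', -⟩ := hmem p' hp'
    refine h2.coprime_iff_not_dvd.2 (fun h => hne ?_)
    exact h1.eq_of_associated h1' (h2.associated_of_dvd h2' h)
  refine ⟨⟨Prim.prod (fun p hp => (hmem p hp).1), IsCoprime.prod_left (fun p hp =>
    (hmem p hp).2.2.1.coprime_iff_not_dvd.2 (hmem p hp).2.2.2)⟩, ?_, ?_, ?_⟩
  · exact Finset.squarefree_prod_of_pairwise_isCoprime
      (fun p hp p' hp' hne => (hpw hp hp' hne).isRelPrime)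
      (fun p hp => (hmem p hp).2.2.1.squarefree)
  · exact Finset.prod_dvd_of_coprime hpw (fun p hp => (hmem p hp).2.1)
  · intro p hp hpd
    by_cases hq : p ∣ Q.q
    · exact Or.inl hq
    · obtain ⟨p', hp', hpp, has⟩ := ChA.exists_prim_prime hp hq
      refine Or.inr (has.dvd.trans (Finset.dvd_prod_of_mem (fun p => p) ?_))
      exact Finset.mem_filter.2 ⟨(mem_pdiv hd).2 ⟨hpp, has.symm.dvd.trans hpd⟩, hp',
        fun h => hq (has.dvd.trans h)⟩
theorem N_levd_le (Q : Lev) {d : O} (hd : d ≠ 0) : N (levd Q d).q ≤ N Q.q * N d := by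
  show N (Q.q * radq Q d) ≤ _
  rw [N_mul]
  exact mul_le_mul_of_nonneg_left (N_le_of_dvd hd (radq_spec Q hd).2.2.1) (N_nonneg _)
/-- the row character is a Hecke character (`chi_congr`, `sym_mul_left`, `sym_assoc`) -/
theorem rc_isHChar (Q : Lev) {ν : O → ℂ} (hν : ν ∈ hchars Q.q) {d : O} (hd : d ≠ 0) :
    IsHChar (levd Q d).q (rc ν d) := by
  rw [mem_hchars Q.ne] at hν
  obtain ⟨-, -, hr1, hr2⟩ := radq_spec Q hd
  have hu : ∀ u : O, IsUnit u → rc ν d u = 1 := by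
    intro u hu
    unfold rc chi
    rw [hν.2 u hu, sym_unit 6 hu, one_mul]
  have hz : ∀ n, ¬ IsCoprime n Q.q → ν n = 0 := fun n hn => (hν.1.zero_iff n).2 hn
  refine ⟨⟨hu 1 isUnit_one, ?_, ?_, ?_⟩, hu⟩
  · intro a b
    unfold rc
    rw [hν.1.mul]
    by_cases ha : IsCoprime a Q.q
    · by_cases hb : IsCoprime b Q.q
      · unfold chi
        rw [sym_mul_left 6 (ChA.ne_zero_of_cop ha) (ChA.ne_zero_of_cop hb)]
        ring
      · rw [hz b hb]; simp
    · rw [hz a ha]; simp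
  · intro x t
    show rc ν d (x + Q.q * radq Q d * t) = rc ν d x
    unfold rc
    have h1 : ν (x + Q.q * radq Q d * t) = ν x := by
      rw [mul_assoc]; exact hν.1.per x _
    rw [h1]
    by_cases hx : IsCoprime x Q.q
    · congr 1
      symm
      have h2 : x - (x + Q.q * radq Q d * t) = Q.q * radq Q d * (-t) := by ring
      refine chi_congr hd (ChA.cop_six hx) ?_ (fun p hp hpd => ?_)
      · rw [h2]; exact (Q.dvd.mul_right _).mul_right _
      · rw [h2]
        rcases hr2 p hp hpd with h | h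
        · exact (h.mul_right _).mul_right _
        · exact (h.mul_left _).mul_right _
    · rw [hz x hx]; simp
  · intro n
    show ν n * chi n d = 0 ↔ ¬ IsCoprime n (Q.q * radq Q d)
    rw [IsCoprime.mul_right_iff]
    by_cases hn : IsCoprime n Q.q
    · have h1 : ν n ≠ 0 := fun h => (hν.1.zero_iff n).1 h hn
      rw [mul_eq_zero, or_iff_right h1, (ChA.chi_isChar (ChA.cop_six hn)).zero_iff,
        and_iff_right hn, not_iff_not]
      constructor
      · intro h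
        exact h.symm.of_isCoprime_of_dvd_right hr1
      · intro h
        refine isCoprime_of_prime_dvd (fun h' => hd h'.1) (fun p hp hpd hpn => ?_)
        rcases hr2 p hp hpd with h' | h'
        · exact hp.not_isUnit (hn.isUnit_of_dvd' hpn h')
        · exact hp.not_isUnit (h.isUnit_of_dvd' hpn h')
    · simp [hz n hn, hn]
/-- For a non-exceptional row every character of the packet is non-principal: there is a prime
`p ∤ q` with `6 ∤ v = v_p(d)`; pick (CRT, `symP_surj`) `n ≡ 1` modulo `q` and the other primes of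
`d`, with `χ_p(n) = -ω²`(a primitive 6th root of unity); then `rc ν d n = χ_p(n)^v ≠ 1` by
`chi_rec` (`sg n · = 1` as `n ≡ 1 mod 4`) and `chi_congr`. -/
theorem rc_nonPrinc (Q : Lev) {ν : O → ℂ} (hν : ν ∈ hchars Q.q) {d : O} (hd : ¬ Exc Q d) :
    NonPrinc (levd Q d).q (rc ν d) := by
  rw [mem_hchars Q.ne] at hν
  have hd0 : d ≠ 0 := fun h => hd (h ▸ ChA.exc_zero Q)
  obtain ⟨-, -, hr1, -⟩ := radq_spec Q hd0
  obtain ⟨p, w, d2, hp, hpp, hq, hd2, hw, hdd⟩ := ChA.exists_bad Q hd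
  have hpq : IsCoprime p Q.q := hp.coprime_iff_not_dvd.2 hq
  have hp6 : IsCoprime p 6 := ChA.cop_six hpq
  have hp2 : IsCoprime p 2 := P0.isCoprime_two ⟨hpp, hpq⟩
  have hd20 : d2 ≠ 0 := fun h => hd2 (h ▸ dvd_zero p)
  have h6 : (-om ^ 2 : O) ^ 6 = 1 := by
    have : (-om ^ 2 : O) ^ 6 = (om ^ 3) ^ 4 := by ring
    rw [this, om_cube, one_pow]
  obtain ⟨x, hx⟩ := symP_surj (k := 6) (by simp) hp
    (by simpa using hp.coprime_iff_not_dvd.1 hp6) h6
  have hx' : chi p x = toC (-om ^ 2) := by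
    unfold chi; rw [sym_prime 6 hp, hx]
  obtain ⟨n, hn1, hn2⟩ := ChA.crt (hpq.mul_right (hp.coprime_iff_not_dvd.2 hd2)) x 1
  have hnq : Q.q ∣ n - 1 := (dvd_mul_right _ _).trans hn2
  have hP : P0 Q n := ChA.P0_congr hnq (P0.one Q)
  have hpn : chi p n = toC (-om ^ 2) := by
    rw [← hx']; exact (sym_per 6 p).congr hn1
  have hz : toC (-om ^ 2) ≠ 0 := by
    intro h
    have := congrArg toC h6
    rw [map_pow, h, map_one] at this
    norm_num at this
  have hnp : IsCoprime n p := by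
    by_contra h
    exact hz (hpn ▸ ((ChA.chi_isChar hp6).zero_iff n).2 h)
  have hnd2 : IsCoprime n d2 :=
    ChA.cop_congr ((dvd_mul_left _ _).trans hn2) isCoprime_one_left
  have hnd : IsCoprime n d := by
    rw [hdd]; exact hnp.pow_right.mul_right hnd2
  refine ⟨n, hP.2.mul_right (hnd.of_isCoprime_of_dvd_right hr1), ?_⟩
  have h1 : ν n = 1 := by rw [hν.1.per.congr hnq, hν.1.one]
  have h2 : chi n d2 = 1 := by
    rw [chi_congr hd20 hP.isCoprime_six (Q.dvd.trans hnq)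
      (fun p' _ h => (h.mul_left Q.q).trans hn2), ChA.chi_one_left]
  have h3 : chi n p = toC (-om ^ 2) := by
    rw [chi_rec hP.1 hpp hP.isCoprime_two hp2, hpn]
    have : sg n p = sg 1 p := (sg_per p).congr ((ChA.four_dvd Q).trans hnq)
    rw [this, sg_one p hp2, one_mul]
  have hc := ChA.chi_isChar hP.isCoprime_six
  unfold rc
  rw [h1, one_mul, hdd, hc.mul, ChA.IsChar_pow hc, h2, h3, mul_one, ← map_pow, ← map_one toC]
  exact fun h => ChA.zeta_pow_ne_one hw (toC_injective h)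
theorem not_exc_ne_zero (Q : Lev) {d : O} (hd : ¬ Exc Q d) : d ≠ 0 := by
  exact fun h => hd (h ▸ ChA.exc_zero Q)
theorem exc_iff (Q : Lev) {d : O} (hd : d ≠ 0) :
    Exc Q d ↔ ∃ (e a : O) (j : ℕ), e ∣ Q.q ^ j ∧ P0 Q a ∧ d = e * a ^ 6 := by
  constructor
  · rintro ⟨d0, a, j, hj, rfl⟩
    have ha : a ≠ 0 := by
      rintro rfl
      simp at hd
    obtain ⟨a0, a1, i, h0, h1, h2, rfl⟩ := exists_split Q.ne (ChA.three_dvd Q) ha
    refine ⟨d0 * a0 ^ 6, a1, j + i * 6, ?_, ⟨h1, h2⟩, by ring⟩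
    rw [pow_add, pow_mul]
    exact mul_dvd_mul hj (pow_dvd_pow_of_dvd h0 6)
  · rintro ⟨e, a, j, hj, -, h⟩
    exact ⟨e, a, j, hj, h⟩
theorem exc_mul_pow_six (Q : Lev) {d a : O} (ha : a ≠ 0) : Exc Q (d * a ^ 6) ↔ Exc Q d := by
  constructor
  · intro h
    by_contra hd
    obtain ⟨p, w, d2, hp, -, hq, hd2, hw, rfl⟩ := ChA.exists_bad Q hd
    obtain ⟨t, a', ht, rfl⟩ := WfDvdMonoid.max_power_factor ha hp.irreducible
    have h1 : ¬ p ∣ d2 * a' ^ 6 := by
      intro h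
      rcases hp.dvd_or_dvd h with h | h
      · exact hd2 h
      · exact ht (hp.dvd_of_dvd_pow h)
    refine ChA.not_exc_of_bad Q (w := w + 6 * t) hp hq h1 (by omega) ?_
    convert h using 1
    ring
  · rintro ⟨d0, b, j, hj, rfl⟩
    exact ⟨d0, b * a, j, hj, by ring⟩
theorem PRow.exc {Q : Lev} {d : O} (h : PRow Q d) : Exc Q d := by
  by_contra hd
  obtain ⟨n, hn, h1⟩ := rc_nonPrinc Q (one0_mem Q) hd
  have hH := rc_isHChar Q (one0_mem Q) h.1
  have hn' : IsCoprime n Q.q := hn.of_mul_right_left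
  have h2 : rc (one0 Q) d n ≠ 0 := fun h0 => (hH.1.zero_iff n).1 h0 hn
  have h3 : rc (one0 Q) d n = chi n d := by
    unfold rc one0
    rw [if_pos hn', one_mul]
  rw [h3] at h1 h2
  have h4 : IsCoprime d n := by
    by_contra h0
    exact h2 (((ChA.chi_isChar (ChA.cop_six hn')).zero_iff d).2 h0)
  obtain ⟨-, has⟩ := ChA.pr_spec (ChA.cop_three hn')
  have h5 := h.2 _ (ChA.pr_P0 hn') (h4.symm.of_isCoprime_of_dvd_left has.symm.dvd)
  exact h1 ((sym_assoc 6 has d).trans h5)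
theorem prow_iff (Q : Lev) {e a : O} {j : ℕ} (he : e ∣ Q.q ^ j) (ha : P0 Q a) :
    PRow Q (e * a ^ 6) ↔ ∀ n, P0 Q n → chi n e = 1 := by
  have he0 : e ≠ 0 := ne_zero_of_dvd_ne_zero (pow_ne_zero j Q.ne) he
  have key : ∀ n, P0 Q n → IsCoprime n a → chi n (e * a ^ 6) = chi n e := by
    intro n hn hna
    rw [(ChA.chi_isChar hn.isCoprime_six).mul, ChA.chi_pow_six hn.isCoprime_six, if_pos hna, mul_one]
  constructor
  · rintro ⟨-, h⟩ n hn
    obtain ⟨m, hm1, hm2⟩ := ChA.crt ha.2.symm n 1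
    have hm : P0 Q m := ChA.P0_congr hm1 hn
    have hma : IsCoprime m a := ChA.cop_congr hm2 isCoprime_one_left
    have hme : IsCoprime m e := (hm.2.pow_right (n := j)).of_isCoprime_of_dvd_right he
    have h1 := h m hm (hme.mul_right hma.pow_right)
    rw [key m hm hma] at h1
    rw [← h1]
    exact (chi_congr he0 hm.isCoprime_six (Q.dvd.trans hm1)
      (fun p hp hpe => (hp.dvd_of_dvd_pow (hpe.trans he)).trans hm1)).symm
  · intro h
    refine ⟨mul_ne_zero he0 (pow_ne_zero 6 ha.1.ne_zero), fun n hn hc => ?_⟩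
    rw [key n hn ((IsCoprime.pow_right_iff (by norm_num)).1 hc.of_mul_right_right), h n hn]
/-- number of exceptional rows -/
theorem card_exc_le (Q : Lev) {ε : ℝ} (hε : 0 < ε) : ∃ C, ∀ D : ℝ, 1 ≤ D →
    (((ball D).filter (fun d => Exc Q d)).card : ℝ) ≤ C * D ^ (1 / 6 + ε) := by
  obtain ⟨C, hC⟩ := sum_smooth_le (σ := 1 / 6) (ε := 1) (by norm_num) one_pos
  refine ⟨18 * (C * N Q.q ^ (1 : ℝ)), fun D hD => ?_⟩
  have hD0 : 0 < D := by linarith
  set S := (ball D).filter (fun e => ∃ j : ℕ, e ∣ Q.q ^ j) with hS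
  have hsum := hC Q.q Q.ne S (fun f hf => (Finset.mem_filter.1 hf).2)
  have hsub : (ball D).filter (fun d => Exc Q d) ⊆
      S.biUnion (fun e => (ball ((D / N e) ^ (1 / 6 : ℝ))).image (fun a => e * a ^ 6)) := by
    intro d hd
    obtain ⟨hd1, e, a, j, hj, rfl⟩ := Finset.mem_filter.1 hd
    obtain ⟨hd0, hdN⟩ := mem_ball.1 hd1
    have he0 : e ≠ 0 := left_ne_zero_of_mul hd0
    have ha0 : a ≠ 0 := by
      rintro rfl
      simp at hd0
    refine Finset.mem_biUnion.2 ⟨e, Finset.mem_filter.2 ⟨mem_ball.2 ⟨he0,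
      (N_le_of_dvd hd0 (dvd_mul_right _ _)).trans hdN⟩, j, hj⟩,
      Finset.mem_image.2 ⟨a, mem_ball.2 ⟨ha0, ?_⟩, rfl⟩⟩
    rw [N_mul, N_pow] at hdN
    have h1 : N a ^ 6 ≤ D / N e := by
      rw [le_div_iff₀ (N_pos he0)]; linarith
    have h2 : N a = (N a ^ 6) ^ (1 / 6 : ℝ) := by
      rw [← Real.rpow_natCast, ← Real.rpow_mul (N_nonneg a)]; norm_num
    rw [h2]
    exact Real.rpow_le_rpow (pow_nonneg (N_nonneg a) 6) h1 (by norm_num)
  have h0 : 0 ≤ ∑ f ∈ S, N f ^ (-(1 / 6 : ℝ)) :=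
    Finset.sum_nonneg (fun f _ => Real.rpow_nonneg (N_nonneg f) _)
  calc (((ball D).filter (fun d => Exc Q d)).card : ℝ)
      ≤ ((∑ e ∈ S, ((ball ((D / N e) ^ (1 / 6 : ℝ))).image (fun a => e * a ^ 6)).card : ℕ) : ℝ) := by
        exact_mod_cast (Finset.card_le_card hsub).trans Finset.card_biUnion_le
    _ ≤ ∑ e ∈ S, 18 * D ^ (1 / 6 : ℝ) * N e ^ (-(1 / 6 : ℝ)) := by
        rw [Nat.cast_sum]
        refine Finset.sum_le_sum (fun e _ => ?_)
        have h1 : (0 : ℝ) ≤ (D / N e) ^ (1 / 6 : ℝ) :=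
          Real.rpow_nonneg (div_nonneg hD0.le (N_nonneg e)) _
        calc ((((ball ((D / N e) ^ (1 / 6 : ℝ))).image (fun a => e * a ^ 6)).card : ℕ) : ℝ)
            ≤ ((ball ((D / N e) ^ (1 / 6 : ℝ))).card : ℝ) := by
              exact_mod_cast Finset.card_image_le
          _ ≤ 18 * (D / N e) ^ (1 / 6 : ℝ) := card_ball_le h1
          _ = _ := by
              rw [Real.div_rpow hD0.le (N_nonneg e), Real.rpow_neg (N_nonneg e)]; ring
    _ = 18 * D ^ (1 / 6 : ℝ) * ∑ e ∈ S, N e ^ (-(1 / 6 : ℝ)) := by rw [Finset.mul_sum]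
    _ ≤ 18 * D ^ (1 / 6 + ε) * (C * N Q.q ^ (1 : ℝ)) := by
        refine mul_le_mul ?_ hsum h0 (by positivity)
        exact mul_le_mul_of_nonneg_left
          (Real.rpow_le_rpow_of_exponent_le hD (by linarith)) (by norm_num)
    _ = _ := by ring
/-- extraction of the maximal sixth power prime to the level -/
theorem exists_sixfree (Q : Lev) {d : O} (hd : d ≠ 0) :
    ∃ d' a, P0 Q a ∧ d = d' * a ^ 6 ∧ ∀ p, Prime p → ¬ p ∣ Q.q → ¬ p ^ 6 ∣ d' := by
  exact ChA.sixfree Q hd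
/-- on an exceptional row the row character is a character of the level times a coprimality
condition -/
theorem rc_exc (Q : Lev) {ν : O → ℂ} (hν : ν ∈ hchars Q.q) {e a : O} {j : ℕ} (he : e ∣ Q.q ^ j)
    (ha : P0 Q a) : ∃ ν' ∈ hchars Q.q, (∀ n, ν' n = rc ν e n) ∧
      ∀ n, rc ν (e * a ^ 6) n = if IsCoprime n a then ν' n else 0 := by
  obtain ⟨μ, hμ, hμ'⟩ := exists_hchar_smooth Q he
  have hν' := (mem_hchars Q.ne).1 hν
  have hz : ∀ n, ¬ IsCoprime n Q.q → ν n = 0 := fun n hn => (hν'.1.zero_iff n).2 hn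
  refine ⟨fun n => ν n * μ n, mul_mem_hchars Q hν hμ, fun n => ?_, fun n => ?_⟩
  · unfold rc
    by_cases hn : IsCoprime n Q.q
    · simp only [hμ' n hn]
    · simp only [hz n hn, zero_mul]
  · unfold rc
    by_cases hn : IsCoprime n Q.q
    · rw [(ChA.chi_isChar (ChA.cop_six hn)).mul, ChA.chi_pow_six (ChA.cop_six hn)]
      simp only [hμ' n hn]
      split_ifs <;> simp
    · simp [hz n hn]

end Crest.Agent.R17
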