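import Crest.Agent.R17.LCont
import Crest.Agent.R17.Block
import Crest.Agent.R17.Chars

/-!
# R17 / FinalD : from `ZF (7/8)` to Dirichlet L-functions

For `Re s ≥ 1` use Mathlib (`DirichletCharacter.LFunction_ne_zero_of_one_le_re`).  So let
`7/8 < Re s < 1` (in particular `s ≠ 1`).  Let `χ'` be `χ` lifted to level `M = 72 N` (`changeLevel`;
`LFunction_changeLevel` expresses `L(χ')` as `L(χ)` times finitely many Euler factors), `χ₃` the
non-trivial character mod `3` lifted to level `M`, `Q.q = (M : O)`, `ψ n = χ'(nm n)`; this is an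
`IsHChar Q.q` (`nm` is multiplicative, `nm (x + M t) ≡ nm x mod M`, `nm n` coprime to `M` iff `n` coprime
to `M`, using `mul_star_self`).  For `k` coprime to `3` the number of primary `n` with `nm n = k` is
`∑_{d ∣ k} χ₃(d)` (both sides are multiplicative, or compare Euler products / use unique
factorisation: a rational prime `p ≡ 1 mod 3` is `π π̄` with non-associated primes, `p ≡ 2 mod 3` is
inert).  Alternatively avoid counting: prove directly, for `Re s > 1`, that `dser (prim ψ) s` and
`L(χ',s) L(χ'χ₃,s)` have the same Euler product.  Hence `dser (prim ψ) s = L(χ',s) L(χ'χ₃,s)` for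
`Re s > 1`, and by the identity theorem on the connected set `ℂ ∖ {1}`,
`Lf (prim ψ) s = L(χ',s) L(χ'χ₃,s)` for `s ≠ 1`.  So `L(χ,s) = 0` forces `Lf (prim ψ) s = 0`.
-/

set_option autoImplicit false

noncomputable section

open scoped Classical ComplexConjugate

namespace Crest.Agent.R17

namespace FD

open Filter Topology

theorem coprime_iff (n : O) (k : ℕ) : IsCoprime n (k : O) ↔ Nat.Coprime (nm n) k := by
  rw [← Nat.isCoprime_iff_coprime]
  constructor
  · intro h
    have h1 : IsCoprime (star n) (k : O) := by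
      have := h.map (starRingEnd O)
      rwa [map_natCast] at this
    obtain ⟨a, b, h2⟩ := h.mul_left h1
    rw [mul_star_self] at h2
    refine ⟨a.re, b.re, ?_⟩
    have := congrArg QuadraticAlgebra.re h2
    rw [QuadraticAlgebra.re_one] at this
    simpa using this
  · intro h
    have h1 := h.map (Int.castRingHom O)
    simp only [eq_intCast, Int.cast_natCast] at h1
    rw [← mul_star_self] at h1
    exact h1.of_mul_left_left

theorem prime_of_nm {a : O} (h : (nm a).Prime) : Prime a := by
  refine Irreducible.prime ⟨fun hu => h.ne_one (isUnit_iff_nm.1 hu), fun b c hbc => ?_⟩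
  rw [hbc, nm_mul] at h
  rw [isUnit_iff_nm, isUnit_iff_nm]
  by_contra hne
  push Not at hne
  exact Nat.not_prime_mul hne.1 hne.2 h

theorem prime_or {p : ℕ} (hp : p.Prime) : Prime (p : O) ∨ ∃ a, nm a = p := by
  by_contra hne
  push Not at hne
  refine hne.1 (Irreducible.prime ⟨fun hu => ?_, fun b c hbc => ?_⟩)
  · rw [isUnit_iff_nm, nm_natCast] at hu
    exact hp.ne_one (by simpa using hu)
  · rw [isUnit_iff_nm, isUnit_iff_nm]
    by_contra h
    push Not at h
    have h1 := congrArg nm hbc
    rw [nm_natCast, nm_mul] at h1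
    exact hne.2 b ((hp.mul_eq_prime_sq_iff h.1 h.2).1 h1.symm).1

theorem inert {p : ℕ} (hp : p.Prime) (h2 : p % 3 = 2) : Prime (p : O) := by
  rcases prime_or hp with h | ⟨a, ha⟩
  · exact h
  · by_cases h : lam ∣ a
    · have := b1_lam_dvd_iff_nm.1 h
      omega
    · have := b1_nm_mod_three h
      omega

theorem split {p : ℕ} (hp : p.Prime) (h1 : p % 3 = 1) : ∃ a, Prim a ∧ nm a = p := by
  have : Fact p.Prime := ⟨hp⟩
  have : Fact (Nat.Prime 3) := ⟨Nat.prime_three⟩
  rcases prime_or hp with h | ⟨a, ha⟩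
  · exfalso
    obtain ⟨u, hu⟩ := exists_prime_orderOf_dvd_card' (G := (ZMod p)ˣ) 3 (by
      rw [Nat.card_eq_fintype_card, ZMod.card_units]
      omega)
    have h3 : (u : ZMod p) ^ 3 = 1 := by
      rw [← Units.val_pow_eq_pow_val, ← hu, pow_orderOf_eq_one, Units.val_one]
    have h4 : (u : ZMod p) ≠ 1 := by
      intro h4
      have : u = 1 := Units.ext h4
      rw [this, orderOf_one] at hu
      omega
    obtain ⟨x, hx⟩ := ZMod.intCast_surjective (u : ZMod p)
    have h5 : ((x ^ 2 + x + 1 : ℤ) : ZMod p) = 0 := by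
      push_cast
      rw [hx]
      refine mul_left_cancel₀ (sub_ne_zero.2 h4) ?_
      linear_combination h3
    rw [ZMod.intCast_zmod_eq_zero_iff_dvd] at h5
    have h6 : p ∣ nm (⟨x, -1⟩ : O) := by
      rw [← Int.natCast_dvd_natCast, nm_int]
      convert h5 using 1
      ring
    have h7 : (p : O) ∣ (⟨x, -1⟩ : O) * star (⟨x, -1⟩ : O) := by
      rw [mul_star_self]
      exact Nat.cast_dvd_cast h6
    have h8 : ∀ z : O, (p : O) ∣ z → (p : ℤ) ∣ z.im := by
      rintro z ⟨t, rfl⟩
      simp
    have h9 : (p : ℤ) ∣ 1 := by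
      rcases h.dvd_or_dvd h7 with h7 | h7
      · simpa using h8 _ h7
      · simpa using h8 _ h7
    exact hp.one_lt.ne' (by exact_mod_cast Int.eq_one_of_dvd_one (by positivity) h9)
  · obtain ⟨u, hu, hpr⟩ := b1_exists_unit (a := a) (by
      rw [b1_lam_dvd_iff_nm]
      omega)
    exact ⟨u * a, hpr, by rw [nm_mul, isUnit_iff_nm.1 hu, one_mul, ha]⟩

theorem local_factor {p : ℕ} (hp : p.Prime) (h3 : p ≠ 3) (F : ℕ → ℂ) (hF : F (p ^ 2) = F p ^ 2) :
    ∏ a ∈ (pdiv (p : O)).filter Prime, (1 - F (nm a)) =
      (1 - F p) * (1 - (if p % 3 = 1 then 1 else -1) * F p) := by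
  have hp0 : (p : O) ≠ 0 := Nat.cast_ne_zero.2 hp.ne_zero
  split_ifs with h1
  · obtain ⟨a, ha, hna⟩ := split hp h1
    have hpa : Prime a := prime_of_nm (hna ▸ hp)
    have hna' : nm (star a) = p := by rw [nm_star, hna]
    have hpa' : Prime (star a) := prime_of_nm (hna' ▸ hp)
    have ha' : Prim (star a) := by
      rw [b1_prim_iff] at ha ⊢
      simp only [QuadraticAlgebra.re_star, QuadraticAlgebra.im_star]
      omega
    have hmul : a * star a = (p : O) := by rw [mul_star_self, hna]
    have hne : a ≠ star a := by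
      intro h
      have h4 : a.im = 0 := by
        have := congrArg QuadraticAlgebra.im h
        simp only [QuadraticAlgebra.im_star] at this
        omega
      have h5 := nm_int a
      rw [hna, h4] at h5
      have h6 : p = a.re.natAbs * a.re.natAbs := by
        zify
        rw [abs_mul_abs_self]
        linarith
      have h7 : a.re.natAbs ≠ 1 := by
        intro h7
        rw [h7] at h6
        exact hp.ne_one h6
      exact Nat.not_prime_mul h7 h7 (h6 ▸ hp)
    have hS : (pdiv (p : O)).filter Prime = {a, star a} := by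
      ext r
      rw [Finset.mem_filter, mem_pdiv hp0, Finset.mem_insert, Finset.mem_singleton]
      constructor
      · rintro ⟨⟨h4, h5⟩, h6⟩
        rw [← hmul] at h5
        rcases h6.dvd_or_dvd h5 with h7 | h7
        · exact Or.inl (h4.eq_of_associated ha (h6.associated_of_dvd hpa h7))
        · exact Or.inr (h4.eq_of_associated ha' (h6.associated_of_dvd hpa' h7))
      · rintro (rfl | rfl)
        · exact ⟨⟨ha, hmul ▸ dvd_mul_right _ _⟩, hpa⟩
        · exact ⟨⟨ha', hmul ▸ dvd_mul_left _ _⟩, hpa'⟩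
    rw [hS, Finset.prod_pair hne, hna, hna', one_mul]
  · have h2 : p % 3 = 2 := by
      have : ¬ 3 ∣ p := fun h => h3 ((Nat.prime_dvd_prime_iff_eq Nat.prime_three hp).1 h).symm
      omega
    have hpp := inert hp h2
    have hpr : Prim (-(p : O)) := by
      rw [b1_prim_iff]
      simp only [QuadraticAlgebra.re_neg, QuadraticAlgebra.im_neg, QuadraticAlgebra.re_natCast,
        QuadraticAlgebra.im_natCast]
      omega
    have hS : (pdiv (p : O)).filter Prime = {-(p : O)} := by
      ext r
      rw [Finset.mem_filter, mem_pdiv hp0, Finset.mem_singleton]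
      constructor
      · rintro ⟨⟨h4, h5⟩, h6⟩
        exact h4.eq_of_associated hpr (h6.associated_of_dvd hpp.neg (dvd_neg.2 h5))
      · rintro rfl
        exact ⟨⟨hpr, neg_dvd.2 dvd_rfl⟩, hpp.neg⟩
    rw [hS, Finset.prod_singleton, b1_nm_neg, nm_natCast, hF]
    ring

/-- the non-trivial character modulo `3` -/
def chi3 : DirichletCharacter ℂ 3 :=
  haveI : Fact (Nat.Prime 3) := ⟨Nat.prime_three⟩
  (quadraticChar (ZMod 3)).ringHomComp (Int.castRingHom ℂ)

theorem not_sq : ¬ IsSquare (2 : ZMod 3) := by decide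

theorem chi3_apply {p : ℕ} (h : ¬ 3 ∣ p) : chi3 p = if p % 3 = 1 then 1 else -1 := by
  have : Fact (Nat.Prime 3) := ⟨Nat.prime_three⟩
  split_ifs with h1
  · have : (p : ZMod 3) = 1 := by
      rw [← ZMod.natCast_mod, h1, Nat.cast_one]
    rw [this, map_one]
  · have h2 : (p : ZMod 3) = 2 := by
      rw [← ZMod.natCast_mod, show p % 3 = 2 by omega]
      rfl
    have h3 : quadraticChar (ZMod 3) 2 = -1 :=
      quadraticChar_neg_one_iff_not_isSquare.2 not_sq
    rw [h2]
    change ((quadraticChar (ZMod 3) 2 : ℤ) : ℂ) = -1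
    rw [h3]
    simp

variable {M : ℕ}

theorem hchar (χ : DirichletCharacter ℂ M) : IsHChar (M : O) (fun n => χ (nm n)) := by
  refine ⟨⟨by simp, fun a b => by simp [nm_mul], fun x t => ?_, fun n => ?_⟩, fun u hu => ?_⟩
  · congr 1
    rw [← Int.cast_natCast, ← Int.cast_natCast (R := ZMod M) (nm x), nm_int, nm_int]
    simp
  · rw [coprime_iff, ← ZMod.isUnit_iff_coprime]
    constructor
    · intro h hu
      exact (hu.map χ).ne_zero h
    · exact χ.map_nonunit
  · simp [isUnit_iff_nm.1 hu]

theorem sieve (h3 : 3 ∣ M) (χ : DirichletCharacter ℂ M) {s : ℂ} (hs : 1 < s.re) (S : Finset ℕ)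
    (hS : ∀ p ∈ S, p.Prime) :
    dser (prim (fun n => if ∀ p ∈ S, IsCoprime n (p : O) then χ (nm n) else 0)) s =
      dser (prim (fun n => χ (nm n))) s * ∏ p ∈ S, ((1 - χ p * (p : ℂ) ^ (-s)) *
        (1 - (χ * DirichletCharacter.changeLevel h3 chi3) p * (p : ℂ) ^ (-s))) := by
  induction S using Finset.induction_on with
  | empty => simp
  | insert p S hpS ih =>
    have hp := hS p (Finset.mem_insert_self _ _)
    have hS' : ∀ p ∈ S, p.Prime := fun r hr => hS r (Finset.mem_insert_of_mem hr)
    rw [Finset.prod_insert hpS, mul_comm (_ * _) (∏ p ∈ S, _), ← mul_assoc, ← ih hS']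
    by_cases hpM : p ∣ M
    · have h0 : χ p = 0 := χ.map_nonunit (by
        rw [ZMod.isUnit_iff_coprime]
        exact fun h => (Nat.Prime.coprime_iff_not_dvd hp).1 h hpM)
      rw [MulChar.mul_apply, h0]
      simp only [zero_mul, sub_zero, mul_one]
      congr 2
      funext n
      by_cases hn : IsCoprime n (M : O)
      · have : IsCoprime n (p : O) := hn.of_isCoprime_of_dvd_right (Nat.cast_dvd_cast hpM)
        simp [this]
      · have : χ (nm n) = 0 := ((hchar χ).1.zero_iff n).2 hn
        simp [this]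
    · have hp0 : (p : O) ≠ 0 := Nat.cast_ne_zero.2 hp.ne_zero
      have hp3 : p ≠ 3 := fun h => hpM (h ▸ h3)
      have h1 := LM.remove_set
        (ψ := fun n => if ∀ p ∈ S, IsCoprime n (p : O) then χ (nm n) else 0) (fun a b => ?_)
        (fun n => ?_) hs ((pdiv (p : O)).filter Prime) (fun r hr => ?_)
      · have h2 := local_factor hp hp3 (fun k => χ k * (k : ℂ) ^ (-s)) (by
          simp only [Nat.cast_pow, map_pow]
          rw [mul_pow, pow_two (p : ℂ), Complex.natCast_mul_natCast_cpow, pow_two ((p : ℂ) ^ _)])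
        have h4 : DirichletCharacter.changeLevel h3 chi3 p = if p % 3 = 1 then 1 else -1 := by
          rw [← chi3_apply (fun h => hp3 ((Nat.prime_dvd_prime_iff_eq Nat.prime_three hp).1 h).symm)]
          have := DirichletCharacter.changeLevel_eq_cast_of_dvd' chi3 h3 (a := p)
            (Nat.isCoprime_iff_coprime.2 ((Nat.Prime.coprime_iff_not_dvd hp).2 hpM))
          simpa using this
        rw [MulChar.mul_apply, h4, mul_comm (χ p) (ite _ _ _), mul_assoc (ite _ _ _), ← h2]
        refine Eq.trans ?_ (h1.trans ?_)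
        · congr 1
          funext n
          unfold prim
          by_cases hn : Prim n
          · simp only [hn, if_true, ← LM.coprime_iff hn hp0, Finset.forall_mem_insert]
            by_cases h5 : IsCoprime n (p : O) <;> simp [h5]
          · simp only [hn, if_false]
        · congr 1
          refine Finset.prod_congr rfl fun r hr => ?_
          rw [Finset.mem_filter, mem_pdiv hp0] at hr
          rw [if_pos]
          · rfl
          · intro q hq
            refine IsCoprime.of_isCoprime_of_dvd_left ?_ hr.1.2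
            have h6 : Nat.Coprime p q := (Nat.coprime_primes hp (hS' q hq)).2
              (fun h => hpS (h ▸ hq))
            simpa using (Nat.isCoprime_iff_coprime.2 h6).map (Int.castRingHom O)
      · by_cases h5 : ∀ p ∈ S, IsCoprime a (p : O)
        · by_cases h6 : ∀ p ∈ S, IsCoprime b (p : O)
          · rw [if_pos h5, if_pos h6, if_pos fun p hp => (h5 p hp).mul_left (h6 p hp), nm_mul,
              Nat.cast_mul, map_mul]
          · rw [if_neg h6, mul_zero, if_neg fun h => h6 fun p hp => (h p hp).of_mul_left_right]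
        · rw [if_neg h5, zero_mul, if_neg fun h => h5 fun p hp => (h p hp).of_mul_left_left]
      · split_ifs
        · exact χ.norm_le_one _
        · simp
      · rw [Finset.mem_filter, mem_pdiv hp0] at hr
        exact ⟨hr.2, hr.1.1⟩

theorem sieve_lim (χ : DirichletCharacter ℂ M) {s : ℂ} (hs : 1 < s.re) :
    Tendsto (fun k : ℕ => dser (prim (fun n => if ∀ p ∈ k.primesBelow, IsCoprime n (p : O)
      then χ (nm n) else 0)) s) atTop (𝓝 1) := by
  simp only [LM.dser_prim]
  have h := tendsto_tsum_of_dominated_convergence (𝓕 := atTop)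
    (f := fun (k : ℕ) (n : O) => if Prim n then (if ∀ p ∈ k.primesBelow, IsCoprime n (p : O)
      then χ (nm n) else 0) * (N n : ℂ) ^ (-s) else 0)
    (g := fun n : O => if n = 1 then 1 else 0) (summable_N_rpow hs) (fun n => ?_)
    (Eventually.of_forall fun k n => ?_)
  · rwa [tsum_ite_eq] at h
  · by_cases hn : Prim n
    · by_cases h1 : n = 1
      · subst h1
        simp [Prim.one, isCoprime_one_left]
      · have h2 : nm n ≠ 1 := fun h => h1 (hn.eq_one_of_isUnit (isUnit_iff_nm.2 h))
        obtain ⟨p, hp, hpn⟩ := Nat.exists_prime_and_dvd h2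
        refine tendsto_const_nhds.congr' ?_
        filter_upwards [eventually_gt_atTop p] with k hk
        have h3 : ¬ ∀ p ∈ k.primesBelow, IsCoprime n (p : O) := by
          intro h
          have h4 := (coprime_iff n p).1 (h p (Nat.mem_primesBelow.2 ⟨hk, hp⟩))
          exact (Nat.Prime.coprime_iff_not_dvd hp).1 h4.symm hpn
        simp only [h1, hn, h3, if_true, if_false, zero_mul]
    · have h1 : n ≠ 1 := fun h => hn (h ▸ Prim.one)
      simp [hn, h1]
  · split_ifs with hn h1
    · exact LM.norm_term_le (f := fun n => χ (nm n)) (fun n => χ.norm_le_one _) s hn.ne_zero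
    · simpa using Real.rpow_nonneg (N_nonneg n) _
    · simpa using Real.rpow_nonneg (N_nonneg n) _

theorem factor_ne (χ : DirichletCharacter ℂ M) {s : ℂ} (hs : 1 < s.re) {p : ℕ} (hp : p.Prime) :
    1 - χ p * (p : ℂ) ^ (-s) ≠ 0 := by
  intro h
  have h1 := congrArg norm (sub_eq_zero.1 h)
  rw [norm_one, norm_mul, Complex.norm_natCast_cpow_of_pos hp.pos] at h1
  have h2 : (p : ℝ) ^ (-s).re < 1 :=
    Real.rpow_lt_one_of_one_lt_of_neg (by exact_mod_cast hp.one_lt) (by simp; linarith)
  have h3 := χ.norm_le_one p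
  have h4 : 0 ≤ (p : ℝ) ^ (-s).re := by positivity
  nlinarith

theorem dser_eq [NeZero M] (h3 : 3 ∣ M) (χ : DirichletCharacter ℂ M) {s : ℂ} (hs : 1 < s.re) :
    dser (prim (fun n => χ (nm n))) s =
      χ.LFunction s * (χ * DirichletCharacter.changeLevel h3 chi3).LFunction s := by
  rw [DirichletCharacter.LFunction_eq_LSeries _ hs, DirichletCharacter.LFunction_eq_LSeries _ hs]
  have h1 := (sieve_lim χ hs).mul ((χ.LSeries_eulerProduct hs).mul
    ((χ * DirichletCharacter.changeLevel h3 chi3).LSeries_eulerProduct hs))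
  rw [one_mul] at h1
  refine tendsto_nhds_unique (tendsto_const_nhds.congr fun k => ?_) h1
  rw [sieve h3 χ hs _ (fun p hp => (Nat.mem_primesBelow.1 hp).2), ← Finset.prod_mul_distrib,
    mul_assoc, ← Finset.prod_mul_distrib, Finset.prod_eq_one, mul_one]
  intro p hp
  have h2 := factor_ne χ hs (Nat.mem_primesBelow.1 hp).2
  have h4 := factor_ne (χ * DirichletCharacter.changeLevel h3 chi3) hs (Nat.mem_primesBelow.1 hp).2
  rw [mul_mul_mul_comm, mul_inv_cancel₀ h2, mul_inv_cancel₀ h4, mul_one]

end FD

theorem dirichlet_of_ZF (h : ZF (7 / 8)) {M : ℕ} [NeZero M] (χ : DirichletCharacter ℂ M) (s : ℂ)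
    (hχs : χ ≠ 1 ∨ s ≠ 1) (hs : 7 / 8 < s.re) : χ.LFunction s ≠ 0 := by
  by_cases h1 : 1 ≤ s.re
  · exact χ.LFunction_ne_zero_of_one_le_re hχs h1
  have hs1 : s ≠ 1 := by
    rintro rfl
    simp at h1
  intro h0
  have hM : 72 * M ≠ 0 := mul_ne_zero (by norm_num) (NeZero.ne M)
  have : NeZero (72 * M) := ⟨hM⟩
  have h3 : 3 ∣ 72 * M := Dvd.dvd.mul_right (by norm_num) M
  let Q : Lev := ⟨((72 * M : ℕ) : O), Nat.cast_ne_zero.2 hM, by push_cast; exact dvd_mul_right _ _⟩
  set χ' := DirichletCharacter.changeLevel (dvd_mul_left M 72) χ with hχ'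
  have hH : IsHChar Q.q (fun n => χ' (nm n)) := FD.hchar χ'
  refine h Q _ hH s hs (Or.inl hs1) ?_
  have hper := hH.per_prim Q
  have hpc : IsPreconnected ({1}ᶜ : Set ℂ) :=
    (isConnected_compl_singleton_of_one_lt_rank (Complex.rank_real_complex ▸ Nat.one_lt_ofNat)
      _).isPreconnected
  have hA : AnalyticOnNhd ℂ (Lf (prim fun n => χ' (nm n))) {1}ᶜ :=
    DifferentiableOn.analyticOnNhd
      (fun z hz => (Lf_differentiableAt Q.ne hper hz).differentiableWithinAt) isOpen_compl_singleton
  have hB : AnalyticOnNhd ℂ (fun z => χ'.LFunction z *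
      (χ' * DirichletCharacter.changeLevel h3 FD.chi3).LFunction z) {1}ᶜ :=
    DifferentiableOn.analyticOnNhd
      (fun z hz => ((DirichletCharacter.differentiableAt_LFunction _ _ (.inl hz)).mul
        (DirichletCharacter.differentiableAt_LFunction _ _ (.inl hz))).differentiableWithinAt)
      isOpen_compl_singleton
  have h2 : (2 : ℂ) ∈ ({1}ᶜ : Set ℂ) := by norm_num
  have h4 := hA.eqOn_of_preconnected_of_eventuallyEq hB hpc h2 (by
    have h5 : {s : ℂ | 1 < s.re} ∈ nhds (2 : ℂ) :=
      (isOpen_lt continuous_const Complex.continuous_re).mem_nhds (by simp)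
    filter_upwards [h5] with z hz
    rw [Lf_eq_dser Q.ne hper hz, FD.dser_eq h3 χ' hz]) hs1
  rw [h4]
  simp only
  rw [hχ', DirichletCharacter.LFunction_changeLevel _ _ hχs, h0, zero_mul, zero_mul]

end Crest.Agent.R17
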