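import Crest.Agent.R17.High2

/-!
# R17 / High3 : exceptional non-principal rows

Rows with `N d > e^{(1+ε)z}`: `far_rows`.  Otherwise `d = e a⁶` (`exc_iff`), `e ∣ q^∞`, `a ∈ 𝒫₀`,
`rc η e` and `rc one0 e` are in `hchars Q.q` (`rc_exc`), the latter non-principal (`prow_iff`,
`eq_one0_of_not_nonPrinc`).  Apply `hs_bound` with `d' = e` and
`V τ = C (1+|τ|)^B e^{(β - 1/2 + ε)(y0 + 1)} (z² e^{(β-1/2+2ε) yP})^J`: `globalM`; `|pb (rc one0 e) y τ| ≤
C(1+|τ|)^B min(e^{y/2}, e^{-y/2})` (`block_asymp` with `a = 1`, `norm_blk_le`); `globalP` with `Q' = Q`.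
`∑_{e,a} N a ≤ C ∑_e (e^{(1+ε)z}/N e)^{1/3}` (`card_ball_le`, `sum_smooth_le`).  Exponent:
`1/3 + (β - 1/2)(35/24) + Cε ≤ 33/32 + (5/4)(β - 7/8) - 1/20` on `[7/8,1]` with room `> 1/50`.
-/

set_option autoImplicit false

noncomputable section

open scoped Classical ComplexConjugate

namespace Crest.Agent.R17

/-- blocks of non-principal characters are bounded -/
theorem hi3_pb (Q : Lev) : ∃ (C : ℝ) (B : ℕ), 0 ≤ C ∧ ∀ ν ∈ hchars Q.q, NonPrinc Q.q ν →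
    ∀ y t : ℝ, ‖pb ν y t‖ ≤ C * (1 + |t|) ^ B := by
  obtain ⟨C1, B, h1⟩ := block_asymp Q
  obtain ⟨C2, h2⟩ := norm_blk_le
  refine ⟨|C1| + |C2|, B, by positivity, fun ν hν hn y t => ?_⟩
  have hB : 1 ≤ (1 + |t|) ^ B := one_le_pow₀ (by linarith [abs_nonneg t])
  have a1 := abs_nonneg C1
  have a2 := abs_nonneg C2
  rcases le_total 0 y with hy | hy
  · obtain ⟨M, -, hM, -, h⟩ := h1 ν hν 1 Prim.one
    have h3 := h y t
    simp only [hM hn, isCoprime_one_right, if_true, zero_mul, sub_zero,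
      b3_pdiv_of_isUnit isUnit_one, Finset.card_singleton, Nat.cast_one, mul_one] at h3
    have h4 : Real.exp (-y / 2) ≤ 1 := Real.exp_le_one_iff.2 (by linarith)
    calc ‖pb ν y t‖ ≤ C1 * (1 + |t|) ^ B * Real.exp (-y / 2) := h3
      _ ≤ |C1| * (1 + |t|) ^ B * 1 := by gcongr; exact le_abs_self C1
      _ ≤ _ := by nlinarith
  · have h3 := h2 (prim ν) (fun n => by
      unfold prim
      split_ifs
      · exact norm_hchar_le Q hν n
      · simp) y t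
    have h4 : Real.exp (y / 2) ≤ 1 := Real.exp_le_one_iff.2 (by linarith)
    calc ‖pb ν y t‖ ≤ C2 * Real.exp (y / 2) := h3
      _ ≤ |C2| * 1 := by gcongr; exact le_abs_self C2
      _ ≤ _ := by nlinarith

/-- counting the exceptional rows with the weight `N a` -/
theorem hi3_count (Q : Lev) : ∃ C : ℝ, 0 ≤ C ∧ ∀ (X : ℝ) (T : Finset O) (e a : O → O), 0 ≤ X →
    (∀ d ∈ T, (∃ j : ℕ, e d ∣ Q.q ^ j) ∧ a d ≠ 0 ∧ d = e d * a d ^ 6 ∧ N d ≤ X) →
    ∑ d ∈ T, N (a d) ≤ C * X ^ (1 / 3 : ℝ) := by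
  obtain ⟨C, hC⟩ := sum_smooth_le (σ := 1 / 3) (ε := 1) (by norm_num) one_pos
  refine ⟨18 * |C * N Q.q ^ (1 : ℝ)|, by positivity, fun X T e a hX hT => ?_⟩
  have h1 := hC Q.q Q.ne (T.image e) fun f hf => by
    obtain ⟨d, hd, rfl⟩ := Finset.mem_image.1 hf
    exact (hT d hd).1
  have hX3 : 0 ≤ X ^ (1 / 3 : ℝ) := Real.rpow_nonneg hX _
  rw [← Finset.sum_fiberwise_of_maps_to (t := T.image e) fun d hd => Finset.mem_image_of_mem e hd]
  calc _ ≤ ∑ f ∈ T.image e, 18 * X ^ (1 / 3 : ℝ) * N f ^ (-(1 / 3 : ℝ)) := by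
        refine Finset.sum_le_sum fun f hf => ?_
        obtain ⟨d0, hd0, rfl⟩ := Finset.mem_image.1 hf
        obtain ⟨⟨j, hj⟩, -⟩ := hT d0 hd0
        have hf0 := N_pos (ne_zero_of_dvd_ne_zero (pow_ne_zero j Q.ne) hj)
        have hXf : 0 ≤ X / N (e d0) := by positivity
        have hY : 0 ≤ (X / N (e d0)) ^ (1 / 6 : ℝ) := Real.rpow_nonneg hXf _
        have hm : ∀ d ∈ T.filter (fun d => e d = e d0),
            a d ∈ ball ((X / N (e d0)) ^ (1 / 6 : ℝ)) := fun d hd => by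
          obtain ⟨hd1, hd2⟩ := Finset.mem_filter.1 hd
          obtain ⟨-, h2, h3, h4⟩ := hT d hd1
          refine mem_ball.2 ⟨h2, ?_⟩
          rw [one_div, Real.le_rpow_inv_iff_of_pos (N_nonneg _) hXf (by norm_num), le_div_iff₀ hf0,
            show (6 : ℝ) = ((6 : ℕ) : ℝ) by norm_num, Real.rpow_natCast, ← hd2, ← N_pow, ← N_mul,
            mul_comm, ← h3]
          exact h4
        have hc : ((T.filter fun d => e d = e d0).card : ℝ) ≤ 18 * (X / N (e d0)) ^ (1 / 6 : ℝ) := by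
          refine le_trans ?_ (card_ball_le hY)
          refine Nat.cast_le.2 (Finset.card_le_card_of_injOn a hm fun d hd d' hd' h => ?_)
          obtain ⟨hd1, hd2⟩ := Finset.mem_filter.1 (Finset.mem_coe.1 hd)
          obtain ⟨hd3, hd4⟩ := Finset.mem_filter.1 (Finset.mem_coe.1 hd')
          rw [(hT d hd1).2.2.1, (hT d' hd3).2.2.1, hd2, hd4, h]
        refine (Finset.sum_le_card_nsmul _ _ _ fun d hd => (mem_ball.1 (hm d hd)).2).trans ?_
        rw [nsmul_eq_mul]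
        refine (mul_le_mul_of_nonneg_right hc hY).trans_eq ?_
        rw [mul_assoc, mul_assoc, ← Real.rpow_add' hXf (by norm_num), Real.rpow_neg hf0.le,
          ← div_eq_mul_inv, ← Real.div_rpow hX hf0.le]
        norm_num
    _ ≤ 18 * X ^ (1 / 3 : ℝ) * |C * N Q.q ^ (1 : ℝ)| := by
        rw [← Finset.mul_sum]
        exact mul_le_mul_of_nonneg_left (h1.trans (le_abs_self _)) (by positivity)
    _ = _ := by ring

set_option maxHeartbeats 800000 in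
/-- one exceptional non-principal row -/
theorem hi3_row {β : ℝ} (hβ : 7 / 8 ≤ β) (hβ1 : β ≤ 1) (hZ : ZF β) (Q : Lev) {J : ℕ} (hJ : 1 ≤ J)
    {ε ρ : ℝ} (hε : 0 < ε) (hε1 : ε ≤ 1) (hρ : 0 < ρ) (hρ1 : ρ ≤ 5 / (48 * J)) :
    ∃ C z0 : ℝ, 0 ≤ C ∧ ∀ η ∈ hchars Q.q, ∀ z : ℝ, z0 ≤ z → ∀ (e a : O) (j : ℕ), e ∣ Q.q ^ j →
      P0 Q a → ¬ PRow Q (e * a ^ 6) → N (e * a ^ 6) ≤ Real.exp (2 * z) →
      ‖Row Q η J ρ z (e * a ^ 6)‖ ≤ C * Real.exp ((35 / 24 * (β - 1 / 2) + 13 * ε) * z) * N a := by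
  obtain ⟨C1, z1, h1⟩ := hs_bound Q hJ hε hε1 hρ hρ1
  obtain ⟨C2, B2, h2⟩ := globalM (by linarith) hβ1 hZ Q hε
  obtain ⟨C3, B3, hC3, h3⟩ := hi3_pb Q
  obtain ⟨C4, Z4, B4, h4⟩ := globalP 1 hε hρ
  obtain ⟨I, hI⟩ : ∃ I : ℝ, I = ∫ τ : ℝ, Gm ε τ * (1 + |τ|) ^ (B2 + B3 + B4 * J) := ⟨_, rfl⟩
  have hI0 : 0 ≤ I := hI ▸ MeasureTheory.integral_nonneg fun τ => mul_nonneg (norm_nonneg _) (by positivity)
  obtain ⟨C5, hC5⟩ : ∃ C5 : ℝ, C5 = |C2| * Real.exp 1 * C3 * (1 + |C4|) ^ J *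
    ((2 * J).factorial / ε ^ (2 * J)) := ⟨_, rfl⟩
  have hC50 : 0 ≤ C5 := by rw [hC5]; positivity
  refine ⟨|C1| * (C5 * I + 1), max (max z1 1) (max Z4 (N Q.q)), by positivity,
    fun η hη z hz e a j he ha hP hN => ?_⟩
  obtain ⟨⟨hz1, hz2⟩, hz3, hz4⟩ : (z1 ≤ z ∧ 1 ≤ z) ∧ Z4 ≤ z ∧ N Q.q ≤ z := by
    simpa only [max_le_iff] using hz
  have hez : z ≤ Real.exp z := by linarith [Real.add_one_le_exp z]
  have he0 : e ≠ 0 := ne_zero_of_dvd_ne_zero (pow_ne_zero j Q.ne) he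
  have hm : ∀ ν ∈ hchars Q.q, rc ν e ∈ hchars Q.q := fun ν hν => by
    obtain ⟨ν', h, h', -⟩ := rc_exc Q hν he ha
    rwa [show rc ν e = ν' from funext fun n => (h' n).symm]
  have hm0 := hm _ (one0_mem Q)
  have hnp : NonPrinc Q.q (rc (one0 Q) e) := by
    by_contra hn
    refine hP ((prow_iff Q he ha).2 fun n hn' => ?_)
    have := congrFun (eq_one0_of_not_nonPrinc Q hm0 hn) n
    simpa only [rc, one0, if_pos hn'.2, one_mul] using this
  have hJ0 : (0 : ℝ) < J := by exact_mod_cast hJ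
  have hJ1 : (1 : ℝ) ≤ J := by exact_mod_cast hJ
  have hyP : yP J z * J = 5 / 24 * z := by unfold yP; field_simp
  have hyP0 : 0 ≤ yP J z := by unfold yP; positivity
  obtain ⟨W, hW⟩ : ∃ W : ℝ, W = Real.exp ((35 / 24 * (β - 1 / 2) + 3 * ε) * z) := ⟨_, rfl⟩
  have hW1 : 1 ≤ W := hW ▸ Real.one_le_exp (by positivity [show 0 ≤ β - 1 / 2 by linarith])
  have key := h1 η hη z hz1 e a he0 ha (fun p hp hq h6 =>
    hq (hp.dvd_of_dvd_pow (((dvd_pow_self p (by norm_num)).trans h6).trans he))) hN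
    (fun τ => C5 * W * (1 + |τ|) ^ (B2 + B3 + B4 * J)) (by fun_prop) fun τ _ g1 g2 _ hg2 i _ _ => by
      have hτ : 1 ≤ 1 + |τ| := by linarith [abs_nonneg τ]
      have k1 : g2 ^ ε * ‖pb (mm (rc η e)) (y0 z - Real.log g2 + ε / 2) (-τ)‖ ≤
          |C2| * (1 + |τ|) ^ B2 * (Real.exp 1 * Real.exp ((β - 1 / 2 + ε) * (5 / 4 * z))) := by
        have k2 := h2 _ (hm η hη) (y0 z - Real.log g2 + ε / 2) (-τ)
        rw [abs_neg] at k2
        have k3 := Real.log_nonneg hg2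
        calc _ ≤ g2 ^ ε * (|C2| * (1 + |τ|) ^ B2 *
              Real.exp ((β - 1 / 2 + ε) * (y0 z - Real.log g2 + ε / 2))) := by
              gcongr
              exact k2.trans (by gcongr; exact le_abs_self C2)
          _ = |C2| * (1 + |τ|) ^ B2 * (Real.exp (Real.log g2 * ε) *
              Real.exp ((β - 1 / 2 + ε) * (y0 z - Real.log g2 + ε / 2))) := by
              rw [Real.rpow_def_of_pos (by linarith)]
              ring
          _ ≤ _ := by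
              refine mul_le_mul_of_nonneg_left ?_ (by positivity)
              rw [← Real.exp_add, ← Real.exp_add, Real.exp_le_exp, y0]
              nlinarith [mul_nonneg k3 (show 0 ≤ β - 1 / 2 by linarith)]
      have k2 := h3 _ hm0 hnp (y1 z - Real.log g1 + ε / 2) τ
      have k3 := h4 β (by linarith) hβ1 hZ (Real.exp z) (hz3.trans hez) Q Q _ dvd_rfl
        ((mem_hchars Q.ne).1 hm0) hnp (by rw [Real.rpow_one]; exact hz4.trans hez) (yP J z) ε τ hyP0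
        (by rw [Real.log_exp]; nlinarith) (by rw [abs_of_pos hε]; linarith)
      rw [Real.log_exp] at k3
      have k4 : 1 ≤ z ^ 2 * (1 + |τ|) ^ B4 * Real.exp ((β - 1 / 2 + ε + ε) * yP J z) :=
        one_le_mul_of_one_le_of_one_le (one_le_mul_of_one_le_of_one_le (one_le_pow₀ hz2)
          (one_le_pow₀ hτ)) (Real.one_le_exp (mul_nonneg (by linarith) hyP0))
      have k5 : 1 + ‖Pb Q (rc (one0 Q) e) (yP J z) (ρ * z) ε τ‖ ≤ (1 + |C4|) *
          (z ^ 2 * (1 + |τ|) ^ B4 * Real.exp ((β - 1 / 2 + ε + ε) * yP J z)) := by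
        have := mul_le_mul_of_nonneg_right (le_abs_self C4) (zero_le_one.trans k4)
        linarith
      have k6 : (1 + ‖Pb Q (rc (one0 Q) e) (yP J z) (ρ * z) ε τ‖) ^ (J - i) ≤ (1 + |C4|) ^ J *
          (z ^ (2 * J) * (1 + |τ|) ^ (B4 * J) * Real.exp ((β - 1 / 2 + ε + ε) * (5 / 24 * z))) := by
        refine (pow_le_pow_right₀ (by linarith [norm_nonneg (Pb Q (rc (one0 Q) e) (yP J z) (ρ * z) ε τ)])
          (Nat.sub_le J i)).trans ((pow_le_pow_left₀ (by positivity) k5 J).trans_eq ?_)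
        rw [mul_pow, mul_pow, mul_pow, ← pow_mul, ← pow_mul, ← Real.exp_nat_mul, ← hyP]
        congr 3
        ring
      have k7 : z ^ (2 * J) ≤ (2 * J).factorial / ε ^ (2 * J) * Real.exp (ε * z) := by
        have := Real.pow_div_factorial_le_exp (ε * z) (by positivity) (2 * J)
        rw [div_le_iff₀ (by positivity), mul_pow] at this
        rw [div_mul_eq_mul_div, le_div_iff₀ (by positivity)]
        linarith
      have k8 : Real.exp ((β - 1 / 2 + ε) * (5 / 4 * z)) * Real.exp (ε * z) *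
          Real.exp ((β - 1 / 2 + ε + ε) * (5 / 24 * z)) ≤ W := by
        rw [hW, ← Real.exp_add, ← Real.exp_add, Real.exp_le_exp]
        nlinarith [mul_nonneg hε.le (zero_le_one.trans hz2)]
      calc _ ≤ |C2| * (1 + |τ|) ^ B2 * (Real.exp 1 * Real.exp ((β - 1 / 2 + ε) * (5 / 4 * z))) *
            (C3 * (1 + |τ|) ^ B3) * ((1 + |C4|) ^ J *
              ((2 * J).factorial / ε ^ (2 * J) * Real.exp (ε * z) * (1 + |τ|) ^ (B4 * J) *
                Real.exp ((β - 1 / 2 + ε + ε) * (5 / 24 * z)))) := by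
            refine mul_le_mul (mul_le_mul k1 k2 (norm_nonneg _) (by positivity)) (k6.trans ?_)
              (by positivity) (by positivity)
            gcongr
        _ = C5 * (Real.exp ((β - 1 / 2 + ε) * (5 / 4 * z)) * Real.exp (ε * z) *
            Real.exp ((β - 1 / 2 + ε + ε) * (5 / 24 * z))) * (1 + |τ|) ^ (B2 + B3 + B4 * J) := by
            rw [hC5]
            ring
        _ ≤ _ := by gcongr
  have hint := integrable_Gm hε (B2 + B3 + B4 * J)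
  have k1 : ∫ τ in Set.Icc (-z ^ 2) (z ^ 2), Gm ε τ * (C5 * W * (1 + |τ|) ^ (B2 + B3 + B4 * J)) ≤
      C5 * W * I := by
    simp only [mul_left_comm (Gm ε _) (C5 * W)]
    rw [MeasureTheory.integral_const_mul, hI]
    exact mul_le_mul_of_nonneg_left (MeasureTheory.setIntegral_le_integral hint
      (Filter.Eventually.of_forall fun τ => mul_nonneg (norm_nonneg _) (by positivity)))
      (by positivity)
  have k2 : 0 ≤ ∫ τ in Set.Icc (-z ^ 2) (z ^ 2),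
      Gm ε τ * (C5 * W * (1 + |τ|) ^ (B2 + B3 + B4 * J)) :=
    MeasureTheory.integral_nonneg fun τ => mul_nonneg (norm_nonneg _) (by positivity)
  have ha1 := one_le_N ha.1.ne_zero
  have k3 : Real.exp (-10 * z) ≤ Real.exp (10 * ε * z) * W * N a :=
    (Real.exp_le_one_iff.2 (by linarith)).trans (one_le_mul_of_one_le_of_one_le
      (one_le_mul_of_one_le_of_one_le (Real.one_le_exp (by positivity)) hW1) ha1)
  have k4 : Real.exp ((35 / 24 * (β - 1 / 2) + 13 * ε) * z) = Real.exp (10 * ε * z) * W := by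
    rw [hW, ← Real.exp_add]
    congr 1
    ring
  calc _ ≤ |C1| * Real.exp (10 * ε * z) * N a * (C5 * W * I) +
        |C1| * (Real.exp (10 * ε * z) * W * N a) := by
        refine key.trans (add_le_add ?_ ?_)
        · exact mul_le_mul (by gcongr; exact le_abs_self C1) k1 k2 (by positivity)
        · exact mul_le_mul (le_abs_self C1) k3 (Real.exp_pos _).le (abs_nonneg _)
    _ = _ := by rw [k4]; ring

theorem exc_rows {β : ℝ} (hβ : 7 / 8 ≤ β) (hβ1 : β ≤ 1) (hZ : ZF β) (Q : Lev) {J : ℕ} (hJ : 1 ≤ J)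
    {ρ : ℝ} (hρ : 0 < ρ) (hρ1 : ρ ≤ 5 / (48 * J)) :
    ∃ C z0 : ℝ, ∀ η ∈ hchars Q.q, ∀ z : ℝ, z0 ≤ z →
    ∑' d : O, (if d ≠ 0 ∧ Exc Q d ∧ ¬ PRow Q d then ‖Row Q η J ρ z d‖ else 0) ≤
      C * Real.exp ((33 / 32 + 5 / 4 * (β - 7 / 8) - 1 / 20) * z) := by
  obtain ⟨C1, z1, hC1, h1⟩ := hi3_row hβ hβ1 hZ Q hJ (ε := 1 / 200) (by norm_num) (by norm_num) hρ hρ1
  obtain ⟨C2, z2, h2⟩ := far_rows Q hJ (ε := 1 / 200) (by norm_num) hρ hρ1
  obtain ⟨C3, hC3, h3⟩ := hi3_count Q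
  refine ⟨|C2| + C1 * C3, max (max z1 z2) 0, fun η hη z hz => ?_⟩
  obtain ⟨⟨hz1, hz2⟩, hz0⟩ : (z1 ≤ z ∧ z2 ≤ z) ∧ 0 ≤ z := by simpa only [max_le_iff] using hz
  have hE : 1 ≤ Real.exp ((33 / 32 + 5 / 4 * (β - 7 / 8) - 1 / 20) * z) :=
    Real.one_le_exp (mul_nonneg (by linarith) hz0)
  refine Real.tsum_le_of_sum_le (fun d => by split_ifs <;> simp) fun s => ?_
  have hsum : Summable fun d : O =>
      if Real.exp ((1 + 1 / 200) * z) < N d then ‖Row Q η J ρ z d‖ else 0 :=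
    Summable.of_nonneg_of_le (fun d => by split_ifs <;> simp) (fun d => by split_ifs <;> simp)
      (psi_eq Q hη J ρ z).1
  have hch : ∀ d : O, ∃ e a : O, d ≠ 0 ∧ Exc Q d →
      ∃ j : ℕ, e ∣ Q.q ^ j ∧ P0 Q a ∧ d = e * a ^ 6 := fun d => by
    by_cases h : d ≠ 0 ∧ Exc Q d
    · obtain ⟨e, a, j, h'⟩ := (exc_iff Q h.1).1 h.2
      exact ⟨e, a, fun _ => ⟨j, h'⟩⟩
    · exact ⟨0, 0, fun h' => absurd h' h⟩
  choose e a hea using hch
  set T := s.filter fun d => (d ≠ 0 ∧ Exc Q d ∧ ¬ PRow Q d) ∧ N d ≤ Real.exp ((1 + 1 / 200) * z)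
    with hT
  have k1 : ∑ d ∈ s, (if d ≠ 0 ∧ Exc Q d ∧ ¬ PRow Q d then ‖Row Q η J ρ z d‖ else 0) ≤
      ∑ d ∈ s, (if Real.exp ((1 + 1 / 200) * z) < N d then ‖Row Q η J ρ z d‖ else 0) +
        ∑ d ∈ T, ‖Row Q η J ρ z d‖ := by
    rw [hT, Finset.sum_filter, ← Finset.sum_add_distrib]
    refine Finset.sum_le_sum fun d _ => ?_
    by_cases a1 : d ≠ 0 ∧ Exc Q d ∧ ¬ PRow Q d
    · rcases lt_or_ge (Real.exp ((1 + 1 / 200) * z)) (N d) with a2 | a2
      · rw [if_pos a1, if_pos a2, if_neg fun h => h.2.not_gt a2, add_zero]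
      · rw [if_pos a1, if_neg a2.not_gt, if_pos ⟨a1, a2⟩, zero_add]
    · rw [if_neg a1]
      split_ifs <;> positivity
  have k2 := (hsum.sum_le_tsum s fun d _ => by split_ifs <;> simp).trans (h2 η hη z hz2)
  have k3 := h3 (Real.exp ((1 + 1 / 200) * z)) T e a (Real.exp_pos _).le fun d hd => by
    obtain ⟨-, a1, a2⟩ := Finset.mem_filter.1 hd
    obtain ⟨j, b1, b2, b3⟩ := hea d ⟨a1.1, a1.2.1⟩
    exact ⟨⟨j, b1⟩, b2.1.ne_zero, b3, a2⟩
  have k4 : ∑ d ∈ T, ‖Row Q η J ρ z d‖ ≤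
      C1 * Real.exp ((35 / 24 * (β - 1 / 2) + 13 * (1 / 200)) * z) * ∑ d ∈ T, N (a d) := by
    rw [Finset.mul_sum]
    refine Finset.sum_le_sum fun d hd => ?_
    obtain ⟨-, a1, a2⟩ := Finset.mem_filter.1 hd
    obtain ⟨j, b1, b2, b3⟩ := hea d ⟨a1.1, a1.2.1⟩
    have := h1 η hη z hz1 (e d) (a d) j b1 b2 (b3 ▸ a1.2.2)
      (b3 ▸ a2.trans (Real.exp_le_exp.2 (by linarith)))
    rwa [← b3] at this
  have k5 : Real.exp ((35 / 24 * (β - 1 / 2) + 13 * (1 / 200)) * z) *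
      Real.exp ((1 + 1 / 200) * z) ^ (1 / 3 : ℝ) ≤
      Real.exp ((33 / 32 + 5 / 4 * (β - 7 / 8) - 1 / 20) * z) := by
    rw [← Real.exp_mul, ← Real.exp_add, Real.exp_le_exp]
    nlinarith [mul_nonneg (sub_nonneg.2 hβ1) hz0]
  have k6 := mul_le_mul_of_nonneg_left k5 (mul_nonneg hC1 hC3)
  have k7 := mul_le_mul_of_nonneg_left k3 (show 0 ≤ C1 *
    Real.exp ((35 / 24 * (β - 1 / 2) + 13 * (1 / 200)) * z) by positivity)
  have k8 := (le_abs_self C2).trans (le_mul_of_one_le_right (abs_nonneg C2) hE)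
  linarith

end Crest.Agent.R17
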