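import Crest.Agent.R17.Prin_Defs

/-!
# R17 / Prin_EJ : lower bound for `EJ`
-/

set_option autoImplicit false

noncomputable section

open scoped Classical ComplexConjugate

namespace Crest.Agent.R17.Pr

/-- Let `c, y2` be as in `mertens_lower`, `R = |y2|`, `y = yP J z`, `z` so large that `R ≤ ρ z`, `R ≤ y` and
`J m ≤ c/2` for `m = 2 e^{-(y-R)/2}`.  `slot Q y R ⊆ slot Q y (ρ z)` (`ball_mono`,
`Finset.powersetCard_mono`); on it `x_p = w_p/N p ≤ log N p/N p ≤ 2 N(p)^{-1/2} ≤ m` and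
`w_p N(p)^{-1/3} = x_p N(p)^{2/3} ≥ x_p e^{(2/3)(y - R)}`.  `esymm_ge`: `J! e_J(x) ≥ (c/2)^J`;
`(2/3) J y = 5z/36` (`h1_JyP`). -/
theorem EJ_lower (Q : Lev) {J : ℕ} (hJ : 1 ≤ J) {ρ : ℝ} (hρ : 0 < ρ) : ∃ c z0 : ℝ, 0 < c ∧
    ∀ z : ℝ, z0 ≤ z → c * Real.exp (5 / 36 * z) ≤ EJ Q J ρ z := by
  obtain ⟨c, hc, y2, hM⟩ := mertens_lower Q
  obtain ⟨R, hR⟩ : ∃ R, R = |y2| := ⟨_, rfl⟩
  have hR0 : 0 ≤ R := hR ▸ abs_nonneg _
  have hR2 : y2 ≤ R := hR ▸ le_abs_self _
  have hJ0 : (0 : ℝ) < J := by exact_mod_cast hJ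
  have ha : (0 : ℝ) < 5 / (24 * J) := by positivity
  refine ⟨(c / 2) ^ J / J.factorial * Real.exp (-(2 / 3 * J * R)),
    R / ρ + (R + 4 * J / c) / (5 / (24 * J)), by positivity, fun z hz => ?_⟩
  have e1 : 0 ≤ R / ρ := by positivity
  have e2 : 0 ≤ (R + 4 * J / c) / (5 / (24 * J)) := by positivity
  have e3 : 0 < 4 * J / c := by positivity
  have hz1 : R ≤ ρ * z := by
    have : R / ρ ≤ z := by linarith
    rwa [div_le_iff₀ hρ, mul_comm] at this
  have hz2 : R + 4 * J / c ≤ yP J z := by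
    have : (R + 4 * J / c) / (5 / (24 * J)) ≤ z := by linarith
    rwa [div_le_iff₀ ha, mul_comm z] at this
  have hJy := h1_JyP hJ z
  obtain ⟨y, hy⟩ : ∃ y, y = yP J z := ⟨_, rfl⟩
  rw [EJ]
  rw [← hy] at hz2 hJy ⊢
  have hN : ∀ {R' : ℝ} {p : O}, p ∈ slot Q y R' → 0 < N p := fun hp =>
    (Real.exp_pos _).trans_le (loc_mem_slot.1 hp).2.2.2.1
  have hw : ∀ {R' : ℝ} {p : O}, p ∈ slot Q y R' → 0 ≤ wP y p := fun hp =>
    H2.wP_nonneg y (loc_mem_slot.1 hp).1.ne_zero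
  have hsub : slot Q y R ⊆ slot Q y (ρ * z) := fun p hp => by
    obtain ⟨a1, a2, a3, a4, a5⟩ := loc_mem_slot.1 hp
    exact loc_mem_slot.2 ⟨a1, a2, a3, (Real.exp_le_exp.2 (by linarith)).trans a4,
      a5.trans (Real.exp_le_exp.2 (by linarith))⟩
  have hL : ∀ p ∈ slot Q y R, y - R ≤ Real.log (N p) := fun p hp =>
    (Real.le_log_iff_exp_le (hN hp)).2 (loc_mem_slot.1 hp).2.2.2.1
  have hx : ∀ p ∈ slot Q y R, 0 ≤ wP y p / N p ∧ wP y p / N p ≤ c / (2 * J) := fun p hp => by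
    refine ⟨div_nonneg (hw hp) (hN hp).le, ?_⟩
    have l1 := hL p hp
    have l2 : 4 * J / c ≤ Real.log (N p) := by linarith
    have l3 : 0 < Real.log (N p) := e3.trans_le l2
    have l4 : wP y p ≤ Real.log (N p) := mul_le_of_le_one_right l3.le (gw_le_one _)
    have l5 := Real.pow_div_factorial_le_exp _ l3.le 2
    rw [Real.exp_log (hN hp)] at l5
    norm_num at l5
    rw [div_le_iff₀ hc] at l2
    rw [div_le_div_iff₀ (hN hp) (by positivity)]
    nlinarith [mul_le_mul_of_nonneg_left l5 hc.le, mul_le_mul_of_nonneg_left l2 l3.le,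
      mul_le_mul_of_nonneg_right l4 hJ0.le]
  have hS := hM y R (by linarith) hR2
  have hm : J * (c / (2 * J)) = c / 2 := by field_simp
  have hE := esymm_ge J _ _ (c / (2 * J)) (by positivity) hx (by rw [hm]; linarith)
  have hE' : (c / 2) ^ J / J.factorial ≤
      ∑ I ∈ (slot Q y R).powersetCard J, ∏ p ∈ I, wP y p / N p := by
    rw [div_le_iff₀' (by positivity)]
    refine le_trans (pow_le_pow_left₀ (by positivity) ?_ J) hE
    rw [hm]
    linarith
  calc _ = (c / 2) ^ J / J.factorial * Real.exp (2 / 3 * (y - R)) ^ J := by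
        rw [mul_assoc, ← Real.exp_add, ← Real.exp_nat_mul]
        congr 2
        linarith
    _ ≤ (∑ I ∈ (slot Q y R).powersetCard J, ∏ p ∈ I, wP y p / N p) *
        Real.exp (2 / 3 * (y - R)) ^ J := by gcongr
    _ ≤ ∑ I ∈ (slot Q y R).powersetCard J, ∏ p ∈ I, wP y p * N p ^ (-(1 / 3 : ℝ)) := by
        rw [Finset.sum_mul]
        refine Finset.sum_le_sum fun I hI => ?_
        obtain ⟨hI1, hI2⟩ := Finset.mem_powersetCard.1 hI
        rw [← hI2, ← Finset.prod_const, ← Finset.prod_mul_distrib]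
        refine Finset.prod_le_prod (fun p hp => mul_nonneg (hx p (hI1 hp)).1 (Real.exp_pos _).le)
          fun p hp => ?_
        have hp' := hI1 hp
        rw [div_mul_eq_mul_div, mul_div_assoc]
        refine mul_le_mul_of_nonneg_left ?_ (hw hp')
        rw [Real.rpow_def_of_pos (hN hp'), div_le_iff₀ (hN hp')]
        nth_rewrite 2 [← Real.exp_log (hN hp')]
        rw [← Real.exp_add]
        exact Real.exp_le_exp.2 (by linarith [hL p hp'])
    _ ≤ _ := by
        refine Finset.sum_le_sum_of_subset_of_nonneg (Finset.powersetCard_mono hsub) fun I hI _ => ?_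
        exact Finset.prod_nonneg fun p hp => mul_nonneg (hw ((Finset.mem_powersetCard.1 hI).1 hp))
          (Real.rpow_nonneg (N_nonneg _) _)

end Crest.Agent.R17.Pr
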