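import Crest.Agent.R17.Prin_Defs

/-!
# R17 / Prin_Rows : parametrisation of the principal rows
-/

set_option autoImplicit false

noncomputable section

open scoped Classical ComplexConjugate

namespace Crest.Agent.R17.Pr

variable {Q : Lev}

theorem Ex_one (Q : Lev) : Ex Q 1 :=
  ⟨⟨0, by simp⟩, fun _ hn => (H2.chi_isChar hn).one⟩

/-- `sum_smooth_le` (with `H = Q.q`, `ε = 1`), `summable_of_sum_le` -/
theorem summable_Ex (Q : Lev) {σ : ℝ} (hσ : 0 < σ) :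
    Summable fun e : O => if Ex Q e then N e ^ (-σ) else 0 := by
  obtain ⟨C, hC⟩ := sum_smooth_le hσ one_pos
  refine summable_of_sum_le (c := C * N Q.q ^ (1 : ℝ)) (fun e => ?_) fun S => ?_
  · dsimp only
    split_ifs
    exacts [Real.rpow_nonneg (N_nonneg _) _, le_rfl]
  · rw [← Finset.sum_filter]
    exact hC Q.q Q.ne _ fun f hf => (Finset.mem_filter.1 hf).2.1

theorem rows_inj {e a e' a' : O} (he : Ex Q e) (ha : P0 Q a) (he' : Ex Q e') (ha' : P0 Q a')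
    (h : e * a ^ 6 = e' * a' ^ 6) : e = e' ∧ a = a' := by
  obtain ⟨i, hi⟩ := he.1
  obtain ⟨j, hj⟩ := he'.1
  obtain ⟨h1, h2⟩ := split_unique Q.ne hi hj (ha.1.pow 6) (ha'.1.pow 6) ha.2.pow_left ha'.2.pow_left h
  refine ⟨h1, ha.1.eq_of_associated ha'.1 (associated_of_dvd_dvd ?_ ?_)⟩
  · exact (IsIntegrallyClosed.pow_dvd_pow_iff (by norm_num : 6 ≠ 0)).1 h2.dvd
  · exact (IsIntegrallyClosed.pow_dvd_pow_iff (by norm_num : 6 ≠ 0)).1 h2.symm.dvd

/-- `(e, a) ↦ e a⁶` is injective on `{Ex Q e ∧ P0 Q a}` (`split_unique`, then `a⁶ = a'⁶` gives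
`a ∣ a'`, `a' ∣ a` by `IsIntegrallyClosed.pow_dvd_pow_iff`, `Prim.eq_of_associated`) with image
`{PRow Q d}` (`PRow.exc`, `exc_iff`, `prow_iff`).  Use an injective map from the subtype
(`Function.Injective.hasSum_iff`, `hasSum_subtype_iff_indicator`) and `HasSum.prod_fiberwise`. -/
theorem hasSum_prow (Q : Lev) {R : O → ℂ} (hR : Summable fun d => ‖R d‖) :
    HasSum (fun e => if Ex Q e then ∑' a : O, (if P0 Q a then R (e * a ^ 6) else 0) else 0)
      (∑' d, if PRow Q d then R d else 0) := by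
  set s : Set (O × O) := {x | Ex Q x.1 ∧ P0 Q x.2} with hs
  set φ : s → O := fun x => x.1.1 * x.1.2 ^ 6 with hφ
  have hinj : Function.Injective φ := fun x y h => by
    obtain ⟨h1, h2⟩ := rows_inj x.2.1 x.2.2 y.2.1 y.2.2 h
    exact Subtype.ext (Prod.ext h1 h2)
  have hf : Summable fun d => if PRow Q d then R d else 0 :=
    .of_norm_bounded hR fun d => by
      split_ifs
      exacts [le_rfl, by simp]
  have h0 : ∀ d ∉ Set.range φ, (if PRow Q d then R d else 0) = 0 := fun d hd => by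
    refine if_neg fun h => hd ?_
    obtain ⟨e, a, j, he, ha, rfl⟩ := (exc_iff Q h.1).1 h.exc
    exact ⟨⟨(e, a), ⟨⟨j, he⟩, (prow_iff Q he ha).1 h⟩, ha⟩, rfl⟩
  have h1 := (hinj.hasSum_iff h0).2 hf.hasSum
  have h2 : (fun d => if PRow Q d then R d else 0) ∘ φ =
      (fun x : O × O => R (x.1 * x.2 ^ 6)) ∘ ((↑) : s → O × O) := by
    funext x
    obtain ⟨j, hj⟩ := x.2.1.1
    exact if_pos ((prow_iff Q hj x.2.2).2 x.2.1.2)
  rw [h2, hasSum_subtype_iff_indicator] at h1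
  refine h1.prod_fiberwise fun e => ?_
  have h3 := (h1.summable.prod_factor e).hasSum
  by_cases he : Ex Q e
  · rw [if_pos he]
    have h4 : ∑' a : O, (if P0 Q a then R (e * a ^ 6) else 0) =
        ∑' a : O, s.indicator (fun x : O × O => R (x.1 * x.2 ^ 6)) (e, a) := by
      refine tsum_congr fun a => ?_
      by_cases ha : P0 Q a
      · rw [if_pos ha, Set.indicator_of_mem (show (e, a) ∈ s from ⟨he, ha⟩)]
      · rw [if_neg ha, Set.indicator_of_notMem (fun h : (e, a) ∈ s => ha h.2)]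
    rw [h4]
    exact h3
  · rw [if_neg he]
    have : (fun a => s.indicator (fun x : O × O => R (x.1 * x.2 ^ 6)) (e, a)) = fun _ => 0 :=
      funext fun a => Set.indicator_of_notMem (fun h : (e, a) ∈ s => he h.1) _
    rw [this]
    exact hasSum_zero

/-- the summand of `Row`: `cc (e a⁶) = cc (a⁶)` (`mul_comm`, `cc_hom`, `he.2`; `e` is coprime to
elements of `𝒫₀`), `∏ (-w_p) = μ(∏ I) ∏ w_p` (`mu_prod_primes`, `Finset.prod_neg`), `N_mul`, `N_pow`,
`Real.sqrt_eq_rpow`. -/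
theorem h1T_eq (η : O → ℂ) (J : ℕ) (z : ℝ) {e : O} (he : Ex Q e) {I : Finset O} (hI : PS Q I)
    {v : T3} (hv : P3 Q v) : h1T Q η J z (e * v.1 ^ 6) v.2.1 I v.2.2 =
      (((∏ p ∈ I, wP (yP J z) p) * N (∏ p ∈ I, p) ^ (-(1 / 2) : ℝ) : ℝ) : ℂ) *
        (Fv ![v.1, v.2.1, v.2.2, ∏ p ∈ I, p] *
          Wt η (y1 z) (y0 z) (KK z * N e / N (∏ p ∈ I, p)) v) := by
  obtain ⟨a, l, n⟩ := v
  obtain ⟨ha, hl, hn⟩ := hv
  dsimp only at ha hl hn ⊢
  have hL := hI.prod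
  obtain ⟨j, hj⟩ := he.1
  have hm := hn.mul hL
  have e1 : cc (e * a ^ 6) l (n * ∏ p ∈ I, p) = cc (a ^ 6) l (n * ∏ p ∈ I, p) := by
    have hc : IsCoprime e (l * (n * ∏ p ∈ I, p)) :=
      ((hl.mul hm).2.pow_right.of_isCoprime_of_dvd_right hj).symm
    rw [mul_comm e, cc_hom _ hl hm hc, he.2 _ hl, he.2 _ hm, map_one, one_mul, one_mul]
  have e2 : ∏ p ∈ I, (-(wP (yP J z) p : ℂ)) =
      mu (∏ p ∈ I, p) * ((∏ p ∈ I, wP (yP J z) p : ℝ) : ℂ) := by
    rw [mu_prod_primes fun p hp => ⟨(hI p hp).1, (hI p hp).2.1⟩, Finset.prod_neg]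
    push_cast
    rfl
  have e3 : KK z * N (e * a ^ 6) / (N l * N (n * ∏ p ∈ I, p)) =
      KK z * N e / N (∏ p ∈ I, p) * N a ^ 6 / (N l * N n) := by
    rw [N_mul, N_mul, N_pow]
    ring
  have e4 : (Real.sqrt (N l * N (n * ∏ p ∈ I, p)))⁻¹ =
      N (∏ p ∈ I, p) ^ (-(1 / 2) : ℝ) * (N l * N n) ^ (-(1 / 2) : ℝ) := by
    have h1 := N_nonneg l
    have h2 := N_nonneg n
    have h3 := N_nonneg (∏ p ∈ I, p)
    rw [Real.sqrt_eq_rpow, ← Real.rpow_neg (mul_nonneg h1 (N_nonneg _)),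
      ← Real.mul_rpow h3 (mul_nonneg h1 h2), N_mul]
    congr 1
    ring
  have e5 : Fv ![a, l, n, ∏ p ∈ I, p] = mu (∏ p ∈ I, p) * cc (a ^ 6) l (n * ∏ p ∈ I, p) := rfl
  rw [h1T, if_pos ⟨hl, hn⟩, e1, e2, e3, e5, Wt, div_eq_mul_inv, ← Complex.ofReal_inv, e4]
  push_cast
  ring

/-- `h1_Row_eq`; `h1_fub` with `F a l I n = if P0 Q a then h1T … (e a⁶) l I n else 0` and
`u a = (K N e)⁻¹ N(a)^{-6}` (`h1T_le` with `j = 1`, `h1u_eq`); the same bound gives summability on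
`O × O × O`, so `∑' p, ∑' a` is a sum over `T3` (`Summable.tsum_comm`, `Summable.tsum_prod`);
`h1T_eq`, `tsum_mul_left`, `H2.mem_slot`. -/
theorem Uv_eq {η : O → ℂ} (hη : η ∈ hchars Q.q) (J : ℕ) (ρ z : ℝ) {e : O} (he : Ex Q e) :
    Uv Q η J ρ z e = ∑ I ∈ (slot Q (yP J z) (ρ * z)).powersetCard J,
      (((∏ p ∈ I, wP (yP J z) p) * N (∏ p ∈ I, p) ^ (-(1 / 2) : ℝ) : ℝ) : ℂ) *
        Vv Q η (y1 z) (y0 z) (KK z * N e / N (∏ p ∈ I, p)) (∏ p ∈ I, p) := by
  have hK := h1_KK_pos z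
  have he0 := he.ne_zero
  have hNe := N_pos he0
  set S := (slot Q (yP J z) (ρ * z)).powersetCard J with hS
  set F : O → O → Finset O → O → ℂ := fun a l I n =>
    if P0 Q a then h1T Q η J z (e * a ^ 6) l I n else 0 with hF
  set u : O → ℝ := fun a => (KK z * N e)⁻¹ * N a ^ (-(6 : ℝ)) with hu
  have hus : Summable u := (summable_N_rpow (σ := 6) (by norm_num)).mul_left _
  have hu0 : ∀ a, 0 ≤ u a := fun a =>
    mul_nonneg (by positivity) (Real.rpow_nonneg (N_nonneg _) _)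
  have hb : ∀ a l I n, I ∈ S → ‖F a l I n‖ ≤ u a * (∏ p ∈ I, wP (yP J z) p * N p ^ (1 + 1)) *
      ((h1c (1 + 1) (y1 z) * N l ^ (-(2 : ℝ))) * (h1c (1 + 1) (y0 z) * N n ^ (-(2 : ℝ)))) := by
    intro a l I n hI
    by_cases ha : P0 Q a
    · have h := h1T_le hη 1 (e * a ^ 6) l I n hI
      have e1 : h1u 1 (KK z) (e * a ^ 6) = u a := by
        rw [h1u, if_neg (mul_ne_zero he0 (pow_ne_zero _ ha.1.ne_zero)), N_mul, N_pow, hu]
        dsimp only
        rw [Real.rpow_neg (N_nonneg _), show (6 : ℝ) = ((6 : ℕ) : ℝ) by norm_num, Real.rpow_natCast,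
          Nat.factorial_one, Nat.cast_one, one_mul, pow_one, ← mul_assoc, mul_inv]
      rw [e1] at h
      simpa only [hF, if_pos ha] using h
    · simp only [hF, if_neg ha, norm_zero]
      exact mul_nonneg (mul_nonneg (hu0 a) (Finset.prod_nonneg fun p _ =>
        mul_nonneg (h1_wP_nonneg _ _) (pow_nonneg (N_nonneg _) _)))
        (mul_nonneg (h1a_nonneg _ _ _) (h1a_nonneg _ _ _))
  have e1 : Uv Q η J ρ z e = ∑' a, ∑' l, ∑ I ∈ S, ∑' n, F a l I n := by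
    refine tsum_congr fun a => ?_
    by_cases ha : P0 Q a
    · simp only [hF, if_pos ha, h1_Row_eq, hS]
    · simp [hF, if_neg ha]
  rw [e1, h1_fub S F _ hus (h1a_summable _ _) (h1a_summable _ _) hu0 (h1a_nonneg _ _)
    (h1a_nonneg _ _) hb]
  refine Finset.sum_congr rfl fun I hI => ?_
  have hPS : PS Q I := fun p hp =>
    have h := H2.mem_slot ((Finset.mem_powersetCard.1 hI).1 hp)
    ⟨h.1, h.2.1⟩
  have hab := (h1a_summable (1 + 1) (y1 z)).mul_of_nonneg (h1a_summable (1 + 1) (y0 z))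
    (h1a_nonneg _ _) (h1a_nonneg _ _)
  have huab := hus.mul_of_nonneg hab hu0 fun p => mul_nonneg (h1a_nonneg _ _ _) (h1a_nonneg _ _ _)
  have hs : Summable fun v : T3 => F v.1 v.2.1 I v.2.2 :=
    .of_norm_bounded (huab.mul_left (∏ p ∈ I, wP (yP J z) p * N p ^ (1 + 1))) fun v =>
      (hb v.1 v.2.1 I v.2.2 hI).trans (le_of_eq (by ring))
  have e2 : ∑' p : O × O, ∑' a, F a p.1 I p.2 = ∑' v : T3, F v.1 v.2.1 I v.2.2 := by
    rw [hs.tsum_prod]
    exact Summable.tsum_comm (f := fun a (p : O × O) => F a p.1 I p.2) hs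
  rw [e2, Vv, ← tsum_mul_left]
  refine tsum_congr fun v => ?_
  by_cases hv : P3 Q v
  · simp only [hF, if_pos hv.1, if_pos hv]
    exact h1T_eq η J z he hPS hv
  · rw [if_neg hv, mul_zero]
    by_cases ha : P0 Q v.1
    · simp only [hF, if_pos ha]
      exact if_neg fun h => hv ⟨ha, h⟩
    · simp only [hF, if_neg ha]

end Crest.Agent.R17.Pr
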