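import Crest.Agent.R17.Prin_V
import Crest.Agent.R17.Prin_Rows

/-!
# R17 / Prin_U : the sum over the marks
-/

set_option autoImplicit false

noncomputable section

open scoped Classical ComplexConjugate

namespace Crest.Agent.R17.Pr

/-- `log x ≤ 300 x^{1/300}` (`Real.log_le_rpow_div`), `tsum_gw_rpow (-148/300)`, `Summable.sum_le_tsum` -/
theorem sum_slot_le : ∃ C : ℝ, 0 ≤ C ∧ ∀ (Q : Lev) (y R : ℝ),
    ∑ p ∈ slot Q y R, wP y p * N p ^ (-(149 / 300) : ℝ) ≤ C * Real.exp (152 / 300 * y) := by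
  obtain ⟨C, hC⟩ := tsum_gw_rpow (-(148 / 300))
  refine ⟨300 * max C 0, by positivity, fun Q y R => ?_⟩
  have h0 : ∀ n : O, 0 ≤ if n = 0 then 0 else N n ^ (-(148 / 300) : ℝ) * gw (Real.log (N n) - y) := fun n => by
    split_ifs
    exacts [le_rfl, mul_nonneg (Real.rpow_nonneg (N_nonneg _) _) (gw_pos _).le]
  calc _ ≤ ∑ p ∈ slot Q y R,
        300 * (if p = 0 then 0 else N p ^ (-(148 / 300) : ℝ) * gw (Real.log (N p) - y)) := by
        refine Finset.sum_le_sum fun p hp => ?_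
        have hp0 := (H2.mem_slot hp).1.ne_zero
        have h1 := Real.log_le_rpow_div (N_nonneg p) (show (0 : ℝ) < 1 / 300 by norm_num)
        rw [if_neg hp0, wP, show (-(148 / 300) : ℝ) = 1 / 300 + -(149 / 300) by norm_num,
          Real.rpow_add (N_pos hp0)]
        have := mul_le_mul_of_nonneg_right h1
          (mul_nonneg (gw_pos (Real.log (N p) - y)).le (Real.rpow_nonneg (N_nonneg p) (-(149 / 300))))
        linarith
    _ ≤ 300 * (C * Real.exp ((-(148 / 300) + 1) * y)) := by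
        rw [← Finset.mul_sum]
        exact mul_le_mul_of_nonneg_left (((summable_gw_rpow _ y).sum_le_tsum _ fun n _ => h0 n).trans (hC y))
          (by norm_num)
    _ ≤ _ := by
        rw [mul_assoc, show (-(148 / 300) + 1 : ℝ) = 152 / 300 by norm_num]
        gcongr
        exact le_max_left _ _

theorem pu_prod {I : Finset O} (h0 : ∀ p ∈ I, p ≠ 0) (w : O → ℝ) {a n : ℝ} (hn : 0 < n) (s t : ℝ)
    (h : t = -(1 / 2) + s) : (∏ p ∈ I, w p) * N (∏ p ∈ I, p) ^ (-(1 / 2) : ℝ) *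
      (Real.exp a * n / N (∏ p ∈ I, p)) ^ (-s) = n ^ (-s) * Real.exp (-s * a) * ∏ p ∈ I, w p * N p ^ t := by
  have h1 := N_pos (Finset.prod_ne_zero_iff.2 h0)
  rw [Finset.prod_mul_distrib, Real.finsetProd_rpow _ _ fun p _ => N_nonneg p, ← N_prod,
    Real.div_rpow (by positivity) h1.le, Real.mul_rpow (by positivity) hn.le, ← Real.exp_mul, h,
    Real.rpow_add h1, Real.rpow_neg h1.le s, mul_comm a, div_inv_eq_mul]
  ring

/-- `Uv_eq`, and `Vv_est` for each `I` with `X = K N(e)/N(i)`, `L = exp (yP J z - ρ z)` (definition of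
`slot`), `I.card = J`.  `X^{-x} = K^{-x} N(e)^{-x} N(i)^x`, `N(i)^x = ∏ N(p)^x` (`N_prod`,
`Real.finset_prod_rpow`), so `∑_I w_I N(i)^{-1/2+1/6} = EJ` and
`∑_I w_I N(i)^{-1/2+1/300} ≤ (C e^{(152/300) yP})^J` (`esymm_le`, `sum_slot_le`, `h1_JyP`).
Exponents: `K^{-1/6} e^{2y₁/3} = e^{31z/144}`; `K^{-1/6} e^{y₁/2} = e^{31z/144 - 7z/72}`, `7/72 ≥ 1/(20J)`;
`L^{-1/2} ≤ e^{-5z/(96J)} ≤ e^{-z/(20J)}`;
`-(25/24)/300 + (151/300)(11/6) + (152/300)(5/24) ≤ 33/32 - 1/200`; `N(e)^{-1/6} ≤ N(e)^{-1/300}`. -/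
theorem Uv_est {Q : Lev} (hQ : Good Q) : ∃ c : ℝ, 0 < c ∧ ∀ β : ℝ, 7 / 8 ≤ β → β ≤ 1 → ZF β →
    ∀ J : ℕ, 1 ≤ J → ∀ ρ ε : ℝ, ρ ≤ 5 / (48 * J) → 0 < ε → ∃ C : ℝ, ∀ η ∈ hchars Q.q,
    ∀ z : ℝ, 0 ≤ z → ∀ e : O, Ex Q e →
      ‖Uv Q η J ρ z e - ((c * N e ^ (-(1 / 6) : ℝ) * Real.exp (31 / 144 * z) * EJ Q J ρ z : ℝ) : ℂ) *
          Sig (bb Q) η (y0 z)‖ ≤ N e ^ (-(1 / 300) : ℝ) * (C * Real.exp ((33 / 32 - 1 / 200) * z) +
        C * EJ Q J ρ z * Real.exp (31 / 144 * z + (β - 1 / 3 + ε) * y0 z - z / (20 * J))) := by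
  obtain ⟨c, hc, H⟩ := Vv_est hQ
  refine ⟨c, hc, fun β h1 h2 h3 J hJ ρ ε hρ hε => ?_⟩
  obtain ⟨C, hC, H⟩ := H β ε h1 h2 h3 hε
  obtain ⟨C', hC', HS⟩ := sum_slot_le
  refine ⟨C * 33 ^ J * (2 + C' ^ J), fun η hη z hz e he => ?_⟩
  have hJ' : (1 : ℝ) ≤ J := by exact_mod_cast hJ
  have he1 := one_le_N he.ne_zero
  have hw : ∀ (t : ℝ), ∀ p ∈ slot Q (yP J z) (ρ * z), 0 ≤ wP (yP J z) p * N p ^ t := fun t p hp =>
    mul_nonneg (H2.wP_nonneg _ (H2.mem_slot hp).1.ne_zero) (Real.rpow_nonneg (N_nonneg _) _)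
  obtain ⟨E, hE⟩ : ∃ E, E = Real.exp (31 / 144 * z + (β - 1 / 3 + ε) * y0 z - z / (20 * J)) := ⟨_, rfl⟩
  have hE0 : 0 < E := hE ▸ Real.exp_pos _
  have hz1 : z / (20 * J) ≤ z / 20 := by gcongr; linarith
  have hz2 : z / (20 * J) ≤ (yP J z - ρ * z) / 2 := by
    have h4 : yP J z = 2 * (5 / (48 * J) * z) := by rw [yP]; field_simp; ring
    have h5 : z / (20 * J) = 12 / 25 * (5 / (48 * J) * z) := by field_simp; ring
    have h6 := mul_le_mul_of_nonneg_right hρ hz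
    have h7 : 0 ≤ 5 / (48 * (J : ℝ)) * z := by positivity
    linarith
  have hE1 : Real.exp (-(1 / 6) * (25 / 24 * z)) * (Real.exp ((β - 1 / 3 + ε) * y0 z) * (Real.exp (y1 z / 2) +
      Real.exp (2 / 3 * y1 z) * Real.exp (yP J z - ρ * z) ^ (-(1 / 2) : ℝ))) ≤ 2 * E := by
    rw [← Real.exp_mul, mul_add, mul_add, two_mul, hE]
    simp only [← Real.exp_add, y1]
    gcongr <;> linarith
  rw [← hE, Uv_eq hη J ρ z he, EJ, Finset.mul_sum, Complex.ofReal_sum, Finset.sum_mul, ← Finset.sum_sub_distrib]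
  calc _ ≤ ∑ I ∈ (slot Q (yP J z) (ρ * z)).powersetCard J, N e ^ (-(1 / 300) : ℝ) * (C * 33 ^ J) *
        (2 * E * ∏ p ∈ I, wP (yP J z) p * N p ^ (-(1 / 3 : ℝ)) +
          Real.exp (6619 / 7200 * z) * ∏ p ∈ I, wP (yP J z) p * N p ^ (-(149 / 300) : ℝ)) := by
        refine norm_sum_le_of_le _ fun I hI => ?_
        obtain ⟨hI, hc⟩ := Finset.mem_powersetCard.1 hI
        have h0 : ∀ p ∈ I, p ≠ 0 := fun p hp => (H2.mem_slot (hI hp)).1.ne_zero
        have hN := N_pos (Finset.prod_ne_zero_iff.2 h0)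
        have k := H η hη (y1 z) (y0 z) (KK z * N e / N (∏ p ∈ I, p)) _ (by unfold KK; positivity)
          (Real.exp_pos (yP J z - ρ * z)) I (fun p hp => ⟨(H2.mem_slot (hI hp)).1, (H2.mem_slot (hI hp)).2.1⟩)
          fun p hp => (Finset.mem_filter.1 (hI hp)).2.2.2.2
        have k1 := pu_prod h0 (wP (yP J z)) (a := 25 / 24 * z) (by linarith : 0 < N e) (1 / 6) (-(1 / 3))
          (by norm_num)
        have k2 := pu_prod h0 (wP (yP J z)) (a := 25 / 24 * z) (by linarith : 0 < N e) (1 / 300) (-(149 / 300))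
          (by norm_num)
        have a0 := Finset.prod_nonneg fun p hp => hw (-(1 / 3)) p (hI hp)
        have b0 := Finset.prod_nonneg fun p hp => hw (-(149 / 300)) p (hI hp)
        have w0 : 0 ≤ (∏ p ∈ I, wP (yP J z) p) * N (∏ p ∈ I, p) ^ (-(1 / 2) : ℝ) :=
          mul_nonneg (Finset.prod_nonneg fun p hp => H2.wP_nonneg _ (h0 p hp)) (by positivity)
        rw [hc, KK] at k
        rw [KK]
        generalize (∏ p ∈ I, wP (yP J z) p) * N (∏ p ∈ I, p) ^ (-(1 / 2) : ℝ) = w at *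
        generalize ∏ p ∈ I, wP (yP J z) p * N p ^ (-(1 / 3 : ℝ)) = a at *
        generalize ∏ p ∈ I, wP (yP J z) p * N p ^ (-(149 / 300 : ℝ)) = b at *
        generalize Real.exp (25 / 24 * z) * N e / N (∏ p ∈ I, p) = X at *
        have e1 : c * N e ^ (-(1 / 6) : ℝ) * Real.exp (31 / 144 * z) * a =
            w * (c * X ^ (-(1 / 6) : ℝ) * Real.exp (2 / 3 * y1 z)) := by
          rw [show 31 / 144 * z = -(1 / 6) * (25 / 24 * z) + 2 / 3 * y1 z by rw [y1]; ring, Real.exp_add]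
          linear_combination (-c * Real.exp (2 / 3 * y1 z)) * k1
        have e2 : Real.exp (6619 / 7200 * z) =
            Real.exp (-(1 / 300) * (25 / 24 * z)) * Real.exp (151 / 300 * (y1 z + y0 z)) := by
          rw [← Real.exp_add, y1, y0]; congr 1; ring
        have e3 : N e ^ (-(1 / 6) : ℝ) ≤ N e ^ (-(1 / 300) : ℝ) :=
          Real.rpow_le_rpow_of_exponent_le he1 (by norm_num)
        rw [e1, Complex.ofReal_mul w, mul_assoc (w : ℂ), ← mul_sub, norm_mul, Complex.norm_real,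
          Real.norm_of_nonneg w0, e2]
        refine (mul_le_mul_of_nonneg_left k w0).trans ?_
        have e4 := mul_le_mul_of_nonneg_left (mul_le_mul e3 hE1 (by positivity) (by positivity))
          (by positivity : 0 ≤ C * 33 ^ J * a)
        generalize Real.exp (y1 z / 2) +
          Real.exp (2 / 3 * y1 z) * Real.exp (yP J z - ρ * z) ^ (-(1 / 2) : ℝ) = F at *
        linear_combination e4 + C * 33 ^ J * Real.exp ((β - 1 / 3 + ε) * y0 z) * F * k1 +
          C * 33 ^ J * Real.exp (151 / 300 * (y1 z + y0 z)) * k2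
    _ ≤ _ := by
        rw [← Finset.mul_sum, Finset.sum_add_distrib, ← Finset.mul_sum, ← Finset.mul_sum, mul_assoc]
        have a0 : 0 ≤ ∑ I ∈ (slot Q (yP J z) (ρ * z)).powersetCard J,
            ∏ p ∈ I, wP (yP J z) p * N p ^ (-(1 / 3 : ℝ)) := Finset.sum_nonneg fun I hI =>
          Finset.prod_nonneg fun p hp => hw _ p ((Finset.mem_powersetCard.1 hI).1 hp)
        have b1 := (esymm_le J _ _ (hw (-(149 / 300)))).trans
          (pow_le_pow_left₀ (Finset.sum_nonneg (hw _)) (HS Q (yP J z) (ρ * z)) J)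
        rw [mul_pow, ← Real.exp_nat_mul, mul_left_comm (J : ℝ), h1_JyP hJ] at b1
        have b2 : Real.exp (6619 / 7200 * z) * Real.exp (152 / 300 * (5 / 24 * z)) ≤
            Real.exp ((33 / 32 - 1 / 200) * z) := by
          rw [← Real.exp_add]; gcongr; linarith
        have b3 := mul_le_mul_of_nonneg_left b1 (Real.exp_pos (6619 / 7200 * z)).le
        have b4 := mul_le_mul_of_nonneg_left b2 (pow_nonneg hC' J)
        have b5 := mul_nonneg (mul_nonneg (pow_nonneg hC' J) a0) hE0.le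
        have b6 := Real.exp_pos ((33 / 32 - 1 / 200) * z)
        refine mul_le_mul_of_nonneg_left ?_ (by positivity)
        rw [mul_assoc (C * 33 ^ J), mul_assoc (C * 33 ^ J), mul_assoc (C * 33 ^ J), ← mul_add]
        refine mul_le_mul_of_nonneg_left ?_ (by positivity)
        linarith

end Crest.Agent.R17.Pr
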