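import Crest.Agent.R17.Prin_Euler
import Crest.Agent.R17.Prin_U
import Crest.Agent.R17.Prin_EJ

/-!
# R17 / Prin : the principal rows produce the signal

See `Prin_Defs` for the structure of the proof.  `κ0 = c ∑_{Ex e} N(e)^{-1/6}`.
-/

set_option autoImplicit false

noncomputable section

open scoped Classical ComplexConjugate

namespace Crest.Agent.R17

theorem prin : ∃ P : ℝ, ∀ Q : Lev, BigLev Q P → ∃ (b : O → ℂ) (κ0 : ℝ), 0 < κ0 ∧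
    Summable (fun h : O => if Prim h then
      ‖b h - if h = 1 then 1 else 0‖ * N h ^ (-(4 / 5 : ℝ)) else 0) ∧
    ∑' h : O, (if Prim h then ‖b h - if h = 1 then 1 else 0‖ * N h ^ (-(4 / 5 : ℝ)) else 0)
      ≤ 1 / 2 ∧
    ∀ β : ℝ, 7 / 8 ≤ β → β ≤ 1 → ZF β → ∀ J : ℕ, 1 ≤ J → ∀ ρ ε : ℝ, 0 < ρ → ρ ≤ 5 / (48 * J) →
      0 < ε → ∃ C z0 : ℝ, ∀ η ∈ hchars Q.q, ∀ z : ℝ, z0 ≤ z →
      ‖(∑' d : O, if PRow Q d then Row Q η J ρ z d else 0) -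
          ((κ0 * Real.exp (31 / 144 * z) * EJ Q J ρ z : ℝ) : ℂ) * Sig b η (y0 z)‖ ≤
        C * Real.exp ((33 / 32 - 1 / 200) * z) +
        C * EJ Q J ρ z * Real.exp (31 / 144 * z + (β - 1 / 3 + ε) * y0 z - z / (20 * J)) := by
  obtain ⟨P, hP⟩ := Pr.exists_good
  refine ⟨P, fun Q hQ => ?_⟩
  have hG := hP Q hQ
  obtain ⟨c, hc, hU⟩ := Pr.Uv_est hG
  have s1 := Pr.summable_Ex Q (σ := 1 / 6) (by norm_num)
  have s2 := Pr.summable_Ex Q (σ := 1 / 300) (by norm_num)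
  refine ⟨Pr.bb Q, c * ∑' e : O, if Pr.Ex Q e then N e ^ (-(1 / 6) : ℝ) else 0,
    mul_pos hc (s1.tsum_pos (fun e => ?_) 1 (by simp [Pr.Ex_one])), (Pr.bb_l1 hG).1,
    (Pr.bb_l1 hG).2, fun β h1 h2 hZ J hJ ρ ε _ hρ hε => ?_⟩
  · split_ifs
    exacts [Real.rpow_nonneg (N_nonneg _) _, le_rfl]
  obtain ⟨C, hC⟩ := hU β h1 h2 hZ J hJ ρ ε hρ hε
  refine ⟨(∑' e : O, if Pr.Ex Q e then N e ^ (-(1 / 300) : ℝ) else 0) * C, 0, fun η hη z hz => ?_⟩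
  have k1 := Pr.hasSum_prow Q (psi_eq Q hη J ρ z).1
  have k2 := (Complex.hasSum_ofReal.2 ((s1.hasSum.mul_left c).mul_right
    (Real.exp (31 / 144 * z) * EJ Q J ρ z))).mul_right (Sig (Pr.bb Q) η (y0 z))
  have k3 := s2.hasSum.mul_right (C * Real.exp ((33 / 32 - 1 / 200) * z) +
    C * EJ Q J ρ z * Real.exp (31 / 144 * z + (β - 1 / 3 + ε) * y0 z - z / (20 * J)))
  rw [← mul_assoc] at k2
  refine ((k1.sub k2).norm_le_of_bounded k3 fun e => ?_).trans_eq (by ring)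
  split_ifs with he
  · rw [← mul_assoc]
    exact hC η hη z hz e he
  · simp

theorem EJ_lower (Q : Lev) {J : ℕ} (hJ : 1 ≤ J) {ρ : ℝ} (hρ : 0 < ρ) : ∃ c z0 : ℝ, 0 < c ∧
    ∀ z : ℝ, z0 ≤ z → c * Real.exp (5 / 36 * z) ≤ EJ Q J ρ z := Pr.EJ_lower Q hJ hρ

end Crest.Agent.R17
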