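import Mathlib

/-!
# R17 / Num : the numerical optimisation behind `RowSum`

Notation: `κ = 2β-1`, `δ = 2σ'-1`.  Put
`Gt = 5δ/6 + (5/36 - 2/171) δp - 1/24 + 1/5000 - (κ - 3/4)/4` (note `Gt ≤ δ`, `Gt ≤ 0.857`).
**Choice of `t`**: `t = θ t₁`, `t₁ = 3/2` if `3δ/2 - 5/12 ≥ Gt`, else `t₁ = 1 + (δ - Gt)/(5/6 - δ) ∈ [1,3/2]`;
so `δ t₁ - (5/6)(t₁ - 1) ≥ Gt`.
**Claim `G ≥ θ Gt - 10 e`** (checked numerically).  If `r ≥ θ` use the second hypothesis (linear in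
`r ∈ [θ, t+e]`, check both end points).  If `r ≤ θ` and `G < θ Gt - 10e`, the first and third
hypotheses give `r < θ max(r₁,r₂) - 2e`-ish and `m < θ max(m₁,m₂)`, where
`r₁ = (Gt - δp/2)/(δ - δp/2)`, `r₂ = (Gt - δp/6)/δ`, `m₁ = (Gt - δp/(1+5κ))/(2δ - 2δp/(1+5κ))`,
`m₂ = (Gt - δp/(4+16κ))/(2δ)`, contradicting `t - e ≤ r + m` by the four inequalities
`rᵢ + mⱼ ≤ t₁` (numerically the minimal margin is `0.001`, at `κ = 3/4`, `δ = δp ≈ 0.457`; clear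
denominators, use `1/(1+5κ) ≥ 4/19 - (κ-3/4)/4`, `1/(4+16κ) ≥ 1/16 - (κ-3/4)/16`, split the range of `δ`
and use `nlinarith`/`polyrith`-style certificates; write `δp = λ δ`-type substitutions if helpful; the
perturbation `δp ≤ δ + e` costs `O(e)`).
**Final inequality**: the left side is decreasing in `a'` and `b` (slopes `e - δ/2 + δp/(2(1+5κ)) < 0`,
`-δp/2 + δp/(2(1+5κ)) ≤ 0`), increasing in `α`; with `α = (1+e-θ)/6` it is increasing in `θ` because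
`Gt ≤ 0.857 < 8/9` (for `θ ≤ 0.95` simply drop `z3 ≥ 0`); at `θ = 1`,
`z3 ≥ 1/(6+30κ) - O(e) ≥ 2/57 - (κ-3/4)/25 - O(e)`.  The overall margin is `6·10⁻⁵ ≫ e`.
-/

set_option autoImplicit false

namespace Crest.Agent.R17

theorem num_comb {A B E θ a b D e r m : ℝ} (hA : 0 < A) (hB : 0 < B) (hE : 0 < E) (hA1 : A ≤ 1)
    (hθ : 0 ≤ θ) (he : 0 ≤ e) (h1 : A * r < θ * (A - a) - e) (h2 : B * m ≤ θ * (B / 2 - b))
    (h3 : θ * (E + D) - E * e ≤ E * (r + m))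
    (h4 : A * B * E / 2 ≤ D * (A * B) + a * (E * B) + b * (E * A)) : False := by
  have k1 := mul_lt_mul_of_pos_left h1 (mul_pos hE hB)
  have k2 := mul_le_mul_of_nonneg_left h2 (mul_pos hE hA).le
  have k3 := mul_le_mul_of_nonneg_left h3 (mul_pos hA hB).le
  have k4 := mul_le_mul_of_nonneg_left h4 hθ
  have k5 : 0 ≤ E * B * e * (1 - A) := mul_nonneg (mul_nonneg (mul_pos hE hB).le he) (by linarith)
  nlinarith

theorem num_keya {δ P D : ℝ} (hδ : 1 / 25 ≤ δ) (hδ1 : δ ≤ 7 / 10) (hP : 0 ≤ P) (hPδ : P ≤ δ)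
    (hD : D = δ / 6 - 29 / 228 * P + 1 / 24 - 1 / 5000) :
    (δ - P / 2) * (2 * δ - 8 / 19 * P) * (5 / 6 - δ) / 2 ≤ D * ((δ - P / 2) * (2 * δ - 8 / 19 * P)) +
      D * ((5 / 6 - δ) * (2 * δ - 8 / 19 * P)) + D * ((5 / 6 - δ) * (δ - P / 2)) := by
  subst hD
  obtain ⟨y, rfl⟩ : ∃ y, P = δ - y := ⟨δ - P, by ring⟩
  have hy : 0 ≤ y := by linarith
  have hy1 : y ≤ δ := by linarith
  have hδ0 : 0 ≤ δ := by linarith
  nlinarith [mul_nonneg hδ0 (sq_nonneg (δ - 4565 / 10000)), mul_nonneg hy (sq_nonneg (δ - 1/2)), mul_nonneg hy (mul_nonneg hy hy),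
    mul_nonneg hy (mul_nonneg hy (sub_nonneg.2 hy1)), mul_nonneg hy (mul_nonneg hδ0 (sub_nonneg.2 hδ1)), mul_nonneg hy (mul_nonneg hy (sub_nonneg.2 hδ1)), mul_nonneg hy (mul_nonneg (sub_nonneg.2 hy1) (sub_nonneg.2 hδ1)), mul_nonneg hy hy, mul_nonneg hy hδ0, mul_nonneg hy (sub_nonneg.2 hy1)]

theorem num_keyb {δ P D : ℝ} (hδ : 1 / 25 ≤ δ) (hδ1 : δ ≤ 7 / 10) (hP : 0 ≤ P) (hPδ : P ≤ δ)
    (hD : D = δ / 6 - 29 / 228 * P + 1 / 24 - 1 / 5000) :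
    (δ - P / 2) * (2 * δ) * (5 / 6 - δ) / 2 ≤ D * ((δ - P / 2) * (2 * δ)) +
      D * ((5 / 6 - δ) * (2 * δ)) + (D + P / 16) * ((5 / 6 - δ) * (δ - P / 2)) := by
  subst hD
  obtain ⟨y, rfl⟩ : ∃ y, P = δ - y := ⟨δ - P, by ring⟩
  have hy : 0 ≤ y := by linarith
  have hy1 : y ≤ δ := by linarith
  have hδ0 : 0 ≤ δ := by linarith
  nlinarith [mul_nonneg hδ0 (sq_nonneg (δ - 45 / 100)), mul_nonneg hy (sq_nonneg (δ - 1/2)), mul_nonneg hy (mul_nonneg hy hy),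
    mul_nonneg hy (mul_nonneg hy (sub_nonneg.2 hy1)), mul_nonneg hy (mul_nonneg hδ0 (sub_nonneg.2 hδ1)), mul_nonneg hy (mul_nonneg hy (sub_nonneg.2 hδ1)), mul_nonneg hy (mul_nonneg (sub_nonneg.2 hy1) (sub_nonneg.2 hδ1)), mul_nonneg hy hy, mul_nonneg hy hδ0, mul_nonneg hy (sub_nonneg.2 hy1)]

theorem num_keyc {δ P D : ℝ} (hδ : 1 / 25 ≤ δ) (hδ1 : δ ≤ 7 / 10) (hP : 0 ≤ P) (hPδ : P ≤ δ)
    (hD : D = δ / 6 - 29 / 228 * P + 1 / 24 - 1 / 5000) :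
    δ * (2 * δ - 8 / 19 * P) * (5 / 6 - δ) / 2 ≤ D * (δ * (2 * δ - 8 / 19 * P)) +
      (D + P / 6) * ((5 / 6 - δ) * (2 * δ - 8 / 19 * P)) + D * ((5 / 6 - δ) * δ) := by
  subst hD
  obtain ⟨y, rfl⟩ : ∃ y, P = δ - y := ⟨δ - P, by ring⟩
  have hy : 0 ≤ y := by linarith
  have hy1 : y ≤ δ := by linarith
  have hδ0 : 0 ≤ δ := by linarith
  nlinarith [mul_nonneg hδ0 (sq_nonneg (δ - 41 / 100)), mul_nonneg hy (sq_nonneg (δ - 1/2)), mul_nonneg hy (mul_nonneg hy hy),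
    mul_nonneg hy (mul_nonneg hy (sub_nonneg.2 hy1)), mul_nonneg hy (mul_nonneg hδ0 (sub_nonneg.2 hδ1)), mul_nonneg hy (mul_nonneg hy (sub_nonneg.2 hδ1)), mul_nonneg hy (mul_nonneg (sub_nonneg.2 hy1) (sub_nonneg.2 hδ1)), mul_nonneg hy hy, mul_nonneg hy hδ0, mul_nonneg hy (sub_nonneg.2 hy1)]

theorem num_keyd {δ P D : ℝ} (hδ : 1 / 25 ≤ δ) (hδ1 : δ ≤ 7 / 10) (hP : 0 ≤ P) (hPδ : P ≤ δ)
    (hD : D = δ / 6 - 29 / 228 * P + 1 / 24 - 1 / 5000) :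
    δ * (2 * δ) * (5 / 6 - δ) / 2 ≤ D * (δ * (2 * δ)) +
      (D + P / 6) * ((5 / 6 - δ) * (2 * δ)) + (D + P / 16) * ((5 / 6 - δ) * δ) := by
  subst hD
  obtain ⟨y, rfl⟩ : ∃ y, P = δ - y := ⟨δ - P, by ring⟩
  have hy : 0 ≤ y := by linarith
  have hy1 : y ≤ δ := by linarith
  have hδ0 : 0 ≤ δ := by linarith
  nlinarith [mul_nonneg hδ0 (sq_nonneg (δ - 40 / 100)), mul_nonneg hy (sq_nonneg (δ - 1/2)), mul_nonneg hy (mul_nonneg hy hy),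
    mul_nonneg hy (mul_nonneg hy (sub_nonneg.2 hy1)), mul_nonneg hy (mul_nonneg hδ0 (sub_nonneg.2 hδ1)), mul_nonneg hy (mul_nonneg hy (sub_nonneg.2 hδ1)), mul_nonneg hy (mul_nonneg (sub_nonneg.2 hy1) (sub_nonneg.2 hδ1)), mul_nonneg hy hy, mul_nonneg hy hδ0, mul_nonneg hy (sub_nonneg.2 hy1), mul_nonneg hy (mul_nonneg hδ0 hδ0), mul_nonneg (sub_nonneg.2 hy1) (mul_nonneg hδ0 (sub_nonneg.2 hδ1))]


/-- The core estimate at `κ = 3/4`. -/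
theorem num_core {e δ P D θ t r m G : ℝ} (he0 : 0 ≤ e) (hδ : 1 / 25 ≤ δ) (hδ1 : δ ≤ 7 / 10)
    (hP : 0 ≤ P) (hPδ : P ≤ δ) (hD : D = δ / 6 - 29 / 228 * P + 1 / 24 - 1 / 5000) (hθ : 0 ≤ θ)
    (ht : t * (5 / 6 - δ) = θ * (5 / 6 - δ + D)) (hrm : t - e ≤ r + m)
    (h1 : δ * r + P * min ((θ - r) / 2) (θ / 6) - e ≤ G)
    (h3 : 2 * δ * m + P * min ((θ - 2 * m) * (4 / 19)) (θ / 16) - 5 * e ≤ G) :
    θ * (δ - D) - 5 * e ≤ G := by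
  by_contra hc
  push Not at hc
  have hE : 0 < 5 / 6 - δ := by linarith
  have h3' : θ * (5 / 6 - δ + D) - (5 / 6 - δ) * e ≤ (5 / 6 - δ) * (r + m) := by
    have := mul_le_mul_of_nonneg_left hrm hE.le
    linarith
  rcases min_cases ((θ - r) / 2) (θ / 6) with ⟨e1, -⟩ | ⟨e1, -⟩ <;>
    rcases min_cases ((θ - 2 * m) * (4 / 19)) (θ / 16) with ⟨e2, -⟩ | ⟨e2, -⟩ <;>
    rw [e1] at h1 <;> rw [e2] at h3
  · exact num_comb (A := δ - P / 2) (B := 2 * δ - 8 / 19 * P) (a := D) (b := D) (r := r) (m := m)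
      (by linarith) (by linarith) hE (by linarith) hθ he0 (by linarith) (by linarith) h3'
      (num_keya hδ hδ1 hP hPδ hD)
  · exact num_comb (A := δ - P / 2) (B := 2 * δ) (a := D) (b := D + P / 16) (r := r) (m := m)
      (by linarith) (by linarith) hE (by linarith) hθ he0 (by linarith) (by linarith) h3'
      (num_keyb hδ hδ1 hP hPδ hD)
  · exact num_comb (A := δ) (B := 2 * δ - 8 / 19 * P) (a := D + P / 6) (b := D) (r := r) (m := m)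
      (by linarith) (by linarith) hE (by linarith) hθ he0 (by linarith) (by linarith) h3'
      (num_keyc hδ hδ1 hP hPδ hD)
  · exact num_comb (A := δ) (B := 2 * δ) (a := D + P / 6) (b := D + P / 16) (r := r) (m := m)
      (by linarith) (by linarith) hE (by linarith) hθ he0 (by linarith) (by linarith) h3'
      (num_keyd hδ hδ1 hP hPδ hD)

theorem num_q1 {κ x : ℝ} (hκ : 3 / 4 ≤ κ) (hx : 0 ≤ x) :
    x * (4 / 19) - x * (κ - 3 / 4) * (80 / 361) ≤ x / (1 + 5 * κ) := by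
  rw [le_div_iff₀ (by linarith)]
  nlinarith [mul_nonneg hx (sq_nonneg (κ - 3 / 4))]

theorem num_q1' {κ x : ℝ} (hκ : 3 / 4 ≤ κ) (hx : x ≤ 0) : x * (4 / 19) ≤ x / (1 + 5 * κ) := by
  rw [le_div_iff₀ (by linarith)]
  nlinarith [mul_nonneg (neg_nonneg.2 hx) (sub_nonneg.2 hκ)]

theorem num_q2 {κ x : ℝ} (hκ : 3 / 4 ≤ κ) (hx : 0 ≤ x) :
    x / 16 - x * (κ - 3 / 4) / 16 ≤ x / (4 * (1 + 4 * κ)) := by
  rw [le_div_iff₀ (by linarith)]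
  nlinarith [mul_nonneg hx (sq_nonneg (κ - 3 / 4))]

/-- The third minimum, compared with its value at `κ = 3/4`. -/
theorem num_min {κ θ x y : ℝ} (hκ : 3 / 4 ≤ κ) (hθ : 0 ≤ θ) (hθy : θ ≤ y) (hxy : x ≤ y) :
    min (x * (4 / 19)) (θ / 16) - y * (κ - 3 / 4) * (80 / 361) ≤
      min (x / (1 + 5 * κ)) (θ / (4 * (1 + 4 * κ))) := by
  have hs : 0 ≤ κ - 3 / 4 := by linarith
  have hy : 0 ≤ y := by linarith
  have hys := mul_nonneg hy hs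
  refine le_min ?_ ?_
  · have := min_le_left (x * (4 / 19)) (θ / 16)
    rcases le_total 0 x with hx | hx
    · have h1 := num_q1 hκ hx
      have h2 := mul_le_mul_of_nonneg_right hxy hs
      linarith
    · have h1 := num_q1' hκ hx
      linarith
  · have := min_le_right (x * (4 / 19)) (θ / 16)
    have h1 := num_q2 hκ hθ
    have h2 := mul_le_mul_of_nonneg_right hθy hs
    linarith

set_option maxHeartbeats 1000000 in
/-- The lower bound for `G`. -/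
theorem num_G {e κ δ δp θ : ℝ} (he0 : 0 ≤ e) (he : e ≤ 1 / 10 ^ 7) (hκ : 3 / 4 ≤ κ) (hκ1 : κ ≤ 1)
    (hδ : 1 / 25 ≤ δ) (hδκ : δ ≤ κ) (hp0 : 0 ≤ δp) (hp : δp ≤ δ + e) (hθ : 0 ≤ θ) (hθ1 : θ ≤ 1 + e) :
    ∃ t : ℝ, θ ≤ t ∧ t ≤ 3 / 2 * θ ∧ ∀ r m G : ℝ, r ≤ t + e → t - e ≤ r + m → m ≤ θ / 2 + e →
      (r ≤ θ → δ * r + δp * min ((θ - r) / 2) (θ / 6) - e ≤ G) →
      (θ ≤ r → δ * r - 5 / 6 * (r - θ) - e ≤ G) →
      2 * δ * m + δp * min ((θ - 2 * m) / (1 + 5 * κ)) (θ / (4 * (1 + 4 * κ))) - e ≤ G →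
      θ * (5 / 6 * δ + 29 / 228 * δp - 1 / 24 + 1 / 5000 - (κ - 3 / 4) / 4) - 6 * e ≤ G := by
  obtain ⟨P, hP0, hPδ, hP1, hP2⟩ : ∃ P : ℝ, 0 ≤ P ∧ P ≤ δ ∧ P ≤ δp ∧ δp ≤ P + e :=
    ⟨min δp δ, le_min hp0 (by linarith), min_le_right _ _, min_le_left _ _, by
      rcases min_cases δp δ with ⟨h, -⟩ | ⟨h, -⟩ <;> rw [h] <;> linarith⟩
  obtain ⟨D, hD⟩ : ∃ D : ℝ, D = δ / 6 - 29 / 228 * P + 1 / 24 - 1 / 5000 := ⟨_, rfl⟩
  have hD0 : 0 < D := by linarith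
  have hs : 0 ≤ κ - 3 / 4 := by linarith
  have hθs := mul_nonneg hθ hs
  have hred : θ * (5 / 6 * δ + 29 / 228 * δp - 1 / 24 + 1 / 5000 - (κ - 3 / 4) / 4) - 6 * e ≤
      θ * (δ - D) - θ * (κ - 3 / 4) / 4 - 5 * e := by
    have h1 := mul_le_mul_of_nonneg_left hP2 hθ
    have h2 : θ * e ≤ 2 * e := mul_le_mul_of_nonneg_right (by linarith) he0
    rw [hD]
    linarith
  have hθD := mul_nonneg hθ hD0.le
  have hδe : δ * e ≤ 1 * e := mul_le_mul_of_nonneg_right (by linarith) he0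
  have hδe0 : 0 ≤ δ * e := mul_nonneg (by linarith) he0
  -- the case `θ ≤ r`
  have hbig : ∀ t r G : ℝ, θ * (δ - D) ≤ δ * t - 5 / 6 * (t - θ) → r ≤ t + e → θ ≤ r →
      δ * r - 5 / 6 * (r - θ) - e ≤ G → θ * (δ - D) - 2 * e ≤ G := by
    intro t r G ht hr hθr hG
    rcases le_total (5 / 6) δ with h | h
    · have := mul_le_mul_of_nonneg_left hθr (sub_nonneg.2 h)
      linarith
    · have := mul_le_mul_of_nonneg_left hr (sub_nonneg.2 h)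
      linarith
  by_cases hcase : (5 / 6 - δ) / 2 ≤ D
  · refine ⟨3 / 2 * θ, by linarith, le_rfl, fun r m G hr hrm hm h1 h2 _ => hred.trans ?_⟩
    rcases le_total r θ with h | h
    · have h1' := h1 h
      have hmin : 0 ≤ δp * min ((θ - r) / 2) (θ / 6) :=
        mul_nonneg hp0 (le_min (by linarith) (by linarith))
      have hr' : θ - 2 * e ≤ r := by linarith
      have := mul_le_mul_of_nonneg_left hr' (by linarith : 0 ≤ δ)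
      linarith
    · have := hbig (3 / 2 * θ) r G (by
        have := mul_le_mul_of_nonneg_left hcase hθ
        linarith) hr h (h2 h)
      linarith
  · push Not at hcase
    have hδ1 : δ ≤ 7 / 10 := by linarith
    have hE : 0 < 5 / 6 - δ := by linarith
    have ht : θ * (1 + D / (5 / 6 - δ)) * (5 / 6 - δ) = θ * (5 / 6 - δ + D) := by
      rw [mul_assoc, add_mul, one_mul, div_mul_cancel₀ _ hE.ne']
    have hq0 : 0 ≤ D / (5 / 6 - δ) := div_nonneg hD0.le hE.le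
    have hq1 : D / (5 / 6 - δ) ≤ 1 / 2 := by
      rw [div_le_iff₀ hE]; linarith
    have ht0 : θ ≤ θ * (1 + D / (5 / 6 - δ)) := by nlinarith
    refine ⟨θ * (1 + D / (5 / 6 - δ)), ht0, by nlinarith,
      fun r m G hr hrm hm h1 h2 h3 => hred.trans ?_⟩
    generalize θ * (1 + D / (5 / 6 - δ)) = t at *
    rcases le_total r θ with h | h
    · have h1' := h1 h
      have hmin : 0 ≤ min ((θ - r) / 2) (θ / 6) := le_min (by linarith) (by linarith)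
      have k1 := mul_le_mul_of_nonneg_right hP1 hmin
      have hm0 : θ - 2 * m ≤ θ + 2 * e := by linarith
      have k2 := num_min hκ hθ (y := θ + 2 * e) (by linarith) hm0
      have k3 := mul_le_mul_of_nonneg_left k2 hp0
      obtain ⟨μ, hμ⟩ : ∃ μ, μ = min ((θ - 2 * m) * (4 / 19)) (θ / 16) := ⟨_, rfl⟩
      rw [← hμ] at k2 k3
      have hμ0 : -e ≤ μ := by
        rw [hμ]; exact le_min (by linarith) (by linarith)
      have k4 : P * μ - e ≤ δp * μ := by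
        have := mul_nonneg (sub_nonneg.2 hP1) (by linarith : 0 ≤ μ + e)
        have h5 : (δp - P) * e ≤ 1 * e := mul_le_mul_of_nonneg_right (by linarith) he0
        linarith
      have k5 : δp * ((θ + 2 * e) * (κ - 3 / 4)) ≤ (9 / 8) * ((θ + 2 * e) * (κ - 3 / 4)) :=
        mul_le_mul_of_nonneg_right (by linarith) (mul_nonneg (by linarith) hs)
      have k6 : e * (κ - 3 / 4) ≤ e * 1 := mul_le_mul_of_nonneg_left (by linarith) he0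
      have := num_core (G := G + θ * (κ - 3 / 4) / 4) he0 hδ hδ1 hP0 hPδ hD hθ ht hrm
        (by linarith) (by rw [← hμ]; linarith)
      linarith
    · have := hbig t r G (by linarith) hr h (h2 h)
      linarith

/-- The final inequality. -/
theorem num_fin {e κ δ δp θ α G a' b u z3 : ℝ} (he0 : 0 ≤ e) (he : e ≤ 1 / 10 ^ 7) (hκ : 3 / 4 ≤ κ)
    (hκ1 : κ ≤ 1) (hδ : 1 / 25 ≤ δ) (hδκ : δ ≤ κ) (hp0 : 0 ≤ δp) (hp : δp ≤ δ + e) (hθ : 0 ≤ θ)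
    (hα : 0 ≤ α) (hθα : θ + 6 * α ≤ 1 + e)
    (hG : θ * (5 / 6 * δ + 29 / 228 * δp - 1 / 24 + 1 / 5000 - (κ - 3 / 4) / 4) - 6 * e ≤ G)
    (ha : 0 ≤ a') (hb : 0 ≤ b) (hu : u ≤ max 0 (θ - 7 / 12 + a' + b + α) + e) (hz0 : 0 ≤ z3)
    (hz : min ((θ - 2 * u) / (1 + 5 * κ)) (θ / (4 * (1 + 4 * κ))) - e ≤ z3) :
    2 * α + θ + e * a' + δ * (5 / 4 - a') / 2 + δp * (5 / 24 - b) / 2 - δp * z3 / 4 -
      3 * G / 4 + e ≤ 33 / 32 + 5 / 8 * (κ - 3 / 4) - 1 / 10000 := by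
  obtain ⟨s, rfl⟩ : ∃ s, κ = 3 / 4 + s := ⟨κ - 3 / 4, by ring⟩
  have hs : 0 ≤ s := by linarith
  have hs1 : s ≤ 1 / 4 := by linarith
  obtain ⟨q, hq⟩ : ∃ q : ℝ, q = 1 / (1 + 5 * (3 / 4 + s)) := ⟨_, rfl⟩
  have hq0 : 4 / 19 - s * (80 / 361) ≤ q := by
    have := num_q1 (κ := 3 / 4 + s) (x := 1) hκ zero_le_one
    rw [hq]; linarith
  have hq1 : q ≤ 4 / 19 := by
    rw [hq, div_le_iff₀ (by linarith)]; linarith
  have hqq : (θ - 2 * u) / (1 + 5 * (3 / 4 + s)) = (θ - 2 * u) * q := by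
    rw [hq]; ring
  have hq2 := num_q2 (κ := 3 / 4 + s) hκ hθ
  rw [hqq] at hz
  obtain ⟨τ, hτ⟩ : ∃ τ : ℝ, θ = 1 + e - τ := ⟨1 + e - θ, by ring⟩
  have hτα : 6 * α ≤ τ := by linarith
  have hτ0 : 0 ≤ τ := by linarith
  obtain ⟨Gt, hGt⟩ : ∃ Gt : ℝ,
      Gt = 5 / 6 * δ + 29 / 228 * δp - 1 / 24 + 1 / 5000 - (3 / 4 + s - 3 / 4) / 4 := ⟨_, rfl⟩
  rw [← hGt] at hG
  have hGt1 : Gt ≤ 857 / 1000 := by linarith
  have hGt0 : -1 ≤ Gt := by linarith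
  have hp1 : δp ≤ 11 / 10 := by linarith
  have hτG : τ * Gt ≤ τ * (857 / 1000) := mul_le_mul_of_nonneg_left hGt1 hτ0
  have heG : e * (-1) ≤ e * Gt := mul_le_mul_of_nonneg_left hGt0 he0
  have hG' : Gt - τ * (857 / 1000) - 7 * e ≤ G := by
    have : θ * Gt = Gt + e * Gt - τ * Gt := by rw [hτ]; ring
    linarith
  have hδa : 1 / 25 * a' ≤ δ * a' := mul_le_mul_of_nonneg_right hδ ha
  have hea : e * a' ≤ 1 / 10 ^ 7 * a' := mul_le_mul_of_nonneg_right he ha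
  have hpb := mul_nonneg hp0 hb
  have hpa : δp * a' ≤ (δ + e) * a' := mul_le_mul_of_nonneg_right hp ha
  have hps : δp * s ≤ 11 / 10 * s := mul_le_mul_of_nonneg_right hp1 hs
  have hpe : δp * e ≤ 11 / 10 * e := mul_le_mul_of_nonneg_right hp1 he0
  have hpτ : δp * τ ≤ 11 / 10 * τ := mul_le_mul_of_nonneg_right hp1 hτ0
  have hpτ0 := mul_nonneg hp0 hτ0
  -- a linear lower bound for `z3`
  have hz' : 2 / 57 - s / 10 - τ / 16 - (a' + b) * (8 / 19) - 2 * e ≤ z3 := by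
    have hθs : θ * s ≤ 11 / 10 * s := mul_le_mul_of_nonneg_right (by linarith) hs
    have hθq : θ * (4 / 19 - s * (80 / 361)) ≤ θ * q := mul_le_mul_of_nonneg_left hq0 hθ
    have hq00 : 0 ≤ q := by linarith
    have heq : e * q ≤ e * (4 / 19) := mul_le_mul_of_nonneg_left hq1 he0
    rcases min_cases ((θ - 2 * u) * q) (θ / (4 * (1 + 4 * (3 / 4 + s)))) with ⟨e1, -⟩ | ⟨e1, -⟩ <;>
      rw [e1] at hz
    · rcases max_cases 0 (θ - 7 / 12 + a' + b + α) with ⟨e2, -⟩ | ⟨e2, -⟩ <;> rw [e2] at hu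
      · have h1 : (θ - 2 * e) * q ≤ (θ - 2 * u) * q := mul_le_mul_of_nonneg_right (by linarith) hq00
        have h2 : θ / 16 - 11 / 10 * s / 16 ≤ θ * q := by nlinarith
        linarith
      · have h1 : (1 / 6 - 2 * (a' + b) - 3 * e) * q ≤ (θ - 2 * u) * q :=
          mul_le_mul_of_nonneg_right (by linarith) hq00
        have h2 : (a' + b) * q ≤ (a' + b) * (4 / 19) := mul_le_mul_of_nonneg_left hq1 (by linarith)
        linarith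
    · linarith
  have hpz := mul_le_mul_of_nonneg_left hz' hp0
  linarith


theorem num_big {e κ δ δp θ α : ℝ} (he0 : 0 ≤ e) (he : e ≤ 1 / 10 ^ 7) (hκ : 3 / 4 ≤ κ) (hκ1 : κ ≤ 1)
    (hδ : 1 / 25 ≤ δ) (hδκ : δ ≤ κ) (hp0 : 0 ≤ δp) (hp : δp ≤ δ + e) (hθ : 0 ≤ θ) (hα : 0 ≤ α)
    (hθα : θ + 6 * α ≤ 1 + e) :
    ∃ t : ℝ, θ ≤ t ∧ t ≤ 3 / 2 * θ ∧ ∀ r m G : ℝ, r ≤ t + e → t - e ≤ r + m → m ≤ θ / 2 + e →
      (r ≤ θ → δ * r + δp * min ((θ - r) / 2) (θ / 6) - e ≤ G) →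
      (θ ≤ r → δ * r - 5 / 6 * (r - θ) - e ≤ G) →
      2 * δ * m + δp * min ((θ - 2 * m) / (1 + 5 * κ)) (θ / (4 * (1 + 4 * κ))) - e ≤ G →
      ∀ a' b u z3 : ℝ, 0 ≤ a' → 0 ≤ b → b ≤ 5 / 24 → u ≤ max 0 (θ - 7 / 12 + a' + b + α) + e →
        0 ≤ z3 → min ((θ - 2 * u) / (1 + 5 * κ)) (θ / (4 * (1 + 4 * κ))) - e ≤ z3 →
        2 * α + θ + e * a' + δ * (5 / 4 - a') / 2 + δp * (5 / 24 - b) / 2 - δp * z3 / 4 -
            3 * G / 4 + e ≤ 33 / 32 + 5 / 8 * (κ - 3 / 4) - 1 / 10000 := by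
  obtain ⟨t, h1, h2, h3⟩ := num_G he0 he hκ hκ1 hδ hδκ hp0 hp hθ (by linarith)
  exact ⟨t, h1, h2, fun r m G k1 k2 k3 k4 k5 k6 a' b u z3 ha hb _ hu hz0 hz =>
    num_fin he0 he hκ hκ1 hδ hδκ hp0 hp hθ hα hθα (h3 r m G k1 k2 k3 k4 k5 k6) ha hb hu hz0 hz⟩

theorem num_small {e κ δp θ α a' b z3 G : ℝ} (he0 : 0 ≤ e) (he : e ≤ 1 / 10 ^ 7) (hκ : 3 / 4 ≤ κ)
    (hp0 : 0 ≤ δp) (hp : δp ≤ 1 / 25 + e) (hα : 0 ≤ α) (hθα : θ + 6 * α ≤ 1 + e) (ha : 0 ≤ a')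
    (hb : 0 ≤ b) (hz : 0 ≤ z3) (hG : 0 ≤ G) :
    2 * α + θ + e * a' + 1 / 25 * (5 / 4 - a') / 2 + δp * (5 / 24 - b) / 2 - δp * z3 / 4 -
        3 * G / 4 + e ≤ 33 / 32 + 5 / 8 * (κ - 3 / 4) - 1 / 10000 := by
  have h1 : e * a' ≤ 1 / 10 ^ 7 * a' := mul_le_mul_of_nonneg_right he ha
  have h2 := mul_nonneg hp0 hb
  have h3 := mul_nonneg hp0 hz
  linarith

end Crest.Agent.R17
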