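import Crest.Agent.R17.RowSum_Defs
import Crest.Agent.R17.Num

/-!
# R17 / RowSum_G : the majorant is large when there is a zero

Read the header of `RowSum_Defs.lean` first.
-/

set_option autoImplicit false

noncomputable section

open scoped Classical ComplexConjugate
open MeasureTheory

namespace Crest.Agent.R17.RS

/-- The optimal number of marks for a fourth power.  `μ = min(…) ≤ θ/16 ≤ 5/24`; `choose_j` with
`w = yp = yP J z`, `μ z ≤ J yp = 5z/24` (`J_mul_yP`) gives `j`; put `z3 = j yp / z ≥ μ - yp/z ≥ μ - e/100`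
(`Par.yP_le`).  If `j = 0` use `Maj.z0`; if `j yp ≤ μ z` the two conditions of `Maj.z1` hold
(`2y ≤ 2uz ≤ θz - j yp(1+5κ)`), and `P^{2j} = e^{δp j yp} = e^{δp z3 z}`. -/
theorem maj_four {e : ℝ} {J : ℕ} {ρ ε : ℝ} (hp : Par e J ρ ε) {Q : Lev} {z θ κ δp G : ℝ} {d : O}
    (hz : 0 < z) (hκ : 3 / 4 ≤ κ) (hθ : 0 ≤ θ) (hθ1 : θ ≤ 2)
    (hM : Maj Q J ρ κ z (θ * z) d (Real.exp (δp * yP J z / 2)) (Real.exp (G * z))) (u : ℝ) :
    ∃ z3 : ℝ, 0 ≤ z3 ∧ min ((θ - 2 * u) / (1 + 5 * κ)) (θ / (4 * (1 + 4 * κ))) - e / 100 ≤ z3 ∧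
      ∀ ν ∈ hchars Q.q, ∀ y t : ℝ, -z ≤ y → y ≤ 3 * z → y ≤ u * z → |t| ≤ z ^ 3 →
        ‖pb (rc ν d) y t‖ ^ 4 ≤ Real.exp ((G - δp * z3) * z) := by
  have hyp := yP_pos hp.J1 hz
  have hy1 := hp.yP_le hz.le
  obtain ⟨μ, hμ⟩ : ∃ μ, μ = min ((θ - 2 * u) / (1 + 5 * κ)) (θ / (4 * (1 + 4 * κ))) := ⟨_, rfl⟩
  have m1 : μ * (1 + 5 * κ) ≤ θ - 2 * u := (le_div_iff₀ (by linarith)).1 (hμ ▸ min_le_left _ _)
  have m2 : μ * (4 * (1 + 4 * κ)) ≤ θ := (le_div_iff₀ (by linarith)).1 (hμ ▸ min_le_right _ _)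
  have m3 : μ ≤ 5 / 24 := by
    by_contra hc
    nlinarith
  obtain ⟨j, hj, h1, h2⟩ := choose_j (J := J) (μ := μ * z) hyp
    (by rw [J_mul_yP hp.J1]; exact mul_le_mul_of_nonneg_right m3 hz.le)
  have hj0 : 0 ≤ j * yP J z := mul_nonneg (Nat.cast_nonneg j) hyp.le
  refine ⟨j * yP J z / z, div_nonneg hj0 hz.le, ?_, fun ν hν y t c1 c2 c3 c4 => ?_⟩
  · rw [← hμ, le_div_iff₀ hz]
    linarith
  have e1 : (G - δp * (j * yP J z / z)) * z = G * z - δp * (j * yP J z) := by field_simp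
  rw [e1]
  rcases h1 with rfl | h1
  · simpa using hM.z0 ν hν y t c1 c2 c4
  · have k1 := mul_le_mul_of_nonneg_right m1 hz.le
    have k2 := mul_le_mul_of_nonneg_right m2 hz.le
    have k3 := mul_le_mul_of_nonneg_right h1 (show 0 ≤ 1 + 5 * κ by linarith)
    have k4 := mul_le_mul_of_nonneg_right h1 (show 0 ≤ 1 + 4 * κ by linarith)
    have := hM.z1 ν hν j hj (by linarith) y t c1 (by linarith) c4
    rw [← Real.exp_nat_mul, ← le_div_iff₀ (Real.exp_pos _), ← Real.exp_sub] at this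
    refine this.trans_eq ?_
    congr 1
    push_cast
    ring

/-- The same for the second power with `w = yp + ρ z`, `μ = min ((θ-r)/2) (θ/6) ≥ 0`,
`μ z ≤ (1+e) z/6 ≤ 5z/24 ≤ J w`.  Both conditions of `Maj.m1` hold for the `j` of `choose_j` (also if `j = 0`),
and `j yp = j w - jρz ≥ μ z - yp - ρ z - Jρ z ≥ (μ - 3e/100) z` (`Par.yP_le`, `Par.ρe`, `Par.Jρ`). -/
theorem maj_two {e : ℝ} {J : ℕ} {ρ ε : ℝ} (hp : Par e J ρ ε) {Q : Lev} {z θ κ δp G : ℝ} {d : O}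
    (hz : 0 < z) (hθ : 0 ≤ θ) (hθ1 : θ ≤ 1 + e) (hp0 : 0 ≤ δp)
    (hM : Maj Q J ρ κ z (θ * z) d (Real.exp (δp * yP J z / 2)) (Real.exp (G * z)))
    {r : ℝ} (hr0 : -1 ≤ r) (hr : r ≤ θ) :
    ∀ ν ∈ hchars Q.q, ∀ t : ℝ, |t| ≤ z ^ 3 → ‖pb (mm (rc ν d)) (r * z) t‖ ^ 2 ≤
      Real.exp ((G - δp * (min ((θ - r) / 2) (θ / 6) - 3 * e / 100)) * z) := by
  intro ν hν t ht
  have hyp := yP_pos hp.J1 hz
  have hy1 := hp.yP_le hz.le
  have hρz : 0 < ρ * z := mul_pos hp.ρ0 hz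
  have hρ1 := mul_le_mul_of_nonneg_right hp.ρe hz.le
  have he1 := hp.e1
  obtain ⟨μ, hμ⟩ : ∃ μ, μ = min ((θ - r) / 2) (θ / 6) := ⟨_, rfl⟩
  have m1 : μ ≤ (θ - r) / 2 := hμ ▸ min_le_left _ _
  have m2 : μ ≤ θ / 6 := hμ ▸ min_le_right _ _
  have m0 : 0 ≤ μ := hμ ▸ le_min (by linarith) (by linarith)
  have hJ0 : (0 : ℝ) ≤ J := Nat.cast_nonneg J
  obtain ⟨j, hj, h1, h2⟩ := choose_j (J := J) (w := yP J z + ρ * z) (μ := μ * z) (by linarith)
    (by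
      rw [mul_add, J_mul_yP hp.J1]
      linarith [mul_le_mul_of_nonneg_right (show μ ≤ 5 / 24 by linarith) hz.le,
        mul_nonneg hJ0 hρz.le])
  have h1' : j * (yP J z + ρ * z) ≤ μ * z := by
    rcases h1 with rfl | h1
    · simpa using mul_nonneg m0 hz.le
    · exact h1
  have k1 := mul_le_mul_of_nonneg_right m1 hz.le
  have k2 := mul_le_mul_of_nonneg_right m2 hz.le
  have := hM.m1 ν hν j hj (by linarith) (r * z) t
    (by linarith [mul_le_mul_of_nonneg_right hr0 hz.le]) (by linarith) ht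
  rw [← Real.exp_nat_mul, ← le_div_iff₀ (Real.exp_pos _), ← Real.exp_sub] at this
  refine this.trans (Real.exp_le_exp.2 ?_)
  rw [← hμ]
  have hjJ : (j : ℝ) ≤ J := by exact_mod_cast hj
  have k3 : j * (ρ * z) ≤ e / 100 * z := by
    rw [← mul_assoc]
    exact mul_le_mul_of_nonneg_right ((mul_le_mul_of_nonneg_right hjJ hp.ρ0.le).trans hp.Jρ) hz.le
  have k4 : (μ - 3 * e / 100) * z ≤ j * yP J z := by linarith
  have k5 := mul_le_mul_of_nonneg_left k4 hp0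
  push_cast
  linarith

theorem g_pow {x w v z : ℝ} (n : ℕ) (hz : 0 < z) (h1 : Real.exp (w * z) ≤ x)
    (h2 : x ^ n ≤ Real.exp (v * z)) : n * w ≤ v := by
  have := (pow_le_pow_left₀ (Real.exp_pos _).le h1 n).trans h2
  rw [← Real.exp_nat_mul, Real.exp_le_exp, ← mul_assoc] at this
  exact le_of_mul_le_mul_right this hz

/-- `G ≥ 0` by `Maj.one`.  If `σ = 1/2 + 1/50` this is `num_small`.  Otherwise take `t` from `num_big`
(`δ = 2σ - 1`), apply `Det` with `x = t z`, put `r = y₁/z`, `m = y₂/z`, so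
`‖M(rz)‖² ≥ e^{(δ r - 2e/100) z}`, `‖Z(mz)‖⁴ ≥ e^{(2δ m - 4e/100) z}`, and check the three lower bounds for `G`
with `maj_two` (`δp ≤ 2`), `Maj.m5` (`r ≤ t + e/100 ≤ 3`), `maj_four` (`u = m`); compare exponents
(`Real.exp_le_exp`, divide by `z > 0`). -/
theorem num_final {e : ℝ} {J : ℕ} {ρ ε : ℝ} (hp : Par e J ρ ε) {Q : Lev} {z θ α κ σ δp G : ℝ} {d : O}
    (hz : 0 < z) (hκ : 3 / 4 ≤ κ) (hκ1 : κ ≤ 1) (hσ : 1 / 2 + 1 / 50 ≤ σ) (hσκ : 2 * σ - 1 ≤ κ)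
    (hp0 : 0 ≤ δp) (hp1 : δp ≤ 2 * σ - 1 + e) (hθ : 0 ≤ θ) (hα : 0 ≤ α) (hθα : θ + 6 * α ≤ 1 + e)
    (hM : Maj Q J ρ κ z (θ * z) d (Real.exp (δp * yP J z / 2)) (Real.exp (G * z)))
    (hD : σ = 1 / 2 + 1 / 50 ∨ Det Q (e / 100) z (θ * z) σ d) :
    ∀ a' b u z3 : ℝ, 0 ≤ a' → 0 ≤ b → b ≤ 5 / 24 → u ≤ max 0 (θ - 7 / 12 + a' + b + α) + e →
      0 ≤ z3 → min ((θ - 2 * u) / (1 + 5 * κ)) (θ / (4 * (1 + 4 * κ))) - e ≤ z3 →
      2 * α + θ + e * a' + (2 * σ - 1) * (5 / 4 - a') / 2 + δp * (5 / 24 - b) / 2 - δp * z3 / 4 -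
          3 * G / 4 + e ≤ 33 / 32 + 5 / 8 * (κ - 3 / 4) - 1 / 10000 := by
  have he := hp.e0
  have he1 := hp.e1
  rcases hD with rfl | hD
  · intro a' b u z3 ha hb _ _ h0 _
    have hG : 0 ≤ G := nonneg_of_mul_nonneg_left (Real.one_le_exp_iff.1 hM.one) hz
    have := num_small he.le he1 hκ hp0 (by linarith) hα hθα ha hb h0 hG
    linarith
  obtain ⟨t, t1, t2, h⟩ := num_big (δ := 2 * σ - 1) he.le he1 hκ hκ1 (by linarith) hσκ hp0 hp1 hθ hα hθα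
  obtain ⟨ν, hν, y1, y2, s, hs, c1, c2, c3, c4, c5, c6, c7⟩ := hD (t * z)
    (mul_nonneg (by linarith) hz.le) (mul_le_mul_of_nonneg_right (by linarith) hz.le)
  obtain ⟨r, rfl⟩ : ∃ r, y1 = r * z := ⟨y1 / z, by field_simp⟩
  obtain ⟨m, rfl⟩ : ∃ m, y2 = m * z := ⟨y2 / z, by field_simp⟩
  have d1 : -(e / 100) ≤ r := le_of_mul_le_mul_right (by linarith) hz
  have d2 : -(e / 100) ≤ m := le_of_mul_le_mul_right (by linarith) hz
  have d3 : r ≤ t + e / 100 := le_of_mul_le_mul_right (by linarith) hz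
  have d4 : t - e / 100 ≤ r + m := le_of_mul_le_mul_right (by linarith) hz
  have d5 : m ≤ θ / 2 + e / 100 := le_of_mul_le_mul_right (by linarith) hz
  rw [show -(e / 100 * z) + (σ - 1 / 2) * (r * z) = (-(e / 100) + (σ - 1 / 2) * r) * z by ring] at c6
  rw [show -(e / 100 * z) + (σ - 1 / 2) * (m * z) = (-(e / 100) + (σ - 1 / 2) * m) * z by ring] at c7
  have hpe : δp * e ≤ 2 * e := mul_le_mul_of_nonneg_right (by linarith) he.le
  refine h r m G (by linarith) (by linarith) (by linarith) (fun hr => ?_) (fun hr => ?_) ?_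
  · have := g_pow 2 hz c6 (maj_two hp hz hθ (by linarith) hp0 hM (by linarith) hr ν hν s hs)
    push_cast at this
    linarith
  · have k := hM.m5 ν hν (r * z) s (mul_le_mul_of_nonneg_right hr hz.le)
      (mul_le_mul_of_nonneg_right (by linarith) hz.le) hs
    rw [← le_div_iff₀' (Real.exp_pos _), ← Real.exp_sub,
      show G * z - -(5 / 6) * (r * z - θ * z) = (G + 5 / 6 * (r - θ)) * z by ring] at k
    have := g_pow 2 hz c6 k
    push_cast at this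
    linarith
  · obtain ⟨w, -, w1, w2⟩ := maj_four hp hz hκ hθ (by linarith) hM m
    have := g_pow 4 hz c7 (w2 ν hν (m * z) s
      (by linarith [mul_le_mul_of_nonneg_right (show -1 ≤ m by linarith) hz.le])
      (mul_le_mul_of_nonneg_right (by linarith) hz.le) le_rfl hs)
    have k := mul_le_mul_of_nonneg_left w1 hp0
    push_cast at this
    linarith

end Crest.Agent.R17.RS
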