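import Crest.Agent.R17.RowSum_Defs

/-!
# R17 / RowSum_Loc : local bounds and reflection in exponent form

Read the header of `RowSum_Defs.lean` first.
-/

set_option autoImplicit false

noncomputable section

open scoped Classical ComplexConjugate
open MeasureTheory

namespace Crest.Agent.R17.RS

theorem loc_lev (Q : Lev) {z : ℝ} (hz : N Q.q ≤ z) {d : O} (hd : d ≠ 0) (hN : N d ≤ Real.exp (2 * z)) :
    N (levd Q d).q ≤ Real.exp z ^ (4 : ℝ) := by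
  have hz0 : 0 ≤ z := (N_nonneg _).trans hz
  rw [exp_rpow, show 4 * z = 2 * z + 2 * z by ring, Real.exp_add]
  exact (N_levd_le Q hd).trans (mul_le_mul (by linarith [Real.add_one_le_exp (2 * z)]) hN
    (N_nonneg _) (Real.exp_pos _).le)

theorem loc_sq {z : ℝ} (hz : 0 ≤ z) : z ^ 2 ≤ Real.exp z := by
  have := Real.pow_div_factorial_le_exp (z / 2) (by positivity) 1
  have h2 := Real.add_one_le_exp (z / 4)
  have h3 : Real.exp z = Real.exp (z / 4) ^ 4 := by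
    rw [← Real.exp_nat_mul]; congr 1; push_cast; ring
  have h4 := pow_le_pow_left₀ (by positivity) h2 4
  rw [h3]
  nlinarith [sq_nonneg (z ^ 2 / 16 - 1), sq_nonneg (z / 4 - 1), pow_nonneg hz 3, sq_nonneg z,
    mul_nonneg hz (sq_nonneg (z / 4 - 1))]

/-- `localM 4 (e'/2)` with `Z = e^z`, level `levd Q d` (`N_levd_le`, `N Q.q ≤ e^{2z}` for large `z`),
`T = 2z²`, `z² ≤ e^z` and `C ≤ e^{e'z/2}` for large `z` (`ev_le_exp`). -/
theorem loc_M {e' : ℝ} (he : 0 < e') (Q : Lev) : ∃ z0 : ℝ, ∀ z : ℝ, z0 ≤ z → ∀ ν ∈ hchars Q.q,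
    ∀ d : O, ¬ Exc Q d → N d ≤ Real.exp (2 * z) → ∀ σ : ℝ, 1 / 2 ≤ σ → σ ≤ 1 →
    ZFR (rc ν d) σ (2 * z ^ 2) → ∀ y t : ℝ, y ≤ 4 * z → |t| ≤ z ^ 2 →
      ‖pb (mm (rc ν d)) y t‖ ≤ Real.exp (e' * z + (σ - 1 / 2) * y) := by
  obtain ⟨C, Z0, h⟩ := localM 4 (half_pos he)
  obtain ⟨z1, hz1, h1⟩ := ev_le_exp C 0 (half_pos he)
  refine ⟨max (max Z0 z1) (N Q.q), fun z hz ν hν d hd hN σ s1 s2 s3 y t hy ht => ?_⟩
  simp only [max_le_iff] at hz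
  obtain ⟨⟨b1, b2⟩, b3⟩ := hz
  have hd0 := not_exc_ne_zero Q hd
  have k := h (Real.exp z) (ev_exp_ge Z0 z b1) (levd Q d) (rc ν d) (rc_isHChar Q hν hd0)
    (rc_nonPrinc Q hν hd) (loc_lev Q b3 hd0 hN) σ (2 * z ^ 2) y t s1 s2 s3
    (by rw [Real.log_exp]; linarith) (ht.trans (loc_sq (by linarith))) (by rwa [Real.log_exp])
  have k1 := h1 z b2
  rw [pow_zero, mul_one] at k1
  rw [exp_rpow] at k
  refine k.trans ((mul_le_mul_of_nonneg_right (mul_le_mul_of_nonneg_right k1 (Real.exp_pos _).le)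
    (Real.exp_pos _).le).trans_eq ?_)
  rw [← Real.exp_add, ← Real.exp_add]
  congr 1
  ring

/-- `localP 4 (e/100) ρ` with `Z = e^z`, `Q' = levd Q d`, `x = ε`: `|Pb| ≤ C z² e^{(σ - 1/2 + e/50) yp}`, and
`1 + |C| z² ≤ (1 + |C|) z² ≤ e^{(e/4) yp}` for large `z` (`ev_le_exp` with `γ = (e/4) · 5/(24J)`). -/
theorem loc_P {e : ℝ} {J : ℕ} {ρ ε : ℝ} (hp : Par e J ρ ε) (Q : Lev) : ∃ z0 : ℝ, ∀ z : ℝ, z0 ≤ z →
    ∀ d : O, ¬ Exc Q d → N d ≤ Real.exp (2 * z) → ∀ σ : ℝ, 1 / 2 ≤ σ → σ ≤ 1 →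
    ZFR (rc (one0 Q) d) σ (2 * z ^ 2) → ∀ τ : ℝ, |τ| ≤ z ^ 2 →
      Pi Q J ρ ε z d τ ≤ Real.exp ((σ - 1 / 2 + e / 2) * yP J z) := by
  have he := hp.e0
  have he1 := hp.e1
  have hJ : (0 : ℝ) < J := by have := hp.J1; positivity
  obtain ⟨C, Z0, h⟩ := localP 4 (ε := e / 100) (by positivity) hp.ρ0
  obtain ⟨z1, hz1, h1⟩ := ev_le_exp (1 + |C|) 2 (γ := e / 4 * (5 / (24 * J))) (by positivity)
  refine ⟨max (max Z0 z1) (N Q.q), fun z hz d hd hN σ s1 s2 s3 τ ht => ?_⟩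
  simp only [max_le_iff] at hz
  obtain ⟨⟨b1, b2⟩, b3⟩ := hz
  have hd0 := not_exc_ne_zero Q hd
  have hz : 1 ≤ z := hz1.trans b2
  have hyp := yP_pos hp.J1 (show 0 < z by linarith)
  have hy1 := hp.yP_le (show 0 ≤ z by linarith)
  have hez : e / 100 * z ≤ 4 * z := mul_le_mul_of_nonneg_right (by linarith) (by linarith)
  have k := h (Real.exp z) (ev_exp_ge Z0 z b1) Q (levd Q d) (rc (one0 Q) d) (dvd_mul_right _ _)
    (rc_isHChar Q (one0_mem Q) hd0) (rc_nonPrinc Q (one0_mem Q) hd) (loc_lev Q b3 hd0 hN) σ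
    (2 * z ^ 2) (yP J z) ε τ s1 s2 s3 (by rw [Real.log_exp]; linarith)
    (ht.trans (loc_sq (by linarith))) hyp.le (by rw [Real.log_exp]; linarith)
    (by rw [abs_of_pos hp.ε0]; linarith [hp.ε1])
  rw [Real.log_exp] at k
  have k1 := h1 z b2
  rw [mul_assoc (e / 4)] at k1
  change _ ≤ Real.exp (e / 4 * yP J z) at k1
  obtain ⟨E, hE⟩ : ∃ E, E = Real.exp ((σ - 1 / 2 + ε + e / 100) * yP J z) := ⟨_, rfl⟩
  have ε0 := hp.ε0
  have hE1 : 1 ≤ E := hE ▸ Real.one_le_exp (mul_nonneg (by linarith) hyp.le)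
  have hz2 : 1 ≤ z ^ 2 := one_le_pow₀ hz
  have k2 : 1 ≤ z ^ 2 * E := one_le_mul_of_one_le_of_one_le hz2 hE1
  have k3 : C * z ^ 2 * E ≤ |C| * z ^ 2 * E := by gcongr; exact le_abs_self C
  rw [← hE] at k
  calc Pi Q J ρ ε z d τ ≤ (1 + |C|) * z ^ 2 * E := by unfold Pi; linarith
    _ ≤ Real.exp (e / 4 * yP J z) * E := mul_le_mul_of_nonneg_right k1 (by linarith)
    _ ≤ _ := by
      rw [hE, ← Real.exp_add, ← add_mul]
      exact Real.exp_le_exp.2 (mul_le_mul_of_nonneg_right (by linarith [hp.ε1]) hyp.le)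

/-- If `y < -z`: `norm_blk_le_neg 9` (`pb ψ = blk (prim ψ)`, `norm_rc_le`, `bk2_prim_le`) gives
`≤ C e^{-9z} ≤ e^{-8z}`.  Otherwise `reflect_sup 10 e' Q` with `Z = e^z`, `ρ = radq Q d`
(`log N ρ ≤ L`; `|t'| ≤ |τ| + z² ≤ z³` for `z ≥ 2`), `C ≤ e^{e'z}`, `C (1+z²)^B ≤ |C| (2z²)^B ≤ e^{2z}`. -/
theorem loc_refl {e' : ℝ} (he : 0 < e') (he1 : e' ≤ 1) (Q : Lev) : ∃ z0 : ℝ, ∀ z : ℝ, z0 ≤ z →
    ∀ ν ∈ hchars Q.q, ∀ d : O, ¬ Exc Q d → ∀ L : ℝ, N d ≤ Real.exp L → L ≤ 2 * z →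
    ∀ y τ M : ℝ, |τ| ≤ z ^ 2 → 0 ≤ M →
      (-z ≤ y → ∀ y' t' : ℝ, -z ≤ y' → y' ≤ L - y + e' * z → |t'| ≤ z ^ 3 →
        ‖pb (rc ν d) y' t'‖ ≤ M) →
      ‖pb (rc ν d) y τ‖ ≤ Real.exp (2 * e' * z) * M + Real.exp (-8 * z) := by
  obtain ⟨C, B, h⟩ := reflect_sup 10 he Q
  obtain ⟨C0, h0⟩ := norm_blk_le_neg 9
  obtain ⟨z1, hz1, h1⟩ := ev_le_exp C 0 he
  obtain ⟨z2, -, h2⟩ := ev_le_exp (|C| * 2 ^ B) (2 * B) two_pos
  obtain ⟨z3, -, h3⟩ := ev_le_exp |C0| 0 one_pos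
  refine ⟨max (max z1 z2) (max z3 3), fun z hz ν hν d hd L hN hL y τ M ht hM hb => ?_⟩
  simp only [max_le_iff] at hz
  obtain ⟨⟨b1, b2⟩, b3, b4⟩ := hz
  have hd0 := not_exc_ne_zero Q hd
  have k1 := h1 z b1
  have k2 := h2 z b2
  have k3 := h3 z b3
  rw [pow_zero, mul_one] at k1 k3
  rcases lt_or_ge y (-z) with hy | hy
  · have k := h0 (prim (rc ν d)) (bk2_prim_le (norm_rc_le Q hν d)) y τ (by linarith)
    refine le_add_of_nonneg_of_le (by positivity) (k.trans ?_)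
    refine (mul_le_mul_of_nonneg_right ((le_abs_self _).trans k3) (Real.exp_pos _).le).trans ?_
    rw [← Real.exp_add]
    refine Real.exp_le_exp.2 ?_
    push_cast
    linarith
  obtain ⟨r1, r2, r3, -⟩ := radq_spec Q hd0
  have n1 : N (radq Q d) ≤ Real.exp L := (N_le_of_dvd hd0 r3).trans hN
  have n2 : Real.log (N (radq Q d)) ≤ L :=
    (Real.log_le_iff_le_exp (N_pos (radq_ne_zero Q d))).2 n1
  have hez : e' * z ≤ 1 * z := mul_le_mul_of_nonneg_right he1 (by linarith)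
  have hz2 : 1 ≤ z ^ 2 := one_le_pow₀ (by linarith)
  have hz3 : 2 * z ^ 2 ≤ z ^ 3 := by
    rw [pow_succ' z 2]
    exact mul_le_mul_of_nonneg_right (by linarith) (by positivity)
  have k := h (Real.exp z) (ev_exp_ge 3 z b4) (radq Q d) (rc ν d) r2 r1.2.symm (rc_isHChar Q hν hd0)
    (rc_nonPrinc Q hν hd) (n1.trans (by rw [exp_rpow]; exact Real.exp_le_exp.2 (by linarith))) y τ M
    hM (by rw [Real.log_exp]; linarith) fun y' t' a1 a2 a3 => by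
      rw [Real.log_exp] at a1 a2 a3
      exact hb hy y' t' (by linarith) (by linarith)
        (by linarith [abs_sub_abs_le_abs_sub t' τ])
  rw [exp_rpow, exp_rpow] at k
  refine k.trans (add_le_add (mul_le_mul_of_nonneg_right ?_ hM) ?_)
  · refine (mul_le_mul_of_nonneg_right k1 (Real.exp_pos _).le).trans_eq ?_
    rw [← Real.exp_add]
    congr 1
    ring
  · have e1 : C * (1 + |τ|) ^ B ≤ |C| * 2 ^ B * z ^ (2 * B) := by
      rw [pow_mul, mul_assoc, ← mul_pow]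
      exact mul_le_mul (le_abs_self C) (pow_le_pow_left₀ (by positivity) (by linarith) B)
        (by positivity) (abs_nonneg C)
    refine (mul_le_mul_of_nonneg_right (e1.trans k2) (Real.exp_pos _).le).trans_eq ?_
    rw [← Real.exp_add]
    congr 1
    ring

end Crest.Agent.R17.RS
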