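import Crest.Agent.R17.RowSum_Zero
import Crest.Agent.R17.RowSum_Loc
import Crest.Agent.R17.RowSum_G

/-!
# R17 / RowSum_Point : the pointwise bound

Read the header of `RowSum_Defs.lean` first.
-/

set_option autoImplicit false

noncomputable section

open scoped Classical ComplexConjugate
open MeasureTheory

namespace Crest.Agent.R17.RS

theorem pt_comb {A Zt x1 x2 x3 x4 z : ℝ} (hz : 0 ≤ z) (hZ : 0 ≤ Zt) (hA : A ≤ Real.exp (x1 * z))
    (h : Zt ≤ Real.exp (x3 * z) + Real.exp (-8 * z)) (h1 : x1 ≤ 1) (h2 : x2 ≤ 1)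
    (h3 : x1 + x2 + x3 ≤ x4) :
    A * Zt * Real.exp (x2 * z) ≤ Real.exp (x4 * z) + Real.exp (-5 * z) := by
  calc A * Zt * Real.exp (x2 * z)
      ≤ Real.exp (x1 * z) * (Real.exp (x3 * z) + Real.exp (-8 * z)) * Real.exp (x2 * z) :=
        mul_le_mul_of_nonneg_right (mul_le_mul hA h hZ (Real.exp_pos _).le) (Real.exp_pos _).le
    _ = Real.exp ((x1 + x2 + x3) * z) + Real.exp ((x1 + x2 - 8) * z) := by
        rw [mul_add, add_mul, ← Real.exp_add, ← Real.exp_add, ← Real.exp_add, ← Real.exp_add]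
        congr 2 <;> ring
    _ ≤ _ := add_le_add (Real.exp_le_exp.2 (mul_le_mul_of_nonneg_right h3 hz))
        (Real.exp_le_exp.2 (mul_le_mul_of_nonneg_right (by linarith) hz))

theorem pt_root {x w : ℝ} (h : x ^ 4 ≤ Real.exp w) : x ≤ Real.exp (w / 4) := by
  refine le_of_pow_le_pow_left₀ (n := 4) (by norm_num) (Real.exp_pos _).le (h.trans_eq ?_)
  rw [← Real.exp_nat_mul]
  congr 1
  push_cast
  ring

theorem pt_M {M ε e' z σ a' : ℝ} (hε : 0 ≤ ε) (hε1 : ε ≤ 1) (hσ : σ ≤ 1) (hz : 1 ≤ e' * z)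
    (h : M ≤ Real.exp (e' * z + (σ - 1 / 2) * (5 / 4 * z - a' * z + ε / 2))) :
    Real.exp (a' * z) ^ ε * M ≤ Real.exp ((ε * a' + (2 * σ - 1) * (5 / 4 - a') / 2 + 2 * e') * z) := by
  rw [exp_rpow]
  refine (mul_le_mul_of_nonneg_left h (Real.exp_pos _).le).trans ?_
  rw [← Real.exp_add]
  refine Real.exp_le_exp.2 ?_
  nlinarith [mul_nonneg hε (sub_nonneg.2 hσ)]

/-- Let `e' = e/100`, `κ = 2β-1`, `yp = yP J z`.  Take `z0 ≥ 1/e'` and above the thresholds of `zero_info e'`,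
`loc_M e'`, `loc_P`, `loc_refl e'`.  Fix `τ, h₁, h₂, j`.  Write `L = θ z`, `log N a = α z`, `log h₂ = a' z`,
`j yp = b z` (`0 ≤ b ≤ 5/24`, `J_mul_yP`), `W τ = e^{G z}` (`Maj.one`), `Π = e^{δp yp/2}`
(`δp = 2 log Π / yp`; `0 ≤ δp ≤ 2σ - 1 + e` by `one_le_Pi`, `loc_P`), `δ = 2σ - 1`, `σ` from `zero_info`.
* `h₂^ε |M| ≤ exp(ε a' z + e' z + (δ/2)(5z/4 - a' z + ε/2)) ≤ exp(z(ε a' + δ(5/4 - a')/2 + 2e'))` (`loc_M`,
  `δ ε/4 ≤ 1 ≤ e' z`);
* `Π^{J-j} = exp(z δp (5/24 - b)/2)` (`Nat.cast_sub`);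
* `u = θ - 7/12 + a' + b + α + e`, `z3` from `maj_four`; with `y = y1 z - log h₁ + ε/2` one has
  `L - y + e' z ≤ u z` (`log h₁ ≤ a' z + b z + jρ z + α z`, `jρ ≤ Jρ ≤ e'`) and `L - y + e'z ≤ 3z` if `y ≥ -z`;
  so `loc_refl` with `M = exp((G - δp z3) z/4)` (`pow_le_pow_left` / `abs_le_abs`: `x⁴ ≤ M⁴ → x ≤ M`) gives
  `|Z̃| ≤ e^{2e'z} M + e^{-8z}`.
Main term: exponent `≤ z (E - 2α - θ + G)` by `num_final` (`ε ≤ e`, `4e' ≤ e`).  Error term: the first two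
factors are `≤ e^{z}` each (`ε ≤ δ/2`, `δ ≤ 1`, `δp ≤ 2`), so it is `≤ e^{-6z} ≤ e^{-5z}`. -/
theorem pointwise {e : ℝ} {J : ℕ} {ρ ε : ℝ} (hp : Par e J ρ ε) {β : ℝ} (hβ : 7 / 8 ≤ β) (hβ1 : β ≤ 1)
    (hZ : ZF β) (Q : Lev) : ∃ z0 : ℝ, ∀ η ∈ hchars Q.q, ∀ z : ℝ, z0 ≤ z → ∀ (L : ℝ) (d a : O),
    0 ≤ L → ¬ Exc Q d → N d ≤ Real.exp L → a ≠ 0 → L + 6 * Real.log (N a) ≤ (1 + e) * z →
    ∀ W : ℝ → ℝ, (∀ τ, Maj Q J ρ (2 * β - 1) z L d (Pi Q J ρ ε z d τ) (W τ)) →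
      HS Q η J ρ ε z d a (VV (33 / 32 + 5 / 8 * (2 * β - 1 - 3 / 4) - 1 / 10000) z L a W) := by
  have he := hp.e0
  have he1 := hp.e1
  have he' : 0 < e / 100 := by positivity
  obtain ⟨z1, h1⟩ := zero_info he' Q
  obtain ⟨z2, h2⟩ := loc_M he' Q
  obtain ⟨z3, h3⟩ := loc_P hp Q
  obtain ⟨z4, h4⟩ := loc_refl he' (by linarith) Q
  refine ⟨max (max z1 z2) (max (max z3 z4) (100 / e)),
    fun η hη z hz L d a hL hd hN ha hLa W hW τ hτ k1 k2 hk1 hk2 j hj hk => ?_⟩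
  simp only [max_le_iff] at hz
  obtain ⟨⟨b1, b2⟩, ⟨b3, b4⟩, b5⟩ := hz
  have hz0 : 0 < z := lt_of_lt_of_le (by positivity) b5
  have hez : 1 ≤ e / 100 * z := by
    rw [div_le_iff₀ he] at b5
    linarith
  have hez1 : e * z ≤ 1 / 10 ^ 7 * z := mul_le_mul_of_nonneg_right he1 hz0.le
  have hz1 : 1 ≤ z := by linarith
  have hla : 0 ≤ Real.log (N a) := Real.log_nonneg (one_le_N ha)
  have hL2 : L ≤ 2 * z := by linarith
  have hN2 : N d ≤ Real.exp (2 * z) := hN.trans (Real.exp_le_exp.2 hL2)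
  obtain ⟨σ, s1, s2, s3, s4⟩ := h1 β hβ hβ1 hZ z b1 d hd L hN hL2
  have hyp := yP_pos hp.J1 hz0
  have hJy := J_mul_yP hp.J1 z
  have hjJ : (j : ℝ) ≤ J := by exact_mod_cast hj
  have hj0 : (0 : ℝ) ≤ j := Nat.cast_nonneg j
  -- normalised variables
  obtain ⟨θ, rfl⟩ : ∃ θ, L = θ * z := ⟨L / z, by field_simp⟩
  obtain ⟨α, hα⟩ : ∃ α, Real.log (N a) = α * z := ⟨Real.log (N a) / z, by field_simp⟩
  obtain ⟨a', ha'⟩ : ∃ a', Real.log k2 = a' * z := ⟨Real.log k2 / z, by field_simp⟩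
  obtain ⟨b, hb⟩ : ∃ b, j * yP J z = b * z := ⟨j * yP J z / z, by field_simp⟩
  have hM := hW τ
  obtain ⟨G, hG⟩ : ∃ G, W τ = Real.exp (G * z) := ⟨Real.log (W τ) / z, by
    rw [div_mul_cancel₀ _ hz0.ne', Real.exp_log (lt_of_lt_of_le one_pos hM.one)]⟩
  have hP1 := one_le_Pi Q J ρ ε z d τ
  obtain ⟨δp, hδp⟩ : ∃ δp, Pi Q J ρ ε z d τ = Real.exp (δp * yP J z / 2) :=
    ⟨2 * Real.log (Pi Q J ρ ε z d τ) / yP J z, by
      rw [div_mul_cancel₀ _ hyp.ne', mul_div_cancel_left₀ _ two_ne_zero,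
        Real.exp_log (by linarith)]⟩
  have hP2 := h3 z b3 d hd hN2 σ (by linarith) (by linarith) (s3 _ (one0_mem Q)) τ hτ
  rw [hδp] at hP1 hP2
  rw [hδp, hG] at hM
  have p0 : 0 ≤ δp := nonneg_of_mul_nonneg_left (by linarith [Real.one_le_exp_iff.1 hP1]) hyp
  have p1 : δp ≤ 2 * σ - 1 + e :=
    le_of_mul_le_mul_right (by linarith [Real.exp_le_exp.1 hP2]) hyp
  have t0 : 0 ≤ θ := nonneg_of_mul_nonneg_left hL hz0
  have α0 : 0 ≤ α := nonneg_of_mul_nonneg_left (hα ▸ hla) hz0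
  have a0 : 0 ≤ a' := nonneg_of_mul_nonneg_left (ha' ▸ Real.log_nonneg hk2) hz0
  have c0 : 0 ≤ b := nonneg_of_mul_nonneg_left (hb ▸ mul_nonneg hj0 hyp.le) hz0
  have c1 : b ≤ 5 / 24 := le_of_mul_le_mul_right
    (hb ▸ hJy ▸ mul_le_mul_of_nonneg_right hjJ hyp.le) hz0
  have tα : θ + 6 * α ≤ 1 + e := le_of_mul_le_mul_right (by rw [hα] at hLa; linarith) hz0
  obtain ⟨w, w0, w1, w2⟩ := maj_four hp hz0 (κ := 2 * β - 1) (by linarith) t0 (by linarith) hM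
    (θ - 7 / 12 + a' + b + α + e)
  have num := num_final hp hz0 (κ := 2 * β - 1) (by linarith) (by linarith) s1 (by linarith) p0 p1 t0
    α0 tα hM s4 a' b (θ - 7 / 12 + a' + b + α + e) w a0 c0 c1
    (by linarith [le_max_right 0 (θ - 7 / 12 + a' + b + α)]) w0 (by linarith)
  have ε0 := hp.ε0
  have ε1 := hp.ε1
  -- the first factor
  have f1 := h2 z b2 η hη d hd hN2 σ (by linarith) (by linarith) (s3 η hη)
    (y0 z - Real.log k2 + ε / 2) (-τ) (by unfold y0; linarith [Real.log_nonneg hk2])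
    (by rwa [abs_neg])
  have hk2' : k2 = Real.exp (a' * z) := by rw [← ha', Real.exp_log (by linarith)]
  have f1' := pt_M (a' := a') ε0.le (by linarith) (show σ ≤ 1 by linarith) hez
    (f1.trans_eq (by rw [ha', y0]))
  rw [← hk2'] at f1'
  -- the third factor
  have f3 : (1 + ‖Pb Q (rc (one0 Q) d) (yP J z) (ρ * z) ε τ‖) ^ (J - j) =
      Real.exp (δp * (5 / 24 - b) / 2 * z) := by
    change Pi Q J ρ ε z d τ ^ (J - j) = _
    rw [hδp, ← Real.exp_nat_mul, Nat.cast_sub hj]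
    congr 1
    linear_combination δp / 2 * hJy - δp / 2 * hb
  -- the middle factor
  have hlog : Real.log k1 ≤ a' * z + b * z + e / 100 * z + α * z := by
    have e1 := Real.log_le_log (by linarith) hk
    have n0 := N_pos ha
    rw [Real.log_mul (by positivity) n0.ne', Real.log_mul (by positivity) (Real.exp_pos _).ne',
      Real.log_exp, ha', hα, mul_add, hb] at e1
    have e2 : j * ρ ≤ e / 100 := (mul_le_mul_of_nonneg_right hjJ hp.ρ0.le).trans hp.Jρ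
    linarith [mul_le_mul_of_nonneg_right e2 hz0.le]
  have f2 := h4 z b4 _ (one0_mem Q) d hd _ hN hL2 (y1 z - Real.log k1 + ε / 2) τ
    (Real.exp ((G - δp * w) * z / 4)) hτ (Real.exp_pos _).le fun hy y' t' q1 q2 q3 =>
      pt_root (w2 _ (one0_mem Q) y' t' q1 (by linarith) (by unfold y1 at q2; linarith) q3)
  rw [← Real.exp_add, show 2 * (e / 100) * z + (G - δp * w) * z / 4 =
    (2 * (e / 100) + (G - δp * w) / 4) * z by ring] at f2
  rw [f3, VV, hG, ← Real.exp_add, hα, show (33 / 32 + 5 / 8 * (2 * β - 1 - 3 / 4) - 1 / 10000) * z -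
    2 * (α * z) - θ * z + G * z =
    (33 / 32 + 5 / 8 * (2 * β - 1 - 3 / 4) - 1 / 10000 - 2 * α - θ + G) * z by ring]
  have g1 : ε * a' ≤ e * a' := mul_le_mul_of_nonneg_right (by linarith) a0
  have g2 : ε * a' ≤ (2 * σ - 1) / 2 * a' := mul_le_mul_of_nonneg_right (by linarith) a0
  have g3 : δp * (5 / 24 - b) ≤ 2 * 1 := mul_le_mul (by linarith) (by linarith) (by linarith)
    (by norm_num)
  exact pt_comb hz0.le (norm_nonneg _) f1' f2 (by linarith) (by linarith) (by linarith)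


end Crest.Agent.R17.RS
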