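import Crest.Agent.R17.High2_Defs

/-!
# R17 / High2_Blk : the inner sums are blocks

With `s' = -1/2 + ε + iτ`, `Y = y - log N h`: `Wt y ε τ (h e) = N(h)^{s'} N(e)^{s'} gw(log N e - Y)`,
`∑_e a(e) N(e)^{s'} gw(log N e - Y) = blks a Y ((1/2 + (-τ) i) - ε) = e^{εY + ε²/4} blk a (Y + ε/2) (-τ)`
(`blks_shift`), `‖N(h)^{s'}‖ e^{εY} = N(h)^{-1/2} e^{εy}`.
-/

set_option autoImplicit false

noncomputable section

open scoped Classical ComplexConjugate

namespace Crest.Agent.R17.H2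

/-- the common part -/
theorem norm_tsum_Wt (a : O → ℂ) (y ε τ : ℝ) {h : O} (hh : h ≠ 0) :
    ‖∑' e : O, prim a e * Wt y ε τ (h * e)‖ = Real.exp (ε * y + ε ^ 2 / 4) * N h ^ (-(1 / 2 : ℝ)) *
      ‖pb a (y - Real.log (N h) + ε / 2) (-τ)‖ := by
  have h0 := N_pos hh
  have e1 : ∑' e : O, prim a e * Wt y ε τ (h * e) =
      (N h : ℂ) ^ (-(1 / 2 : ℂ) + ε + τ * Complex.I) *
        blks (prim a) (y - Real.log (N h)) ((1 / 2 + ((-τ : ℝ) : ℂ) * Complex.I) - ε) := by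
    unfold blks
    rw [← tsum_mul_left]
    refine tsum_congr fun e => ?_
    split_ifs with he
    · have : prim a e = 0 := by
        unfold prim
        rw [if_neg fun hp => hp.ne_zero he]
      simp [this]
    · have h1 := N_pos he
      have e2 : -((1 / 2 + ((-τ : ℝ) : ℂ) * Complex.I) - ε) =
          -(1 / 2 : ℂ) + ε + τ * Complex.I := by
        push_cast; ring
      have e3 : Real.log (N h * N e) - y = Real.log (N e) - (y - Real.log (N h)) := by
        rw [Real.log_mul h0.ne' h1.ne']; ring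
      rw [e2, Wt, N_mul, e3, Complex.ofReal_mul, Complex.mul_cpow_ofReal_nonneg h0.le h1.le]
      ring
  rw [e1, blks_shift, norm_mul, norm_mul, norm_cpow_N hh, Complex.norm_real,
    Real.norm_of_nonneg (Real.exp_pos _).le, ← mul_assoc]
  have e4 : N h ^ (-(1 / 2) + ε) * Real.exp (ε * (y - Real.log (N h)) + ε ^ 2 / 4) =
      Real.exp (ε * y + ε ^ 2 / 4) * N h ^ (-(1 / 2 : ℝ)) := by
    rw [Real.rpow_def_of_pos h0, Real.rpow_def_of_pos h0, ← Real.exp_add, ← Real.exp_add]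
    congr 1
    ring
  rw [e4]
  rfl

/-- `a e = conj (rc (one0 Q) d' e)`, `conj_pb` -/
theorem norm_B0 (Q : Lev) (d' : O) (y ε τ : ℝ) {h : O} (hh : P0 Q h) :
    ‖B0 Q d' y ε τ h‖ = Real.exp (ε * y + ε ^ 2 / 4) * N h ^ (-(1 / 2 : ℝ)) *
      ‖pb (rc (one0 Q) d') (y - Real.log (N h) + ε / 2) τ‖ := by
  have e1 : B0 Q d' y ε τ h =
      ∑' e : O, prim (fun n => conj (rc (one0 Q) d' n)) e * Wt y ε τ (h * e) := by
    unfold B0
    refine tsum_congr fun e => ?_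
    unfold prim rc one0 P0
    by_cases h1 : Prim e <;> by_cases h2 : IsCoprime e Q.q <;> simp [h1, h2]
  rw [e1, norm_tsum_Wt _ _ _ _ hh.1.ne_zero, ← conj_pb, Complex.norm_conj]

/-- `η (h e) = η h η e`, `η e = 0` unless `e` is coprime to `Q.q` (`mem_hchars Q.ne`),
`norm_hchar_le` -/
theorem norm_B1 (Q : Lev) {η : O → ℂ} (hη : η ∈ hchars Q.q) (d' : O) (y ε τ : ℝ) {h : O}
    (hh : P0 Q h) :
    ‖B1 Q η d' y ε τ h‖ ≤ Real.exp (ε * y + ε ^ 2 / 4) * N h ^ (-(1 / 2 : ℝ)) *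
      ‖pb (mm (rc η d')) (y - Real.log (N h) + ε / 2) (-τ)‖ := by
  have hc := ((mem_hchars Q.ne).1 hη).1
  have e1 : B1 Q η d' y ε τ h =
      η h * ∑' e : O, prim (mm (rc η d')) e * Wt y ε τ (h * e) := by
    unfold B1
    rw [← tsum_mul_left]
    refine tsum_congr fun e => ?_
    unfold prim rc mm P0
    by_cases h1 : Prim e
    · by_cases h2 : IsCoprime e Q.q
      · rw [if_pos ⟨h1, h2⟩, if_pos h1, hc.mul]
        ring
      · rw [if_neg fun h' => h2 h'.2, if_pos h1]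
        simp [(hc.zero_iff e).2 h2]
    · rw [if_neg fun h' => h1 h'.1, if_neg h1]
      simp
  rw [e1, norm_mul, norm_tsum_Wt _ _ _ _ hh.1.ne_zero]
  exact mul_le_of_le_one_left (mul_nonneg (mul_nonneg (Real.exp_pos _).le
    (Real.rpow_nonneg (N_nonneg _) _)) (norm_nonneg _)) (norm_hchar_le Q hη h)

end Crest.Agent.R17.H2
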