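import Crest.Agent.R17.High2_Defs

/-!
# R17 / High2_Loc : `Hv` at tuples of powers of one prime

`P = N p ≥ 4` (`four_le_N`), `χ = chi p d'`, `‖χ‖ ≤ 1`.  Put `F a b i = μ(p^i) cc d (p^a) (p^(b+i))`,
`G a b i = ∑_{k ≤ b} F a (b-k) i χ^k`; then `H a b i = G a b i - [a ≥ 1] χ̄ G (a-1) b i` (`Hv_loc`).
`μ(p^i) = 1, -1, 0, 0, …` (`mu_one`, `mu_prime`, `mu_eq_zero`).
-/

set_option autoImplicit false

noncomputable section

open scoped Classical ComplexConjugate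

namespace Crest.Agent.R17.H2

/-- local values of `Fv` -/
def Fl (d p : O) (a b i : ℕ) : ℂ := mu (p ^ i) * cc d (p ^ a) (p ^ (b + i))

/-- local values of `conv 1 χ Fv` -/
def Gl (d d' p : O) (a b i : ℕ) : ℂ :=
  ∑ k ∈ Finset.range (b + 1), Fl d p a (b - k) i * chi p d' ^ k

variable {Q : Lev} {p : O}

theorem loc_mu (hp : Prime p) {i : ℕ} (hi : 2 ≤ i) : mu (p ^ i) = 0 :=
  mu_eq_zero fun h => hp.not_isUnit (h p (by rw [← sq]; exact pow_dvd_pow p hi))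

theorem loc_conv (hp : Prime p) (hp0 : P0 Q p) (d d' : O) (e : Fin 3 → ℕ) :
    conv 1 (fun n => chi n d') (Fv d) (fun j => p ^ e j) = Gl d d' p (e 0) (e 1) (e 2) := by
  rw [conv_prime_pow hp hp0.1, Gl]
  refine Finset.sum_congr rfl fun k _ => ?_
  simp [Fv, Fl, chi_pow_left hp.ne_zero, pow_add]

/-- `conv_prime_pow` twice, `chi_pow_left`; in the sum over `k ≤ e 0` only `k = 0, 1` survive. -/
theorem Hv_loc (hp : Prime p) (hp0 : P0 Q p) (d d' : O) (e : Fin 3 → ℕ) :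
    Hv d d' (fun j => p ^ e j) = Gl d d' p (e 0) (e 1) (e 2) -
      if 1 ≤ e 0 then conj (chi p d') * Gl d d' p (e 0 - 1) (e 1) (e 2) else 0 := by
  rw [Hv, conv_prime_pow hp hp0.1]
  simp only [loc_conv hp hp0, Function.update_self, ne_eq, Fin.reduceEq, not_false_eq_true,
    Function.update_of_ne, mm, chi_pow_left hp.ne_zero]
  rcases e 0 with _ | n
  · simp [mu_one]
  · rw [Finset.sum_range_succ', Finset.sum_range_succ', Finset.sum_eq_zero fun k _ => by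
      rw [loc_mu hp (by omega), zero_mul, mul_zero]]
    simp [mu_one, mu_prime hp]
    ring

theorem loc_G0 (d d' p : O) (a i : ℕ) : Gl d d' p a 0 i = Fl d p a 0 i := by simp [Gl]

theorem loc_Gs (d d' p : O) (a b i : ℕ) :
    Gl d d' p a (b + 1) i = Fl d p a (b + 1) i + chi p d' * Gl d d' p a b i := by
  rw [Gl, Gl, Finset.sum_range_succ', Finset.mul_sum, add_comm]
  simp only [Nat.add_sub_add_right, pow_succ, Nat.sub_zero, pow_zero, mul_one, ← mul_assoc,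
    mul_comm (chi p d')]

theorem loc_F0 (hp : Prime p) (hp0 : P0 Q p) (d : O) (a : ℕ) :
    Fl d p a 0 0 = conj (chi p d) ^ a := by
  rw [Fl, add_zero, pow_zero, mu_one, one_mul, cc_left d (P0_pow hp0 a), chi_pow_left hp.ne_zero,
    map_pow]

theorem loc_Fz (hp : Prime p) (hp0 : P0 Q p) {d : O} (hd : ¬ p ∣ d) {a b i : ℕ} (h1 : 1 ≤ b + i)
    (h2 : 2 ≤ a + b + i) : Fl d p a b i = 0 := by
  by_contra h
  exact hd ((dvd_pow_self p (by omega)).trans
    (dvd_of_cc_ne_zero hp hp0 h1 (right_ne_zero_of_mul h)))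

theorem loc_generic (hp : Prime p) (hp0 : P0 Q p) {d d' : O} (hd : ¬ p ∣ d)
    (hχ : chi p d = chi p d') (a b i : ℕ) : Gl d d' p a b i =
      if i = 0 then (if a = 0 then (if b = 0 then 1 else 0) else conj (chi p d') ^ a * chi p d' ^ b)
      else if i = 1 ∧ a = 0 then chi p d' ^ (b + 1) else 0 := by
  induction b with
  | zero =>
    rw [loc_G0]
    split_ifs with h1 h2 h3 h4
    · rw [h1, h2, loc_F0 hp hp0, pow_zero]
    · exact absurd rfl h3
    · rw [h1, loc_F0 hp hp0, hχ, pow_zero, mul_one]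
    · simp [h4.1, h4.2, Fl, mu_prime hp, cc_prime hp hp0, hχ]
    · exact loc_Fz hp hp0 hd (by omega) (by omega)
  | succ b ih =>
    rw [loc_Gs, ih]
    by_cases h : a + b + i = 0
    · obtain ⟨rfl, rfl, rfl⟩ : a = 0 ∧ b = 0 ∧ i = 0 := by omega
      simp [Fl, mu_one, cc_prime hp hp0, hχ]
    · rw [loc_Fz hp hp0 hd (by omega) (by omega), zero_add]
      split_ifs <;> first | omega | contradiction | ring

/-- `p ∤ d`: `chi p d = χ` (`chi_sixth`), `F a 0 0 = χ̄^a` (`cc_left`), `F 0 1 0 = -χ`, `F 0 0 1 = χ`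
(`cc_prime`), all other `F a b i` vanish (`dvd_of_cc_ne_zero`).  So `G 0 b 0 = [b = 0]`,
`G a b 0 = χ̄^a χ^b` (`a ≥ 1`), `G a b 1 = [a = 0] χ^(b+1)`, `G a b i = 0` for `i ≥ 2`. -/
theorem Hv_generic (hp : Prime p) (hp0 : P0 Q p) {d' a : O} (hd : ¬ p ∣ d' * a ^ 6)
    (e : Fin 3 → ℕ) : ‖Hv (d' * a ^ 6) d' (fun j => p ^ e j)‖ ≤ 1 ∧
      (Hv (d' * a ^ 6) d' (fun j => p ^ e j) ≠ 0 →
        e = 0 ∨ (e 0 = 1 ∧ 1 ≤ e 1 ∧ e 2 = 0) ∨ (e 0 ≤ 1 ∧ e 2 = 1)) := by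
  have hχ := chi_sixth hp hp0 d' fun h => hd ((dvd_pow h (by norm_num)).mul_left d')
  have h1 := norm_chi_le hp0 d'
  have h2 : ∀ n, ‖chi p d'‖ ^ n ≤ 1 := fun n => pow_le_one₀ (norm_nonneg _) h1
  have h3 : ∀ n, ‖conj (chi p d') * chi p d' ^ n‖ ≤ 1 := fun n => by
    rw [norm_mul, RCLike.norm_conj, norm_pow, ← pow_succ']
    exact h2 _
  have h0 : e = 0 ↔ e 0 = 0 ∧ e 1 = 0 ∧ e 2 = 0 := by
    simp only [funext_iff, Fin.forall_fin_succ, Pi.zero_apply, IsEmpty.forall_iff, and_true]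
    rfl
  rw [Hv_loc hp hp0, h0]
  simp only [loc_generic hp hp0 hd hχ]
  generalize e 0 = a
  generalize e 1 = b
  generalize e 2 = i
  rcases i with _ | _ | i <;> rcases a with _ | _ | a
  · rcases b with _ | b <;> simp
  · rcases b with _ | b
    · simp
    · simpa using h3 (b + 1)
  · simp [pow_succ', mul_assoc]
  · simpa using h2 (b + 1)
  · simpa using h3 (b + 1)
  all_goals simp

theorem loc_half (hp : Prime p) (hp0 : P0 Q p) (n : ℕ) : N p ^ (-(n : ℝ) / 2) ≤ (1 / 2) ^ n := by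
  have h := four_le_N hp hp0
  refine (Real.rpow_le_rpow_of_nonpos (by norm_num) h
    (div_nonpos_of_nonpos_of_nonneg (neg_nonpos.2 n.cast_nonneg) zero_le_two)).trans_eq ?_
  rw [show (4 : ℝ) = 2 ^ (2 : ℝ) by norm_num, ← Real.rpow_mul zero_le_two, mul_div_cancel₀ _ two_ne_zero,
    Real.rpow_neg zero_le_two, Real.rpow_natCast, one_div, inv_pow]

theorem loc_maj (hp : Prime p) (d d' : O) (ε : ℝ) (e : Fin 3 → ℕ) :
    maj d d' ε (fun j => p ^ e j) = ‖Hv d d' fun j => p ^ e j‖ *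
      N p ^ (-(e 0 / 2 + e 1 * (1 / 2 + ε / 2) + e 2 * (1 / 2 + ε))) * kill d fun j => p ^ e j := by
  have hP := N_pos hp.ne_zero
  have : N p ^ (-(e 0 / 2 + e 1 * (1 / 2 + ε / 2) + e 2 * (1 / 2 + ε)) : ℝ) =
      N p ^ (e 0 * -(1 / 2) : ℝ) * N p ^ (e 1 * -(1 / 2 + ε / 2) : ℝ) *
        N p ^ (e 2 * -(1 / 2 + ε) : ℝ) := by
    rw [← Real.rpow_add hP, ← Real.rpow_add hP]
    congr 1
    ring
  simp only [maj, N_pow, ← Real.rpow_natCast_mul hP.le, this, mul_assoc]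

/-- From `Hv_generic`, with `r = P^{-(1/2+ε/2)} ≤ 1/2`: `(1,b,0)`, `b ≥ 1`: `P^{-1/2} r^b =
P^{-(1+ε/2)} r^{b-1}`; `(0,0,1)` is killed (`p ∤ d`); `(0,b,1)`, `b ≥ 1`: `r^b P^{-1/2-ε}`;
`(1,b,1)`: `P^{-1-ε} r^b`. -/
theorem maj_generic (hp : Prime p) (hp0 : P0 Q p) {d' a : O} (hd : ¬ p ∣ d' * a ^ 6) {ε : ℝ}
    (hε : 0 < ε) (e : Fin 3 → ℕ) : maj (d' * a ^ 6) d' ε (fun j => p ^ e j) ≤
      (if e = 0 then 1 else 0) + N p ^ (-(1 + ε / 2)) * box 1 e := by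
  have hP := N_pos hp.ne_zero
  obtain ⟨h1, h2⟩ := Hv_generic hp hp0 hd e
  have hb := mul_nonneg (Real.rpow_nonneg hP.le (-(1 + ε / 2))) (box_nonneg 1 e)
  have hle : maj (d' * a ^ 6) d' ε (fun j => p ^ e j) ≤
      N p ^ (-(e 0 / 2 + e 1 * (1 / 2 + ε / 2) + e 2 * (1 / 2 + ε))) := by
    rw [loc_maj hp]
    exact (mul_le_of_le_one_right (by positivity) (kill_le_one _ _)).trans
      (mul_le_of_le_one_left (by positivity) h1)
  by_cases h0 : e = 0
  · rw [if_pos h0]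
    refine hle.trans (le_add_of_le_of_nonneg ?_ hb)
    simp [h0]
  rw [if_neg h0, zero_add]
  by_cases h3 : Hv (d' * a ^ 6) d' (fun j => p ^ e j) = 0
  · rwa [loc_maj hp, h3, norm_zero, zero_mul, zero_mul]
  have h4 := (h2 h3).resolve_left h0
  by_cases h5 : e 0 = 0 ∧ e 1 = 0
  · rwa [loc_maj hp, kill, if_neg, mul_zero]
    intro h
    have := h p hp (dvd_pow_self p (by omega))
    simp only [h5.1, h5.2, pow_zero, one_mul] at this
    exact hd this
  rw [box, if_pos (by omega)]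
  refine hle.trans (le_trans ?_ (mul_le_mul_of_nonneg_left (loc_half hp hp0 _) (by positivity)))
  rw [← Real.rpow_add hP]
  refine Real.rpow_le_rpow_of_exponent_le (one_le_N hp.ne_zero) ?_
  rcases Nat.eq_zero_or_pos (e 1) with h6 | h6
  · rw [h6, show e 0 = 1 by omega, show e 2 = 1 by omega]
    norm_num
    linarith
  · have k1 : (1 : ℝ) ≤ e 1 := by exact_mod_cast h6
    have k2 : (1 : ℝ) ≤ e 0 + e 2 := by exact_mod_cast (by omega : 1 ≤ e 0 + e 2)
    rw [Nat.cast_sub h6, Nat.cast_one]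
    nlinarith [mul_nonneg (e 2).cast_nonneg hε.le]

/-- `p ∣ d`: if `b + i = 0` then `F a 0 0 = conj (chi p d)^a = [a = 0]` (`cc_left`, `chi_eq_zero`);
otherwise `cc_eq_zero_of_two_le`, `dvd_of_cc_ne_zero`. -/
theorem Fl_ne_zero (hp : Prime p) (hp0 : P0 Q p) {d : O} (hd : p ∣ d) {v : ℕ}
    (hv : ¬ p ^ (v + 1) ∣ d) {a b i : ℕ} (h : Fl d p a b i ≠ 0) :
    i ≤ 1 ∧ a ≤ 1 ∧ a ≤ b + i ∧ b ≤ v + 1 := by
  have hi : i ≤ 1 := by_contra fun h1 => h (by rw [Fl, loc_mu hp (by omega), zero_mul])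
  by_cases h0 : b + i = 0
  · obtain ⟨rfl, rfl⟩ : b = 0 ∧ i = 0 := by omega
    rw [loc_F0 hp hp0, chi_eq_zero hp hp0 hd, map_zero] at h
    have : a = 0 := by_contra fun h1 => h (zero_pow h1)
    omega
  have h1 := right_ne_zero_of_mul h
  have ha : a ≤ 1 := by_contra fun h2 => h1 (cc_eq_zero_of_two_le hp hp0 d (by omega) (by omega))
  have h2 : ¬ v + 1 ≤ a + (b + i) - 1 := fun h3 =>
    hv ((pow_dvd_pow p h3).trans (dvd_of_cc_ne_zero hp hp0 (by omega) h1))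
  omega

/-- `‖F a (b-k) i‖ ≤ P^{(a+b+i)/2+w} P^{-k/2}` (`norm_cc_le_val`), `P^{-1/2} ≤ 1/2`, and only
`k ≥ b - (v+1)` contribute: `∑_{k ≥ m} (1/2)^k ≤ 2 (1/2)^m`. -/
theorem norm_Gl_le (hp : Prime p) (hp0 : P0 Q p) {d : O} (d' : O) (hd : p ∣ d) {v w : ℕ}
    (hv : ¬ p ^ (v + 1) ∣ d) (hw : ¬ p ^ (6 * (w + 1)) ∣ d) (a b i : ℕ) :
    ‖Gl d d' p a b i‖ ≤ if a ≤ 1 ∧ i ≤ 1 then
      2 * N p ^ (((a + b + i : ℕ) : ℝ) / 2 + w) * (1 / 2) ^ (b - (v + 1)) else 0 := by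
  have hP := N_pos hp.ne_zero
  split_ifs with h
  · have key : ∀ k ∈ Finset.range (b + 1), ‖Fl d p a (b - k) i * chi p d' ^ k‖ ≤
        if b - (v + 1) ≤ k then N p ^ (((a + b + i : ℕ) : ℝ) / 2 + w) * (1 / 2) ^ k else 0 := by
      intro k hk
      have hk' : k ≤ b := Nat.lt_succ_iff.1 (Finset.mem_range.1 hk)
      split_ifs with h1
      · rw [norm_mul, norm_pow, Fl, norm_mul]
        refine (mul_le_of_le_one_right (by positivity)
          (pow_le_one₀ (norm_nonneg _) (norm_chi_le hp0 d'))).trans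
          ((mul_le_of_le_one_left (norm_nonneg _) (norm_mu_le _)).trans
            ((norm_cc_le_val hp hp0 hw _ _).trans (le_trans (le_of_eq ?_)
              (mul_le_mul_of_nonneg_left (loc_half hp hp0 k) (by positivity)))))
        rw [← Real.rpow_add hP]
        congr 1
        push_cast [Nat.cast_sub hk']
        ring
      · have : Fl d p a (b - k) i = 0 := by_contra fun h2 => by
          have := Fl_ne_zero hp hp0 hd hv h2
          omega
        rw [this, zero_mul, norm_zero]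
    refine (norm_sum_le _ _).trans ((Finset.sum_le_sum key).trans ?_)
    rw [← Finset.sum_filter, ← Finset.mul_sum, Finset.range_eq_Ico, Finset.Ico_filter_le_of_left_le
      (Nat.zero_le _), mul_comm 2, mul_assoc]
    refine mul_le_mul_of_nonneg_left
      ((geom_sum_Ico_le_of_lt_one (by norm_num) (by norm_num)).trans_eq ?_) (by positivity)
    ring
  · rw [Gl, Finset.sum_eq_zero fun k _ => ?_, norm_zero]
    have : Fl d p a (b - k) i = 0 := by_contra fun h2 => by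
      have := Fl_ne_zero hp hp0 hd hv h2
      omega
    rw [this, zero_mul]

/-- `Hv_loc`, `norm_Gl_le`, `kill_le_one` -/
theorem maj_dvd (hp : Prime p) (hp0 : P0 Q p) {d : O} (d' : O) (hd : p ∣ d) {v w : ℕ}
    (hv : ¬ p ^ (v + 1) ∣ d) (hw : ¬ p ^ (6 * (w + 1)) ∣ d) {ε : ℝ} (hε : 0 < ε)
    (e : Fin 3 → ℕ) : maj d d' ε (fun j => p ^ e j) ≤ 4 * N p ^ w * box (v + 1) e := by
  have hP := N_pos hp.ne_zero
  have h1 := one_le_N hp.ne_zero
  have hG : ∀ a ≤ e 0, e 0 ≤ a + 1 → ‖Gl d d' p a (e 1) (e 2)‖ ≤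
      2 * N p ^ (((e 0 + e 1 + e 2 : ℕ) : ℝ) / 2 + w) * box (v + 1) e := fun a k1 k2 => by
    refine (norm_Gl_le hp hp0 d' hd hv hw _ _ _).trans ?_
    split_ifs with h
    · rw [box, if_pos (by omega)]
      gcongr
    · exact mul_nonneg (by positivity) (box_nonneg _ _)
  have hH : ‖Hv d d' fun j => p ^ e j‖ ≤
      4 * N p ^ (((e 0 + e 1 + e 2 : ℕ) : ℝ) / 2 + w) * box (v + 1) e := by
    have k1 := hG _ le_rfl (Nat.le_succ _)
    have k2 := hG (e 0 - 1) (Nat.sub_le _ _) (by omega)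
    rw [Hv_loc hp hp0]
    refine (norm_sub_le _ _).trans ?_
    split_ifs
    · rw [norm_mul, RCLike.norm_conj]
      linarith [mul_le_of_le_one_left (norm_nonneg (Gl d d' p (e 0 - 1) (e 1) (e 2)))
        (norm_chi_le hp0 d')]
    · rw [norm_zero]
      linarith [norm_nonneg (Gl d d' p (e 0 - 1) (e 1) (e 2))]
  rw [loc_maj hp]
  refine (mul_le_of_le_one_right (by positivity) (kill_le_one _ _)).trans
    ((mul_le_mul_of_nonneg_right hH (by positivity)).trans ?_)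
  rw [mul_right_comm, mul_assoc 4, ← Real.rpow_add hP, ← Real.rpow_natCast]
  refine mul_le_mul_of_nonneg_right (mul_le_mul_of_nonneg_left
    (Real.rpow_le_rpow_of_exponent_le h1 ?_) (by norm_num)) (box_nonneg _ _)
  push_cast
  nlinarith [mul_nonneg (e 2).cast_nonneg hε.le, mul_nonneg (e 1).cast_nonneg hε.le]

/-- `p ∤ d`: `Hv_generic`.  `p ∣ d` (`d ≠ 0`, so some `v` as in `Fl_ne_zero` exists):
`G a b i ≠ 0 → a ≤ b + i`; the second term of `Hv_loc` needs `χ ≠ 0`, i.e. `p ∤ d'`, so `p ∣ a`. -/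
theorem Hv_supp_loc (hp : Prime p) (hp0 : P0 Q p) {d' a : O} (hd : d' * a ^ 6 ≠ 0) {e : Fin 3 → ℕ}
    (h : Hv (d' * a ^ 6) d' (fun j => p ^ e j) ≠ 0) : p ^ e 0 ∣ p ^ e 1 * p ^ e 2 * a := by
  rw [← pow_add]
  by_cases h1 : p ∣ d' * a ^ 6
  · obtain ⟨v, hv⟩ := FiniteMultiplicity.of_prime_left hp hd
    have hG : ∀ n, Gl (d' * a ^ 6) d' p n (e 1) (e 2) ≠ 0 → n ≤ e 1 + e 2 := fun n hn => by
      obtain ⟨k, -, hk⟩ := Finset.exists_ne_zero_of_sum_ne_zero hn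
      have := Fl_ne_zero hp hp0 h1 hv (left_ne_zero_of_mul hk)
      omega
    rw [Hv_loc hp hp0] at h
    by_cases h2 : Gl (d' * a ^ 6) d' p (e 0) (e 1) (e 2) = 0
    · rw [h2, zero_sub, neg_ne_zero] at h
      split_ifs at h with h3
      · have h4 : p ∣ a := hp.dvd_of_dvd_pow ((hp.dvd_or_dvd h1).resolve_left fun h5 =>
          h (by rw [chi_eq_zero hp hp0 h5, map_zero, zero_mul]))
        rw [← Nat.sub_add_cancel h3, pow_succ]
        exact mul_dvd_mul (pow_dvd_pow p (hG _ (right_ne_zero_of_mul h))) h4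
      · exact absurd rfl h
    · exact (pow_dvd_pow p (hG _ h2)).mul_right a
  · refine (pow_dvd_pow p ?_).mul_right a
    rcases (Hv_generic hp hp0 h1 e).2 h with h2 | h2 | h2
    · simp [h2]
    all_goals omega

end Crest.Agent.R17.H2
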