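import Crest.Agent.R17.High2_Mul
import Crest.Agent.R17.High2_Loc

/-!
# R17 / High2_Euler : support of `Hv` and the Euler product bound
-/

set_option autoImplicit false

noncomputable section

open scoped Classical ComplexConjugate

namespace Crest.Agent.R17.H2

theorem eul_geom (m B : ℕ) : ∑ b ∈ Finset.range B, (1 / 2 : ℝ) ^ (b - m) + 2 * (1 / 2) ^ (B - m) ≤
    (min B m : ℕ) + 2 := by
  induction B with
  | zero => simp
  | succ B ih =>
    rw [Finset.sum_range_succ]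
    rcases lt_or_ge B m with h | h
    · rw [min_eq_left h.le, show B - m = 0 by omega] at ih
      rw [min_eq_left (by omega : B + 1 ≤ m), show B - m = 0 by omega, show B + 1 - m = 0 by omega]
      push_cast
      linarith
    · rw [min_eq_right h] at ih
      rw [min_eq_right (by omega : m ≤ B + 1), show B + 1 - m = B - m + 1 by omega, pow_succ]
      linarith

/-- `∑_b (1/2)^(b-m) = m + 2`; embed `E` in `range 3 ×ˢ range B ×ˢ range 2` -/
theorem sum_box_le (m : ℕ) (E : Finset (Fin 3 → ℕ)) : ∑ e ∈ E, box m e ≤ 6 * (m + 2) := by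
  set B := E.sup (fun e => e 1) + 1 with hB
  set φ : (Fin 3 → ℕ) → ℕ × ℕ × ℕ := fun e => (e 0, e 1, e 2) with hφ
  have hinj : Function.Injective φ := by
    intro e e' h
    simp only [hφ, Prod.mk.injEq] at h
    funext i
    fin_cases i
    exacts [h.1, h.2.1, h.2.2]
  have h1 : ∑ e ∈ E, box m e =
      ∑ x ∈ (E.filter fun e => e 0 ≤ 2 ∧ e 2 ≤ 1).image φ, (1 / 2 : ℝ) ^ (x.2.1 - m) := by
    rw [Finset.sum_image fun a _ b _ h => hinj h, Finset.sum_filter]
    rfl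
  have h2 : (E.filter fun e => e 0 ≤ 2 ∧ e 2 ≤ 1).image φ ⊆
      Finset.range 3 ×ˢ (Finset.range B ×ˢ Finset.range 2) := by
    intro x hx
    obtain ⟨e, he, rfl⟩ := Finset.mem_image.1 hx
    obtain ⟨he, h0, h2⟩ := Finset.mem_filter.1 he
    have : e 1 ≤ E.sup (fun e => e 1) := Finset.le_sup (f := fun e : Fin 3 → ℕ => e 1) he
    simp only [hφ, Finset.mem_product, Finset.mem_range]
    omega
  rw [h1]
  refine (Finset.sum_le_sum_of_subset_of_nonneg h2 fun _ _ _ => by positivity).trans ?_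
  simp only [Finset.sum_product, Finset.sum_const, Finset.card_range, nsmul_eq_mul]
  rw [← Finset.mul_sum]
  have h3 := eul_geom m B
  have h4 : ((min B m : ℕ) : ℝ) ≤ m := by exact_mod_cast min_le_right B m
  have h5 : (0 : ℝ) ≤ 2 * (1 / 2) ^ (B - m) := by positivity
  push_cast at *
  linarith

/-- `P0v.induction`, `tmul_Hv`, `Hv_supp_loc`, `IsCoprime.mul_dvd` -/
theorem Hv_supp {Q : Lev} {d' a : O} (hd : d' * a ^ 6 ≠ 0) {v : Fin 3 → O} (hv : P0v Q v)
    (h : Hv (d' * a ^ 6) d' v ≠ 0) : v 0 ∣ v 1 * v 2 * a := by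
  revert h
  refine P0v.induction (P := fun v : Fin 3 → O => Hv (d' * a ^ 6) d' v ≠ 0 → v 0 ∣ v 1 * v 2 * a)
    (fun _ => one_dvd _) ?_ hv
  intro p e w hp hp0 hw hpw ih h
  have hco : IsCoprime (∏ i, p ^ e i) (∏ i, w i) :=
    IsCoprime.prod_left fun i _ => IsCoprime.prod_right fun j _ =>
      (hp.coprime_iff_not_dvd.2 (hpw j)).pow_left
  rw [(tmul_Hv Q _ d').2 _ w (fun i => P0_pow hp0 _) hw hco] at h
  have h1 := Hv_supp_loc hp hp0 hd (left_ne_zero_of_mul h)
  have h2 := ih (right_ne_zero_of_mul h)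
  simp only [Pi.mul_apply]
  refine IsCoprime.mul_dvd (hp.coprime_iff_not_dvd.2 (hpw 0)).pow_left (h1.trans ?_) (h2.trans ?_)
  · exact ⟨w 1 * w 2, by ring⟩
  · exact ⟨p ^ e 1 * p ^ e 2, by ring⟩

theorem eul_prod {a : O} (ha : a ≠ 0) (T : Finset O) (hT : ∀ p ∈ T, Prime p ∧ Prim p) :
    ∏ p ∈ T, N p ^ multiplicity p a ≤ N a := by
  have h : ∏ p ∈ T, p ^ multiplicity p a ∣ a := by
    refine Finset.prod_dvd_of_coprime ?_ fun p _ => pow_multiplicity_dvd p a
    intro p hp q hq hne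
    refine IsCoprime.pow ((hT p hp).1.coprime_iff_not_dvd.2 fun h => hne ?_)
    exact (hT p hp).2.eq_of_associated (hT q hq).2 ((hT p hp).1.associated_of_dvd (hT q hq).1 h)
  have h2 := N_le_of_dvd ha h
  rwa [N_prod, Finset.prod_congr rfl fun p _ => N_pow p _] at h2

theorem eul_two_le {p : O} (hp : Prime p) : 2 ≤ N p := by
  have h0 := nm_pos hp.ne_zero
  have h1 : nm p ≠ 1 := fun h => hp.not_isUnit (isUnit_iff_nm.2 h)
  have : 2 ≤ nm p := by omega
  unfold N
  exact_mod_cast this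

/-- For `v = multiplicity p d`: `24 (v+3) ≤ K 2^{δ v} ≤ K N(p)^{δ v}` with `δ = ε/2`, so the product
is `≤ K^{ω(d)} N(∏ p^v)^δ` (`pow_card_primes_le`, `Finset.prod_dvd_of_coprime`, `N_le_of_dvd`). -/
theorem prod_val_le {ε : ℝ} (hε : 0 < ε) : ∃ C, ∀ d : O, d ≠ 0 → ∀ T : Finset O,
    (∀ p ∈ T, Prime p ∧ Prim p ∧ p ∣ d) →
    ∏ p ∈ T, (24 * ((multiplicity p d : ℝ) + 3)) ≤ C * N d ^ ε := by
  set δ := ε / 2 with hδ
  have hδ0 : 0 < δ := by positivity
  set c := δ * Real.log 2 with hc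
  have hc0 : 0 < c := mul_pos hδ0 (Real.log_pos one_lt_two)
  set K := 24 * (3 + 1 / c) with hK
  have hK1 : 1 ≤ K := by
    have : 0 < 1 / c := by positivity
    linarith
  obtain ⟨C, hC⟩ := pow_card_primes_le K hδ0
  refine ⟨C, fun d hd T hT => ?_⟩
  have h1 : ∀ p ∈ T, 24 * ((multiplicity p d : ℝ) + 3) ≤ K * (N p ^ multiplicity p d) ^ δ := by
    intro p hp
    set v := multiplicity p d
    have h2 : ((2 : ℝ) ^ v) ^ δ ≤ (N p ^ v) ^ δ :=
      Real.rpow_le_rpow (by positivity) (pow_le_pow_left₀ zero_le_two (eul_two_le (hT p hp).1) v)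
        hδ0.le
    have h3 : 1 + c * v ≤ ((2 : ℝ) ^ v) ^ δ := by
      rw [Real.rpow_def_of_pos (by positivity), Real.log_pow]
      have := Real.add_one_le_exp (v * Real.log 2 * δ)
      rw [hc]
      linarith
    have h4 : 24 * ((v : ℝ) + 3) ≤ K * (1 + c * v) := by
      have h5 : K * (1 + c * v) = 24 * ((v : ℝ) + 3) + 24 * (1 / c + 3 * c * v) := by
        rw [hK]; field_simp; ring
      have : 0 ≤ 24 * (1 / c + 3 * c * v) := by positivity
      linarith
    exact h4.trans (mul_le_mul_of_nonneg_left (h3.trans h2) (by linarith))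
  have hN := N_pos hd
  have h2 : K ^ T.card ≤ C * N d ^ δ := by
    refine le_trans (pow_le_pow_right₀ hK1 (Finset.card_le_card fun p hp => ?_)) (hC d hd)
    exact Finset.mem_filter.2 ⟨(mem_pdiv hd).2 (hT p hp).2, (hT p hp).1⟩
  have h3 : ∏ p ∈ T, (N p ^ multiplicity p d) ^ δ ≤ N d ^ δ := by
    rw [Real.finsetProd_rpow _ _ fun p _ => pow_nonneg (N_nonneg p) _]
    exact Real.rpow_le_rpow (Finset.prod_nonneg fun p _ => pow_nonneg (N_nonneg p) _)
      (eul_prod hd T fun p hp => ⟨(hT p hp).1, (hT p hp).2.1⟩) hδ0.le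
  calc ∏ p ∈ T, (24 * ((multiplicity p d : ℝ) + 3))
      ≤ ∏ p ∈ T, K * (N p ^ multiplicity p d) ^ δ :=
        Finset.prod_le_prod (fun _ _ => by positivity) h1
    _ = K ^ T.card * ∏ p ∈ T, (N p ^ multiplicity p d) ^ δ := by
        rw [Finset.prod_mul_distrib, Finset.prod_const]
    _ ≤ (C * N d ^ δ) * N d ^ δ :=
        mul_le_mul h2 h3 (Finset.prod_nonneg fun p _ =>
          Real.rpow_nonneg (pow_nonneg (N_nonneg p) _) _) (le_trans (by positivity) h2)
    _ = C * N d ^ ε := by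
        rw [mul_assoc, ← Real.rpow_add hN, hδ, add_halves]

/-- `∏ p^{v_p(a)} ∣ a` -/
theorem prod_N_pow_le {a : O} (ha : a ≠ 0) (T : Finset O) (hT : ∀ p ∈ T, Prime p ∧ Prim p) :
    ∏ p ∈ T, N p ^ multiplicity p a ≤ N a := eul_prod ha T hT

theorem eul_not_dvd {p d' a : O} (hp : Prime p) (ha : a ≠ 0) (h6 : ¬ p ^ 6 ∣ d') :
    ¬ p ^ (6 * (multiplicity p a + 1)) ∣ d' * a ^ 6 := by
  obtain ⟨b, hb, hpb⟩ := (FiniteMultiplicity.of_prime_left hp ha).exists_eq_pow_mul_and_not_dvd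
  set w := multiplicity p a
  intro h
  have h1 : d' * a ^ 6 = p ^ (6 * w) * (d' * b ^ 6) := by rw [hb]; ring
  rw [h1, show 6 * (w + 1) = 6 * w + 6 by ring, pow_add,
    mul_dvd_mul_iff_left (pow_ne_zero _ hp.ne_zero)] at h
  exact h6 ((IsCoprime.pow (hp.coprime_iff_not_dvd.2 hpb)).dvd_of_dvd_mul_right h)

/-- `TMul.tsum_le` for `maj` with `T₀ = (pdiv d).filter (Prime p ∧ P0 Q p)`,
`c p = 18 N(p)^{-(1+ε/2)}` (`maj_generic`, `sum_box_le 1`, `summable_N_rpow`), and on `T₀`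
`g p = 24 (v+3) N(p)^w` with `v = multiplicity p d`, `w = multiplicity p a` (`maj_dvd`,
`sum_box_le (v+1)`; `p^{6(w+1)} ∤ d' a⁶` since `p⁶ ∤ d'`; take `g p = 1` off `T₀`); then
`prod_val_le`, `prod_N_pow_le`, `Summable.sum_le_tsum`. -/
theorem sum_maj_le {ε : ℝ} (hε : 0 < ε) : ∃ C, 0 ≤ C ∧ ∀ (Q : Lev) (d' a : O), d' ≠ 0 → P0 Q a →
    (∀ p, Prime p → ¬ p ∣ Q.q → ¬ p ^ 6 ∣ d') → ∀ S : Finset (Fin 3 → O), (∀ v ∈ S, P0v Q v) →
    ∑ v ∈ S, maj (d' * a ^ 6) d' ε v ≤ C * N (d' * a ^ 6) ^ ε * N a := by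
  obtain ⟨C, hC⟩ := prod_val_le hε
  have hsum := summable_N_rpow (σ := 1 + ε / 2) (by linarith)
  set M := 18 * ∑' n : O, N n ^ (-(1 + ε / 2)) with hM
  refine ⟨Real.exp M * max C 0, by positivity, fun Q d' a hd' ha h6 S hS => ?_⟩
  have ha0 : a ≠ 0 := ha.1.ne_zero
  set d := d' * a ^ 6 with hd
  have hd0 : d ≠ 0 := mul_ne_zero hd' (pow_ne_zero _ ha0)
  set T0 := (pdiv d).filter (fun p => Prime p ∧ P0 Q p) with hT0
  have hmem : ∀ p, Prime p → P0 Q p → (p ∈ T0 ↔ p ∣ d) := fun p hp hp0 => by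
    rw [hT0, Finset.mem_filter, mem_pdiv hd0]
    exact ⟨fun h => h.1.2, fun h => ⟨⟨hp0.1, h⟩, hp, hp0⟩⟩
  set g : O → ℝ := fun p =>
    if p ∈ T0 then 24 * ((multiplicity p d : ℝ) + 3) * N p ^ multiplicity p a else 1 with hg
  have hg1 : ∀ p, 1 ≤ g p := by
    intro p
    simp only [hg]
    split_ifs with h
    · have h1 : 1 ≤ N p ^ multiplicity p a :=
        one_le_pow₀ (one_le_N (Finset.mem_filter.1 h).2.1.ne_zero)
      have h2 : (0 : ℝ) ≤ multiplicity p d := Nat.cast_nonneg _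
      nlinarith
    · exact le_rfl
  have hc0 : ∀ p : O, 0 ≤ 18 * N p ^ (-(1 + ε / 2)) := fun p =>
    mul_nonneg (by norm_num) (Real.rpow_nonneg (N_nonneg p) _)
  obtain ⟨hs, hle⟩ := (tmul_maj Q d d' ε).tsum_le (fun v _ => maj_nonneg d d' ε v)
    (c := fun p => 18 * N p ^ (-(1 + ε / 2))) (g := g) (M := M) T0 hc0 hg1
    (fun T _ => by
      rw [← Finset.mul_sum, hM]
      exact mul_le_mul_of_nonneg_left
        (hsum.sum_le_tsum T fun p _ => Real.rpow_nonneg (N_nonneg p) _) (by norm_num))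
    (fun p hp hp0 E => by
      by_cases hpd : p ∣ d
      · have hp' := (hmem p hp hp0).2 hpd
        rw [if_pos hp']
        have hv : ¬ p ^ (multiplicity p d + 1) ∣ d :=
          (FiniteMultiplicity.of_prime_left hp hd0).not_pow_dvd_of_multiplicity_lt (by omega)
        have hw := eul_not_dvd hp ha0 (h6 p hp (hp.coprime_iff_not_dvd.1 hp0.2))
        have h1 := Finset.sum_le_sum (s := E) fun e _ => maj_dvd hp hp0 d' hpd hv hw hε e
        rw [← Finset.mul_sum] at h1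
        have h2 := mul_le_mul_of_nonneg_left (sum_box_le (multiplicity p d + 1) E)
          (show 0 ≤ 4 * N p ^ multiplicity p a from
            mul_nonneg (by norm_num) (pow_nonneg (N_nonneg p) _))
        have h3 : g p = 24 * ((multiplicity p d : ℝ) + 3) * N p ^ multiplicity p a := by
          simp only [hg, if_pos hp']
        have h4 := mul_nonneg (hc0 p) (le_trans zero_le_one (hg1 p))
        push_cast at h2
        nlinarith
      · rw [if_neg fun h => hpd ((hmem p hp hp0).1 h), mul_one]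
        have h1 := Finset.sum_le_sum (s := E) fun e _ => maj_generic hp hp0 hpd hε e
        rw [Finset.sum_add_distrib, ← Finset.mul_sum, Finset.sum_ite_eq'] at h1
        have h2 := mul_le_mul_of_nonneg_left (sum_box_le 1 E)
          (Real.rpow_nonneg (N_nonneg p) (-(1 + ε / 2)))
        have h3 : (if (0 : Fin 3 → ℕ) ∈ E then (1 : ℝ) else 0) ≤ 1 := by split_ifs <;> norm_num
        push_cast at h2
        linarith)
  have h1 : ∑ v ∈ S, maj d d' ε v = ∑ v ∈ S, if P0v Q v then maj d d' ε v else 0 :=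
    Finset.sum_congr rfl fun v hv => by rw [if_pos (hS v hv)]
  have h2 := hs.sum_le_tsum S fun v _ => by
    split_ifs
    exacts [maj_nonneg d d' ε v, le_rfl]
  have h3 : ∏ p ∈ T0, g p =
      (∏ p ∈ T0, (24 * ((multiplicity p d : ℝ) + 3))) * ∏ p ∈ T0, N p ^ multiplicity p a := by
    rw [← Finset.prod_mul_distrib]
    exact Finset.prod_congr rfl fun p hp => by simp only [hg, if_pos hp]
  have hT : ∀ p ∈ T0, Prime p ∧ Prim p ∧ p ∣ d := fun p hp => by
    obtain ⟨-, h4, h5⟩ := Finset.mem_filter.1 hp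
    exact ⟨h4, h5.1, (hmem p h4 h5).1 hp⟩
  have hNd : 0 ≤ N d ^ ε := Real.rpow_nonneg (N_nonneg d) _
  have h4 : ∏ p ∈ T0, g p ≤ max C 0 * N d ^ ε * N a := by
    rw [h3]
    refine mul_le_mul ((hC d hd0 T0 hT).trans (mul_le_mul_of_nonneg_right (le_max_left _ _) hNd))
      (prod_N_pow_le ha0 T0 fun p hp => ⟨(hT p hp).1, (hT p hp).2.1⟩)
      (Finset.prod_nonneg fun p _ => pow_nonneg (N_nonneg p) _) (by positivity)
  calc ∑ v ∈ S, maj d d' ε v ≤ Real.exp M * ∏ p ∈ T0, g p := by rw [h1]; exact h2.trans hle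
    _ ≤ Real.exp M * (max C 0 * N d ^ ε * N a) :=
        mul_le_mul_of_nonneg_left h4 (Real.exp_pos _).le
    _ = _ := by ring

end Crest.Agent.R17.H2
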