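import Crest.Agent.R17.High2_Mul

/-!
# R17 / High2_Fac : factorisation of `Rs`
-/

set_option autoImplicit false

noncomputable section

open scoped Classical ComplexConjugate

namespace Crest.Agent.R17.H2

theorem fc_pow_le {n : O} (hn : n ≠ 0) {j : ℕ} (hj : j ≤ 4) :
    N n ^ j * N n ^ (-6 : ℝ) ≤ N n ^ (-2 : ℝ) := by
  rw [← Real.rpow_natCast, ← Real.rpow_add (N_pos hn)]
  refine Real.rpow_le_rpow_of_exponent_le (one_le_N hn) ?_
  have : (j : ℝ) ≤ 4 := by exact_mod_cast hj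
  linarith

theorem fc_sum2 : Summable (fun n : O => N n ^ (-2 : ℝ)) := summable_N_rpow (σ := 2) one_lt_two

theorem fc_sum22 (C : ℝ) :
    Summable (fun x : O × O => C * (N x.1 ^ (-2 : ℝ) * N x.2 ^ (-2 : ℝ))) :=
  (fc_sum2.mul_of_nonneg fc_sum2 (fun n => Real.rpow_nonneg (N_nonneg n) _)
    (fun n => Real.rpow_nonneg (N_nonneg n) _)).mul_left C

theorem fc_K_nonneg {Q : Lev} {W : O → ℂ} {K : ℝ}
    (hW : ∀ n, P0 Q n → ‖W n‖ ≤ K * N n ^ (-6 : ℝ)) : 0 ≤ K := by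
  have h := (norm_nonneg _).trans (hW 1 (P0.one Q))
  exact nonneg_of_mul_nonneg_left h (Real.rpow_pos_of_pos (N_pos one_ne_zero) _)

theorem fc_term {Q : Lev} {f W : O → ℂ} {K : ℝ} (hf : ∀ e, P0 Q e → ‖f e‖ ≤ 1)
    (hW : ∀ n, P0 Q n → ‖W n‖ ≤ K * N n ^ (-6 : ℝ)) {h e : O} (hh : P0 Q h) (he : P0 Q e) :
    ‖f e * W (h * e)‖ ≤ K * N h ^ (-6 : ℝ) * N e ^ (-2 : ℝ) := by
  have hK := fc_K_nonneg hW
  rw [norm_mul]
  refine (mul_le_of_le_one_left (norm_nonneg _) (hf e he)).trans ((hW _ (hh.mul he)).trans ?_)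
  rw [N_mul, Real.mul_rpow (N_nonneg _) (N_nonneg _), ← mul_assoc]
  exact mul_le_mul_of_nonneg_left
    (Real.rpow_le_rpow_of_exponent_le (one_le_N he.1.ne_zero) (by norm_num))
    (mul_nonneg hK (Real.rpow_nonneg (N_nonneg _) _))

theorem fc_inner {Q : Lev} {f W : O → ℂ} {K : ℝ} (hf : ∀ e, P0 Q e → ‖f e‖ ≤ 1)
    (hW : ∀ n, P0 Q n → ‖W n‖ ≤ K * N n ^ (-6 : ℝ)) {h : O} (hh : P0 Q h) :
    ‖∑' e : O, if P0 Q e then f e * W (h * e) else 0‖ ≤
      (K * ∑' e : O, N e ^ (-2 : ℝ)) * N h ^ (-6 : ℝ) := by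
  have hK := fc_K_nonneg hW
  have h1 := tsum_of_norm_bounded
    (f := fun e : O => if P0 Q e then f e * W (h * e) else 0)
    (fc_sum2.hasSum.mul_left (K * N h ^ (-6 : ℝ))) (fun e => by
      by_cases he : P0 Q e
      · rw [if_pos he]; exact fc_term hf hW hh he
      · rw [if_neg he, norm_zero]
        exact mul_nonneg (mul_nonneg hK (Real.rpow_nonneg (N_nonneg _) _))
          (Real.rpow_nonneg (N_nonneg _) _))
  refine h1.trans (le_of_eq ?_)
  ring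

theorem fc_conv {Q : Lev} {g f W : O → ℂ} {C K : ℝ}
    (hg : ∀ h, P0 Q h → ‖g h‖ ≤ C * N h ^ 2) (hf : ∀ e, P0 Q e → ‖f e‖ ≤ 1)
    (hW : ∀ n, P0 Q n → ‖W n‖ ≤ K * N n ^ (-6 : ℝ)) :
    ∑' n : O, (if P0 Q n then (∑ e ∈ pdiv n, g (n / e) * f e) * W n else 0) =
      ∑' h : O, if P0 Q h then g h * ∑' e : O, (if P0 Q e then f e * W (h * e) else 0) else 0 := by
  have hK := fc_K_nonneg hW
  have hC : 0 ≤ C := by
    have h := (norm_nonneg _).trans (hg 1 (P0.one Q))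
    exact nonneg_of_mul_nonneg_left h (pow_pos (N_pos one_ne_zero) _)
  have key := tsum_conv1 Q (f := f) (W := fun h n => g h * W n) (by
    refine Summable.of_nonneg_of_le (fun x => by split_ifs <;> positivity) (fun x => ?_)
      (fc_sum22 (C * K))
    have p1 := Real.rpow_nonneg (N_nonneg x.1) (-2 : ℝ)
    have p2 := Real.rpow_nonneg (N_nonneg x.2) (-2 : ℝ)
    split_ifs with hx
    · rw [mul_left_comm, norm_mul]
      refine (mul_le_mul (hg _ hx.1) (fc_term hf hW hx.1 hx.2) (norm_nonneg _)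
        (mul_nonneg hC (sq_nonneg _))).trans ?_
      have h2 := fc_pow_le hx.1.1.ne_zero (j := 2) (by norm_num)
      calc C * N x.1 ^ 2 * (K * N x.1 ^ (-6 : ℝ) * N x.2 ^ (-2 : ℝ))
          = C * K * (N x.1 ^ 2 * N x.1 ^ (-6 : ℝ) * N x.2 ^ (-2 : ℝ)) := by ring
        _ ≤ _ := mul_le_mul_of_nonneg_left (mul_le_mul_of_nonneg_right h2 p2) (mul_nonneg hC hK)
    · positivity)
  convert key using 3 with n h
  · rw [Finset.sum_mul]
    refine if_congr Iff.rfl (Finset.sum_congr rfl fun e _ => by ring) rfl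
  · rw [← tsum_mul_left]
    refine if_congr Iff.rfl (tsum_congr fun e => ?_) rfl
    split_ifs
    · ring
    · rw [mul_zero]

/-- Two applications of `tsum_conv1` (first in `n` for fixed `l`, then, after `Summable.tsum_comm`,
in `l` for fixed `h₂`).  All summability statements follow from `summable_N_rpow` (`σ = 2`):
`N(h)^j ‖W(h e)‖ ≤ K N(h)^{-2} N(e)^{-2}` for `j ≤ 4`, the inner sums are `≤ K' N(h)^{-6}`, and
`‖∑_{e ∣ l} H (l/e) h₂ f₀ e‖ ≤ K N(l)³ N(h₂)²` (`card_pdiv_le_N`, `P0_div`). -/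
theorem fac2 (Q : Lev) {H : O → O → ℂ} {f0 f1 W0 W1 : O → ℂ} {K : ℝ}
    (hH : ∀ h1 h2, P0 Q h1 → P0 Q h2 → ‖H h1 h2‖ ≤ K * N h1 ^ 2 * N h2 ^ 2)
    (hf0 : ∀ e, P0 Q e → ‖f0 e‖ ≤ 1) (hf1 : ∀ e, P0 Q e → ‖f1 e‖ ≤ 1)
    (hW0 : ∀ n, P0 Q n → ‖W0 n‖ ≤ K * N n ^ (-6 : ℝ))
    (hW1 : ∀ n, P0 Q n → ‖W1 n‖ ≤ K * N n ^ (-6 : ℝ)) :
    HasSum (fun h : O × O => if P0 Q h.1 ∧ P0 Q h.2 then
        H h.1 h.2 * (∑' e : O, if P0 Q e then f0 e * W0 (h.1 * e) else 0) *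
          (∑' e : O, if P0 Q e then f1 e * W1 (h.2 * e) else 0) else 0)
      (∑' l : O, ∑' n : O, if P0 Q l ∧ P0 Q n then
        (∑ e0 ∈ pdiv l, (∑ e1 ∈ pdiv n, H (l / e0) (n / e1) * f1 e1) * f0 e0) * W0 l * W1 n
        else 0) := by
  have hK := fc_K_nonneg hW0
  set S : ℝ := ∑' e : O, N e ^ (-2 : ℝ) with hS
  have hS0 : 0 ≤ S := tsum_nonneg fun e => Real.rpow_nonneg (N_nonneg _) _
  set A0 : O → ℂ := fun h => ∑' e : O, if P0 Q e then f0 e * W0 (h * e) else 0 with hA0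
  set A1 : O → ℂ := fun h => ∑' e : O, if P0 Q e then f1 e * W1 (h * e) else 0 with hA1
  have bA0 : ∀ h, P0 Q h → ‖A0 h‖ ≤ (K * S) * N h ^ (-6 : ℝ) := fun h hh => fc_inner hf0 hW0 hh
  have bA1 : ∀ h, P0 Q h → ‖A1 h‖ ≤ (K * S) * N h ^ (-6 : ℝ) := fun h hh => fc_inner hf1 hW1 hh
  set G : O → O → ℂ := fun l h => ∑ e0 ∈ pdiv l, H (l / e0) h * f0 e0 with hG
  have bG : ∀ l h, P0 Q l → P0 Q h → ‖G l h‖ ≤ K * N l ^ 3 * N h ^ 2 := by
    intro l h hl hh
    have hNl := N_nonneg l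
    refine (norm_sum_le _ _).trans
      ((Finset.sum_le_card_nsmul _ _ (K * N l ^ 2 * N h ^ 2) (fun e he => ?_)).trans ?_)
    · obtain ⟨c1, c2, c3⟩ := e4_P0_div hl he
      rw [norm_mul]
      refine (mul_le_of_le_one_right (norm_nonneg _) (hf0 e c1)).trans ((hH _ _ c2 hh).trans ?_)
      have d1 : N (l / e) ≤ N l := N_le_of_dvd hl.1.ne_zero (Dvd.intro_left _ c3.symm)
      exact mul_le_mul_of_nonneg_right
        (mul_le_mul_of_nonneg_left (pow_le_pow_left₀ (N_nonneg _) d1 2) hK) (sq_nonneg _)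
    · rw [nsmul_eq_mul]
      refine (mul_le_mul_of_nonneg_right (card_pdiv_le_N hl.1.ne_zero) (by positivity)).trans
        (le_of_eq ?_)
      ring
  -- the two summable double families
  have sF : Summable (fun h : O × O => if P0 Q h.1 ∧ P0 Q h.2 then
      H h.1 h.2 * A0 h.1 * A1 h.2 else 0) := by
    refine Summable.of_norm_bounded (fc_sum22 (K * (K * S) * (K * S))) fun x => ?_
    have p1 := Real.rpow_nonneg (N_nonneg x.1) (-2 : ℝ)
    have p2 := Real.rpow_nonneg (N_nonneg x.2) (-2 : ℝ)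
    have q1 := Real.rpow_nonneg (N_nonneg x.1) (-6 : ℝ)
    have q2 := Real.rpow_nonneg (N_nonneg x.2) (-6 : ℝ)
    split_ifs with hx
    · rw [norm_mul, norm_mul]
      refine (mul_le_mul (mul_le_mul (hH _ _ hx.1 hx.2) (bA0 _ hx.1) (norm_nonneg _)
        (by positivity)) (bA1 _ hx.2) (norm_nonneg _) (by positivity)).trans ?_
      have h1 := fc_pow_le hx.1.1.ne_zero (j := 2) (by norm_num)
      have h2 := fc_pow_le hx.2.1.ne_zero (j := 2) (by norm_num)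
      calc K * N x.1 ^ 2 * N x.2 ^ 2 * (K * S * N x.1 ^ (-6 : ℝ)) * (K * S * N x.2 ^ (-6 : ℝ))
          = K * (K * S) * (K * S) *
            ((N x.1 ^ 2 * N x.1 ^ (-6 : ℝ)) * (N x.2 ^ 2 * N x.2 ^ (-6 : ℝ))) := by ring
        _ ≤ _ := mul_le_mul_of_nonneg_left (mul_le_mul h1 h2 (by positivity) p1) (by positivity)
    · rw [norm_zero]; positivity
  have sT : Summable (Function.uncurry fun l h : O => if P0 Q l ∧ P0 Q h then
      G l h * W0 l * A1 h else 0) := by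
    refine Summable.of_norm_bounded (fc_sum22 (K * K * (K * S))) fun x => ?_
    have p1 := Real.rpow_nonneg (N_nonneg x.1) (-2 : ℝ)
    have p2 := Real.rpow_nonneg (N_nonneg x.2) (-2 : ℝ)
    have q1 := Real.rpow_nonneg (N_nonneg x.1) (-6 : ℝ)
    have q2 := Real.rpow_nonneg (N_nonneg x.2) (-6 : ℝ)
    have r1 := N_nonneg x.1
    change ‖if P0 Q x.1 ∧ P0 Q x.2 then G x.1 x.2 * W0 x.1 * A1 x.2 else 0‖ ≤ _
    split_ifs with hx
    · rw [norm_mul, norm_mul]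
      refine (mul_le_mul (mul_le_mul (bG _ _ hx.1 hx.2) (hW0 _ hx.1) (norm_nonneg _)
        (by positivity)) (bA1 _ hx.2) (norm_nonneg _) (by positivity)).trans ?_
      have h1 := fc_pow_le hx.1.1.ne_zero (j := 3) (by norm_num)
      have h2 := fc_pow_le hx.2.1.ne_zero (j := 2) (by norm_num)
      calc K * N x.1 ^ 3 * N x.2 ^ 2 * (K * N x.1 ^ (-6 : ℝ)) * (K * S * N x.2 ^ (-6 : ℝ))
          = K * K * (K * S) *
            ((N x.1 ^ 3 * N x.1 ^ (-6 : ℝ)) * (N x.2 ^ 2 * N x.2 ^ (-6 : ℝ))) := by ring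
        _ ≤ _ := mul_le_mul_of_nonneg_left (mul_le_mul h1 h2 (by positivity) p1) (by positivity)
    · rw [norm_zero]; positivity
  have e1 : ∀ l : O, (∑' n : O, if P0 Q l ∧ P0 Q n then
        (∑ e0 ∈ pdiv l, (∑ e1 ∈ pdiv n, H (l / e0) (n / e1) * f1 e1) * f0 e0) * W0 l * W1 n
        else 0) = ∑' h : O, if P0 Q l ∧ P0 Q h then G l h * W0 l * A1 h else 0 := by
    intro l
    by_cases hl : P0 Q l
    · simp only [hl, true_and]
      have k := fc_conv (g := fun h => G l h * W0 l) (C := K * N l ^ 3 * ‖W0 l‖) (fun h hh => by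
        rw [norm_mul, mul_right_comm]
        exact mul_le_mul_of_nonneg_right (bG l h hl hh) (norm_nonneg _)) hf1 hW1
      refine Eq.trans (tsum_congr fun n => if_congr Iff.rfl ?_ rfl) k
      congr 1
      simp only [hG, Finset.sum_mul]
      rw [Finset.sum_comm]
      exact Finset.sum_congr rfl fun _ _ => Finset.sum_congr rfl fun _ _ => by ring
    · simp only [hl, false_and, if_false]
  have e2 : ∀ h2 : O, (∑' l : O, if P0 Q l ∧ P0 Q h2 then G l h2 * W0 l * A1 h2 else 0) =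
      ∑' h1 : O, if P0 Q h1 ∧ P0 Q h2 then H h1 h2 * A0 h1 * A1 h2 else 0 := by
    intro h2
    by_cases hh : P0 Q h2
    · simp only [hh, and_true]
      have k := fc_conv (g := fun h => H h h2 * A1 h2) (C := K * N h2 ^ 2 * ‖A1 h2‖) (fun h hh' => by
        rw [norm_mul]
        refine (mul_le_mul_of_nonneg_right (hH h h2 hh' hh) (norm_nonneg _)).trans (le_of_eq ?_)
        ring) hf0 hW0
      refine Eq.trans (tsum_congr fun n => if_congr Iff.rfl ?_ rfl)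
        (k.trans (tsum_congr fun n => if_congr Iff.rfl ?_ rfl))
      · simp only [hG, Finset.sum_mul]
        exact Finset.sum_congr rfl fun _ _ => by ring
      · simp only [hA0]
        ring
    · simp only [hh, and_false, if_false]
  rw [tsum_congr e1, ← sT.tsum_comm, tsum_congr e2]
  have sF' : Summable (Function.uncurry fun h1 h2 : O => if P0 Q h1 ∧ P0 Q h2 then
      H h1 h2 * A0 h1 * A1 h2 else 0) := sF
  rw [sF'.tsum_comm, ← sF.tsum_prod]
  exact sF.hasSum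

/-- `Fv_expand`, `fac2` for each `I` (`norm_Hv_le`, `norm_Wt`, `bl1_pt`, `mem_slot`, `P0_prod`),
`hasSum_sum`, `HasSum.mul_left`. -/
theorem Rs_hasSum (Q : Lev) {η : O → ℂ} (hη : η ∈ hchars Q.q) (J : ℕ) (ρ z : ℝ) (d d' : O)
    (ε τ : ℝ) :
    HasSum (fun h : O × O => if P0 Q h.1 ∧ P0 Q h.2 then
        (∑ I ∈ (slot Q (yP J z) (ρ * z)).powersetCard J, (∏ p ∈ I, up (yP J z) ε τ p) *
          Hv d d' ![h.1, h.2, ∏ p ∈ I, p]) * B0 Q d' (y1 z) ε τ h.1 * B1 Q η d' (y0 z) ε τ h.2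
        else 0) (Rs Q η J ρ z d ε τ) := by
  have hW : ∀ y : ℝ, ∃ K : ℝ, 0 ≤ K ∧ ∀ n, P0 Q n → ‖Wt y ε τ n‖ ≤ K * N n ^ (-6 : ℝ) :=
    fun y => ⟨_, (Real.exp_pos _).le, fun n hn => by
      rw [norm_Wt hn.1.ne_zero]; exact bl1_pt (-(1 / 2) + ε) y 6 hn.1.ne_zero⟩
  obtain ⟨K0, hK0, hW0⟩ := hW (y1 z)
  obtain ⟨K1, hK1, hW1⟩ := hW (y0 z)
  have key : ∀ I ∈ (slot Q (yP J z) (ρ * z)).powersetCard J,
      HasSum (fun h : O × O => (∏ p ∈ I, up (yP J z) ε τ p) * if P0 Q h.1 ∧ P0 Q h.2 then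
        Hv d d' ![h.1, h.2, ∏ p ∈ I, p] * B0 Q d' (y1 z) ε τ h.1 * B1 Q η d' (y0 z) ε τ h.2
        else 0) ((∏ p ∈ I, up (yP J z) ε τ p) * ∑' l : O, ∑' n : O, if P0 Q l ∧ P0 Q n then
          Fv d ![l, n, ∏ p ∈ I, p] * Wt (y1 z) ε τ l * (η n * Wt (y0 z) ε τ n) else 0) := by
    intro I hI
    have hi : P0 Q (∏ p ∈ I, p) := P0_prod fun p hp =>
      (mem_slot ((Finset.mem_powersetCard.1 hI).1 hp)).2.1
    have hNi := N_nonneg (∏ p ∈ I, p)
    refine HasSum.mul_left _ ?_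
    have k := fac2 Q (H := fun h1 h2 => Hv d d' ![h1, h2, ∏ p ∈ I, p])
      (f0 := fun e => conj (chi e d')) (f1 := mm fun m => chi m d')
      (W0 := Wt (y1 z) ε τ) (W1 := fun n => η n * Wt (y0 z) ε τ n)
      (K := N (∏ p ∈ I, p) + K0 + K1)
      (fun h1 h2 a1 a2 => (norm_Hv_le d d' a1 a2 hi).trans
        (mul_le_mul_of_nonneg_right (mul_le_mul_of_nonneg_right (by linarith) (sq_nonneg _))
          (sq_nonneg _)))
      (fun e he => by rw [Complex.norm_conj]; exact norm_chi_le he d')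
      (fun e he => by
        simp only [mm]
        rw [norm_mul]
        exact mul_le_one₀ (norm_mu_le _) (norm_nonneg _) (norm_chi_le he d'))
      (fun n hn => (hW0 n hn).trans
        (mul_le_mul_of_nonneg_right (by linarith) (Real.rpow_nonneg (N_nonneg _) _)))
      (fun n hn => by
        rw [norm_mul]
        exact (mul_le_of_le_one_left (norm_nonneg _) (norm_hchar_le Q hη n)).trans
          ((hW1 n hn).trans
            (mul_le_mul_of_nonneg_right (by linarith) (Real.rpow_nonneg (N_nonneg _) _))))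
    have e : (∑' l : O, ∑' n : O, if P0 Q l ∧ P0 Q n then
          Fv d ![l, n, ∏ p ∈ I, p] * Wt (y1 z) ε τ l * (η n * Wt (y0 z) ε τ n) else 0) =
        ∑' l : O, ∑' n : O, if P0 Q l ∧ P0 Q n then
          (∑ e0 ∈ pdiv l, (∑ e1 ∈ pdiv n, Hv d d' ![l / e0, n / e1, ∏ p ∈ I, p] *
            mm (fun m => chi m d') e1) * conj (chi e0 d')) * Wt (y1 z) ε τ l *
            (η n * Wt (y0 z) ε τ n) else 0 := by
      refine tsum_congr fun l => tsum_congr fun n => ?_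
      split_ifs with h
      · rw [Fv_expand d d' h.1 h.2]
      · rfl
    rw [e]
    exact k
  have k := hasSum_sum key
  unfold Rs
  convert k using 2 with h
  split_ifs
  · rw [Finset.sum_mul, Finset.sum_mul]
    exact Finset.sum_congr rfl fun _ _ => by ring
  · simp

end Crest.Agent.R17.H2
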