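import Crest.Agent.R17.High2_Mul

/-!
# R17 / High2_Mellin : separating the row weight
-/

set_option autoImplicit false

noncomputable section

open scoped Classical ComplexConjugate
open MeasureTheory

namespace Crest.Agent.R17.H2

/-- `mellin_Om` termwise and `integral_tsum_of_summable_integral_norm` (compare the end of
`PStepAux.lean`; `Po.continuous_Gamma_line`, `integrable_Gm hσ 0`). -/
theorem mellin_tsum {ι : Type} [Countable ι] {c : ι → ℂ} {X : ι → ℝ} {A σ : ℝ} (hX : ∀ i, 0 < X i)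
    (hA : 0 < A) (hσ : 0 < σ) (hs : Summable fun i => ‖c i‖ * X i ^ σ) :
    ∑' i, c i * (Om (A / X i) : ℂ) = (1 / (2 * Real.pi) : ℂ) * ∫ τ : ℝ,
      Complex.Gamma (σ + τ * Complex.I) * ((c0 * A : ℝ) : ℂ) ^ (-(σ + τ * Complex.I)) *
        ∑' i, c i * (X i : ℂ) ^ (σ + τ * Complex.I) := by
  have hc0 : 0 < c0 := one_pos.trans one_lt_c0
  set F : ι → ℝ → ℂ := fun i τ => Complex.Gamma (σ + τ * Complex.I) *
    ((c0 * A : ℝ) : ℂ) ^ (-(σ + τ * Complex.I)) * (c i * (X i : ℂ) ^ (σ + τ * Complex.I)) with hF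
  have hFn : ∀ i τ, ‖F i τ‖ = Gm σ τ * ((c0 * A) ^ (-σ) * (‖c i‖ * X i ^ σ)) := by
    intro i τ
    simp only [hF]
    rw [norm_mul, norm_mul, norm_mul, Complex.norm_cpow_eq_rpow_re_of_pos (by positivity),
      Complex.norm_cpow_eq_rpow_re_of_pos (hX i), Gm, mul_assoc]
    simp
  have hFc : ∀ i, Continuous (F i) := by
    intro i
    have c1 := Po.continuous_Gamma_line hσ
    have n1 : ((c0 * A : ℝ) : ℂ) ≠ 0 := Complex.ofReal_ne_zero.2 (by positivity)
    have n2 : (X i : ℂ) ≠ 0 := Complex.ofReal_ne_zero.2 (hX i).ne'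
    exact (c1.mul (Continuous.const_cpow (by fun_prop) (Or.inl n1))).mul
      (continuous_const.mul (Continuous.const_cpow (by fun_prop) (Or.inl n2)))
  have hG : Integrable (Gm σ) := by simpa using integrable_Gm hσ 0
  have hFi : ∀ i, Integrable (F i) := fun i =>
    (hG.mul_const _).mono' (hFc i).aestronglyMeasurable (.of_forall fun τ => (hFn i τ).le)
  have hFs : Summable fun i => ∫ τ, ‖F i τ‖ := by
    simp only [hFn, integral_mul_const]
    exact (hs.mul_left _).mul_left _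
  have e1 : ∀ i, c i * (Om (A / X i) : ℂ) = (1 / (2 * Real.pi) : ℂ) * ∫ τ, F i τ := by
    intro i
    have a' := hX i
    rw [mellin_Om hσ (by positivity), mul_left_comm, ← integral_const_mul (c i)]
    congr 1
    refine integral_congr_ae (.of_forall fun τ => ?_)
    have c2 : ((c0 * A : ℝ) : ℂ) ^ (-(σ + τ * Complex.I)) =
        ((c0 * (A / X i) : ℝ) : ℂ) ^ (-(σ + τ * Complex.I)) *
          (X i : ℂ) ^ (-(σ + τ * Complex.I)) := by
      rw [← Complex.mul_cpow_ofReal_nonneg (by positivity) a'.le, ← Complex.ofReal_mul]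
      congr 2
      field_simp
    have n2 : (X i : ℂ) ^ (σ + τ * Complex.I : ℂ) ≠ 0 :=
      Complex.cpow_ne_zero_iff.2 (Or.inl (Complex.ofReal_ne_zero.2 a'.ne'))
    simp only [hF]
    rw [c2, Complex.cpow_neg (X i : ℂ)]
    field_simp
  rw [tsum_congr e1, tsum_mul_left, integral_tsum_of_summable_integral_norm hFi hFs]
  simp only [hF, tsum_mul_left]

theorem mel_summable_fin {S : Finset (Finset O)} {f : Finset O → O × O → ℝ} (h0 : ∀ I p, 0 ≤ f I p)
    (h : ∀ I ∈ S, Summable (f I)) : Summable fun i : S × (O × O) => f i.1 i.2 :=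
  (summable_prod_of_nonneg fun _ => h0 _ _).2 ⟨fun I => h I I.2, Summable.of_finite⟩

theorem mel_tsum_fin {S : Finset (Finset O)} {f : Finset O → O × O → ℂ}
    (h : ∀ I ∈ S, Summable fun p => ‖f I p‖) :
    ∑' i : S × (O × O), f i.1 i.2 = ∑ I ∈ S, ∑' l, ∑' n, f I (l, n) := by
  have h1 : Summable fun i : S × (O × O) => f i.1 i.2 :=
    (mel_summable_fin (f := fun I p => ‖f I p‖) (fun _ _ => norm_nonneg _) h).of_norm
  rw [h1.tsum_prod, tsum_fintype, ← Finset.sum_coe_sort S]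
  exact Finset.sum_congr rfl fun I _ => (h I I.2).of_norm.tsum_prod

/-- the coefficient -/
def melc (Q : Lev) (η : O → ℂ) (J : ℕ) (z : ℝ) (d : O) (I : Finset O) (q : O × O) : ℂ :=
  if P0 Q q.1 ∧ P0 Q q.2 then
    (∏ p ∈ I, (-(wP (yP J z) p : ℂ))) * cc d q.1 (q.2 * ∏ p ∈ I, p) * η q.2 /
      (Real.sqrt (N q.1 * N (q.2 * ∏ p ∈ I, p)) : ℂ) *
    (gw (Real.log (N q.1) - y1 z) : ℂ) * (gw (Real.log (N q.2) - y0 z) : ℂ)
  else 0

/-- the length -/
def melX (Q : Lev) (I : Finset O) (q : O × O) : ℝ :=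
  if P0 Q q.1 ∧ P0 Q q.2 then N q.1 * N (q.2 * ∏ p ∈ I, p) else 1

theorem melX_ge {Q : Lev} {I : Finset O} (hI : ∀ p ∈ I, P0 Q p) (q : O × O) : 1 ≤ melX Q I q := by
  unfold melX
  split_ifs with h
  · exact one_le_mul_of_one_le_of_one_le (one_le_N h.1.1.ne_zero)
      (one_le_N (h.2.mul (P0_prod hI)).1.ne_zero)
  · exact le_rfl

theorem mel_summable {Q : Lev} {η : O → ℂ} (hη : η ∈ hchars Q.q) (J : ℕ) (z : ℝ) (d : O)
    {I : Finset O} (hI : ∀ p ∈ I, P0 Q p) (x : ℝ) :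
    Summable fun q => ‖melc Q η J z d I q‖ * melX Q I q ^ x := by
  have nn : ∀ y : ℝ, ∀ n : O, 0 ≤ (if n = 0 then 0 else N n ^ (x + 1) * gw (Real.log (N n) - y)) := by
    intro y n
    split_ifs
    · exact le_rfl
    · exact mul_nonneg (Real.rpow_nonneg (N_nonneg n) _) (gw_pos _).le
  have hP := P0_prod hI
  have hP0 := N_pos hP.1.ne_zero
  refine Summable.of_nonneg_of_le
    (fun q => mul_nonneg (norm_nonneg _) (Real.rpow_nonneg (zero_le_one.trans (melX_ge hI q)) _))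
    (fun q => ?_) (((summable_gw_rpow (x + 1) (y1 z)).mul_of_nonneg (summable_gw_rpow (x + 1) (y0 z))
      (nn _) (nn _)).mul_left (‖∏ p ∈ I, (-(wP (yP J z) p : ℂ))‖ * N (∏ p ∈ I, p) ^ (x + 1)))
  obtain ⟨l, n⟩ := q
  unfold melc melX
  by_cases h : P0 Q l ∧ P0 Q n
  · have hl := h.1.1.ne_zero
    have hn := h.2.1.ne_zero
    have hl0 := N_pos hl
    have hn0 := N_pos hn
    have hm := h.2.mul hP
    simp only [if_pos h, if_neg hl, if_neg hn]
    have h1 : 1 ≤ N l * N (n * ∏ p ∈ I, p) :=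
      one_le_mul_of_one_le_of_one_le (one_le_N hl) (one_le_N hm.1.ne_zero)
    have h2 : ‖cc d l (n * ∏ p ∈ I, p)‖ * ‖η n‖ / Real.sqrt (N l * N (n * ∏ p ∈ I, p)) ≤
        N l * N (n * ∏ p ∈ I, p) := by
      refine (div_le_self (by positivity) (Real.one_le_sqrt.2 h1)).trans ?_
      exact (mul_le_of_le_one_right (norm_nonneg _) (norm_hchar_le Q hη n)).trans (norm_cc_le d h.1 hm)
    have g1 := gw_pos (Real.log (N l) - y1 z)
    have g2 := gw_pos (Real.log (N n) - y0 z)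
    have e1 : (N l * N (n * ∏ p ∈ I, p)) * (N l * N (n * ∏ p ∈ I, p)) ^ x =
        N l ^ (x + 1) * N n ^ (x + 1) * N (∏ p ∈ I, p) ^ (x + 1) := by
      rw [mul_comm, ← Real.rpow_add_one (by linarith), N_mul, Real.mul_rpow hl0.le (by positivity),
        Real.mul_rpow hn0.le hP0.le, mul_assoc]
    rw [norm_mul, norm_mul, norm_div, norm_mul, norm_mul, Complex.norm_real, Complex.norm_real,
      Complex.norm_real, Real.norm_of_nonneg g1.le, Real.norm_of_nonneg g2.le,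
      Real.norm_of_nonneg (Real.sqrt_nonneg _)]
    calc _ = (‖cc d l (n * ∏ p ∈ I, p)‖ * ‖η n‖ / Real.sqrt (N l * N (n * ∏ p ∈ I, p))) *
          (‖∏ p ∈ I, (-(wP (yP J z) p : ℂ))‖ * gw (Real.log (N l) - y1 z) *
            gw (Real.log (N n) - y0 z) * (N l * N (n * ∏ p ∈ I, p)) ^ x) := by ring
      _ ≤ (N l * N (n * ∏ p ∈ I, p)) *
          (‖∏ p ∈ I, (-(wP (yP J z) p : ℂ))‖ * gw (Real.log (N l) - y1 z) *
            gw (Real.log (N n) - y0 z) * (N l * N (n * ∏ p ∈ I, p)) ^ x) :=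
          mul_le_mul_of_nonneg_right h2 (by positivity)
      _ = (N l * N (n * ∏ p ∈ I, p)) * (N l * N (n * ∏ p ∈ I, p)) ^ x *
          (‖∏ p ∈ I, (-(wP (yP J z) p : ℂ))‖ * gw (Real.log (N l) - y1 z) *
            gw (Real.log (N n) - y0 z)) := by ring
      _ = _ := by rw [e1]; ring
  · simp only [if_neg h, norm_zero, zero_mul]
    exact mul_nonneg (by positivity) (mul_nonneg (nn _ _) (nn _ _))

theorem mel_cpow_prod {I : Finset O} (s : ℂ) :
    ((N (∏ p ∈ I, p) : ℝ) : ℂ) ^ s = ∏ p ∈ I, (N p : ℂ) ^ s := by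
  induction I using Finset.induction_on with
  | empty => simp
  | insert q I hq ih =>
    rw [Finset.prod_insert hq, Finset.prod_insert hq, N_mul, Complex.ofReal_mul,
      Complex.mul_cpow_ofReal_nonneg (N_nonneg _) (N_nonneg _), ih]

theorem mel_term {Q : Lev} (η : O → ℂ) (J : ℕ) (z : ℝ) (d : O) {I : Finset O}
    (hI : ∀ p ∈ I, Prime p ∧ P0 Q p) (ε τ : ℝ) (l n : O) :
    melc Q η J z d I (l, n) * (melX Q I (l, n) : ℂ) ^ (ε + τ * Complex.I) =
      (∏ p ∈ I, up (yP J z) ε τ p) * if P0 Q l ∧ P0 Q n then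
        Fv d ![l, n, ∏ p ∈ I, p] * Wt (y1 z) ε τ l * (η n * Wt (y0 z) ε τ n) else 0 := by
  unfold melc melX
  by_cases h : P0 Q l ∧ P0 Q n
  · have hP := P0_prod fun p hp => (hI p hp).2
    have hm := h.2.mul hP
    have hX : 0 < N l * N (n * ∏ p ∈ I, p) := mul_pos (N_pos h.1.1.ne_zero) (N_pos hm.1.ne_zero)
    simp only [if_pos h]
    have e1 : ∏ p ∈ I, (-(wP (yP J z) p : ℂ)) = mu (∏ p ∈ I, p) * ∏ p ∈ I, (wP (yP J z) p : ℂ) := by
      rw [mu_prod_primes fun p hp => ⟨(hI p hp).1, (hI p hp).2.1⟩, Finset.prod_neg]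
    have e2 : ((N l * N (n * ∏ p ∈ I, p) : ℝ) : ℂ) ^ (ε + τ * Complex.I) /
        (Real.sqrt (N l * N (n * ∏ p ∈ I, p)) : ℂ) =
        (N l : ℂ) ^ (-(1 / 2 : ℂ) + ε + τ * Complex.I) * ((N n : ℂ) ^ (-(1 / 2 : ℂ) + ε + τ * Complex.I) *
          ∏ p ∈ I, (N p : ℂ) ^ (-(1 / 2 : ℂ) + ε + τ * Complex.I)) := by
      rw [← mel_cpow_prod, ← Complex.mul_cpow_ofReal_nonneg (N_nonneg _) (N_nonneg _),
        ← Complex.ofReal_mul, ← N_mul n, ← Complex.mul_cpow_ofReal_nonneg (N_nonneg _) (N_nonneg _),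
        ← Complex.ofReal_mul, Real.sqrt_eq_rpow, Complex.ofReal_cpow hX.le,
        ← Complex.cpow_sub _ _ (Complex.ofReal_ne_zero.2 hX.ne')]
      congr 1
      push_cast
      ring
    simp only [up, Wt, Fv, Finset.prod_mul_distrib, Matrix.cons_val_zero, Matrix.cons_val_one,
      Matrix.cons_val_two, Matrix.tail_cons, Matrix.head_cons]
    rw [e1]
    linear_combination (mu (∏ p ∈ I, p) * (∏ p ∈ I, (wP (yP J z) p : ℂ)) *
      cc d l (n * ∏ p ∈ I, p) * η n * (gw (Real.log (N l) - y1 z) : ℂ) *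
        (gw (Real.log (N n) - y0 z) : ℂ)) * e2
  · simp only [if_neg h, zero_mul, mul_zero]

/-- Apply `mellin_tsum` with `A = KK z * N d ≥ 1`, `σ = ε` and the index type
`O × (slot …).powersetCard J × O` (or first move the finite sum over `I` outside and use
`↥(powersetCard …) × O × O`), `X = N l * N (n ∏ I)` if `P0 Q l ∧ P0 Q n`, else `1`.  Summability (of
`‖c‖ X^x` for every real `x`): `norm_cc_le`, `norm_hchar_le`, `summable_gw_rpow`,
`Summable.mul_of_nonneg`, `summable_prod_of_nonneg`.  `∏ (-w_p) = μ(∏ I) ∏ w_p` (`mu_prod_primes`),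
`X^{s}/√X = N(l)^{-1/2+s} N(n)^{-1/2+s} ∏ N(p)^{-1/2+s}`, so the inner sum is `Rs … ε τ`.
`‖(c0 A)^{-s}‖ ≤ 1` (`one_lt_c0`), `1/(2π) ≤ 1`, `norm_integral_le_of_norm_le`. -/
theorem row_le (Q : Lev) {η : O → ℂ} (hη : η ∈ hchars Q.q) (J : ℕ) (ρ : ℝ) {z ε : ℝ} (hz : 0 ≤ z)
    (hε : 0 < ε) {d : O} (hd : d ≠ 0) {g : ℝ → ℝ} (hg : Integrable g)
    (h : ∀ τ, Gm ε τ * ‖Rs Q η J ρ z d ε τ‖ ≤ g τ) : ‖Row Q η J ρ z d‖ ≤ ∫ τ, g τ := by
  set S := (slot Q (yP J z) (ρ * z)).powersetCard J with hS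
  have hI : ∀ I ∈ S, ∀ p ∈ I, Prime p ∧ P0 Q p := fun I hI p hp =>
    have := mem_slot ((Finset.mem_powersetCard.1 hI).1 hp)
    ⟨this.1, this.2.1⟩
  have hI' : ∀ I ∈ S, ∀ p ∈ I, P0 Q p := fun I h p hp => (hI I h p hp).2
  have hX : ∀ I ∈ S, ∀ q, 0 < melX Q I q := fun I h q => one_pos.trans_le (melX_ge (hI' I h) q)
  have hA : 1 ≤ KK z * N d :=
    one_le_mul_of_one_le_of_one_le (Real.one_le_exp (by positivity)) (one_le_N hd)
  have hc0 : 0 < c0 := one_pos.trans one_lt_c0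
  have s1 : ∀ I ∈ S, Summable fun q => ‖melc Q η J z d I q * (Om (KK z * N d / melX Q I q) : ℂ)‖ := by
    intro I hI1
    refine Summable.of_nonneg_of_le (fun _ => norm_nonneg _) (fun q => ?_)
      (mel_summable hη J z d (hI' I hI1) 0)
    rw [norm_mul, Real.rpow_zero, Complex.norm_real, Om, Real.norm_of_nonneg (Real.exp_pos _).le]
    refine mul_le_mul_of_nonneg_left (Real.exp_le_one_iff.2 ?_) (norm_nonneg _)
    have := hX I hI1 q
    have : 0 ≤ c0 * (KK z * N d / melX Q I q) := by positivity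
    linarith
  have e1 : Row Q η J ρ z d = ∑' i : S × (O × O),
      melc Q η J z d i.1 i.2 * (Om (KK z * N d / melX Q i.1 i.2) : ℂ) := by
    rw [mel_tsum_fin (f := fun I q => melc Q η J z d I q * (Om (KK z * N d / melX Q I q) : ℂ)) s1,
      ← Summable.tsum_finsetSum fun I hI1 => (s1 I hI1).of_norm.prod, Row]
    refine tsum_congr fun l => Finset.sum_congr rfl fun I _ => tsum_congr fun n => ?_
    unfold melc melX
    split_ifs
    · rfl
    · rw [zero_mul]
  have e2 : ∀ τ : ℝ, ∑' i : S × (O × O),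
      melc Q η J z d i.1 i.2 * (melX Q i.1 i.2 : ℂ) ^ (ε + τ * Complex.I) = Rs Q η J ρ z d ε τ := by
    intro τ
    rw [mel_tsum_fin (f := fun I q => melc Q η J z d I q * (melX Q I q : ℂ) ^ (ε + τ * Complex.I))
      (fun I hI1 => ?_), Rs]
    · refine Finset.sum_congr rfl fun I hI1 => ?_
      simp only [mel_term η J z d (hI I hI1), tsum_mul_left]
    · refine (mel_summable hη J z d (hI' I hI1) ε).congr fun q => ?_
      rw [norm_mul, Complex.norm_cpow_eq_rpow_re_of_pos (hX I hI1 q)]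
      simp
  rw [e1, mellin_tsum (c := fun i : S × (O × O) => melc Q η J z d i.1 i.2)
    (X := fun i : S × (O × O) => melX Q i.1 i.2) (fun i => hX i.1 i.1.2 i.2) (one_pos.trans_le hA) hε
    (mel_summable_fin (f := fun I q => ‖melc Q η J z d I q‖ * melX Q I q ^ ε) ?_
      fun I hI1 => mel_summable hη J z d (hI' I hI1) ε)]
  · have hpi := Real.pi_gt_three
    have a1 : ‖(1 / (2 * Real.pi) : ℂ)‖ ≤ 1 := by
      rw [norm_div, norm_one, norm_mul, Complex.norm_real, Real.norm_eq_abs, abs_of_pos Real.pi_pos,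
        Complex.norm_ofNat, div_le_one (by positivity)]
      linarith
    rw [norm_mul]
    refine (mul_le_of_le_one_left (norm_nonneg _) a1).trans
      (norm_integral_le_of_norm_le hg (.of_forall fun τ => le_trans ?_ (h τ)))
    rw [e2, norm_mul, norm_mul, Complex.norm_cpow_eq_rpow_re_of_pos (by positivity)]
    refine mul_le_mul_of_nonneg_right (mul_le_of_le_one_right (norm_nonneg _) ?_) (norm_nonneg _)
    refine Real.rpow_le_one_of_one_le_of_nonpos
      (one_le_mul_of_one_le_of_one_le one_lt_c0.le hA) ?_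
    simpa using hε.le
  · intro I q
    refine mul_nonneg (norm_nonneg _) (Real.rpow_nonneg ?_ _)
    unfold melX
    split_ifs
    · exact mul_nonneg (N_nonneg _) (N_nonneg _)
    · exact zero_le_one

end Crest.Agent.R17.H2
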