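import Crest.Agent.R17.High2_Mul

/-!
# R17 / High2_Split : the sum over the marks for fixed `h₁, h₂`
-/

set_option autoImplicit false

noncomputable section

open scoped Classical ComplexConjugate

namespace Crest.Agent.R17.H2

/-- `I ↦ (I.filter P, I.filter (¬ P ·))` (`Finset.sum_sigma'`, `Finset.sum_nbij'`) -/
theorem sum_powersetCard_split (S : Finset O) (P : O → Prop) (J : ℕ) (φ : Finset O → ℂ) :
    ∑ I ∈ S.powersetCard J, φ I = ∑ I1 ∈ (S.filter P).powerset.filter (fun I => I.card ≤ J),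
      ∑ I2 ∈ (S.filter fun p => ¬ P p).powersetCard (J - I1.card), φ (I1 ∪ I2) := by
  rw [Finset.sum_sigma']
  refine Finset.sum_nbij' (fun I => ⟨I.filter P, I.filter fun p => ¬ P p⟩) (fun x => x.1 ∪ x.2)
    ?_ ?_ ?_ ?_ ?_
  · intro I hI
    rw [Finset.mem_powersetCard] at hI
    have hc := Finset.card_filter_add_card_filter_not (s := I) P
    simp only [Finset.mem_sigma, Finset.mem_filter, Finset.mem_powerset, Finset.mem_powersetCard]
    exact ⟨⟨Finset.filter_subset_filter _ hI.1, by omega⟩, Finset.filter_subset_filter _ hI.1,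
      by omega⟩
  · rintro ⟨I1, I2⟩ h
    simp only [Finset.mem_sigma, Finset.mem_filter, Finset.mem_powerset,
      Finset.mem_powersetCard] at h
    obtain ⟨⟨h1, h2⟩, h3, h4⟩ := h
    have hd : Disjoint I1 I2 := Finset.disjoint_left.2 fun p hp hq =>
      (Finset.mem_filter.1 (h3 hq)).2 (Finset.mem_filter.1 (h1 hp)).2
    rw [Finset.mem_powersetCard]
    refine ⟨Finset.union_subset (h1.trans (Finset.filter_subset _ _))
      (h3.trans (Finset.filter_subset _ _)), ?_⟩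
    rw [Finset.card_union_of_disjoint hd]
    omega
  · intro I _
    exact Finset.filter_union_filter_not_eq _ _
  · rintro ⟨I1, I2⟩ h
    simp only [Finset.mem_sigma, Finset.mem_filter, Finset.mem_powerset,
      Finset.mem_powersetCard] at h
    obtain ⟨⟨h1, h2⟩, h3, h4⟩ := h
    have e1 : (I1 ∪ I2).filter P = I1 := by
      ext p
      simp only [Finset.mem_filter, Finset.mem_union]
      exact ⟨fun ⟨h, hp⟩ => h.resolve_right fun hq => (Finset.mem_filter.1 (h3 hq)).2 hp,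
        fun h => ⟨Or.inl h, (Finset.mem_filter.1 (h1 h)).2⟩⟩
    have e2 : (I1 ∪ I2).filter (fun p => ¬ P p) = I2 := by
      ext p
      simp only [Finset.mem_filter, Finset.mem_union]
      exact ⟨fun ⟨h, hp⟩ => h.resolve_left fun hq => hp (Finset.mem_filter.1 (h1 hq)).2,
        fun h => ⟨Or.inr h, (Finset.mem_filter.1 (h3 h)).2⟩⟩
    simp only [e1, e2]
  · intro I _
    rw [Finset.filter_union_filter_not_eq]

/-- `norm_esymm_le` for `S.filter (¬ P ·)` and all `k ≤ J`, with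
`‖∑_{¬P} x‖ ≤ ‖∑_S x‖ + |S.filter P| M`, so `1 + ‖∑_{¬P} x‖ ≤ M (1 + |S.filter P|)(1 + ‖∑_S x‖)`. -/
theorem norm_esymm_filter_le (J : ℕ) : ∃ C, 0 ≤ C ∧ ∀ k ≤ J, ∀ (S : Finset O) (P : O → Prop)
    (x : O → ℂ) (M : ℝ), 1 ≤ M → (∀ p ∈ S, ‖x p‖ ≤ M) → ∑ p ∈ S, ‖x p‖ ^ 2 ≤ M →
    ‖∑ I ∈ (S.filter fun p => ¬ P p).powersetCard k, ∏ p ∈ I, x p‖ ≤
      C * M ^ (2 * J) * (1 + ((S.filter P).card : ℝ)) ^ J * (1 + ‖∑ p ∈ S, x p‖) ^ k := by
  choose C hC using norm_esymm_le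
  refine ⟨∑ k ∈ Finset.range (J + 1), |C k|, Finset.sum_nonneg fun _ _ => abs_nonneg _,
    fun k hk S P x M hM hx h2 => ?_⟩
  have hM0 : 0 ≤ M := by linarith
  set t : ℝ := ((S.filter P).card : ℝ) with ht
  have ht0 : 0 ≤ t := Nat.cast_nonneg _
  set s : ℝ := ‖∑ p ∈ S, x p‖ with hs
  have hs0 : 0 ≤ s := norm_nonneg _
  have h3 := hC k (S.filter fun p => ¬ P p) x M hM
    (fun p hp => hx p (Finset.mem_filter.1 hp).1)
    ((Finset.sum_le_sum_of_subset_of_nonneg (Finset.filter_subset _ _)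
      fun _ _ _ => by positivity).trans h2)
  have h4 : ‖∑ p ∈ S.filter P, x p‖ ≤ t * M := by
    refine (norm_sum_le _ _).trans ?_
    have := Finset.sum_le_card_nsmul (S.filter P) (fun p => ‖x p‖) M
      fun p hp => hx p (Finset.mem_filter.1 hp).1
    rwa [nsmul_eq_mul] at this
  have h5 : ‖∑ p ∈ S.filter (fun p => ¬ P p), x p‖ ≤ s + t * M := by
    have e : ∑ p ∈ S.filter (fun p => ¬ P p), x p = ∑ p ∈ S, x p - ∑ p ∈ S.filter P, x p := by
      rw [← Finset.sum_filter_add_sum_filter_not S P]; ring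
    rw [e]
    exact (norm_sub_le _ _).trans (by linarith)
  have h6 : 1 + ‖∑ p ∈ S.filter (fun p => ¬ P p), x p‖ ≤ M * (1 + t) * (1 + s) := by
    have h7 : 0 ≤ M * t * s := by positivity
    have h8 : s ≤ M * s := le_mul_of_one_le_left hs0 hM
    nlinarith
  have h7 : |C k| ≤ ∑ k ∈ Finset.range (J + 1), |C k| :=
    Finset.single_le_sum (f := fun k => |C k|) (fun _ _ => abs_nonneg _)
      (Finset.mem_range.2 (by omega))
  have h8 : M ^ k * M ^ k ≤ M ^ (2 * J) := by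
    rw [← pow_add]; exact pow_le_pow_right₀ hM (by omega)
  have h9 : (1 + t) ^ k ≤ (1 + t) ^ J := pow_le_pow_right₀ (by linarith) hk
  calc _ ≤ C k * M ^ k * (1 + ‖∑ p ∈ S.filter (fun p => ¬ P p), x p‖) ^ k := h3
    _ ≤ |C k| * M ^ k * (M * (1 + t) * (1 + s)) ^ k := by
        gcongr
        exact le_abs_self _
    _ = |C k| * (M ^ k * M ^ k) * (1 + t) ^ k * (1 + s) ^ k := by rw [mul_pow, mul_pow]; ring
    _ ≤ _ := by gcongr

/-- `card_dvd_le` with exponent `δ/(J+1)` -/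
theorem one_add_card_pow_le (J : ℕ) {δ : ℝ} (hδ : 0 < δ) : ∃ C, 0 ≤ C ∧ ∀ n : O, n ≠ 0 →
    ∀ T : Finset O, (∀ p ∈ T, p ∣ n) → (1 + (T.card : ℝ)) ^ J ≤ C * N n ^ δ := by
  have hJ : (0 : ℝ) < J + 1 := by positivity
  obtain ⟨C, hC⟩ := card_dvd_le (div_pos hδ hJ)
  refine ⟨(1 + |C|) ^ J, by positivity, fun n hn T hT => ?_⟩
  have h1 := one_le_N hn
  have h2 : 1 ≤ N n ^ (δ / (J + 1)) := Real.one_le_rpow h1 (div_pos hδ hJ).le
  have h3 : 1 + (T.card : ℝ) ≤ (1 + |C|) * N n ^ (δ / (J + 1)) := by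
    have := (hC n hn T hT).trans
      (mul_le_mul_of_nonneg_right (le_abs_self C) (by linarith : 0 ≤ N n ^ (δ / (J + 1))))
    linarith
  have h4 : (N n ^ (δ / (J + 1))) ^ J ≤ N n ^ δ := by
    rw [← Real.rpow_natCast, ← Real.rpow_mul (by linarith)]
    refine Real.rpow_le_rpow_of_exponent_le h1 ?_
    rw [div_mul_eq_mul_div, div_le_iff₀ hJ]
    nlinarith
  calc (1 + (T.card : ℝ)) ^ J ≤ ((1 + |C|) * N n ^ (δ / (J + 1))) ^ J := by gcongr
    _ = (1 + |C|) ^ J * (N n ^ (δ / (J + 1))) ^ J := mul_pow _ _ _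
    _ ≤ _ := by gcongr

/-- Split with `P p = p ∣ h₁h₂d`.  For `I₂` disjoint from the primes dividing `h₁h₂d` (and from `I₁`),
`Hv ![h₁,h₂,∏I₁ ∏I₂] = Hv ![h₁,h₂,∏I₁] ∏_{I₂} chi p d'` (`Finset.prod_union`, `Hv_mul_prod`,
`chi_sixth`).  Apply `norm_esymm_filter_le` to `x p = up p * chi p d'`, whose sum over the slot is
`Pb Q (rc (one0 Q) d') yp R ε τ`, with `M = C₁ lam²`, `C₁ = 1 + ∑' N^{-(1+2ε)}`; and
`‖∏_{I₁} up‖ ≤ lam^J N(∏ I₁)^{-(1/2+ε)}` (`N_prod`, `Real.finset_prod_rpow`);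
`one_add_card_pow_le`. -/
theorem split_le (J : ℕ) {ε : ℝ} (hε : 0 < ε) : ∃ C, 0 ≤ C ∧ ∀ (Q : Lev) (yp R lam τ : ℝ)
    (d' a h1 h2 : O), 1 ≤ lam →
    (∀ p ∈ slot Q yp R, ‖up yp ε τ p‖ ≤ lam * N p ^ (-(1 / 2 + ε))) → P0 Q h1 → P0 Q h2 →
    d' * a ^ 6 ≠ 0 →
    ‖∑ I ∈ (slot Q yp R).powersetCard J, (∏ p ∈ I, up yp ε τ p) *
        Hv (d' * a ^ 6) d' ![h1, h2, ∏ p ∈ I, p]‖ ≤
      C * lam ^ (5 * J) * N (h1 * h2 * (d' * a ^ 6)) ^ (ε / 4) *
        ∑ I ∈ ((slot Q yp R).filter fun p => p ∣ h1 * h2 * (d' * a ^ 6)).powerset.filter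
            (fun I => I.card ≤ J),
          ‖Hv (d' * a ^ 6) d' ![h1, h2, ∏ p ∈ I, p]‖ * N (∏ p ∈ I, p) ^ (-(1 / 2 + ε)) *
            (1 + ‖Pb Q (rc (one0 Q) d') yp R ε τ‖) ^ (J - I.card) := by
  obtain ⟨C2, hC2, h2⟩ := norm_esymm_filter_le J
  obtain ⟨C3, hC3, h3⟩ := one_add_card_pow_le J (δ := ε / 4) (by positivity)
  have hsum := summable_N_rpow (σ := 1 + 2 * ε) (by linarith)
  set C1 : ℝ := 1 + ∑' n : O, N n ^ (-(1 + 2 * ε)) with hC1
  have hT0 : 0 ≤ ∑' n : O, N n ^ (-(1 + 2 * ε)) :=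
    tsum_nonneg fun n => Real.rpow_nonneg (N_nonneg n) _
  have hC11 : 1 ≤ C1 := by rw [hC1]; linarith
  refine ⟨C2 * C1 ^ (2 * J) * C3, by positivity,
    fun Q yp R lam τ d' a h1 h2' hlam hup hh1 hh2 hd => ?_⟩
  set S := slot Q yp R with hS
  set d := d' * a ^ 6 with hdd
  set x : O → ℂ := fun p => up yp ε τ p * chi p d' with hx
  have hlam0 : 0 ≤ lam := by linarith
  have hn : h1 * h2' * d ≠ 0 := mul_ne_zero (mul_ne_zero hh1.1.ne_zero hh2.1.ne_zero) hd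
  have hxle : ∀ p ∈ S, ‖x p‖ ≤ lam * N p ^ (-(1 / 2 + ε)) := fun p hp => by
    rw [hx, norm_mul]
    exact (mul_le_of_le_one_right (norm_nonneg _) (norm_chi_le (mem_slot hp).2.1 _)).trans
      (hup p hp)
  have hM : 1 ≤ C1 * lam ^ 2 := one_le_mul_of_one_le_of_one_le hC11 (one_le_pow₀ hlam)
  have hxM : ∀ p ∈ S, ‖x p‖ ≤ C1 * lam ^ 2 := fun p hp => by
    have h4 : N p ^ (-(1 / 2 + ε)) ≤ 1 :=
      Real.rpow_le_one_of_one_le_of_nonpos (one_le_N (mem_slot hp).1.ne_zero) (by linarith)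
    have h5 := (hxle p hp).trans (mul_le_of_le_one_right hlam0 h4)
    have h6 : lam ^ 2 ≤ C1 * lam ^ 2 := le_mul_of_one_le_left (by positivity) hC11
    nlinarith
  have hx2 : ∑ p ∈ S, ‖x p‖ ^ 2 ≤ C1 * lam ^ 2 := by
    calc ∑ p ∈ S, ‖x p‖ ^ 2 ≤ ∑ p ∈ S, N p ^ (-(1 + 2 * ε)) * lam ^ 2 := by
          refine Finset.sum_le_sum fun p hp => ?_
          refine (pow_le_pow_left₀ (norm_nonneg _) (hxle p hp) 2).trans (le_of_eq ?_)
          rw [mul_pow, mul_comm, ← Real.rpow_natCast (N p ^ _), ← Real.rpow_mul (N_nonneg p)]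
          congr 2
          push_cast; ring
      _ = (∑ p ∈ S, N p ^ (-(1 + 2 * ε))) * lam ^ 2 := by rw [Finset.sum_mul]
      _ ≤ C1 * lam ^ 2 := by
          gcongr
          have := hsum.sum_le_tsum S fun n _ => Real.rpow_nonneg (N_nonneg n) _
          rw [hC1]; linarith
  have hPb : ∑ p ∈ S, x p = Pb Q (rc (one0 Q) d') yp R ε τ := by
    unfold Pb
    refine Finset.sum_congr rfl fun p hp => ?_
    simp only [hx, up, rc, one0, if_pos (mem_slot hp).2.1.2]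
    ring
  have hcard := h3 _ hn (S.filter fun p => p ∣ h1 * h2' * d) fun p hp => (Finset.mem_filter.1 hp).2
  rw [sum_powersetCard_split S (fun p => p ∣ h1 * h2' * d), Finset.mul_sum]
  refine (norm_sum_le _ _).trans (Finset.sum_le_sum fun I1 hI1 => ?_)
  rw [Finset.mem_filter, Finset.mem_powerset] at hI1
  obtain ⟨hI1, hI1c⟩ := hI1
  have hI1S : ∀ p ∈ I1, p ∈ S := fun p hp => (Finset.mem_filter.1 (hI1 hp)).1
  have hP1 : P0 Q (∏ p ∈ I1, p) := P0_prod fun p hp => (mem_slot (hI1S p hp)).2.1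
  have e : ∑ I2 ∈ (S.filter fun p => ¬ p ∣ h1 * h2' * d).powersetCard (J - I1.card),
      (∏ p ∈ I1 ∪ I2, up yp ε τ p) * Hv d d' ![h1, h2', ∏ p ∈ I1 ∪ I2, p] =
      ((∏ p ∈ I1, up yp ε τ p) * Hv d d' ![h1, h2', ∏ p ∈ I1, p]) *
        ∑ I2 ∈ (S.filter fun p => ¬ p ∣ h1 * h2' * d).powersetCard (J - I1.card),
          ∏ p ∈ I2, x p := by
    rw [Finset.mul_sum]
    refine Finset.sum_congr rfl fun I2 hI2 => ?_
    have hI2' := (Finset.mem_powersetCard.1 hI2).1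
    have hI2S : ∀ p ∈ I2, p ∈ S := fun p hp => (Finset.mem_filter.1 (hI2' hp)).1
    have hI2n : ∀ p ∈ I2, ¬ p ∣ h1 * h2' * d := fun p hp => (Finset.mem_filter.1 (hI2' hp)).2
    have hdis : Disjoint I1 I2 := Finset.disjoint_left.2 fun p hp hq =>
      hI2n p hq (Finset.mem_filter.1 (hI1 hp)).2
    have hchi : ∏ p ∈ I2, chi p d = ∏ p ∈ I2, chi p d' := by
      refine Finset.prod_congr rfl fun p hp => ?_
      refine chi_sixth (mem_slot (hI2S p hp)).1 (mem_slot (hI2S p hp)).2.1 d' fun hpa => ?_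
      exact hI2n p hp (Dvd.dvd.mul_left (Dvd.dvd.mul_left (dvd_pow hpa (by norm_num)) _) _)
    rw [Finset.prod_union hdis, Finset.prod_union hdis, Hv_mul_prod d d' hh1 hh2 hP1, hchi]
    · simp only [hx, Finset.prod_mul_distrib]
      ring
    · intro p hp
      have hp' := mem_slot (hI2S p hp)
      refine ⟨hp'.1, hp'.2.1, fun hdv => ?_⟩
      rcases hp'.1.dvd_or_dvd hdv with h | h
      · exact hI2n p hp (h.mul_right _)
      · obtain ⟨q, hq, hpq⟩ := hp'.1.exists_mem_finset_dvd h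
        have hq' := mem_slot (hI1S q hq)
        have : p = q := hp'.2.1.1.eq_of_associated hq'.2.1.1 (hp'.1.associated_of_dvd hq'.1 hpq)
        exact Finset.disjoint_left.1 hdis (this ▸ hq) hp
  have hup1 : ‖∏ p ∈ I1, up yp ε τ p‖ ≤ lam ^ J * N (∏ p ∈ I1, p) ^ (-(1 / 2 + ε)) := by
    rw [norm_prod, N_prod, ← Real.finset_prod_rpow _ _ (fun p _ => N_nonneg p)]
    calc ∏ p ∈ I1, ‖up yp ε τ p‖ ≤ ∏ p ∈ I1, lam * N p ^ (-(1 / 2 + ε)) :=
          Finset.prod_le_prod (fun _ _ => norm_nonneg _) fun p hp => hup p (hI1S p hp)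
      _ = lam ^ I1.card * ∏ p ∈ I1, N p ^ (-(1 / 2 + ε)) := by
          rw [Finset.prod_mul_distrib, Finset.prod_const]
      _ ≤ _ := mul_le_mul_of_nonneg_right (pow_le_pow_right₀ hlam hI1c)
          (Finset.prod_nonneg fun p _ => Real.rpow_nonneg (N_nonneg p) _)
  have hes := h2 (J - I1.card) (Nat.sub_le _ _) S (fun p => p ∣ h1 * h2' * d) x _ hM hxM hx2
  rw [hPb] at hes
  have hN1 : 0 ≤ N (∏ p ∈ I1, p) ^ (-(1 / 2 + ε)) := Real.rpow_nonneg (N_nonneg _) _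
  rw [e, norm_mul, norm_mul]
  calc _ ≤ (lam ^ J * N (∏ p ∈ I1, p) ^ (-(1 / 2 + ε))) * ‖Hv d d' ![h1, h2', ∏ p ∈ I1, p]‖ *
        (C2 * (C1 * lam ^ 2) ^ (2 * J) * (C3 * N (h1 * h2' * d) ^ (ε / 4)) *
          (1 + ‖Pb Q (rc (one0 Q) d') yp R ε τ‖) ^ (J - I1.card)) := by
        refine mul_le_mul (mul_le_mul_of_nonneg_right hup1 (norm_nonneg _)) (hes.trans ?_)
          (norm_nonneg _) (by positivity)
        gcongr
    _ = _ := by
        rw [mul_pow, ← pow_mul, show 5 * J = J + 2 * (2 * J) by ring, pow_add]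
        ring

end Crest.Agent.R17.H2
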