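import Crest.Agent.R17.High2_Mul

/-!
# R17 / High2_Triv : the trivial bound for `Rs`, and the tail of the `τ`-integral
-/

set_option autoImplicit false

noncomputable section

open scoped Classical ComplexConjugate
open MeasureTheory

namespace Crest.Agent.R17.H2

/-- the majorant of one variable -/
def trA (y : ℝ) (n : O) : ℝ := if n = 0 then 0 else N n ^ (3 / 2 : ℝ) * gw (Real.log (N n) - y)

theorem trA_nonneg (y : ℝ) (n : O) : 0 ≤ trA y n := bl1_nonneg _ y n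

theorem trA_summable (y : ℝ) : Summable (trA y) := summable_gw_rpow _ y

theorem tr_Wt_le {n : O} (hn : n ≠ 0) (y τ : ℝ) {ε : ℝ} (hε : ε ≤ 1) :
    N n * ‖Wt y ε τ n‖ ≤ trA y n := by
  rw [norm_Wt hn, trA, if_neg hn, ← mul_assoc]
  refine mul_le_mul_of_nonneg_right ?_ (gw_pos _).le
  have h0 := N_pos hn
  calc N n * N n ^ (-(1 / 2) + ε) = N n ^ (1 + (-(1 / 2) + ε)) := by
        rw [Real.rpow_add h0 1, Real.rpow_one]
    _ ≤ _ := Real.rpow_le_rpow_of_exponent_le (one_le_N hn) (by linarith)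

theorem tr_term_le (Q : Lev) {η : O → ℂ} (hη : η ∈ hchars Q.q) (d : O) {i : O} (hi : P0 Q i)
    (ya yb τ : ℝ) {ε : ℝ} (hε : ε ≤ 1) (l n : O) :
    ‖(if P0 Q l ∧ P0 Q n then Fv d ![l, n, i] * Wt ya ε τ l * (η n * Wt yb ε τ n) else 0)‖ ≤
      N i * trA ya l * trA yb n := by
  split_ifs with h
  · obtain ⟨hl, hn⟩ := h
    have h1 := norm_Fv_le d hl hn hi
    have h2 := tr_Wt_le hl.1.ne_zero ya τ hε
    have h3 := tr_Wt_le hn.1.ne_zero yb τ hε
    have h4 : ‖η n * Wt yb ε τ n‖ ≤ ‖Wt yb ε τ n‖ := by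
      rw [norm_mul]
      exact mul_le_of_le_one_left (norm_nonneg _) (norm_hchar_le Q hη n)
    rw [norm_mul, norm_mul]
    have hNl := N_nonneg l
    have hNn := N_nonneg n
    have hNi := N_nonneg i
    calc ‖Fv d ![l, n, i]‖ * ‖Wt ya ε τ l‖ * ‖η n * Wt yb ε τ n‖
        ≤ (N l * N n * N i) * ‖Wt ya ε τ l‖ * ‖Wt yb ε τ n‖ := by gcongr
      _ = N i * (N l * ‖Wt ya ε τ l‖) * (N n * ‖Wt yb ε τ n‖) := by ring
      _ ≤ _ := by
        have := trA_nonneg ya l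
        gcongr
  · rw [norm_zero]
    exact mul_nonneg (mul_nonneg (N_nonneg i) (trA_nonneg _ _)) (trA_nonneg _ _)

theorem tr_double_le (Q : Lev) {η : O → ℂ} (hη : η ∈ hchars Q.q) (d : O) {i : O} (hi : P0 Q i)
    (ya yb τ : ℝ) {ε : ℝ} (hε : ε ≤ 1) :
    ‖∑' l : O, ∑' n : O, (if P0 Q l ∧ P0 Q n then
      Fv d ![l, n, i] * Wt ya ε τ l * (η n * Wt yb ε τ n) else 0)‖ ≤
      N i * ((∑' l, trA ya l) * ∑' n, trA yb n) := by
  have h1 : HasSum (fun l => N i * trA ya l * ∑' n, trA yb n)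
      (N i * (∑' l, trA ya l) * ∑' n, trA yb n) :=
    ((trA_summable ya).hasSum.mul_left _).mul_right _
  rw [← mul_assoc]
  refine tsum_of_norm_bounded h1 fun l => ?_
  exact tsum_of_norm_bounded ((trA_summable yb).hasSum.mul_left (N i * trA ya l))
    fun n => tr_term_le Q hη d hi ya yb τ hε l n

theorem tr_up_le {p : O} (hp : p ≠ 0) (yp τ : ℝ) {ε L : ℝ} (hε : ε ≤ 1) (hL : N p ≤ Real.exp L) :
    ‖up yp ε τ p‖ * N p ≤ Real.exp L ^ 3 := by
  have h0 := N_pos hp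
  have h1 : wP yp p ≤ N p :=
    (mul_le_of_le_one_right (Real.log_nonneg (one_le_N hp)) (gw_le_one _)).trans
      ((Real.log_le_sub_one_of_pos h0).trans (by linarith))
  have h2 : N p ^ (-(1 / 2) + ε) ≤ N p := by
    calc N p ^ (-(1 / 2) + ε) ≤ N p ^ (1 : ℝ) :=
          Real.rpow_le_rpow_of_exponent_le (one_le_N hp) (by linarith)
      _ = N p := Real.rpow_one _
  have h3 := wP_nonneg yp hp
  rw [norm_up hp]
  calc wP yp p * N p ^ (-(1 / 2) + ε) * N p ≤ N p * N p * N p := by gcongr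
    _ = N p ^ 3 := by ring
    _ ≤ _ := by gcongr

/-- `L = yP J z + ρ z`, `J L ≤ 5z/16` (`J_mul_L_le`).  `norm_Fv_le`, `norm_Wt`: the double sum is
`≤ N(∏ I) (∑ N^{3/2} gw(· - y1)) (∑ N^{3/2} gw(· - y0)) ≤ N(∏ I) C² e^{(5/2)(11/6) z}`
(`tsum_gw_rpow (3/2)`, `tsum_of_norm_bounded`); `‖up p‖ N p ≤ N(p)^{5/2} ≤ e^{5L/2}` (`norm_up`,
`log x ≤ x`), `|slot| ≤ 18 e^L` (`card_ball_le`), `esymm_le`: total `≤ C 18^J e^{(7/2)(5/16) z + 4.6 z}`. -/
theorem norm_Rs_triv {J : ℕ} (hJ : 1 ≤ J) : ∃ C, 0 ≤ C ∧ ∀ (Q : Lev), ∀ η ∈ hchars Q.q,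
    ∀ ρ ε z τ : ℝ, ∀ d : O, 0 < ρ → ρ ≤ 5 / (48 * J) → 0 < ε → ε ≤ 1 → 0 ≤ z →
    ‖Rs Q η J ρ z d ε τ‖ ≤ C * Real.exp (7 * z) := by
  obtain ⟨C, hC⟩ := tsum_gw_rpow (3 / 2)
  have hA : ∀ y, ∑' n, trA y n ≤ max C 0 * Real.exp (5 / 2 * y) := fun y => by
    refine (hC y).trans ?_
    rw [show (3 / 2 + 1 : ℝ) = 5 / 2 by norm_num]
    exact mul_le_mul_of_nonneg_right (le_max_left _ _) (Real.exp_pos _).le
  have hA0 : ∀ y, 0 ≤ ∑' n, trA y n := fun y => tsum_nonneg (trA_nonneg y)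
  have hC0 : 0 ≤ max C 0 := le_max_right _ _
  refine ⟨18 ^ J * max C 0 ^ 2, by positivity, fun Q η hη ρ ε z τ d hρ hρ1 _ hε1 hz => ?_⟩
  set L := yP J z + ρ * z with hL
  set S := slot Q (yP J z) (ρ * z) with hS
  set T := (∑' l, trA (y1 z) l) * ∑' n, trA (y0 z) n with hT
  have hT0 : 0 ≤ T := mul_nonneg (hA0 _) (hA0 _)
  have hT1 : T ≤ max C 0 ^ 2 * Real.exp (55 / 12 * z) := by
    calc T ≤ (max C 0 * Real.exp (5 / 2 * y1 z)) * (max C 0 * Real.exp (5 / 2 * y0 z)) :=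
          mul_le_mul (hA _) (hA _) (hA0 _) (by positivity)
      _ = max C 0 ^ 2 * (Real.exp (5 / 2 * y1 z) * Real.exp (5 / 2 * y0 z)) := by ring
      _ = _ := by
        rw [← Real.exp_add]
        congr 2
        unfold y1 y0
        ring
  have h1 : ‖Rs Q η J ρ z d ε τ‖ ≤
      (∑ I ∈ S.powersetCard J, ∏ p ∈ I, (‖up (yP J z) ε τ p‖ * N p)) * T := by
    unfold Rs
    rw [Finset.sum_mul]
    refine norm_sum_le_of_le _ fun I hI => ?_
    have hsub := (Finset.mem_powersetCard.1 hI).1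
    have hP : P0 Q (∏ p ∈ I, p) := P0_prod fun p hp => (mem_slot (hsub hp)).2.1
    rw [norm_mul, Finset.prod_mul_distrib, norm_prod, ← N_prod, mul_assoc]
    exact mul_le_mul_of_nonneg_left (tr_double_le Q hη d hP _ _ τ hε1)
      (Finset.prod_nonneg fun _ _ => norm_nonneg _)
  have h2 : ∑ p ∈ S, ‖up (yP J z) ε τ p‖ * N p ≤ 18 * Real.exp L ^ 4 := by
    calc ∑ p ∈ S, ‖up (yP J z) ε τ p‖ * N p ≤ S.card • Real.exp L ^ 3 :=
          Finset.sum_le_card_nsmul _ _ _ fun p hp =>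
            tr_up_le (mem_slot hp).1.ne_zero _ τ hε1 (mem_slot hp).2.2
      _ = (S.card : ℝ) * Real.exp L ^ 3 := nsmul_eq_mul _ _
      _ ≤ (18 * Real.exp L) * Real.exp L ^ 3 := by
        refine mul_le_mul_of_nonneg_right ?_ (by positivity)
        refine le_trans ?_ (card_ball_le (Real.exp_pos L).le)
        exact_mod_cast Finset.card_filter_le _ _
      _ = _ := by ring
  have h3 := esymm_le J S (fun p => ‖up (yP J z) ε τ p‖ * N p)
    fun p _ => mul_nonneg (norm_nonneg _) (N_nonneg p)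
  have h4 : (∑ p ∈ S, ‖up (yP J z) ε τ p‖ * N p) ^ J ≤ 18 ^ J * Real.exp (5 / 4 * z) := by
    calc (∑ p ∈ S, ‖up (yP J z) ε τ p‖ * N p) ^ J ≤ (18 * Real.exp L ^ 4) ^ J :=
          pow_le_pow_left₀ (Finset.sum_nonneg fun p _ =>
            mul_nonneg (norm_nonneg _) (N_nonneg p)) h2 J
      _ = 18 ^ J * Real.exp (4 * (J * L)) := by
        rw [mul_pow, ← pow_mul, ← Real.exp_nat_mul]
        congr 2
        push_cast
        ring
      _ ≤ _ := by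
        have := J_mul_L_le hJ hρ1 hz
        rw [← hL] at this
        exact mul_le_mul_of_nonneg_left (Real.exp_le_exp.2 (by linarith)) (by positivity)
  calc ‖Rs Q η J ρ z d ε τ‖ ≤ _ := h1
    _ ≤ (18 ^ J * Real.exp (5 / 4 * z)) * (max C 0 ^ 2 * Real.exp (55 / 12 * z)) :=
        mul_le_mul (h3.trans h4) hT1 hT0 (by positivity)
    _ = 18 ^ J * max C 0 ^ 2 * (Real.exp (5 / 4 * z) * Real.exp (55 / 12 * z)) := by ring
    _ ≤ _ := by
      rw [← Real.exp_add]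
      exact mul_le_mul_of_nonneg_left (Real.exp_le_exp.2 (by linarith)) (by positivity)

/-- If `‖R τ‖ ≤ A V τ` for `|τ| ≤ z²` and `‖R τ‖ ≤ B e^{7z}` always, then `Gm ε τ ‖R τ‖ ≤ g τ` for
`g = indicator (Icc (-z²) z²) (A Gm V) + B C' e^{7z - z²/2} e^{-|τ|/2}` (`Gm_le`; `A Gm V ≥ 0` on the
interval), `g` is integrable (`continuous_Gm`, `ContinuousOn.integrableOn_Icc`,
`Po.integrable_exp_neg_abs`), and `7z - z²/2 ≤ -10 z` for `z ≥ 34`. -/
theorem exists_majorant {ε : ℝ} (hε : 0 < ε) : ∃ C, 0 ≤ C ∧ ∀ (R V : ℝ → ℝ) (A B z : ℝ), 34 ≤ z →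
    0 ≤ B → Continuous V → (∀ τ, 0 ≤ R τ) → (∀ τ, |τ| ≤ z ^ 2 → R τ ≤ A * V τ) →
    (∀ τ, R τ ≤ B * Real.exp (7 * z)) → ∃ g : ℝ → ℝ, Integrable g ∧ (∀ τ, Gm ε τ * R τ ≤ g τ) ∧
      ∫ τ, g τ ≤ A * (∫ τ in Set.Icc (-z ^ 2) (z ^ 2), Gm ε τ * V τ) +
        C * B * Real.exp (-10 * z) := by
  obtain ⟨C, hC⟩ := Gm_le hε
  have hG : ∀ τ, 0 ≤ Gm ε τ := fun τ => norm_nonneg _
  have hC0 : 0 ≤ C := by simpa using (hG 0).trans (hC 0)
  have hE := Po.integrable_exp_neg_abs (show (0 : ℝ) < 1 / 2 by norm_num)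
  have hE0 : 0 ≤ ∫ τ : ℝ, Real.exp (-(1 / 2 * |τ|)) := integral_nonneg fun _ => (Real.exp_pos _).le
  refine ⟨C * ∫ τ : ℝ, Real.exp (-(1 / 2 * |τ|)), by positivity,
    fun R V A B z hz hB hV hR h1 h2 => ?_⟩
  have hI : Integrable ((Set.Icc (-z ^ 2) (z ^ 2)).indicator fun τ => A * (Gm ε τ * V τ)) := by
    rw [integrable_indicator_iff measurableSet_Icc]
    exact (continuous_const.mul ((continuous_Gm hε).mul hV)).continuousOn.integrableOn_Icc
  have hJ : Integrable fun τ : ℝ => C * B * Real.exp (-10 * z) * Real.exp (-(1 / 2 * |τ|)) :=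
    hE.const_mul _
  refine ⟨fun τ => (Set.Icc (-z ^ 2) (z ^ 2)).indicator (fun τ => A * (Gm ε τ * V τ)) τ +
    C * B * Real.exp (-10 * z) * Real.exp (-(1 / 2 * |τ|)), hI.add hJ, fun τ => ?_, ?_⟩
  · by_cases hτ : τ ∈ Set.Icc (-z ^ 2) (z ^ 2)
    · simp only [Set.indicator_of_mem hτ]
      have h3 := mul_le_mul_of_nonneg_left (h1 τ (abs_le.2 hτ)) (hG τ)
      have h4 : 0 ≤ C * B * Real.exp (-10 * z) * Real.exp (-(1 / 2 * |τ|)) := by positivity
      linarith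
    · simp only [Set.indicator_of_notMem hτ, zero_add]
      have h3 : z ^ 2 < |τ| := lt_of_not_ge fun h => hτ (abs_le.1 h)
      calc Gm ε τ * R τ ≤ (C * Real.exp (-|τ|)) * (B * Real.exp (7 * z)) :=
            mul_le_mul (hC τ) (h2 τ) (hR τ) (by positivity)
        _ = C * B * Real.exp (-|τ| + 7 * z) := by rw [Real.exp_add]; ring
        _ ≤ C * B * Real.exp (-10 * z + -(1 / 2 * |τ|)) :=
          mul_le_mul_of_nonneg_left (Real.exp_le_exp.2 (by nlinarith)) (by positivity)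
        _ = _ := by rw [Real.exp_add]; ring
  · rw [integral_add hI hJ, integral_indicator measurableSet_Icc, integral_const_mul,
      integral_const_mul]
    exact le_of_eq (by ring)

end Crest.Agent.R17.H2
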