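import Crest.Agent.R17.High1
import Crest.Agent.R17.High2_Euler
import Crest.Agent.R17.High2_Mellin
import Crest.Agent.R17.High2_Triv
import Crest.Agent.R17.High2_Fac
import Crest.Agent.R17.High2_Blk
import Crest.Agent.R17.High2_Split

/-!
# R17 / High2 : a row is bounded by products of blocks

`d = d' a⁶`.  `mellin_Om` (`σ = ε`, `s = ε + iτ`) gives `Row d = (1/2π)∫ Γ(s) (c0 K N d)^{-s} R(s) dτ`,
`R(s) = ∑_I ∑_{l,n} F(l,n,∏I) u_I η(n) N(l n)^{-1/2+s} gw gw`, `u_p = w_p N(p)^{-1/2+s}`,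
`F(l,n,i) = μ(i) cc d l (n i)` (`TMul` by `cc_mul`; `mu_prod_primes`).  `|τ| > z²` is negligible
(`Gm_le`, trivial bound `|R| ≤ C e^{5z}`).  Put `χ = χ_·(d')`, `H = conv 0 (mm (conj χ)) (conv 1 χ F)`, so
`F = conv 0 (conj χ) (conv 1 (mm χ) H)` (`conv_mm_cancel`, `conv_cancel_mm`, `conv_comm`), and by
`tsum_conv`/`tsum_conv1` and `blks_shift`
`R(s) = e^{ε(y0+y1)+ε²/2} ∑_{h₁,h₂} [∑_I H(h₁,h₂,∏I) u_I] η(h₂) N(h₁h₂)^{-1/2+iτ} ·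
conj(pb (rc one0 d') (y1 - log N h₁ + ε/2) τ) · pb (mm (rc η d')) (y0 - log N h₂ + ε/2) (-τ)`.
For fixed `h` split `I = I₁ ⊔ I₂`, `I₁ = {p ∈ I : p ∣ h₁h₂d}`, `|I₁| = j`; for `p ∤ h₁h₂d`,
`H(1,1,p) = χ_p(d) = χ_p(d')`, so the sum over `I₂` is `e_{J-j}(u_p χ_p(d') : p ∈ slot, p ∤ h₁h₂d)`, and by
`norm_esymm_le` it is `≤ C (z e^{εz/J} (1 + ω(h₁h₂d)))^{J} (1 + |Pb|)^{J-j}`-ish
(`|u_p| ≤ z e^{ε(yP+ρz)}`·small, `∑|u_p|² ≤ z e^{2ε(yP+ρz)} C` by `mertens_upper`,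
`(1+ω(n))^J ≤ C N(n)^{ε/4}`).
**Local structure of `H`** at `(p^a,p^b,p^i)`, `i ∈ {0,1}`, `P = N p`, generating function
`H_p = F_p (1 - χ̄x)/(1 - χy)` (`χ = χ_p(d')`), `F_p = ∑ cc(p^a,p^b) x^a y^b - u ∑ cc(p^a,p^{b+1}) x^a y^b`:
* `p ∤ d`: `F_p = 1/(1-χ̄x) - χy + uχ`, `H_p = 1 + xy/(1-χy) + uχ(1-χ̄x)/(1-χy)`;
* `p ∣ d'`: `χ = 0`, `H_p = F_p`; `p ∣ a`, `p ∤ d'`: `F_p` has no terms `x^a`, `a ≥ 1`, with `b + i = 0`.
  In both cases `F_p` has at most `4(v+2)` non-zero terms (`dvd_of_cc_ne_zero`,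
  `cc_eq_zero_of_two_le`), each of normalised size `≤ P^{v_p(a)}` (`norm_cc_le_val`, six-freeness).
Support: `H ≠ 0` locally forces `a ≤ b + i + 1_{p ∣ a}`, so `N h₁ ≤ N h₂ · N(∏I₁) · N a`
(`P0v.induction`).  On the support also `N(h₁)^{ε/4} ≤ (N h₂ e^{4z})^{ε/4}`.  Finally
`∑_{h,I₁} |H(h₁,h₂,∏I₁)| |u_{I₁}| N(h₁h₂)^{-1/2} N(h₂)^{-ε/2} ≤ C e^{3εz} N a`, summing only over `I₁` with
all `p ∈ I₁` dividing `h₁h₂d`: Rankin — weight each mark by `λ = e^{-ε(yP+ρz)}/z` (cost `λ^{-J}`), and apply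
`TMul.tsum_le` to the multiplicative majorant in `(h₁,h₂,i)` which kills the local term
`(a,b,i) = (0,0,1)` for `p ∤ d`: `c p = C P^{-1-ε/2} + C 1_{slot} w_p/P` (`mertens_upper`),
`g p = C (v_p(d)+2) P^{v_p(a)}` on `T₀ = {p ∣ d}`.
-/

set_option autoImplicit false

noncomputable section

open scoped Classical ComplexConjugate

namespace Crest.Agent.R17

namespace H2

/-- one term of the sum over the marks, on the support of `Hv` -/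
theorem term_le {Q : Lev} {J : ℕ} {ε z L V P b0 b1 : ℝ} (hε : 0 < ε) (hJL : J * L ≤ z) (hL : 0 ≤ L)
    {d' a h1 h2 : O} (hd : d' * a ^ 6 ≠ 0) (hN : N (d' * a ^ 6) ≤ Real.exp (2 * z))
    (hh1 : P0 Q h1) (hh2 : P0 Q h2) (hV : 0 ≤ V) (hP : 0 ≤ P) (hb0 : 0 ≤ b0) (hb1 : 0 ≤ b1)
    {I : Finset O} (hI : ∀ p ∈ I, Prime p ∧ P0 Q p ∧ N p ≤ Real.exp L ∧ p ∣ h1 * h2 * (d' * a ^ 6))
    (hIJ : I.card ≤ J)
    (h : N h1 ≤ N h2 * Real.exp (I.card * L) * N a → N h2 ^ ε * b1 * b0 * P ≤ V) :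
    N (h1 * h2 * (d' * a ^ 6)) ^ (ε / 4) *
      (‖Hv (d' * a ^ 6) d' ![h1, h2, ∏ p ∈ I, p]‖ * N (∏ p ∈ I, p) ^ (-(1 / 2 + ε)) * P) *
      (N h1 ^ (-(1 / 2 : ℝ)) * b0) * (N h2 ^ (-(1 / 2 : ℝ)) * b1) ≤
      Real.exp (5 / 4 * ε * z) * V * maj (d' * a ^ 6) d' ε ![h1, h2, ∏ p ∈ I, p] := by
  by_cases hH : Hv (d' * a ^ 6) d' ![h1, h2, ∏ p ∈ I, p] = 0
  · rw [hH, norm_zero, zero_mul, zero_mul, mul_zero, zero_mul, zero_mul]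
    exact mul_nonneg (by positivity) (maj_nonneg _ _ _ _)
  have hi : P0 Q (∏ p ∈ I, p) := P0_prod fun p hp => (hI p hp).2.1
  have hv : P0v Q ![h1, h2, ∏ p ∈ I, p] := by
    intro j
    fin_cases j
    exacts [hh1, hh2, hi]
  have ha0 : a ≠ 0 := by
    rintro rfl
    simp at hd
  have hdvd : h1 ∣ h2 * (∏ p ∈ I, p) * a := Hv_supp hd hv hH
  have hNI : N (∏ p ∈ I, p) ≤ Real.exp (I.card * L) := by
    rw [N_prod, Real.exp_nat_mul, ← Finset.prod_const]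
    exact Finset.prod_le_prod (fun p _ => N_nonneg p) fun p hp => (hI p hp).2.2.1
  have n1 := N_pos hh1.1.ne_zero
  have n2 := N_pos hh2.1.ne_zero
  have na := N_pos ha0
  have h1le : N h1 ≤ N h2 * Real.exp (I.card * L) * N a := by
    have := N_le_of_dvd (mul_ne_zero (mul_ne_zero hh2.1.ne_zero hi.1.ne_zero) ha0) hdvd
    rw [N_mul, N_mul] at this
    exact this.trans (by gcongr)
  have hVle := h h1le
  have hk : kill (d' * a ^ 6) ![h1, h2, ∏ p ∈ I, p] = 1 := by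
    refine if_pos fun p hp hpi => ?_
    obtain ⟨q, hq, hpq⟩ := hp.exists_mem_finset_dvd hpi
    exact hpq.trans (hI q hq).2.2.2
  have hNa : N a ≤ Real.exp (2 * z) :=
    (N_le_of_dvd hd (Dvd.dvd.mul_left (dvd_pow_self a (by norm_num)) d')).trans hN
  have hIL : Real.exp (I.card * L) ≤ Real.exp z := by
    refine Real.exp_le_exp.2 (le_trans ?_ hJL)
    exact mul_le_mul_of_nonneg_right (by exact_mod_cast hIJ) hL
  have hbig : N (h1 * h2 * (d' * a ^ 6)) ≤ N h2 ^ (2 : ℝ) * Real.exp (5 * z) := by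
    rw [N_mul, N_mul, Real.rpow_two]
    calc N h1 * N h2 * N (d' * a ^ 6) ≤
          (N h2 * Real.exp z * Real.exp (2 * z)) * N h2 * Real.exp (2 * z) := by
          gcongr
          · exact N_nonneg _
          · exact h1le.trans (by gcongr)
      _ = N h2 ^ 2 * (Real.exp z * Real.exp (2 * z) * Real.exp (2 * z)) := by ring
      _ = _ := by rw [← Real.exp_add, ← Real.exp_add]; congr 2; ring
  have hpow : N (h1 * h2 * (d' * a ^ 6)) ^ (ε / 4) ≤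
      Real.exp (5 / 4 * ε * z) * N h2 ^ (ε / 2) := by
    refine (Real.rpow_le_rpow (N_nonneg _) hbig (by positivity)).trans_eq ?_
    rw [Real.mul_rpow (by positivity) (by positivity), ← Real.rpow_mul n2.le, ← Real.exp_mul,
      mul_comm]
    congr 2 <;> ring
  have hsplit : N h2 ^ (ε / 2) * N h2 ^ (-(1 / 2 : ℝ)) = N h2 ^ ε * N h2 ^ (-(1 / 2 + ε / 2)) := by
    rw [← Real.rpow_add n2, ← Real.rpow_add n2]
    congr 1
    ring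
  have hm : maj (d' * a ^ 6) d' ε ![h1, h2, ∏ p ∈ I, p] =
      ‖Hv (d' * a ^ 6) d' ![h1, h2, ∏ p ∈ I, p]‖ * N h1 ^ (-(1 / 2 : ℝ)) *
        N h2 ^ (-(1 / 2 + ε / 2)) * N (∏ p ∈ I, p) ^ (-(1 / 2 + ε)) := by
    rw [maj, hk, mul_one]
    rfl
  have ni := N_pos hi.1.ne_zero
  rw [hm]
  calc _ ≤ (Real.exp (5 / 4 * ε * z) * N h2 ^ (ε / 2)) *
      (‖Hv (d' * a ^ 6) d' ![h1, h2, ∏ p ∈ I, p]‖ * N (∏ p ∈ I, p) ^ (-(1 / 2 + ε)) * P) *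
      (N h1 ^ (-(1 / 2 : ℝ)) * b0) * (N h2 ^ (-(1 / 2 : ℝ)) * b1) := by gcongr
    _ = Real.exp (5 / 4 * ε * z) * (b1 * b0 * P) * (N h2 ^ (ε / 2) * N h2 ^ (-(1 / 2 : ℝ))) *
        (‖Hv (d' * a ^ 6) d' ![h1, h2, ∏ p ∈ I, p]‖ * N h1 ^ (-(1 / 2 : ℝ)) *
          N (∏ p ∈ I, p) ^ (-(1 / 2 + ε))) := by ring
    _ = Real.exp (5 / 4 * ε * z) * (N h2 ^ ε * b1 * b0 * P) *
        (‖Hv (d' * a ^ 6) d' ![h1, h2, ∏ p ∈ I, p]‖ * N h1 ^ (-(1 / 2 : ℝ)) *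
          N h2 ^ (-(1 / 2 + ε / 2)) * N (∏ p ∈ I, p) ^ (-(1 / 2 + ε))) := by rw [hsplit]; ring
    _ ≤ _ := by gcongr

/-- summing the majorant over `(h₁, h₂, I)` -/
theorem sum_sum_le {Q : Lev} {F : (Fin 3 → O) → ℝ} {B : ℝ}
    (hB : ∀ S : Finset (Fin 3 → O), (∀ v ∈ S, P0v Q v) → ∑ v ∈ S, F v ≤ B)
    (T : Finset (O × O)) (hT : ∀ h ∈ T, P0 Q h.1 ∧ P0 Q h.2) (A : O × O → Finset (Finset O))
    (hA : ∀ h, ∀ I ∈ A h, ∀ p ∈ I, Prime p ∧ P0 Q p) :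
    ∑ h ∈ T, ∑ I ∈ A h, F ![h.1, h.2, ∏ p ∈ I, p] ≤ B := by
  rw [Finset.sum_sigma', ← Finset.sum_image
    (g := fun x : (_ : O × O) × Finset O => ![x.1.1, x.1.2, ∏ p ∈ x.2, p]) (f := F)]
  · refine hB _ fun v hv => ?_
    obtain ⟨x, hx, rfl⟩ := Finset.mem_image.1 hv
    rw [Finset.mem_sigma] at hx
    intro j
    fin_cases j
    exacts [(hT _ hx.1).1, (hT _ hx.1).2, P0_prod fun p hp => (hA _ _ hx.2 p hp).2]
  · rintro ⟨⟨x1, x2⟩, I⟩ hx ⟨⟨y1, y2⟩, I'⟩ hy e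
    rw [Finset.mem_coe, Finset.mem_sigma] at hx hy
    have e0 : x1 = y1 := congrFun e 0
    have e1 : x2 = y2 := congrFun e 1
    have e2 : I = I' := prod_primes_inj
      (fun p hp => ⟨(hA _ _ hx.2 p hp).1, (hA _ _ hx.2 p hp).2.1⟩)
      (fun p hp => ⟨(hA _ _ hy.2 p hp).1, (hA _ _ hy.2 p hp).2.1⟩) (congrFun e 2)
    rw [e0, e1, e2]

theorem lam_pow_le {J : ℕ} {ε : ℝ} (hε : 0 < ε) : ∃ C, 0 ≤ C ∧ ∀ z L : ℝ, 0 ≤ z →
    J * L ≤ 5 / 16 * z → (z * Real.exp (2 * ε * L)) ^ (5 * J) ≤ C * Real.exp (33 / 8 * ε * z) := by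
  refine ⟨(5 * J).factorial / ε ^ (5 * J), by positivity, fun z L hz hL => ?_⟩
  have h1 : z ^ (5 * J) ≤ (5 * J).factorial / ε ^ (5 * J) * Real.exp (ε * z) := by
    have := Real.pow_div_factorial_le_exp (ε * z) (by positivity) (5 * J)
    rw [div_le_iff₀ (by positivity), mul_pow] at this
    rw [div_mul_eq_mul_div, le_div_iff₀ (by positivity)]
    linarith
  have h2 : Real.exp (2 * ε * L) ^ (5 * J) ≤ Real.exp (25 / 8 * ε * z) := by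
    rw [← Real.exp_nat_mul]
    refine Real.exp_le_exp.2 ?_
    push_cast
    nlinarith
  rw [mul_pow]
  refine (mul_le_mul h1 h2 (by positivity) (by positivity)).trans_eq ?_
  rw [mul_assoc, ← Real.exp_add]
  congr 2
  ring

theorem combine {α : Type} (A : Finset α) {f m : α → ℝ}
    {s C lam lam' n E0 E1 r0 b0 r1 b1 t W : ℝ} (h1 : s ≤ C * lam * n * ∑ I ∈ A, f I)
    (h2 : lam ≤ lam') (h3 : t ≤ E1 * r1 * b1) (hC : 0 ≤ C) (ht : 0 ≤ t) (hn : 0 ≤ n)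
    (hE0 : 0 ≤ E0) (hE1 : 0 ≤ E1) (hr0 : 0 ≤ r0) (hb0 : 0 ≤ b0) (hlam : 0 ≤ lam)
    (hf : ∀ I ∈ A, 0 ≤ f I) (h : ∀ I ∈ A, n * f I * (r0 * b0) * (r1 * b1) ≤ W * m I) :
    s * (E0 * r0 * b0) * t ≤ C * lam' * E0 * E1 * W * ∑ I ∈ A, m I := by
  have hS : 0 ≤ ∑ I ∈ A, f I := Finset.sum_nonneg hf
  have hl : 0 ≤ lam' := hlam.trans h2
  calc _ ≤ C * lam' * n * (∑ I ∈ A, f I) * (E0 * r0 * b0) * (E1 * r1 * b1) :=
        mul_le_mul (mul_le_mul_of_nonneg_right (h1.trans (by gcongr)) (by positivity)) h3 ht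
          (by positivity)
    _ = C * lam' * E0 * E1 * ∑ I ∈ A, n * f I * (r0 * b0) * (r1 * b1) := by
        rw [← Finset.sum_mul, ← Finset.sum_mul, ← Finset.mul_sum]
        ring
    _ ≤ C * lam' * E0 * E1 * ∑ I ∈ A, W * m I :=
        mul_le_mul_of_nonneg_left (Finset.sum_le_sum h) (by positivity)
    _ = _ := by rw [← Finset.mul_sum, ← mul_assoc]

/-- the bound for the Mellin transform of a row -/
theorem Rs_le {J : ℕ} (hJ : 1 ≤ J) {ε : ℝ} (hε : 0 < ε) (hε1 : ε ≤ 1) : ∃ C, 0 ≤ C ∧ ∀ (Q : Lev),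
    ∀ η ∈ hchars Q.q, ∀ ρ z τ V : ℝ, 0 < ρ → ρ ≤ 5 / (48 * J) → 1 ≤ z → ∀ d' a : O, d' ≠ 0 →
    P0 Q a → (∀ p, Prime p → ¬ p ∣ Q.q → ¬ p ^ 6 ∣ d') → N (d' * a ^ 6) ≤ Real.exp (2 * z) →
    0 ≤ V → (∀ h1 h2 : ℝ, 1 ≤ h1 → 1 ≤ h2 → ∀ j ≤ J,
      h1 ≤ h2 * Real.exp (j * (yP J z + ρ * z)) * N a →
      h2 ^ ε * ‖pb (mm (rc η d')) (y0 z - Real.log h2 + ε / 2) (-τ)‖ *
        ‖pb (rc (one0 Q) d') (y1 z - Real.log h1 + ε / 2) τ‖ *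
        (1 + ‖Pb Q (rc (one0 Q) d') (yP J z) (ρ * z) ε τ‖) ^ (J - j) ≤ V) →
    ‖Rs Q η J ρ z (d' * a ^ 6) ε τ‖ ≤ C * Real.exp (10 * ε * z) * N a * V := by
  obtain ⟨C1, hC1, hsp⟩ := split_le J hε
  obtain ⟨C2, hC2, hlam⟩ := lam_pow_le (J := J) hε
  obtain ⟨C3, hC3, hmaj⟩ := sum_maj_le hε
  refine ⟨C1 * C2 * C3 * Real.exp 1, by positivity,
    fun Q η hη ρ z τ V hρ hρ1 hz d' a hd' ha h6 hN hV h => ?_⟩
  have hz0 : 0 ≤ z := by linarith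
  have hd : d' * a ^ 6 ≠ 0 := mul_ne_zero hd' (pow_ne_zero _ ha.1.ne_zero)
  obtain ⟨L, hL⟩ : ∃ L, L = yP J z + ρ * z := ⟨_, rfl⟩
  have hL0 : 0 ≤ L := hL ▸ L_nonneg J hρ hz0
  have hJL : J * L ≤ 5 / 16 * z := hL ▸ J_mul_L_le hJ hρ1 hz0
  have hLz : L ≤ z := by
    have : (1 : ℝ) ≤ J := by exact_mod_cast hJ
    nlinarith
  have hlam1 : 1 ≤ z * Real.exp (2 * ε * L) :=
    one_le_mul_of_one_le_of_one_le hz (Real.one_le_exp (by positivity))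
  have hup : ∀ p ∈ slot Q (yP J z) (ρ * z),
      ‖up (yP J z) ε τ p‖ ≤ z * Real.exp (2 * ε * L) * N p ^ (-(1 / 2 + ε)) := by
    intro p hp
    obtain ⟨h1, -, h3⟩ := mem_slot hp
    have := N_nonneg p
    exact (norm_up_le h1.ne_zero _ τ hε.le (hL ▸ h3)).trans (by gcongr)
  obtain ⟨A, hA⟩ : ∃ A : O × O → Finset (Finset O), A = fun h => ((slot Q (yP J z) (ρ * z)).filter
      fun p => p ∣ h.1 * h.2 * (d' * a ^ 6)).powerset.filter (fun I => I.card ≤ J) := ⟨_, rfl⟩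
  have hAm : ∀ h, ∀ I ∈ A h, I.card ≤ J ∧ ∀ p ∈ I,
      Prime p ∧ P0 Q p ∧ N p ≤ Real.exp L ∧ p ∣ h.1 * h.2 * (d' * a ^ 6) := by
    intro h I hI
    rw [hA, Finset.mem_filter, Finset.mem_powerset] at hI
    refine ⟨hI.2, fun p hp => ?_⟩
    have := Finset.mem_filter.1 (hI.1 hp)
    obtain ⟨h1, h2, h3⟩ := mem_slot this.1
    exact ⟨h1, h2, hL ▸ h3, this.2⟩
  obtain ⟨K, hK⟩ : ∃ K, K = C1 * (C2 * Real.exp (33 / 8 * ε * z)) *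
      Real.exp (ε * y1 z + ε ^ 2 / 4) * Real.exp (ε * y0 z + ε ^ 2 / 4) := ⟨_, rfl⟩
  have hK0 : 0 ≤ K := by rw [hK]; positivity
  have key : ∀ h : O × O, P0 Q h.1 → P0 Q h.2 →
      ‖(∑ I ∈ (slot Q (yP J z) (ρ * z)).powersetCard J, (∏ p ∈ I, up (yP J z) ε τ p) *
          Hv (d' * a ^ 6) d' ![h.1, h.2, ∏ p ∈ I, p]) * B0 Q d' (y1 z) ε τ h.1 *
          B1 Q η d' (y0 z) ε τ h.2‖ ≤
        K * (Real.exp (5 / 4 * ε * z) * V) *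
          ∑ I ∈ A h, maj (d' * a ^ 6) d' ε ![h.1, h.2, ∏ p ∈ I, p] := by
    intro x h1 h2
    have s1 := hsp Q (yP J z) (ρ * z) _ τ d' a x.1 x.2 hlam1 hup h1 h2 hd
    have s2 := hlam z L hz0 hJL
    have hAx : ((slot Q (yP J z) (ρ * z)).filter
      fun p => p ∣ x.1 * x.2 * (d' * a ^ 6)).powerset.filter (fun I => I.card ≤ J) = A x := by
      rw [hA]
    rw [hAx] at s1
    rw [norm_mul, norm_mul, norm_B0 Q d' _ _ _ h1, hK]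
    refine combine (A x) s1 s2 (norm_B1 Q hη d' _ _ _ h2) hC1 (norm_nonneg _)
      (Real.rpow_nonneg (N_nonneg _) _) (Real.exp_pos _).le (Real.exp_pos _).le
      (Real.rpow_nonneg (N_nonneg _) _) (norm_nonneg _) (pow_nonneg (by linarith) _)
      (fun I _ => mul_nonneg (mul_nonneg (norm_nonneg _) (Real.rpow_nonneg (N_nonneg _) _))
        (pow_nonneg (add_nonneg zero_le_one (norm_nonneg _)) _)) fun I hI => ?_
    obtain ⟨i1, i2⟩ := hAm x I hI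
    exact term_le hε (hJL.trans (by linarith)) hL0 hd hN h1 h2 hV
      (pow_nonneg (add_nonneg zero_le_one (norm_nonneg _)) _)
      (norm_nonneg _) (norm_nonneg _) i2 i1 fun hle => h _ _ (one_le_N h1.1.ne_zero)
        (one_le_N h2.1.ne_zero) _ i1 (hL ▸ hle)
  have na := N_nonneg a
  have hfin : K * (Real.exp (5 / 4 * ε * z) * V) * (C3 * N (d' * a ^ 6) ^ ε * N a) ≤
      C1 * C2 * C3 * Real.exp 1 * Real.exp (10 * ε * z) * N a * V := by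
    have e1 : N (d' * a ^ 6) ^ ε ≤ Real.exp (2 * z * ε) := by
      rw [Real.exp_mul]
      exact Real.rpow_le_rpow (N_nonneg _) hN hε.le
    have e2 : Real.exp (33 / 8 * ε * z) * Real.exp (ε * y1 z + ε ^ 2 / 4) *
        Real.exp (ε * y0 z + ε ^ 2 / 4) * Real.exp (5 / 4 * ε * z) * Real.exp (2 * z * ε) ≤
        Real.exp 1 * Real.exp (10 * ε * z) := by
      simp only [← Real.exp_add]
      refine Real.exp_le_exp.2 ?_
      unfold y0 y1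
      nlinarith [mul_nonneg hε.le hz0]
    calc _ ≤ K * (Real.exp (5 / 4 * ε * z) * V) * (C3 * Real.exp (2 * z * ε) * N a) := by gcongr
      _ = C1 * C2 * C3 * (Real.exp (33 / 8 * ε * z) * Real.exp (ε * y1 z + ε ^ 2 / 4) *
          Real.exp (ε * y0 z + ε ^ 2 / 4) * Real.exp (5 / 4 * ε * z) * Real.exp (2 * z * ε)) *
          N a * V := by rw [hK]; ring
      _ ≤ C1 * C2 * C3 * (Real.exp 1 * Real.exp (10 * ε * z)) * N a * V := by gcongr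
      _ = _ := by ring
  refine le_trans (le_of_tendsto' (Filter.Tendsto.norm (Rs_hasSum Q hη J ρ z (d' * a ^ 6) d' ε τ))
    fun T => ?_) hfin
  rw [← Finset.sum_filter]
  refine (norm_sum_le _ _).trans ((Finset.sum_le_sum fun x hx =>
    key x (Finset.mem_filter.1 hx).2.1 (Finset.mem_filter.1 hx).2.2).trans ?_)
  rw [← Finset.mul_sum]
  exact mul_le_mul_of_nonneg_left (sum_sum_le (hmaj Q d' a hd' ha h6) _
    (fun x hx => (Finset.mem_filter.1 hx).2) A fun x I hI p hp =>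
      ⟨((hAm x I hI).2 p hp).1, ((hAm x I hI).2 p hp).2.1⟩) (by positivity)

end H2

theorem hs_bound (Q : Lev) {J : ℕ} (hJ : 1 ≤ J) {ε ρ : ℝ} (hε : 0 < ε) (hε1 : ε ≤ 1) (hρ : 0 < ρ)
    (hρ1 : ρ ≤ 5 / (48 * J)) : ∃ C z0 : ℝ, ∀ η ∈ hchars Q.q, ∀ z : ℝ, z0 ≤ z →
    ∀ d' a : O, d' ≠ 0 → P0 Q a → (∀ p, Prime p → ¬ p ∣ Q.q → ¬ p ^ 6 ∣ d') →
    N (d' * a ^ 6) ≤ Real.exp (2 * z) → ∀ V : ℝ → ℝ, Continuous V →
    (∀ τ : ℝ, |τ| ≤ z ^ 2 → ∀ h1 h2 : ℝ, 1 ≤ h1 → 1 ≤ h2 → ∀ j ≤ J,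
      h1 ≤ h2 * Real.exp (j * (yP J z + ρ * z)) * N a →
      h2 ^ ε * ‖pb (mm (rc η d')) (y0 z - Real.log h2 + ε / 2) (-τ)‖ *
        ‖pb (rc (one0 Q) d') (y1 z - Real.log h1 + ε / 2) τ‖ *
        (1 + ‖Pb Q (rc (one0 Q) d') (yP J z) (ρ * z) ε τ‖) ^ (J - j) ≤ V τ) →
    ‖Row Q η J ρ z (d' * a ^ 6)‖ ≤
      C * Real.exp (10 * ε * z) * N a * (∫ τ in Set.Icc (-z ^ 2) (z ^ 2), Gm ε τ * V τ) +
        C * Real.exp (-10 * z) := by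
  obtain ⟨C1, hC1, h1⟩ := H2.Rs_le hJ hε hε1
  obtain ⟨C2, hC2, h2⟩ := H2.norm_Rs_triv hJ
  obtain ⟨C3, hC3, h3⟩ := H2.exists_majorant hε
  refine ⟨C1 + C3 * C2, 34, fun η hη z hz d' a hd' ha h6 hN V hV h => ?_⟩
  have hz0 : 0 ≤ z := by linarith
  have na := one_le_N ha.1.ne_zero
  have hV0 : ∀ τ, |τ| ≤ z ^ 2 → 0 ≤ V τ := fun τ hτ =>
    le_trans (by positivity) (h τ hτ 1 1 le_rfl le_rfl 0 (Nat.zero_le _) (by simpa using na))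
  obtain ⟨g, hg, hle, hint⟩ := h3 (fun τ => ‖H2.Rs Q η J ρ z (d' * a ^ 6) ε τ‖) V
    ((C1 + C3 * C2) * Real.exp (10 * ε * z) * N a) C2 z hz hC2 hV (fun _ => norm_nonneg _)
    (fun τ hτ => (h1 Q η hη ρ z τ (V τ) hρ hρ1 (by linarith) d' a hd' ha h6 hN (hV0 τ hτ)
      (h τ hτ)).trans (by have := hV0 τ hτ; gcongr; exact le_add_of_nonneg_right (by positivity)))
    (fun τ => h2 Q η hη ρ ε z τ _ hρ hρ1 hε hε1 hz0)
  refine (H2.row_le Q hη J ρ hz0 hε (mul_ne_zero hd' (pow_ne_zero _ ha.1.ne_zero)) hg hle).trans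
    (hint.trans ?_)
  gcongr
  exact le_add_of_nonneg_left hC1

end Crest.Agent.R17
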