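import Crest.Agent.R17.RowSum_Defs
import Crest.Agent.R17.High2

/-!
# R17 / RowSum_Red2 : one class of rows

Read the header of `RowSum_Defs.lean` first.
-/

set_option autoImplicit false

noncomputable section

open scoped Classical ComplexConjugate
open MeasureTheory

namespace Crest.Agent.R17.RS

/-- `C₁, z0` from `hs_bound` (replace `C₁` by `|C₁|`; `VV …` is continuous and non-negative), `z0 ≥ 1`,
`CΓ = ∫ Gm ε` (`integrable_Gm ε 0`, `continuous_Gm`).  For `d ∈ cls Q k`: `d ≠ 0`, `N(d a⁶) ≤ e^{k} N(a)⁶ ≤ e^{2z}`.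
Sum over `d`, interchange with the integral (`integral_finset_sum`, continuous integrands on `Icc`): for
`|τ| ≤ z²`, `∑_d VV … τ ≤ e^{Ez} N(a)^{-2} B + 18 e^k e^{-5z}` (`Fam.sum` with `cls ⊆ npball`, `card_ball_le`), and
`∫_{Icc} Gm ε ≤ CΓ`.  Finally `N a · N(a)^{-2} = 1/N a`, `N a · e^k e^{-5z} ≤ e^{-3z} ≤ 1/N a` and
`e^k e^{-10z} ≤ 1/N a` (`0 ≤ log N a`, `k + 6 log N a ≤ 2z`), `1 ≤ e^{Ez}`, `1 ≤ e^{10εz}`;
`C = |C₁| (18 CΓ + 18)`. -/
theorem red_class (Q : Lev) {J : ℕ} (hJ : 1 ≤ J) {ε ρ : ℝ} (hε : 0 < ε) (hε1 : ε ≤ 1) (hρ : 0 < ρ)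
    (hρ1 : ρ ≤ 5 / (48 * J)) : ∃ C z0 : ℝ, 0 ≤ C ∧ ∀ η ∈ hchars Q.q, ∀ z : ℝ, z0 ≤ z →
    ∀ E B : ℝ, 0 ≤ E → 0 ≤ B → ∀ (k : ℕ) (a : O), P0 Q a → (k : ℝ) + 6 * Real.log (N a) ≤ 2 * z →
    ∀ W : O → ℝ → ℝ, Fam Q z k (B * Real.exp k) W →
      (∀ d ∈ cls Q k, HS Q η J ρ ε z d a (VV E z k a (W d))) →
      ∑ d ∈ cls Q k, ‖Row Q η J ρ z (d * a ^ 6)‖ ≤
        C * Real.exp ((E + 10 * ε) * z) * (1 + B) * (N a)⁻¹ := by
  obtain ⟨C1, z0, h⟩ := hs_bound Q hJ hε hε1 hρ hρ1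
  have hG0 : ∀ τ, 0 ≤ Gm ε τ := fun _ => norm_nonneg _
  have hGi : Integrable (Gm ε) := by simpa using integrable_Gm hε 0
  obtain ⟨G, hG⟩ : ∃ G, G = ∫ τ, Gm ε τ := ⟨_, rfl⟩
  have hGn : 0 ≤ G := hG ▸ integral_nonneg hG0
  refine ⟨|C1| * (18 * G + 18), max z0 0, by positivity,
    fun η hη z hz E B hE hB k a ha hk W hW hHS => ?_⟩
  have hz0 : 0 ≤ z := (le_max_right _ _).trans hz
  have ha0 := N_pos ha.1.ne_zero
  obtain ⟨α, hα⟩ : ∃ α, α = Real.log (N a) := ⟨_, rfl⟩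
  have hα0 : 0 ≤ α := hα ▸ Real.log_nonneg (one_le_N ha.1.ne_zero)
  have hNa : N a = Real.exp α := by rw [hα, Real.exp_log ha0]
  have hk0 : (0 : ℝ) ≤ k := Nat.cast_nonneg k
  rw [← hα] at hk
  have hsub : cls Q k ⊆ npball Q (Real.exp k) := Finset.filter_subset _ _
  have hcard : ((cls Q k).card : ℝ) ≤ 18 * Real.exp k := by
    refine le_trans ?_ (card_ball_le (Real.exp_pos (k : ℝ)).le)
    exact_mod_cast Finset.card_le_card (hsub.trans (npball_subset Q _))
  have hVc : ∀ d, Continuous (VV E z k a (W d)) := fun d =>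
    (continuous_const.mul (hW.cont d)).add continuous_const
  have hV0 : ∀ d τ, 0 ≤ VV E z k a (W d) τ := fun d τ =>
    add_nonneg (mul_nonneg (Real.exp_pos _).le (hW.nonneg d τ)) (Real.exp_pos _).le
  have hi : ∀ d, IntegrableOn (fun τ => Gm ε τ * VV E z k a (W d) τ) (Set.Icc (-z ^ 2) (z ^ 2)) :=
    fun d => ((continuous_Gm hε).mul (hVc d)).integrableOn_Icc
  have h1 : ∀ d ∈ cls Q k, ‖Row Q η J ρ z (d * a ^ 6)‖ ≤
      |C1| * Real.exp (10 * ε * z) * N a *
        (∫ τ in Set.Icc (-z ^ 2) (z ^ 2), Gm ε τ * VV E z k a (W d) τ) +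
        |C1| * Real.exp (-10 * z) := fun d hd => by
    have h2 := mem_npball.1 (hsub hd)
    have h3 : N (d * a ^ 6) ≤ Real.exp (2 * z) := by
      rw [N_mul, N_pow, hNa, ← Real.exp_nat_mul]
      refine (mul_le_mul_of_nonneg_right h2.2 (Real.exp_pos _).le).trans ?_
      rw [← Real.exp_add]
      exact Real.exp_le_exp.2 (by push_cast; linarith)
    refine (h η hη z ((le_max_left _ _).trans hz) d a (not_exc_ne_zero Q h2.1) ha
      (Finset.mem_filter.1 hd).2 h3 _ (hVc d) (hHS d hd)).trans ?_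
    have h4 : 0 ≤ ∫ τ in Set.Icc (-z ^ 2) (z ^ 2), Gm ε τ * VV E z k a (W d) τ :=
      integral_nonneg fun τ => mul_nonneg (hG0 τ) (hV0 d τ)
    gcongr <;> exact le_abs_self C1
  obtain ⟨M, hM⟩ : ∃ M, M = Real.exp (E * z - 2 * α - k) * (B * Real.exp k) +
    18 * Real.exp k * Real.exp (-5 * z) := ⟨_, rfl⟩
  have hM0 : 0 ≤ M := hM ▸ by positivity
  have h2 : ∑ d ∈ cls Q k, ∫ τ in Set.Icc (-z ^ 2) (z ^ 2), Gm ε τ * VV E z k a (W d) τ ≤
      G * M := by
    rw [← integral_finsetSum _ fun d _ => hi d, hG, ← integral_mul_const]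
    refine (setIntegral_mono_on (integrable_finsetSum _ fun d _ => hi d)
      (hGi.mul_const M).integrableOn measurableSet_Icc fun τ hτ => ?_).trans
      (setIntegral_le_integral (hGi.mul_const M) (ae_of_all _ fun τ => mul_nonneg (hG0 τ) hM0))
    rw [← Finset.mul_sum]
    refine mul_le_mul_of_nonneg_left ?_ (hG0 τ)
    simp only [VV]
    rw [Finset.sum_add_distrib, ← Finset.mul_sum, Finset.sum_const, nsmul_eq_mul, hM, ← hα]
    refine add_le_add (mul_le_mul_of_nonneg_left ?_ (Real.exp_pos _).le)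
      (mul_le_mul_of_nonneg_right hcard (Real.exp_pos _).le)
    exact (Finset.sum_le_sum_of_subset_of_nonneg hsub fun d _ _ => hW.nonneg d τ).trans
      (hW.sum τ (abs_le.2 hτ))
  have e1 : 1 ≤ Real.exp (E * z) := Real.one_le_exp (by positivity)
  have e2 : 1 ≤ Real.exp (10 * ε * z) := Real.one_le_exp (by positivity)
  have e3 := Real.exp_pos (-α)
  have h3 : N a * M ≤ 18 * (Real.exp (E * z) * (1 + B)) * Real.exp (-α) := by
    have h4 : Real.exp α * (Real.exp (E * z - 2 * α - k) * (B * Real.exp k)) =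
        Real.exp (E * z) * B * Real.exp (-α) := by
      rw [mul_comm B, ← mul_assoc, ← mul_assoc, mul_right_comm _ B, ← Real.exp_add, ← Real.exp_add,
        ← Real.exp_add]
      congr 2
      ring
    have h5 : Real.exp α * (Real.exp k * Real.exp (-5 * z)) ≤ Real.exp (-α) := by
      rw [← Real.exp_add, ← Real.exp_add]
      exact Real.exp_le_exp.2 (by linarith)
    have h6 : 0 ≤ Real.exp (E * z) * B * Real.exp (-α) := by positivity
    rw [hNa, hM, mul_add, h4]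
    nlinarith [mul_le_mul_of_nonneg_right e1 e3.le]
  have h4 : Real.exp k * Real.exp (-10 * z) ≤
      Real.exp (10 * ε * z) * (Real.exp (E * z) * (1 + B)) * Real.exp (-α) := by
    have h5 : Real.exp k * Real.exp (-10 * z) ≤ Real.exp (-α) := by
      rw [← Real.exp_add]
      exact Real.exp_le_exp.2 (by linarith)
    refine h5.trans (le_mul_of_one_le_left e3.le ?_)
    exact one_le_mul_of_one_le_of_one_le e2 (one_le_mul_of_one_le_of_one_le e1 (by linarith))
  refine (Finset.sum_le_sum h1).trans ?_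
  rw [Finset.sum_add_distrib, ← Finset.mul_sum, Finset.sum_const, nsmul_eq_mul]
  calc _ ≤ |C1| * Real.exp (10 * ε * z) * N a * (G * M) +
        18 * Real.exp k * (|C1| * Real.exp (-10 * z)) := by gcongr
    _ = |C1| * Real.exp (10 * ε * z) * G * (N a * M) +
        18 * |C1| * (Real.exp k * Real.exp (-10 * z)) := by ring
    _ ≤ |C1| * Real.exp (10 * ε * z) * G * (18 * (Real.exp (E * z) * (1 + B)) * Real.exp (-α)) +
        18 * |C1| * (Real.exp (10 * ε * z) * (Real.exp (E * z) * (1 + B)) * Real.exp (-α)) := by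
        gcongr
    _ = _ := by
        rw [hNa, ← Real.exp_neg, add_mul E, Real.exp_add]
        ring

end Crest.Agent.R17.RS
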