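import Crest.Agent.R17.RowSum_Red1
import Crest.Agent.R17.RowSum_Red2

/-!
# R17 / RowSum_Red : summation over all non-exceptional rows
-/

set_option autoImplicit false

noncomputable section

open scoped Classical ComplexConjugate

namespace Crest.Agent.R17.RS

theorem reduction (Q : Lev) {J : ℕ} (hJ : 1 ≤ J) {ε ρ e γ : ℝ} (hε : 0 < ε) (hε1 : ε ≤ 1) (hρ : 0 < ρ)
    (hρ1 : ρ ≤ 5 / (48 * J)) (he : 0 < e) (he1 : e ≤ 1) (hγ : 0 < γ) :
    ∃ C z0 : ℝ, 0 ≤ C ∧ ∀ η ∈ hchars Q.q, ∀ z : ℝ, z0 ≤ z → ∀ E B : ℝ, 0 ≤ E → 0 ≤ B →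
      (∀ k : ℕ, (k : ℝ) ≤ 2 * z → ∃ W, Fam Q z k (B * Real.exp k) W ∧ ∀ d a : O, ¬ Exc Q d →
        N d ≤ Real.exp k → a ≠ 0 → (k : ℝ) + 6 * Real.log (N a) ≤ (1 + e) * z →
        HS Q η J ρ ε z d a (VV E z k a (W d))) →
      ∑' d : O, (if ¬ Exc Q d then ‖Row Q η J ρ z d‖ else 0) ≤
        C * Real.exp ((E + 10 * ε + γ) * z) * (1 + B) := by
  obtain ⟨C1, z1, h1⟩ := far_rows Q hJ (half_pos he) hρ hρ1
  obtain ⟨C2, z2, hC2, h2⟩ := red_class Q hJ hε hε1 hρ hρ1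
  obtain ⟨z3, h3⟩ := sum_idx_le hγ
  refine ⟨|C1| + C2, max (max z1 z2) (max z3 (2 / e)), by positivity,
    fun η hη z hz E B hE hB h => ?_⟩
  simp only [max_le_iff] at hz
  obtain ⟨⟨b1, b2⟩, b3, b4⟩ := hz
  have hz0 : 0 ≤ z := le_trans (by positivity) b4
  refine (red_split Q (psi_eq Q hη J ρ z).1 (fun _ => norm_nonneg _) he he1 b4).trans ?_
  have k1 := h1 η hη z b1
  have k2 : ∑ x ∈ idx Q e z, ∑ d ∈ cls Q x.2, ‖Row Q η J ρ z (d * x.1 ^ 6)‖ ≤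
      ∑ x ∈ idx Q e z, C2 * Real.exp ((E + 10 * ε) * z) * (1 + B) * (N x.1)⁻¹ := by
    refine Finset.sum_le_sum fun x hx => ?_
    rw [idx, Finset.mem_filter, Finset.mem_product, Finset.mem_filter] at hx
    obtain ⟨⟨⟨-, ha⟩, -⟩, hk⟩ := hx
    have hl : 0 ≤ Real.log (N x.1) := Real.log_nonneg (one_le_N ha.1.ne_zero)
    have hk2 : (x.2 : ℝ) + 6 * Real.log (N x.1) ≤ 2 * z := hk.trans (by nlinarith)
    obtain ⟨W, hW, hW'⟩ := h x.2 (by linarith)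
    refine h2 η hη z b2 E B hE hB x.2 x.1 ha hk2 W hW fun d hd => ?_
    have := mem_npball.1 (Finset.mem_filter.1 hd).1
    exact hW' d x.1 this.1 this.2 ha.1.ne_zero hk
  rw [← Finset.mul_sum] at k2
  have k3 := mul_le_mul_of_nonneg_left (h3 Q e z b3)
    (show 0 ≤ C2 * Real.exp ((E + 10 * ε) * z) * (1 + B) by positivity)
  have k4 : C2 * Real.exp ((E + 10 * ε) * z) * (1 + B) * Real.exp (γ * z) =
      C2 * (Real.exp ((E + 10 * ε + γ) * z) * (1 + B)) := by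
    rw [add_mul (E + 10 * ε) γ z, Real.exp_add]; ring
  have k5 : 1 ≤ Real.exp ((E + 10 * ε + γ) * z) * (1 + B) :=
    one_le_mul_of_one_le_of_one_le (Real.one_le_exp (by positivity)) (by linarith)
  have k6 : C1 ≤ |C1| * (Real.exp ((E + 10 * ε + γ) * z) * (1 + B)) :=
    (le_abs_self C1).trans (le_mul_of_one_le_right (abs_nonneg _) k5)
  rw [mul_assoc (|C1| + C2), add_mul |C1| C2]
  linarith

end Crest.Agent.R17.RS
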