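import Crest.Agent.R17.RowSum_Maj
import Crest.Agent.R17.RowSum_Point
import Crest.Agent.R17.RowSum_Red

/-!
# R17 / RowSum : the non-exceptional rows

(The formal proof is in the files `RowSum_*`, overview in `RowSum_Defs`; it follows the plan below, with
`W` built from one integral over a box for every pair `(ν, j)`.)

`Z = e^z`, `e = 10⁻⁷`, `e' = e/100`, `κ = 2β-1`, `E = 33/32 + (5/8)(κ - 3/4) - 1/10000`.  Take `η₁` from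
`f1Moment 4 e'`, `gMoment1 4 e'`; `ε = min(e', η₁)` (parameter of `hs_bound`); `J` with
`5/(24J) ≤ min(e', η₁/2)`; `ρ₀` with `Jρ₀ ≤ min(e', η₁/2)`, `ρ₀ ≤ 5/(48J)`; `ε₀ ≤ 1/100` from
`detector 4 e' (1/100)`.
**Reduction.** `far_rows` removes `N d > Z^{1+e/2}`.  Write `d = d'a⁶` (`exists_sixfree`, `d'` is
non-exceptional by `exc_mul_pow_six`), dyadic `N d' ∈ (D/2, D]`, `N a ∈ (A/2, A]`, `D = Z^θ`, `A = Z^α`,
`θ + 6α ≤ 1 + e`, `O(z²)` classes, `≤ 18A` values of `a`.  Let `Π(τ) = 1 + |Pb Q (rc one0 d') yP (ρz) ε τ|`.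
It suffices to construct `W(d',τ) ≥ 1`, continuous in `τ`, with
(1) `∑_{d' ∈ npball Q D} W(d',τ) ≤ C Z^{θ + 10⁻⁵}` for `|τ| ≤ z²`, and
(2) the hypothesis of `hs_bound` holds with `V τ = Z^{E - 2α - θ} W(d',τ) + Z^{-5}`.
**Definition of `W`.**  For integers `u ∈ [-z-1, 3z]`, `|v| ≤ z³ + 1`, `ν ∈ hchars`, cell
`c(u,v) = [u-1,u+2] × [v-1,v+2]`, `R_u = max(1, e^{u+2})`, `I₂ = ∬_c |pb (mm (rc ν d'))|²`,
`I₄ = ∬_c |pb (rc ν d')|⁴`, `D₁ = D Z^{2e'}`, `P2 = e^{yP+ρz}`;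
`j₁(u)` = largest `j ≤ J` with `R_u P2^{2j} ≤ D₁`, `P2^{6j} ≤ D₁` (when `R_u ≤ D₁`);
`j₃(u)` = largest `j ≤ J` with `R_u² e^{j yP(1+5κ)} ≤ D`, `e^{4j yP(1+4κ)} ≤ D` (`0` if there is none);
`W = 1 + ∑_{ν,u,v} [Π^{2j₃(u)} I₄ + 1_{R_u ≤ D₁} Π^{2j₁(u)} I₂ + 1_{D ≤ R_u} (D/R_u)^{5/6} I₂]`.
(1) follows from `gMoment1`/`gMoment0` (`ν₁ = ν₂ = ν`, `ν₃ = one0`), `f1Moment`
(`b p = one0 p · w_p N p^{ε+iτ}`, `Λ = z e^{ε(yP+ρz)}`, `isSlot_slot`), `f5Moment`, `card_ball_le`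
(interchange the finite sum over `d'` with the integrals, `continuous_blk`).  By `local_sup`, for
`(y,t)` with `⌊y⌋ = u`, `⌊t⌋ = v`: `|pb (mm ..) y t|² ≤ C z⁶ I₂`, `|pb .. y t|⁴ ≤ C z^{12} I₄`
(Cauchy–Schwarz).
**(2).**  Fix `d', τ, h₁, h₂, j`.  `buffer` with `T₁ = z²` gives `σ', T`.  Let `σ'' = max(σ', 1/2+1/50)`,
`δ = 2σ''-1 ∈ [1/25, κ]`, `δp = 2 log Π/yP ∈ [0, δ+e]` (`localP`, level `levd Q d'`), `a' = log h₂/z`,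
`b = j yP/z`, `G = (log W)/z`.  `localM`: `|M| ≤ Z^{2e' + δ(5/4 - a')/2}`; `Π^{J-j} = Z^{δp(5/24-b)/2}`.
For the middle factor with `y = y1 - log h₁ + ε/2`: if `y < -z` everything is `≤ Z^{-5}`
(`norm_blk_le_neg`, `norm_blk_le`); otherwise `reflect_sup` (with `A = 10`) and monotonicity of `j₃`:
all lengths `y'` in its range have `R_{⌊y'⌋} ≤ Z^{u}`, `u := max 0 (θ - 7/12 + a' + b + α) + e`, so with
`j₃* ` defined as `j₃` for `R = Z^u` and `z₃ = j₃* yP/z`, the bound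
`M₀ = (C z^{12} W Π^{-2j₃*})^{1/4}` is admissible: `|Z̃| ≤ Z^{2e' - δp z₃/4} W^{1/4} + C z^{2B} Z^{-10}`, and
`z₃ ≥ min((θ-2u)/(1+5κ), θ/(4(1+4κ))) - e` by maximality (`5/24 ≥ θ/16`).  Since
`1 = W^{3/4} Z^{-3G/4}`, (2) follows from `num_small` if `σ' ≤ 1/2 + 1/50` (`G ≥ 0`), and otherwise
from `num_big`: `buffer` provides a zero `s` of some `rc ν d'`; `detector` with `X = Z^t` gives lengths
`r z, m z` with `|M_ν(rz, Im s)| ≥ Z^{-e' + δr/2}`, `|Z̃_ν(mz, Im s)| ≥ Z^{-e' + δm/2}`, and the three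
kinds of terms of `W` give the three lower bounds for `G` required by `num_big` (maximality of `j₁`,
`j₃`; `5/24 ≥ θ/6`; losses `yP/z + ρ + Jρ + O(e') ≤ e`).
-/

set_option autoImplicit false

noncomputable section

open scoped Classical ComplexConjugate

namespace Crest.Agent.R17

theorem rowSum : ∃ (J : ℕ) (ρ0 : ℝ), 1 ≤ J ∧ 0 < ρ0 ∧ ρ0 ≤ 5 / (48 * J) ∧
    ∀ ρ : ℝ, 0 < ρ → ρ ≤ ρ0 → ∀ β : ℝ, 7 / 8 ≤ β → β ≤ 1 → ZF β → ∀ Q : Lev,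
    ∃ C z0 : ℝ, ∀ η ∈ hchars Q.q, ∀ z : ℝ, z0 ≤ z →
      ∑' d : O, (if ¬ Exc Q d then ‖Row Q η J ρ z d‖ else 0) ≤
        C * Real.exp ((33 / 32 + 5 / 4 * (β - 7 / 8) - 1 / 20000) * z) := by
  obtain ⟨η1, hη1, hmaj⟩ := RS.maj_exists (γ := 1 / 10 ^ 5) (by norm_num)
  obtain ⟨η, hη0, hηa, hηb⟩ : ∃ η : ℝ, 0 < η ∧ η ≤ η1 ∧ η ≤ 1 / 10 ^ 7 / 100 :=
    ⟨min η1 (1 / 10 ^ 7 / 100), lt_min hη1 (by norm_num), min_le_left _ _, min_le_right _ _⟩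
  obtain ⟨J, hJ⟩ := exists_nat_ge (1 + 1 / η)
  have hJ1 : (1 : ℝ) ≤ J := le_trans (le_add_of_nonneg_right (by positivity)) hJ
  have hJ1' : 1 ≤ J := by exact_mod_cast hJ1
  have hJη : 5 / (24 * (J : ℝ)) ≤ η := by
    rw [div_le_iff₀ (by positivity)]
    have : 1 / η ≤ J := by linarith
    rw [div_le_iff₀ hη0] at this
    linarith
  have hpar : ∀ ρ : ℝ, 0 < ρ → ρ ≤ η / J → J * ρ ≤ η ∧ RS.Par (1 / 10 ^ 7) J ρ η := fun ρ hρ h => by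
    have h1 : J * ρ ≤ η := by rwa [le_div_iff₀' (by positivity)] at h
    exact ⟨h1, by norm_num, le_rfl, hJ1', hJη.trans hηb, hρ, h1.trans hηb, hη0, hηb⟩
  refine ⟨J, η / J, hJ1', by positivity, (hpar _ (by positivity) le_rfl).2.ρ1,
    fun ρ hρ hρ0 β hβ hβ1 hZ Q => ?_⟩
  obtain ⟨hJρ, hp⟩ := hpar ρ hρ hρ0
  obtain ⟨C1, z1, hC1, h1⟩ := hmaj β hβ hβ1 hZ Q J ρ η hJ1' (hJη.trans hηa) hρ hp.ρ1 (hJρ.trans hηa)
    hη0 hηa (hηb.trans (by norm_num))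
  obtain ⟨z2, h2⟩ := RS.pointwise hp hβ hβ1 hZ Q
  obtain ⟨C3, z3, hC3, h3⟩ := RS.reduction Q hJ1' hη0 (hηb.trans (by norm_num)) hρ hp.ρ1 hp.e0
    (by norm_num) (γ := 1 / 10 ^ 5) (by norm_num)
  refine ⟨C3 * (1 + C1), max (max z1 z2) (max z3 0), fun ν hν z hz => ?_⟩
  simp only [max_le_iff] at hz
  obtain ⟨⟨b1, b2⟩, b3, hz0⟩ := hz
  refine (h3 ν hν z b3 (33 / 32 + 5 / 8 * (2 * β - 1 - 3 / 4) - 1 / 10000)
    (C1 * Real.exp (2 * (1 / 10 ^ 5) * z)) (by linarith) (by positivity) fun k hk => ?_).trans ?_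
  · obtain ⟨W, hW, hM⟩ := h1 z b1 k (Nat.cast_nonneg k) hk
    exact ⟨W, hW, fun d a c1 c2 c3 c4 => h2 ν hν z b2 k d a (Nat.cast_nonneg k) c1 c2 c3 c4 _ (hM d)⟩
  · have e1 : 1 + C1 * Real.exp (2 * (1 / 10 ^ 5) * z) ≤
        (1 + C1) * Real.exp (2 * (1 / 10 ^ 5) * z) := by
      have : 1 ≤ Real.exp (2 * (1 / 10 ^ 5) * z) := Real.one_le_exp (by positivity)
      linarith
    calc _ ≤ C3 * Real.exp ((33 / 32 + 5 / 8 * (2 * β - 1 - 3 / 4) - 1 / 10000 + 10 * η +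
          1 / 10 ^ 5) * z) * ((1 + C1) * Real.exp (2 * (1 / 10 ^ 5) * z)) := by gcongr
      _ = C3 * (1 + C1) * (Real.exp ((33 / 32 + 5 / 8 * (2 * β - 1 - 3 / 4) - 1 / 10000 + 10 * η +
          1 / 10 ^ 5) * z) * Real.exp (2 * (1 / 10 ^ 5) * z)) := by ring
      _ ≤ _ := by
        rw [← Real.exp_add, ← add_mul]
        refine mul_le_mul_of_nonneg_left (Real.exp_le_exp.2
          (mul_le_mul_of_nonneg_right (by linarith) hz0)) (by positivity)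

end Crest.Agent.R17
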