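import Crest.Agent.R17.LCont
import Crest.Agent.R17.Block
import Crest.Agent.R17.Chars

/-!
# R17 / SigMellin : from a bound for the signal to a zero-free half-plane; soft facts about `ZF`
-/

set_option autoImplicit false

noncomputable section

open scoped Classical ComplexConjugate

namespace Crest.Agent.R17

namespace SM

open Complex MeasureTheory Filter Topology

theorem gw_exp (L y : ℝ) (w : ℂ) :
    (gw (L - y) : ℂ) * cexp (-w * y) = cexp ((-1 : ℂ) * y ^ 2 + (2 * L - w) * y + -(L : ℂ) ^ 2) := by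
  rw [gw, ofReal_exp, ← Complex.exp_add]
  congr 1
  push_cast
  ring

theorem lap_int (L : ℝ) (w : ℂ) : Integrable fun y : ℝ => (gw (L - y) : ℂ) * cexp (-w * y) := by
  simp only [gw_exp]
  exact integrable_cexp_quadratic' (by norm_num) _ _

theorem lap_gw (L : ℝ) (w : ℂ) : ∫ y : ℝ, (gw (L - y) : ℂ) * cexp (-w * y) =
    Real.sqrt Real.pi * cexp (w ^ 2 / 4) * cexp (-w * L) := by
  simp only [gw_exp]
  rw [integral_cexp_quadratic (by norm_num), mul_assoc, ← Complex.exp_add]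
  have h3 : (1 / 2 : ℂ) = ((1 / 2 : ℝ) : ℂ) := by push_cast; ring
  rw [neg_neg, div_one, h3, ← Complex.ofReal_cpow Real.pi_pos.le, ← Real.sqrt_eq_rpow]
  congr 2
  ring

theorem lap_norm (L : ℝ) (w : ℂ) : ∫ y : ℝ, ‖(gw (L - y) : ℂ) * cexp (-w * y)‖ =
    Real.sqrt Real.pi * Real.exp (w.re ^ 2 / 4) * Real.exp (-w.re * L) := by
  have h := lap_gw L w.re
  have e : ∀ y : ℝ, (gw (L - y) : ℂ) * cexp (-(w.re : ℂ) * y) =
      ((‖(gw (L - y) : ℂ) * cexp (-w * y)‖ : ℝ) : ℂ) := fun y => by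
    rw [norm_mul, norm_exp, norm_real, Real.norm_of_nonneg (gw_pos _).le]
    push_cast
    simp
  simp only [e] at h
  rw [integral_complex_ofReal] at h
  exact_mod_cast h

theorem gw_le (L y : ℝ) : gw (L - y) ≤ Real.exp (1 / 4) * Real.exp (-L) * Real.exp y := by
  rw [gw, ← Real.exp_add, ← Real.exp_add]
  exact Real.exp_le_exp.2 (by nlinarith [sq_nonneg (L - y - 1 / 2)])

/-- a term of a Dirichlet series -/
def tm (α : O → ℂ) (s : ℂ) (n : O) : ℂ := if n = 0 then 0 else α n * (N n : ℂ) ^ (-s)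

theorem norm_tm (α : O → ℂ) (s : ℂ) (x : ℝ) (n : O) (hx : 0 < s.re + x) :
    ‖tm α s n‖ * Real.exp (-x * Real.log (N n)) = ‖α n‖ * N n ^ (-(s.re + x)) := by
  unfold tm
  split_ifs with h
  · rw [h, N_zero, Real.zero_rpow (by linarith)]
    simp
  · have := N_pos h
    rw [norm_mul, norm_cpow_eq_rpow_re_of_pos this, mul_assoc, neg_re, mul_comm (-x),
      ← Real.rpow_def_of_pos this, ← Real.rpow_add this, neg_add]

theorem tm_exp (α : O → ℂ) (s w : ℂ) (n : O) :
    tm α s n * cexp (-w * Real.log (N n)) = tm α (s + w) n := by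
  unfold tm
  split_ifs with h
  · simp
  · rw [← LM.cpow_eq (N_pos h), mul_assoc, ← cpow_add _ _ (ofReal_ne_zero.2 (N_pos h).ne'), neg_add]

/-- the double series -/
def T (α β : O → ℂ) (p : O × O) (y : ℝ) : ℂ :=
  tm α (1 / 3) p.1 * tm β (1 / 3) p.2 * (gw (Real.log (N p.1) + Real.log (N p.2) - y) : ℂ)

variable {α β : O → ℂ}

theorem sum_tm (h : ∀ σ : ℝ, 1 < σ → Summable fun n => ‖α n‖ * N n ^ (-σ)) {s : ℂ} {x : ℝ}
    (hx : 1 < s.re + x) : Summable fun n => ‖tm α s n‖ * Real.exp (-x * Real.log (N n)) := by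
  simp only [fun n => norm_tm α s x n (by linarith)]
  exact h _ hx

theorem sum_T (hα : ∀ σ : ℝ, 1 < σ → Summable fun n => ‖α n‖ * N n ^ (-σ))
    (hβ : ∀ σ : ℝ, 1 < σ → Summable fun n => ‖β n‖ * N n ^ (-σ)) {x : ℝ} (hx : 2 / 3 < x) :
    Summable fun p : O × O => ‖tm α (1 / 3) p.1 * tm β (1 / 3) p.2‖ *
      Real.exp (-x * (Real.log (N p.1) + Real.log (N p.2))) := by
  have e : (1 / 3 : ℂ).re = 1 / 3 := by norm_num
  have h1 := sum_tm hα (s := 1 / 3) (x := x) (by rw [e]; linarith)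
  have h2 := sum_tm hβ (s := 1 / 3) (x := x) (by rw [e]; linarith)
  refine (h1.mul_of_nonneg h2 (fun n => by positivity) fun n => by positivity).congr fun p => ?_
  rw [norm_mul, mul_add, Real.exp_add]
  ring

theorem T_bound (hα : ∀ σ : ℝ, 1 < σ → Summable fun n => ‖α n‖ * N n ^ (-σ))
    (hβ : ∀ σ : ℝ, 1 < σ → Summable fun n => ‖β n‖ * N n ^ (-σ)) :
    ∃ u : O × O → ℝ, Summable u ∧ ∀ p y, ‖T α β p y‖ ≤ u p * Real.exp y := by
  refine ⟨_, (sum_T hα hβ (x := 1) (by norm_num)).mul_left (Real.exp (1 / 4)), fun p y => ?_⟩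
  rw [T, norm_mul, norm_real, Real.norm_of_nonneg (gw_pos _).le]
  refine (mul_le_mul_of_nonneg_left (gw_le _ y) (norm_nonneg _)).trans (le_of_eq ?_)
  rw [neg_one_mul]
  ring

theorem S_cont (hα : ∀ σ : ℝ, 1 < σ → Summable fun n => ‖α n‖ * N n ^ (-σ))
    (hβ : ∀ σ : ℝ, 1 < σ → Summable fun n => ‖β n‖ * N n ^ (-σ)) :
    Continuous (fun y => ∑' p, T α β p y) ∧ ∃ C, ∀ y, ‖∑' p, T α β p y‖ ≤ C * Real.exp y := by
  obtain ⟨u, hu, hb⟩ := T_bound hα hβ
  refine ⟨?_, ∑' p, u p, fun y => ?_⟩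
  · have h1 : Continuous fun y : ℝ => ∑' p, T α β p y * cexp (-y) := by
      refine continuous_tsum (fun p => ?_) hu fun p y => ?_
      · unfold T gw
        fun_prop
      · rw [norm_mul, norm_exp, neg_re, ofReal_re, Real.exp_neg, ← div_eq_mul_inv,
          div_le_iff₀ (Real.exp_pos y)]
        exact hb p y
    refine (h1.mul (by fun_prop : Continuous fun y : ℝ => cexp y)).congr fun y => ?_
    rw [Pi.mul_apply, tsum_mul_right, mul_assoc, ← Complex.exp_add]
    simp
  · rw [← tsum_mul_right]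
    exact tsum_of_norm_bounded (hu.mul_right _).hasSum fun p => hb p y

theorem S_eq (hα : ∀ σ : ℝ, 1 < σ → Summable fun n => ‖α n‖ * N n ^ (-σ))
    (hβ : ∀ σ : ℝ, 1 < σ → Summable fun n => ‖β n‖ * N n ^ (-σ)) (y : ℝ) :
    ∑' p, T α β p y = ∑' h, tm α (1 / 3) h * blks β (y - Real.log (N h)) (1 / 3) := by
  obtain ⟨u, hu, hb⟩ := T_bound hα hβ
  rw [(Summable.of_norm_bounded (hu.mul_right _) fun p => hb p y).tsum_prod]
  refine tsum_congr fun h => ?_
  rw [blks, ← tsum_mul_left]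
  refine tsum_congr fun n => ?_
  simp only [T]
  rw [mul_assoc, show Real.log (N h) + Real.log (N n) - y = Real.log (N n) - (y - Real.log (N h)) by
    ring]
  congr 1
  unfold tm
  split_ifs <;> simp

theorem S_lap (hα : ∀ σ : ℝ, 1 < σ → Summable fun n => ‖α n‖ * N n ^ (-σ))
    (hβ : ∀ σ : ℝ, 1 < σ → Summable fun n => ‖β n‖ * N n ^ (-σ)) {w : ℂ} (hw : 2 / 3 < w.re) :
    ∫ y : ℝ, (∑' p, T α β p y) * cexp (-w * y) =
      Real.sqrt Real.pi * cexp (w ^ 2 / 4) * (dser α (1 / 3 + w) * dser β (1 / 3 + w)) := by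
  have h := hasSum_integral_of_summable_integral_norm (μ := volume)
    (F := fun (p : O × O) (y : ℝ) => T α β p y * cexp (-w * y)) (fun p => by
      simp only [T, mul_assoc _ _ (cexp _)]
      exact (lap_int _ w).const_mul _) (by
      refine ((sum_T hα hβ hw).mul_left
        (Real.sqrt Real.pi * Real.exp (w.re ^ 2 / 4))).congr fun p => ?_
      simp only [T, mul_assoc _ _ (cexp _), norm_mul (tm α (1 / 3) p.1 * _)]
      rw [integral_const_mul, lap_norm]
      ring)
  simp only [tsum_mul_right] at h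
  have e : (1 / 3 + w : ℂ).re = 1 / 3 + w.re := by norm_num
  have h1 := sum_tm hα (s := 1 / 3 + w) (x := 0) (by rw [e]; linarith)
  have h2 := sum_tm hβ (s := 1 / 3 + w) (x := 0) (by rw [e]; linarith)
  simp only [neg_zero, zero_mul, Real.exp_zero, mul_one] at h1 h2
  rw [← h.tsum_eq]
  change _ = _ * ((∑' n, tm α _ n) * ∑' n, tm β _ n)
  rw [tsum_mul_tsum_of_summable_norm h1 h2, ← tsum_mul_left]
  refine tsum_congr fun p => ?_
  simp only [T, mul_assoc _ _ (cexp _)]
  rw [integral_const_mul, lap_gw, ← tm_exp, ← tm_exp, ofReal_add, mul_add, Complex.exp_add]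
  ring

theorem mellin_eq (F : ℝ → ℂ) (w : ℂ) :
    mellin (fun x => F (-Real.log x)) w = ∫ y : ℝ, F y * cexp (-w * y) := by
  rw [mellin_eq_fourier, Real.fourier_real_eq_integral_exp_smul]
  refine integral_congr_ae (Eventually.of_forall fun y => ?_)
  simp only [Real.log_exp, neg_neg, smul_eq_mul, real_smul, ofReal_exp]
  rw [← mul_assoc, ← Complex.exp_add, mul_comm]
  congr 2
  have : (Real.pi : ℂ) ≠ 0 := ofReal_ne_zero.2 Real.pi_ne_zero
  conv_rhs => rw [← re_add_im w]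
  push_cast
  field_simp
  ring

theorem lap_diff {F : ℝ → ℂ} (hF : Continuous F) {C C' y2 a : ℝ}
    (h1 : ∀ y, ‖F y‖ ≤ C * Real.exp y) (h2 : ∀ y, y2 ≤ y → ‖F y‖ ≤ C' * Real.exp (a * y))
    {w : ℂ} (ha : a < w.re) (hw : w.re < 1) :
    DifferentiableAt ℂ (fun w : ℂ => ∫ y : ℝ, F y * cexp (-w * y)) w := by
  simp only [← mellin_eq]
  refine mellin_differentiableAt_of_isBigO_rpow ?_ ?_ hw ?_ ha
  · refine ContinuousOn.locallyIntegrableOn (hF.comp_continuousOn ?_) measurableSet_Ioi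
    exact (Real.continuousOn_log.mono fun x (hx : 0 < x) => hx.ne').neg
  · refine Asymptotics.IsBigO.of_bound C ((eventually_gt_atTop 0).mono fun x hx => ?_)
    rw [Real.norm_of_nonneg (Real.rpow_nonneg hx.le _), Real.rpow_def_of_pos hx, mul_neg_one]
    exact h1 _
  · have : ∀ᶠ x : ℝ in 𝓝[>] 0, Real.log x ≤ -y2 :=
      Real.tendsto_log_nhdsGT_zero.eventually (eventually_le_atBot _)
    refine Asymptotics.IsBigO.of_bound C' ((this.and self_mem_nhdsWithin).mono fun x hx => ?_)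
    rw [Real.norm_of_nonneg (Real.rpow_nonneg (le_of_lt hx.2) _), Real.rpow_def_of_pos hx.2,
      show Real.log x * -a = a * -Real.log x by ring]
    exact h2 _ (by linarith [hx.1])

theorem dser_diff {σ : ℝ} (h : Summable fun n => ‖α n‖ * N n ^ (-σ)) :
    DifferentiableOn ℂ (dser α) {s | σ < s.re} := by
  refine differentiableOn_tsum_of_summable_norm h (fun n => ?_)
    (isOpen_lt continuous_const continuous_re) fun n s hs => ?_
  · split_ifs with hn
    · exact differentiableOn_const _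
    · exact (differentiableOn_const _).mul (differentiableOn_id.neg.const_cpow
        (Or.inl (ofReal_ne_zero.2 (N_pos hn).ne')))
  · split_ifs with hn
    · rw [norm_zero]
      exact mul_nonneg (norm_nonneg _) (Real.rpow_nonneg (N_nonneg _) _)
    · rw [norm_mul, norm_cpow_eq_rpow_re_of_pos (N_pos hn)]
      exact mul_le_mul_of_nonneg_left (Real.rpow_le_rpow_of_exponent_le (one_le_N hn)
        (neg_le_neg (le_of_lt hs))) (norm_nonneg _)

theorem sum_mono {σ σ' : ℝ} (h0 : 0 < σ) (hσ : σ ≤ σ') (h : Summable fun n => ‖α n‖ * N n ^ (-σ)) :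
    Summable fun n => ‖α n‖ * N n ^ (-σ') := by
  refine h.of_nonneg_of_le (fun n => mul_nonneg (norm_nonneg _) (Real.rpow_nonneg (N_nonneg _) _))
    fun n => mul_le_mul_of_nonneg_left ?_ (norm_nonneg _)
  by_cases hn : n = 0
  · rw [hn, N_zero, Real.zero_rpow (by linarith), Real.zero_rpow (by linarith)]
  · exact Real.rpow_le_rpow_of_exponent_le (one_le_N hn) (neg_le_neg hσ)

end SM

/-- `dser_mul_mu` -/
theorem sm_zf_one : ZF 1 := fun Q ψ h s hs _ => by
  rw [Lf_eq_dser Q.ne (h.per_prim Q) hs]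
  exact left_ne_zero_of_mul_eq_one (dser_mul_mu h.1.one h.1.mul (h.1.norm_le Q.ne) hs)

/-- `Φ(w) = ∫_ℝ Sig b η y e^{-wy} dy` is holomorphic on `Re w > θ - 1/3`: `Sig` is continuous,
`|Sig(y)| ≤ C e^{2y/3}` always and `≤ C_j e^{jy}` for `y ≤ 0` (`tsum_gw_rpow`, `tsum_gw_rpow_neg`).
For `Re w > 2/3`, Fubini and `∫ gw(log x - y) e^{-wy} dy = x^{-w} √π e^{w²/4}` give
`Φ(w) = √π e^{w²/4} B(w+1/3) dser (prim (mm η)) (w+1/3)`, where `B(s) = ∑_{h primary} b(h) η(h) N(h)^{-s}`
is holomorphic with `|B - 1| ≤ 1/2` on `Re s > 4/5`.  By `dser_mul_mu` and the identity theorem,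
`Φ(w) Ef(w+1/3) = (w - 2/3) √π e^{w²/4} B(w+1/3)` on the half-plane, and in the non-principal case
`Φ(w) Lf(w+1/3) = √π e^{w²/4} B(w+1/3)`. -/
theorem sig_mellin (Q : Lev) {η : O → ℂ} (hη : η ∈ hchars Q.q) {b : O → ℂ}
    (hb : Summable (fun h : O => if Prim h then
      ‖b h - if h = 1 then 1 else 0‖ * N h ^ (-(4 / 5 : ℝ)) else 0))
    (hb' : ∑' h : O, (if Prim h then ‖b h - if h = 1 then 1 else 0‖ * N h ^ (-(4 / 5 : ℝ)) else 0)
      ≤ 1 / 2)
    {θ C y2 : ℝ} (hθ : 4 / 5 ≤ θ) (hS : ∀ y, y2 ≤ y → ‖Sig b η y‖ ≤ C * Real.exp ((θ - 1 / 3) * y))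
    {s : ℂ} (hs : θ < s.re) (hs1 : s ≠ 1 ∨ NonPrinc Q.q η) : Lf (prim η) s ≠ 0 := by
  have hη' := (mem_hchars Q.ne).1 hη
  have hn := hη'.1.norm_le Q.ne
  rcases lt_or_ge 1 s.re with h1 | h1
  · exact sm_zf_one Q η hη' s h1 hs1
  set α := prim (fun h => b h * η h) with hαd
  set β := prim (mm η) with hβd
  set u : O → ℝ := fun h => if Prim h then ‖b h - if h = 1 then 1 else 0‖ * N h ^ (-(4 / 5 : ℝ))
    else 0 with hu
  have key : ∀ (z : ℂ) h, 4 / 5 ≤ z.re → ‖SM.tm α z h - if h = 1 then 1 else 0‖ ≤ u h := by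
    intro z h hz
    simp only [hu, hαd, SM.tm, prim]
    by_cases hp : Prim h
    · have h0 := N_pos hp.ne_zero
      have e : b h * η h * (N h : ℂ) ^ (-z) - (if h = 1 then 1 else 0) =
          (b h - if h = 1 then 1 else 0) * (η h * (N h : ℂ) ^ (-z)) := by
        split_ifs with h1
        · simp [h1, hη'.1.one]
        · ring
      rw [if_neg hp.ne_zero, if_pos hp, if_pos hp, e, norm_mul]
      exact mul_le_mul_of_nonneg_left ((LM.norm_term_le hn z hp.ne_zero).trans
        (Real.rpow_le_rpow_of_exponent_le (one_le_N hp.ne_zero) (neg_le_neg hz))) (norm_nonneg _)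
    · have : h ≠ 1 := fun e => hp (e ▸ Prim.one)
      simp [hp, this]
  have hδ : HasSum (fun h : O => if h = 1 then (1 : ℂ) else 0) 1 := hasSum_ite_eq 1 1
  have hsum : ∀ z : ℂ, 4 / 5 ≤ z.re → Summable (SM.tm α z) := fun z hz => by
    simpa using (Summable.of_norm_bounded hb fun h => key z h hz).add hδ.summable
  have hB : ∀ z : ℂ, 4 / 5 ≤ z.re → dser α z ≠ 0 := fun z hz h0 => by
    have h2 := tsum_of_norm_bounded hb.hasSum fun h => key z h hz
    rw [(hsum z hz).tsum_sub hδ.summable, hδ.tsum_eq] at h2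
    change ‖dser α z - 1‖ ≤ _ at h2
    rw [h0] at h2
    norm_num at h2
    linarith
  have hα0 : Summable fun n => ‖α n‖ * N n ^ (-(4 / 5 : ℝ)) := by
    have := (hsum ((4 / 5 : ℝ) : ℂ) (by simp)).norm
    refine this.congr fun n => ?_
    simpa using SM.norm_tm α ((4 / 5 : ℝ) : ℂ) 0 n (by simp)
  have hα : ∀ σ : ℝ, 1 < σ → Summable fun n => ‖α n‖ * N n ^ (-σ) := fun σ hσ =>
    SM.sum_mono (by norm_num) (by linarith) hα0
  have hβ : ∀ σ : ℝ, 1 < σ → Summable fun n => ‖β n‖ * N n ^ (-σ) := fun σ hσ => by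
    refine (summable_N_rpow hσ).of_nonneg_of_le
      (fun n => mul_nonneg (norm_nonneg _) (Real.rpow_nonneg (N_nonneg _) _))
      fun n => mul_le_of_le_one_left (Real.rpow_nonneg (N_nonneg _) _) ?_
    simp only [hβd, prim, mm]
    split_ifs
    · rw [norm_mul]
      exact mul_le_one₀ (norm_mu_le n) (norm_nonneg _) (hn n)
    · simp
  have hSig : ∀ y, ∑' p, SM.T α β p y = Sig b η y := fun y => by
    rw [SM.S_eq hα hβ, Sig]
    refine tsum_congr fun h => ?_
    simp only [hαd, SM.tm, prim]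
    by_cases hp : Prim h
    · rw [if_neg hp.ne_zero, if_pos hp, if_pos hp]
    · simp [hp]
  obtain ⟨hc, C0, hC0⟩ := SM.S_cont hα hβ
  have hlap := fun w hw => SM.S_lap hα hβ (w := w) hw
  simp only [hSig] at hc hC0 hlap
  set U : Set ℂ := {z | θ < z.re ∧ z.re < 4 / 3} with hU
  have hUo : IsOpen U := (isOpen_lt continuous_const Complex.continuous_re).inter
    (isOpen_lt Complex.continuous_re continuous_const)
  have hUc : IsPreconnected U :=
    ((convex_halfSpace_re_gt θ).inter (convex_halfSpace_re_lt (4 / 3))).isPreconnected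
  set Φ : ℂ → ℂ := fun w => ∫ y : ℝ, Sig b η y * Complex.exp (-w * y) with hΦ
  have e3 : ∀ z : ℂ, (z - 1 / 3).re = z.re - 1 / 3 := fun z => by norm_num
  have hΦd : DifferentiableOn ℂ (fun z => Φ (z - 1 / 3)) U := fun z hz => by
    have h3 : DifferentiableAt ℂ Φ (z - 1 / 3) := SM.lap_diff hc hC0 hS
      (by rw [e3]; linarith [hz.1]) (by rw [e3]; linarith [hz.2])
    exact (h3.comp z (f := fun z => z - 1 / 3) (by fun_prop)).differentiableWithinAt
  have hBd : DifferentiableOn ℂ (dser α) U :=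
    (SM.dser_diff hα0).mono fun z hz => lt_of_le_of_lt hθ hz.1
  have main : ∀ E g : ℂ → ℂ, Differentiable ℂ E → Differentiable ℂ g →
      (∀ z : ℂ, 1 < z.re → E z = g z * dser (prim η) z) → g s ≠ 0 → E s ≠ 0 := by
    intro E g hE hg hEg hgs h0
    have d1 : DifferentiableOn ℂ (fun z => Φ (z - 1 / 3) * E z) U := hΦd.mul hE.differentiableOn
    have d2 : DifferentiableOn ℂ (fun z => g z * (Real.sqrt Real.pi *
        Complex.exp ((z - 1 / 3) ^ 2 / 4) * dser α z)) U :=
      hg.differentiableOn.mul (DifferentiableOn.mul (by fun_prop) hBd)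
    have hz0 : ((7 / 6 : ℝ) : ℂ) ∈ U := ⟨by simp only [Complex.ofReal_re]; linarith, by
      simp only [Complex.ofReal_re]; norm_num⟩
    have := (d1.analyticOnNhd hUo).eqOn_of_preconnected_of_eventuallyEq (d2.analyticOnNhd hUo) hUc hz0
      (Filter.eventually_of_mem ((isOpen_lt continuous_const Complex.continuous_re).mem_nhds
        (show (1 : ℝ) < ((7 / 6 : ℝ) : ℂ).re by simp only [Complex.ofReal_re]; norm_num))
        fun z hz => by
          have h3 := dser_mul_mu hη'.1.one hη'.1.mul hn hz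
          simp only [hΦ]
          rw [hlap _ (by rw [e3]; linarith [show (1 : ℝ) < z.re from hz]), hEg z hz,
            add_sub_cancel]
          linear_combination (g z * (Real.sqrt Real.pi *
            Complex.exp ((z - 1 / 3) ^ 2 / 4) * dser α z)) * h3)
      (show s ∈ U from ⟨hs, by linarith⟩)
    simp only [h0, mul_zero] at this
    refine mul_ne_zero hgs (mul_ne_zero (mul_ne_zero ?_ (Complex.exp_ne_zero _))
      (hB s (by linarith))) this.symm
    exact Complex.ofReal_ne_zero.2 (Real.sqrt_pos.2 Real.pi_pos).ne'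
  have hper := hη'.per_prim Q
  rcases hs1 with h | h
  · rw [Lf_eq_div _ h]
    exact div_ne_zero (main _ (fun z => z - 1) (Ef_differentiable Q.ne hper) (by fun_prop)
      (fun z hz => Ef_eq Q.ne hper hz) (sub_ne_zero.2 h)) (sub_ne_zero.2 h)
  · exact main _ (fun _ => 1) (Lf_differentiable Q.ne hper (Ef_one_nonPrinc Q hη' h)) (by fun_prop)
      (fun z hz => by rw [one_mul, Lf_eq_dser Q.ne hper hz]) one_ne_zero

/-- `dser_mul_mu` -/
theorem zf_one : ZF 1 := by
  exact sm_zf_one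

theorem ZF.mono {β β' : ℝ} (h : ZF β) (hβ : β ≤ β') : ZF β' := by
  exact fun Q ψ hψ s hs => h Q ψ hψ s (lt_of_le_of_lt hβ hs)

/-- it suffices to treat levels divisible by all small primes: pass from `(Q, ψ)` to
`Q' = Q.q · a`, `a` the product of the primary primes of norm `≤ P`, `ψ' = ψ · 1_{(·,a)=1}`
(`Lf_remove`; a prime of norm `≤ P` is associated to `λ` or to a primary prime). -/
theorem zf_of_bigLev (P β : ℝ) (h : ∀ Q : Lev, BigLev Q P → ∀ η ∈ hchars Q.q, ∀ s : ℂ, β < s.re →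
    (s ≠ 1 ∨ NonPrinc Q.q η) → Lf (prim η) s ≠ 0) : ZF β := by
  intro Q ψ hψ s hs hs1 h0
  set a : O := ∏ p ∈ (ball P).filter (fun p => Prime p ∧ Prim p), p with had
  have ha : a ≠ 0 := Finset.prod_ne_zero_iff.2 fun p hp => (Finset.mem_filter.1 hp).2.1.ne_zero
  let Q' : Lev := ⟨Q.q * a, mul_ne_zero Q.ne ha, Q.dvd.mul_right a⟩
  have hbig : BigLev Q' P := fun p hp hP => by
    by_cases hq : p ∣ Q.q
    · exact hq.mul_right a
    · obtain ⟨p', h1, h2, h3⟩ := ChA.exists_prim_prime hp hq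
      refine (h3.dvd.trans ?_).mul_left Q.q
      exact Finset.dvd_prod_of_mem _ (Finset.mem_filter.2 ⟨mem_ball.2
        ⟨h1.ne_zero, (N_le_of_dvd hp.ne_zero h3.symm.dvd).trans hP⟩, h1, h2⟩)
  have hch : IsHChar Q'.q (fun n => if IsCoprime n a then ψ n else 0) := by
    refine ⟨⟨by simp [hψ.1.one, isCoprime_one_left], fun x y => ?_, fun x t => ?_, fun n => ?_⟩,
      fun u hu => by simp only [ChA.cop_unit hu, if_true, hψ.2 u hu]⟩
    · simp only [IsCoprime.mul_left_iff, hψ.1.mul]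
      by_cases hx : IsCoprime x a <;> by_cases hy : IsCoprime y a <;> simp [hx, hy]
    · change (if IsCoprime (x + Q.q * a * t) a then ψ (x + Q.q * a * t) else 0) = _
      rw [mul_assoc, hψ.1.per, mul_left_comm]
      simp only [IsCoprime.add_mul_left_left_iff]
    · change _ ↔ ¬ IsCoprime n (Q.q * a)
      rw [IsCoprime.mul_right_iff]
      by_cases hx : IsCoprime n a <;> simp [hx, hψ.1.zero_iff]
  refine h Q' hbig _ ((mem_hchars Q'.ne).2 hch) s hs (hs1.imp_right fun hN => ?_) ?_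
  · obtain ⟨n, hn, hn1⟩ := hN
    obtain ⟨a0, a1, j, h1, -, h2, h3⟩ := exists_split Q.ne (ChA.three_dvd Q) ha
    obtain ⟨m, hm1, hm2⟩ := ChA.crt h2.symm n 1
    have c1 := ChA.cop_congr hm1 hn
    have c2 : IsCoprime m a := by
      rw [h3]
      exact (c1.pow_right.of_isCoprime_of_dvd_right h1).mul_right
        (ChA.cop_congr hm2 isCoprime_one_left)
    refine ⟨m, c1.mul_right c2, ?_⟩
    simp only [if_pos c2]
    rwa [hψ.1.per.congr hm1]
  · rw [Lf_remove Q hψ ha hs1, h0, zero_mul]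

/-- iteration of the main step -/
theorem zf_iterate {c : ℝ} (hc : 0 < c)
    (h : ∀ β β' : ℝ, 7 / 8 ≤ β → β ≤ 1 → ZF β → 7 / 8 < β' → β - c ≤ β' → ZF β') : ZF (7 / 8) := by
  have key : ∀ β' : ℝ, 7 / 8 < β' → β' ≤ 1 → ∀ k : ℕ, ZF (max β' (1 - k * c)) := by
    intro β' h1 h2 k
    induction k with
    | zero => exact zf_one.mono (by simp)
    | succ k ih =>
      refine h _ _ (h1.le.trans (le_max_left _ _)) (max_le h2 ?_) ih
        (h1.trans_le (le_max_left _ _)) ?_
      · nlinarith [(Nat.cast_nonneg k : (0 : ℝ) ≤ k)]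
      · rw [sub_le_iff_le_add]
        refine max_le (by linarith [le_max_left β' (1 - (k + 1 : ℕ) * c)]) ?_
        have := le_max_right β' (1 - (k + 1 : ℕ) * c)
        push_cast at this ⊢
        linarith
  intro Q ψ hψ s hs hs1
  obtain ⟨k, hk⟩ := exists_nat_gt (1 / c)
  rw [div_lt_iff₀ hc] at hk
  have h1 : 7 / 8 < min 1 ((7 / 8 + s.re) / 2) := lt_min (by norm_num) (by linarith)
  refine key _ h1 (min_le_left _ _) k Q ψ hψ s (max_lt ?_ (by linarith)) hs1
  exact (min_le_right _ _).trans_lt (by linarith)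

end Crest.Agent.R17
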