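import Crest.Agent.R17.Low
import Crest.Agent.R17.High3
import Crest.Agent.R17.Prin
import Crest.Agent.R17.RowSum
import Crest.Agent.R17.SigMellin

/-!
# R17 / Step : the main step and the conclusion
-/

set_option autoImplicit false

noncomputable section

open scoped Classical ComplexConjugate

namespace Crest.Agent.R17

theorem step_exc_zero (Q : Lev) : Exc Q 0 := ⟨1, 0, 0, by simp, by simp⟩

/-- decomposition of the sum over all rows -/
theorem step_prow_le (Q : Lev) {R : O → ℂ} (hR : Summable (fun d => ‖R d‖)) :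
    ‖∑' d : O, (if PRow Q d then R d else 0)‖ ≤ ‖∑' d, R d‖ + ‖R 0‖ +
      ∑' d : O, (if d ≠ 0 ∧ Exc Q d ∧ ¬ PRow Q d then ‖R d‖ else 0) +
      ∑' d : O, (if ¬ Exc Q d then ‖R d‖ else 0) := by
  have hs : ∀ (P : O → Prop) [DecidablePred P], Summable (fun d => ‖if P d then R d else 0‖) :=
    fun P _ =>
    Summable.of_nonneg_of_le (fun _ => norm_nonneg _)
      (fun d => by split_ifs <;> simp) hR
  have hs' : ∀ (P : O → Prop) [DecidablePred P], Summable (fun d => if P d then R d else 0) :=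
    fun P _ =>
    (hs P).of_norm
  have hn : ∀ (P : O → Prop) [DecidablePred P], ‖∑' d : O, (if P d then R d else 0)‖ ≤
      ∑' d : O, (if P d then ‖R d‖ else 0) := fun P _ => by
    refine (norm_tsum_le_tsum_norm (hs P)).trans (le_of_eq (tsum_congr fun d => ?_))
    split_ifs <;> simp
  have key : ∑' d, R d = ∑' d : O, (if PRow Q d then R d else 0) + R 0 +
      ∑' d : O, (if d ≠ 0 ∧ Exc Q d ∧ ¬ PRow Q d then R d else 0) +
      ∑' d : O, (if ¬ Exc Q d then R d else 0) := by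
    have h0 : R 0 = ∑' d : O, (if d = 0 then R d else 0) := by
      rw [tsum_eq_single 0 (fun d hd => if_neg hd), if_pos rfl]
    rw [h0, ← (hs' _).tsum_add (hs' _), ← ((hs' _).add (hs' _)).tsum_add (hs' _),
      ← (((hs' _).add (hs' _)).add (hs' _)).tsum_add (hs' _)]
    refine tsum_congr fun d => ?_
    by_cases h1 : PRow Q d
    · have h2 := h1.1
      have h3 := h1.exc
      simp [h1, h2, h3]
    · by_cases h2 : d = 0
      · subst h2
        simp [h1, step_exc_zero Q]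
      · by_cases h3 : Exc Q d <;> simp [h1, h2, h3]
  have e : ∑' d : O, (if PRow Q d then R d else 0) = ∑' d, R d - R 0 -
      ∑' d : O, (if d ≠ 0 ∧ Exc Q d ∧ ¬ PRow Q d then R d else 0) -
      ∑' d : O, (if ¬ Exc Q d then R d else 0) := by
    rw [key]; ring
  rw [e]
  have a1 := hn (fun d => d ≠ 0 ∧ Exc Q d ∧ ¬ PRow Q d)
  have a2 := hn (fun d => ¬ Exc Q d)
  refine (norm_sub_le _ _).trans (add_le_add ((norm_sub_le _ _).trans (add_le_add
    (norm_sub_le _ _) ?_)) ?_)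
  · exact a1
  · exact a2

theorem step_exp_le {C a b z : ℝ} (hab : a ≤ b) (hz : 0 ≤ z) :
    C * Real.exp (a * z) ≤ |C| * Real.exp (b * z) :=
  mul_le_mul (le_abs_self C) (Real.exp_le_exp.2 (mul_le_mul_of_nonneg_right hab hz))
    (Real.exp_pos _).le (abs_nonneg C)

theorem step : ∃ c : ℝ, 0 < c ∧
    ∀ β β' : ℝ, 7 / 8 ≤ β → β ≤ 1 → ZF β → 7 / 8 < β' → β - c ≤ β' → ZF β' := by
  obtain ⟨P, hP⟩ := prin
  obtain ⟨J, ρ0, hJ, hρ0, hρ0J, hRS⟩ := rowSum
  have hJ0 : (0 : ℝ) < J := by exact_mod_cast hJ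
  refine ⟨min (1 / 25000) (1 / (50 * J)), lt_min (by norm_num) (by positivity), ?_⟩
  intro β β' hβ hβ1 hZ hβ' hc
  have hc1 : β - 1 / 25000 ≤ β' := le_trans (by linarith [min_le_left (1 / 25000 : ℝ) (1 / (50 * J))]) hc
  have hc2 : β - 1 / (50 * J) ≤ β' :=
    le_trans (by linarith [min_le_right (1 / 25000 : ℝ) (1 / (50 * J))]) hc
  refine zf_of_bigLev P β' fun Q hQ η hη s hs hs1 => ?_
  obtain ⟨b, κ0, hκ0, hb, hb', hmain⟩ := hP Q hQ
  set ε : ℝ := min (β' - 7 / 8) (1 / (50 * J)) with hεdef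
  have hε : 0 < ε := lt_min (by linarith) (by positivity)
  have hε1 : ε ≤ β' - 7 / 8 := min_le_left _ _
  have hε2 : ε ≤ 1 / (50 * J) := min_le_right _ _
  set ρ : ℝ := min ρ0 (ε / (10 * J)) with hρdef
  have hρ : 0 < ρ := lt_min hρ0 (by positivity)
  have hρ1 : ρ ≤ ρ0 := min_le_left _ _
  have hρ2 : ρ ≤ 5 / (48 * J) := hρ1.trans hρ0J
  have hρ3 : J * ρ ≤ ε / 10 := by
    have : ρ ≤ ε / (10 * J) := min_le_right _ _
    calc (J : ℝ) * ρ ≤ J * (ε / (10 * J)) := mul_le_mul_of_nonneg_left this hJ0.le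
      _ = ε / 10 := by field_simp
  obtain ⟨C1, z1, h1⟩ := low Q hJ hε hρ hρ3
  obtain ⟨C2, z2, h2⟩ := zero_row Q hJ (ε := 1 / 100) (by norm_num) hρ hρ2
  obtain ⟨C3, z3, h3⟩ := exc_rows hβ hβ1 hZ Q hJ hρ hρ2
  obtain ⟨C4, z4, h4⟩ := hRS ρ hρ hρ1 β hβ hβ1 hZ Q
  obtain ⟨C5, z5, h5⟩ := hmain β hβ hβ1 hZ J hJ ρ ε hρ hρ2 hε
  obtain ⟨c6, z6, hc6, h6⟩ := EJ_lower Q hJ hρ
  set Z0 : ℝ := max 0 (max z1 (max z2 (max z3 (max z4 (max z5 z6))))) with hZ0
  set Λ : ℝ := 33 / 32 + 5 / 4 * (β' - 7 / 8) with hΛ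
  refine sig_mellin Q hη hb hb' (θ := β')
    (C := (|C1| + |C2| + |C3| + |C4| + |C5|) / (κ0 * c6) + |C5| / κ0) (y2 := 5 / 4 * Z0)
    (by linarith) (fun y hy => ?_) hs hs1
  obtain ⟨z, rfl⟩ : ∃ z, y = y0 z := ⟨4 / 5 * y, by unfold y0; ring⟩
  have hz : Z0 ≤ z := by unfold y0 at hy; linarith
  simp only [hZ0, max_le_iff] at hz
  obtain ⟨hz0, hz1, hz2, hz3, hz4, hz5, hz6⟩ := hz
  obtain ⟨hsum, hpsi⟩ := psi_eq Q hη J ρ z
  have hK : 0 < KK z := Real.exp_pos _
  have b1 : ‖∑' d, Row Q η J ρ z d‖ ≤ |C1| * Real.exp (Λ * z) := by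
    have := h1 η hη z hz1
    rw [hpsi, norm_mul, Complex.norm_real, Real.norm_of_nonneg hK.le, mul_comm C1, mul_assoc] at this
    exact (le_of_mul_le_mul_left this hK).trans (step_exp_le (by linarith) hz0)
  have b2 : ‖Row Q η J ρ z 0‖ ≤ |C2| * Real.exp (Λ * z) :=
    (h2 η hη z hz2).trans (step_exp_le (by linarith) hz0)
  have b3 := (h3 η hη z hz3).trans (step_exp_le (b := Λ) (by linarith) hz0)
  have b4 := (h4 η hη z hz4).trans (step_exp_le (b := Λ) (by linarith) hz0)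
  have b5 := h5 η hη z hz5
  have b6 := h6 z hz6
  have b7 := step_prow_le Q hsum
  have hE : 0 < EJ Q J ρ z := lt_of_lt_of_le (by positivity) b6
  set E := EJ Q J ρ z with hEdef
  set S := Sig b η (y0 z) with hS
  set T := ∑' d : O, (if PRow Q d then Row Q η J ρ z d else 0) with hT
  have b8 : C5 * Real.exp ((33 / 32 - 1 / 200) * z) ≤ |C5| * Real.exp (Λ * z) :=
    step_exp_le (by linarith) hz0
  have b9 : C5 * E * Real.exp (31 / 144 * z + (β - 1 / 3 + ε) * y0 z - z / (20 * J)) ≤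
      |C5| * E * (Real.exp (31 / 144 * z) * Real.exp ((β' - 1 / 3) * y0 z)) := by
    rw [← Real.exp_add]
    refine mul_le_mul (mul_le_mul_of_nonneg_right (le_abs_self _) hE.le)
      (Real.exp_le_exp.2 ?_) (Real.exp_pos _).le (by positivity)
    have e1 : z / (20 * J) = 5 / 4 * (2 * (1 / (50 * J))) * z := by field_simp; ring
    have e2 : (β + ε - 2 * (1 / (50 * J))) * (5 / 4 * z) ≤ β' * (5 / 4 * z) :=
      mul_le_mul_of_nonneg_right (by linarith) (by linarith)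
    unfold y0
    rw [e1]
    nlinarith
  have c1 : κ0 * Real.exp (31 / 144 * z) * E * ‖S‖ ≤
      (|C1| + |C2| + |C3| + |C4| + |C5|) * Real.exp (Λ * z) +
        |C5| * E * (Real.exp (31 / 144 * z) * Real.exp ((β' - 1 / 3) * y0 z)) := by
    have e1 : κ0 * Real.exp (31 / 144 * z) * E * ‖S‖ =
        ‖((κ0 * Real.exp (31 / 144 * z) * E : ℝ) : ℂ) * S‖ := by
      rw [norm_mul, Complex.norm_real, Real.norm_of_nonneg (by positivity)]
    have e2 : ‖((κ0 * Real.exp (31 / 144 * z) * E : ℝ) : ℂ) * S‖ ≤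
        ‖T‖ + ‖T - ((κ0 * Real.exp (31 / 144 * z) * E : ℝ) : ℂ) * S‖ := by
      have := norm_sub_le T (T - ((κ0 * Real.exp (31 / 144 * z) * E : ℝ) : ℂ) * S)
      rwa [sub_sub_cancel] at this
    rw [e1]
    linarith
  have e3 : Real.exp (Λ * z) =
      Real.exp (5 / 36 * z) * (Real.exp (31 / 144 * z) * Real.exp ((β' - 1 / 3) * y0 z)) := by
    rw [← Real.exp_add, ← Real.exp_add]
    congr 1
    unfold y0
    rw [hΛ]
    ring
  set A := |C1| + |C2| + |C3| + |C4| + |C5| with hA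
  have hA0 : 0 ≤ A := by positivity
  set X := Real.exp (31 / 144 * z) with hX
  set Y := Real.exp ((β' - 1 / 3) * y0 z) with hY
  have hX0 : 0 < X := Real.exp_pos _
  have hY0 : 0 < Y := Real.exp_pos _
  have c2 : A * Real.exp (Λ * z) ≤ A / c6 * E * (X * Y) := by
    rw [e3, ← mul_assoc]
    refine mul_le_mul_of_nonneg_right ?_ (by positivity)
    calc A * Real.exp (5 / 36 * z) = A / c6 * (c6 * Real.exp (5 / 36 * z)) := by field_simp
      _ ≤ A / c6 * E := mul_le_mul_of_nonneg_left b6 (by positivity)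
  have c3 : (κ0 * X * E) * ‖S‖ ≤ (κ0 * X * E) * ((A / (κ0 * c6) + |C5| / κ0) * Y) := by
    refine (c1.trans (add_le_add c2 le_rfl)).trans (le_of_eq ?_)
    field_simp
  exact le_of_mul_le_mul_left c3 (by positivity)

theorem zf_78 : ZF (7 / 8) := by
  obtain ⟨c, hc, h⟩ := step
  exact zf_iterate hc h

end Crest.Agent.R17
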