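import Mathlib

/-!
# R17 / Local_Log : the log lemma (Borel–Carathéodory + three circles)
-/

set_option autoImplicit false

noncomputable section

open Metric

namespace Crest.Agent.R17

theorem loc_three_circles {h : ℂ → ℂ} {r1 r2 R a b : ℝ} (h1 : 0 < r1) (h12 : r1 < r2) (hR : r2 < R)
    (hd : DifferentiableOn ℂ h (ball 0 R)) (ha : ∀ z, ‖z‖ = r1 → ‖h z‖ ≤ a)
    (hb : ∀ z, ‖z‖ ≤ r2 → ‖h z‖ ≤ b) {z : ℂ} (hz1 : r1 ≤ ‖z‖) (hz2 : ‖z‖ ≤ r2) :
    ‖h z‖ ≤ a ^ (1 - (Real.log ‖z‖ - Real.log r1) / (Real.log r2 - Real.log r1)) *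
      b ^ ((Real.log ‖z‖ - Real.log r1) / (Real.log r2 - Real.log r1)) := by
  have h2 : 0 < r2 := h1.trans h12
  have hz0 : z ≠ 0 := norm_pos_iff.1 (h1.trans_le hz1)
  have hlt : Real.log r1 < Real.log r2 := Real.log_lt_log h1 h12
  have hle : ∀ w : ℂ, w.re ≤ Real.log r2 → ‖Complex.exp w‖ ≤ r2 := fun w hw => by
    rw [Complex.norm_exp]
    exact (Real.exp_le_exp.2 hw).trans (Real.exp_log h2).le
  have key := Complex.HadamardThreeLines.norm_le_interp_of_mem_verticalClosedStrip'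
    (f := fun w => h (Complex.exp w)) (z := Complex.log z) (a := a) (b := b) hlt
    (by
      simp only [Complex.HadamardThreeLines.verticalClosedStrip, Set.mem_preimage, Set.mem_Icc,
        Complex.log_re]
      exact ⟨Real.log_le_log h1 hz1, Real.log_le_log (h1.trans_le hz1) hz2⟩)
    (by
      refine DifferentiableOn.diffContOnCl ?_
      unfold Complex.HadamardThreeLines.verticalStrip
      rw [Complex.closure_preimage_re, closure_Ioo hlt.ne]
      refine hd.comp Complex.differentiable_exp.differentiableOn fun w hw => ?_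
      rw [mem_ball_zero_iff]
      exact (hle w hw.2).trans_lt hR)
    ⟨b, by
      rintro _ ⟨w, hw, rfl⟩
      exact hb _ (hle w hw.2)⟩
    (fun w hw => ha _ (by
      rw [Complex.norm_exp, show w.re = Real.log r1 from hw, Real.exp_log h1]))
    (fun w hw => hb _ (hle w (le_of_eq hw)))
  rwa [Complex.exp_log hz0, Complex.log_re] at key

theorem loc_interp {a b θ κ η : ℝ} (ha : 0 ≤ a) (hb : 0 ≤ b) (hθ : 0 ≤ θ) (hκ : 0 < κ)
    (hκθ : κ ≤ 1 - θ) (hη : 0 < η) (hη1 : η ≤ 1) :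
    a ^ (1 - θ) * b ^ θ ≤ a * η ^ (-(1 / κ)) + η * b := by
  have h1 : 0 < 1 - θ := hκ.trans_le hκθ
  have hp1 : 0 ≤ a * η ^ (-(θ / (1 - θ))) := mul_nonneg ha (Real.rpow_nonneg hη.le _)
  have hp2 : 0 ≤ η * b := mul_nonneg hη.le hb
  have key := Real.geom_mean_le_arith_mean2_weighted h1.le hθ hp1 hp2 (by ring)
  have e : (a * η ^ (-(θ / (1 - θ)))) ^ (1 - θ) * (η * b) ^ θ = a ^ (1 - θ) * b ^ θ := by
    rw [Real.mul_rpow ha (Real.rpow_nonneg hη.le _), Real.mul_rpow hη.le hb,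
      ← Real.rpow_mul hη.le, show -(θ / (1 - θ)) * (1 - θ) = -θ by field_simp,
      Real.rpow_neg hη.le]
    have : η ^ θ ≠ 0 := (Real.rpow_pos_of_pos hη θ).ne'
    field_simp
  rw [e] at key
  have h2 : η ^ (-(θ / (1 - θ))) ≤ η ^ (-(1 / κ)) := by
    refine Real.rpow_le_rpow_of_exponent_ge hη hη1 (neg_le_neg ?_)
    rw [div_le_div_iff₀ h1 hκ]
    nlinarith
  have h3 : a * η ^ (-(θ / (1 - θ))) ≤ a * η ^ (-(1 / κ)) := mul_le_mul_of_nonneg_left h2 ha
  nlinarith

theorem loc_exists_log {f : ℂ → ℂ} {r : ℝ} (hr : 0 < r) (hd : DifferentiableOn ℂ f (ball 0 r))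
    (h0 : ∀ z ∈ ball (0 : ℂ) r, f z ≠ 0) :
    ∃ h : ℂ → ℂ, h 0 = 0 ∧ (∀ z ∈ ball (0 : ℂ) r, HasDerivAt h (deriv f z / f z) z) ∧
      ∀ z ∈ ball (0 : ℂ) r, f z = f 0 * Complex.exp (h z) := by
  have hq : DifferentiableOn ℂ (fun z => deriv f z / f z) (ball 0 r) :=
    (hd.deriv isOpen_ball).div hd h0
  obtain ⟨h, h00, hh⟩ := hq.isExactOn_ball.with_val_at 0 0
  refine ⟨h, h00, hh, fun z hz => ?_⟩
  have hder : ∀ w ∈ ball (0 : ℂ) r, HasDerivAt (fun w => f w * Complex.exp (-h w)) 0 w := by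
    intro w hw
    have a1 := (hd.differentiableAt (isOpen_ball.mem_nhds hw)).hasDerivAt
    have a2 := (hh w hw).neg.cexp
    have := a1.mul a2
    refine this.congr_deriv ?_
    have := h0 w hw
    simp only [Pi.neg_apply]
    field_simp
    ring
  have := isOpen_ball.is_const_of_deriv_eq_zero (convex_ball (0 : ℂ) r).isPreconnected
    (fun w hw => (hder w hw).differentiableAt.differentiableWithinAt)
    (fun w hw => (hder w hw).deriv) hz (mem_ball_self hr)
  simp only [h00, neg_zero, Complex.exp_zero, mul_one] at this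
  rw [← this, mul_assoc, ← Complex.exp_add, neg_add_cancel, Complex.exp_zero, mul_one]

theorem loc_log0 {δ ε : ℝ} (hδ : 0 < δ) (hδ1 : δ ≤ 1 / 4) (hε : 0 < ε) : ∃ K : ℝ, 0 ≤ K ∧
    ∀ (f : ℂ → ℂ) (r Λ C0 : ℝ), 1 ≤ r → r ≤ 3 / 2 → DifferentiableOn ℂ f (ball 0 r) →
    (∀ z ∈ ball (0 : ℂ) r, f z ≠ 0) → 0 ≤ Λ → 1 ≤ C0 →
    (∀ z ∈ ball (0 : ℂ) r, ‖f z‖ ≤ Real.exp Λ) →
    (∀ z ∈ ball (0 : ℂ) (3 / 4), ‖f z‖ ≤ Real.exp C0) → ‖(f 0)⁻¹‖ ≤ Real.exp C0 →
    ∀ z : ℂ, ‖z‖ ≤ r - δ → ‖f z‖ ≤ Real.exp (ε * Λ + K * C0) ∧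
      ‖(f z)⁻¹‖ ≤ Real.exp (ε * Λ + K * C0) ∧ ‖deriv f z / f z‖ ≤ K * (Λ + C0) := by
  set κ := Real.log (1 + δ / 3) / Real.log 3 with hκ
  have hl3 : 0 < Real.log 3 := Real.log_pos (by norm_num)
  have hκ0 : 0 < κ := div_pos (Real.log_pos (by linarith)) hl3
  set η := min 1 (ε * δ / 6) with hη
  have hη0 : 0 < η := lt_min one_pos (by positivity)
  have hη1 : η ≤ 1 := min_le_left _ _
  have hη2 : η ≤ ε * δ / 6 := min_le_right _ _
  have hE : 1 ≤ η ^ (-(1 / κ)) :=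
    Real.one_le_rpow_of_pos_of_le_one_of_nonpos hη0 hη1 (by have := one_div_pos.2 hκ0; linarith)
  refine ⟨8 * η ^ (-(1 / κ)) + ε + 1 + 24 / δ ^ 2, by positivity, ?_⟩
  intro f r Λ C0 hr1 hr2 hd h0 hΛ hC hb1 hb2 hb3 z hz
  obtain ⟨h, h00, hh, hf⟩ := loc_exists_log (by linarith) hd h0
  have hf0 : f 0 ≠ 0 := h0 0 (mem_ball_self (by linarith))
  have hhd : DifferentiableOn ℂ h (ball 0 r) :=
    fun w hw => (hh w hw).differentiableAt.differentiableWithinAt
  have hre : ∀ w ∈ ball (0 : ℂ) r, ∀ M, ‖f w‖ ≤ Real.exp M → (h w).re ≤ M + C0 := by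
    intro w hw M hM
    have e : Complex.exp (h w) = (f 0)⁻¹ * f w := by rw [hf w hw]; field_simp
    have := congrArg norm e
    rw [Complex.norm_exp, norm_mul] at this
    rw [← Real.exp_le_exp, this, add_comm, Real.exp_add]
    exact mul_le_mul hb3 hM (norm_nonneg _) (Real.exp_pos _).le
  have hs : ∀ w : ℂ, ‖w‖ ≤ 1 / 2 → ‖h w‖ ≤ 8 * C0 := fun w hw => by
    have hsub : ball (0 : ℂ) (3 / 4) ⊆ ball 0 r := ball_subset_ball (by linarith)
    have := Complex.borelCaratheodory_zero (M := C0 + C0) (by linarith) (hhd.mono hsub)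
      (fun w hw => hre w (hsub hw) C0 (hb2 w hw)) (by norm_num)
      (z := w) (by rw [mem_ball_zero_iff]; linarith) h00
    refine this.trans ?_
    rw [div_le_iff₀ (by linarith)]
    nlinarith [norm_nonneg w]
  have hl : ∀ w : ℂ, ‖w‖ ≤ r - δ / 2 → ‖h w‖ ≤ 6 * (Λ + C0) / δ := fun w hw => by
    have := Complex.borelCaratheodory_zero (M := Λ + C0) (by linarith) hhd
      (fun w hw => hre w hw Λ (hb1 w hw)) (by linarith)
      (z := w) (by rw [mem_ball_zero_iff]; linarith) h00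
    refine this.trans ?_
    rw [div_le_div_iff₀ (by linarith) hδ]
    have a1 : ‖w‖ * δ ≤ 3 * (r - ‖w‖) := by nlinarith [norm_nonneg w]
    nlinarith [mul_le_mul_of_nonneg_left a1 (show 0 ≤ Λ + C0 by linarith)]
  have hm : ‖h z‖ ≤ ε * Λ + (8 * η ^ (-(1 / κ)) + ε) * C0 := by
    by_cases hz2 : ‖z‖ ≤ 1 / 2
    · refine (hs z hz2).trans ?_
      nlinarith [mul_nonneg hε.le hΛ]
    · push Not at hz2
      have hz0 : 0 < ‖z‖ := by linarith
      have t := loc_three_circles (r1 := 1 / 2) (r2 := r - δ / 2) (R := r) (by norm_num)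
        (by linarith) (by linarith) hhd (fun w hw => hs w hw.le) hl hz2.le (by linarith)
      have hden : 0 < Real.log (r - δ / 2) - Real.log (1 / 2) :=
        sub_pos.2 (Real.log_lt_log (by norm_num) (by linarith))
      have hθ : 0 ≤ (Real.log ‖z‖ - Real.log (1 / 2)) /
          (Real.log (r - δ / 2) - Real.log (1 / 2)) :=
        div_nonneg (sub_nonneg.2 (Real.log_le_log (by norm_num) hz2.le)) hden.le
      have hκθ : κ ≤ 1 - (Real.log ‖z‖ - Real.log (1 / 2)) /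
          (Real.log (r - δ / 2) - Real.log (1 / 2)) := by
        rw [one_sub_div hden.ne', hκ]
        refine div_le_div₀ ?_ ?_ hden ?_
        · have := Real.log_le_log hz0 (show ‖z‖ ≤ r - δ / 2 by linarith)
          linarith
        · have : Real.log (1 + δ / 3) + Real.log ‖z‖ ≤ Real.log (r - δ / 2) := by
            rw [← Real.log_mul (by positivity) hz0.ne']
            refine Real.log_le_log (by positivity) ?_
            nlinarith
          linarith
        · rw [← Real.log_div (by linarith) (by norm_num)]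
          refine Real.log_le_log (by apply div_pos <;> linarith) ?_
          rw [div_le_iff₀ (by norm_num)]
          linarith
      refine t.trans ((loc_interp (by linarith) (by positivity) hθ hκ0 hκθ hη0 hη1).trans ?_)
      have : η * (6 * (Λ + C0) / δ) ≤ ε * (Λ + C0) := by
        calc η * (6 * (Λ + C0) / δ) ≤ ε * δ / 6 * (6 * (Λ + C0) / δ) :=
              mul_le_mul_of_nonneg_right hη2 (by positivity)
          _ = ε * (Λ + C0) := by field_simp
      nlinarith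
  have hzr : z ∈ ball (0 : ℂ) r := by rw [mem_ball_zero_iff]; linarith
  have hK : 0 ≤ 24 / δ ^ 2 * C0 := by positivity
  refine ⟨?_, ?_, ?_⟩
  · rw [hf z hzr, norm_mul, Complex.norm_exp]
    refine (mul_le_mul (hb2 0 (mem_ball_self (by norm_num)))
      (Real.exp_le_exp.2 ((Complex.re_le_norm _).trans hm)) (Real.exp_pos _).le
      (Real.exp_pos _).le).trans ?_
    rw [← Real.exp_add, Real.exp_le_exp]
    nlinarith
  · rw [hf z hzr, mul_inv, norm_mul, ← Complex.exp_neg, Complex.norm_exp]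
    refine (mul_le_mul hb3
      (Real.exp_le_exp.2 ((Complex.re_le_norm _).trans ((norm_neg _).le.trans hm)))
      (Real.exp_pos _).le (Real.exp_pos _).le).trans ?_
    rw [← Real.exp_add, Real.exp_le_exp]
    nlinarith
  · rw [← (hh z hzr).deriv]
    have hsub : closedBall z (δ / 4) ⊆ ball 0 r := fun w hw => by
      rw [mem_ball_zero_iff]
      have := norm_le_norm_add_norm_sub' w z
      rw [mem_closedBall, dist_eq_norm] at hw
      linarith
    have := Complex.norm_deriv_le_of_forall_mem_sphere_norm_le (c := z) (R := δ / 4)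
      (C := 6 * (Λ + C0) / δ) (f := h) (by positivity) (hhd.diffContOnCl_ball hsub)
      (fun w hw => hl w (by
        have := norm_le_norm_add_norm_sub' w z
        rw [mem_sphere, dist_eq_norm] at hw
        linarith))
    refine this.trans ?_
    have e : 6 * (Λ + C0) / δ / (δ / 4) = 24 / δ ^ 2 * (Λ + C0) := by field_simp; ring
    rw [e]
    refine mul_le_mul_of_nonneg_right ?_ (by linarith)
    linarith

/-- **Log lemma.** -/
theorem log_lemma {δ ε : ℝ} (hδ : 0 < δ) (hε : 0 < ε) : ∃ K : ℕ,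
    ∀ (f : ℂ → ℂ) (c : ℂ) (r X Y : ℝ), 1 ≤ r → r ≤ 3 / 2 → DifferentiableOn ℂ f (ball c r) →
    (∀ z ∈ ball c r, f z ≠ 0) → 1 ≤ X → 3 ≤ Y → (∀ z ∈ ball c r, ‖f z‖ ≤ X) →
    (∀ z ∈ ball c (3 / 4), ‖f z‖ ≤ Y) → ‖(f c)⁻¹‖ ≤ Y →
    ∀ z : ℂ, ‖z - c‖ ≤ r - δ → ‖f z‖ ≤ X ^ ε * Y ^ K ∧ ‖(f z)⁻¹‖ ≤ X ^ ε * Y ^ K ∧
      ‖deriv f z / f z‖ ≤ K * (Real.log X + Real.log Y) := by
  obtain ⟨K, hK0, hK⟩ := loc_log0 (δ := min δ (1 / 4)) (lt_min hδ (by norm_num))
    (min_le_right _ _) hε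
  refine ⟨⌈K⌉₊, fun f c r X Y hr1 hr2 hd h0 hX hY hb1 hb2 hb3 z hz => ?_⟩
  have hm : ∀ ρ : ℝ, ∀ w ∈ ball (0 : ℂ) ρ, c + w ∈ ball c ρ := fun ρ w hw => by
    rw [mem_ball_zero_iff] at hw
    rw [mem_ball, dist_eq_norm, add_sub_cancel_left]; exact hw
  have hY1 : 1 ≤ Real.log Y := by
    rw [Real.le_log_iff_exp_le (by linarith)]
    exact (Real.exp_one_lt_d9.le.trans (by norm_num)).trans hY
  have hX0 : 0 ≤ Real.log X := Real.log_nonneg hX
  have key := hK (fun w => f (c + w)) r (Real.log X) (Real.log Y) hr1 hr2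
    (hd.comp (by fun_prop) (hm r)) (fun w hw => h0 _ (hm r w hw)) hX0 hY1
    (fun w hw => by rw [Real.exp_log (by linarith)]; exact hb1 _ (hm r w hw))
    (fun w hw => by rw [Real.exp_log (by linarith)]; exact hb2 _ (hm _ w hw))
    (by rw [Real.exp_log (by linarith), add_zero]; exact hb3) (z - c)
    (hz.trans (by have := min_le_left δ (1 / 4); linarith))
  rw [deriv_comp_const_add] at key
  simp only [add_sub_cancel] at key
  have e : Real.exp (ε * Real.log X + K * Real.log Y) ≤ X ^ ε * Y ^ ⌈K⌉₊ := by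
    rw [Real.exp_add, Real.rpow_def_of_pos (by linarith), mul_comm ε]
    refine mul_le_mul_of_nonneg_left ?_ (Real.exp_pos _).le
    rw [← Real.exp_log (show 0 < Y by linarith), ← Real.exp_nat_mul, Real.log_exp,
      Real.exp_le_exp]
    exact mul_le_mul_of_nonneg_right (Nat.le_ceil K) (by linarith)
  exact ⟨key.1.trans e, key.2.1.trans e,
    key.2.2.trans (mul_le_mul_of_nonneg_right (Nat.le_ceil K) (by linarith))⟩

end Crest.Agent.R17
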