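import Crest.Agent.R17.RecSex

/-!
# R17 / Recip : reciprocity laws, supplements, the key identity

## Cubic reciprocity
For a primary prime `p` (`q = nm p`), `χ = (·/p)_3`, `g = gs p χ 1`: `g³ = q · J(χ,χ)`
(`gaussSum_pow_eq_prod_jacobiSum`, `χ(-1) = 1`) and `J(χ,χ) = -toC p`:  `J ∈ toC(O)`,
`J ≡ -1 mod 3` (Mathlib `exists_jacobiSum_eq_neg_one_add`), `|J|² = q`, and `p ∣ J` because
`J ≡ ∑_x x^{(q-1)/3} (1-x)^{(q-1)/3} ≡ 0` in `O/p` (power sums of degree `< q-1` vanish); so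
`J = u p` with a unit `u`, and `-J` primary gives `-J = p`.  So `g³ = -q p = -p² p̄`.
For primary primes `p, p'` with `p' ∤ q`: work in the ring of algebraic integers generated by `g`
(or in any finite field `F' ⊇ O/p'` containing the `ℓ`-th roots of unity, `ℓ = char O/p`, using
Mathlib `gaussSum_frob`/`MulChar.IsQuadratic`-style Frobenius argument): `g^{q'} = χ̄(q') g` because
`q' ≡ 1 mod 3`, so `(g³)^{(q'-1)/3} ≡ χ̄_p(q')`, i.e. `(p² p̄ / p')_3 = (q'/p)_3^{-1}`.
Write `[a,b] = (a/b)_3`.  Then `[p,p']² [p̄,p'] = [p',p]² [p̄',p]²`; applying this also to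
`(p̄, p')`, `(p', p)` and using `sym_star` gives `[p,p'] = [p',p]` (Ireland–Rosen 9.4; cases
split/split with different norms, split/inert, inert/inert — a rational integer is a cube modulo an
inert prime `-ℓ` since `ℓ - 1 ∣ (ℓ²-1)/3` — and `p' = p̄`: with the rational primary
`m = -(p + p̄)` (coprime to `p p̄`): `[p̄,p] = [m,p] = [p,m] = [p̄,m] = [m,p̄] = [p,p̄]` using the cases
already proved and `p̄ ≡ -p mod m`; any correct route is fine).
## λ-supplement by the rational trick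
It suffices to show `d ≡ 1 mod 9 ⇒ (λ/d)_3 = 1`.  `d = 1 + 9x`; if `x = u λ^j x₁` (`x₁` primary) then
`(x₁/d) = (d/x₁) = 1`, `(u/d) = 1` (`cub_om`, `N d ≡ 1 mod 9`), `(−9x/d) = 1` and `9 = λ⁴` give
`(λ/d)^{4+j} = 1`, which suffices unless `j ≡ 2 mod 3`; in that case (`27 ∣ d - 1`) apply the result to
`10` and to `10 d = 1 + 9(1 + 10 x)` (both have `j = 0`).
## Landsberg–Schaar
For `n` coprime to `2`: `∑_{x mod n} ee(x²/n) = √N(n) · gam n`.  Compute
`S(X) = ∑_{x ∈ O} ee(x²/n) Om(N x / X)` as `X → ∞` in two ways: splitting into classes mod `n`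
(`poisson_gauss`-type asymptotics) `S(X) ~ X N(n)⁻¹ ∑_{x mod n} ee(x²/n)`; by the two-dimensional
theta transformation (apply Mathlib's `Complex.tsum_exp_neg_quadratic` twice in the coordinates
`x = a + bω`; the real quadratic form `x ↦ (2/√3) Im(x²/n)` has signature `(1,1)`, so the determinant
factor tends to a positive real) the sum becomes `√N(n)/2 · ∑_{y} ee(-n y²/4) · exp(-c |y|²N(n)/(4X)+o)`,
whose leading term is `X N(n)^{-1/2} · (1/2) ∑_{y mod 2} ee(-n y²/4)`.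
Any other correct proof of `gauss_sq` is welcome.
## Quadratic reciprocity
For distinct odd primes `G(pp') = G(p;p') G(p';p) = (p'/p)(p/p') G(p) G(p')` with
`G(n;a) = ∑ ee(a x²/n)`; so `(p'/p)(p/p') = sg p p'`; extend by bimultiplicativity of `sg` (finite
check modulo `4`: the values of `gam` on the 12 odd classes are in `{±1, ±i}`).
`(−1/n) = gam n ²`; `(2/n)_2` is periodic mod `8` by the rational trick (`n = 1 + 8x`, auxiliary `9`).
-/

set_option autoImplicit false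

noncomputable section

open scoped Classical ComplexConjugate

namespace Crest.Agent.R17

/-! ### auxiliary facts -/

theorem rkey_cube {m m0 c d : O} (hc : Prim c) (hd : Prim d) (hs : Squarefree m0)
    (h : m * c ^ 3 = m0 * d ^ 3) : ∃ a, Prim a ∧ d = c * a ∧ m = m0 * a ^ 3 := by
  obtain ⟨g, a, b, hg, ha, hb, rfl, rfl, hab⟩ := exists_prim_gcd hc hd
  have h1 : m * a ^ 3 = m0 * b ^ 3 :=
    mul_left_cancel₀ (pow_ne_zero 3 hg.ne_zero) (by linear_combination h)
  have h2 : a ^ 3 ∣ m0 :=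
    (hab.pow (m := 3) (n := 3)).dvd_of_dvd_mul_right ⟨m, by rw [← h1, mul_comm]⟩
  have h3 : a = 1 := ha.eq_one_of_isUnit (hs a (Dvd.dvd.trans ⟨a, by ring⟩ h2))
  subst h3
  exact ⟨b, hb, by ring, by simpa using h1⟩

theorem rkey_six {a : O} (ha : Prim a) (h2 : IsCoprime a 2) : IsCoprime a 6 := by
  have := h2.mul_right ha.isCoprime_three
  norm_num at this
  exact this

theorem rkey_two {a : O} (ha : IsCoprime a 6) : IsCoprime a 2 :=
  ha.of_isCoprime_of_dvd_right ⟨3, by norm_num⟩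

theorem rkey_ne {a : O} (ha : IsCoprime a 2) : a ≠ 0 := by
  rintro rfl
  exact prime_two.not_isUnit (isCoprime_zero_left.1 ha)

theorem rkey_chi {a : O} (ha : IsCoprime a 6) : IsChar a (chi a) :=
  sym_isChar (k := 6) (by norm_num) (by rw [Nat.cast_ofNat]; exact ha)

theorem rkey_qua {a : O} (ha : IsCoprime a 2) : IsChar a (qua a) :=
  sym_isChar (k := 2) (by norm_num) (by rw [Nat.cast_ofNat]; exact ha)

theorem rkey_gs_one (k : ℕ) : gs 1 (sym k 1) 1 = 1 := by
  have h : (res 1).card = 1 := card_res one_ne_zero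
  simp [gs, sym_one, ad_of_dvd, h]

/-- Gauss sums and Jacobi sums -/
theorem rkey_jacobi {p : O} (hp : Prime p) {ψ φ : O → ℂ} (hψ : IsChar p ψ) (hφ : IsChar p φ)
    (hn : NonPrinc p fun x => ψ x * φ x) :
    gs p ψ 1 * gs p φ 1 = (∑ x ∈ res p, ψ x * φ (1 - x)) * gs p (fun x => ψ x * φ x) 1 := by
  have h0 := hp.ne_zero
  have hH : ∀ t, ∑ x ∈ res p, ψ x * φ (t - x) =
      (∑ x ∈ res p, ψ x * φ (1 - x)) * (ψ t * φ t) := by
    intro t
    by_cases ht : p ∣ t
    · have h1 : ψ t = 0 := (hψ.zero_iff t).2 fun hc => hp.coprime_iff_not_dvd.1 hc.symm ht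
      rw [h1, zero_mul, mul_zero, ← mul_zero (φ (-1)), ← (hψ.mul_char hφ).sum_eq_zero h0 hn,
        Finset.mul_sum]
      refine Finset.sum_congr rfl fun x _ => ?_
      rw [hφ.per.congr (x := t - x) (y := -1 * x) (by simpa using ht), hφ.mul]
      ring
    · have hper : Per p fun x => ψ x * φ (t - x) := fun x y => by
        simp only
        rw [hψ.per x y, hφ.per.congr (x := t - (x + p * y)) (y := t - x) ⟨-y, by ring⟩]
      rw [← sum_res_affine h0 hper (hp.coprime_iff_not_dvd.2 ht).symm 0, Finset.sum_mul]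
      refine Finset.sum_congr rfl fun x _ => ?_
      rw [add_zero, show t - t * x = t * (1 - x) by ring, hψ.mul, hφ.mul]
      ring
  have h2 : ∀ x, gs p φ 1 = ∑ t ∈ res p, φ (t - x) * ad p (1 * (t - x)) := fun x => by
    have := sum_res_affine h0 (hφ.per.mul (ad_per p 1)) (isCoprime_one_left (x := p)) (-x)
    rw [gs, ← this]
    simp only [one_mul, sub_eq_add_neg]
  calc gs p ψ 1 * gs p φ 1
      = ∑ x ∈ res p, ψ x * ad p (1 * x) * gs p φ 1 := by
        rw [← Finset.sum_mul]; rfl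
    _ = ∑ x ∈ res p, ∑ t ∈ res p, ψ x * φ (t - x) * ad p (1 * t) := by
        refine Finset.sum_congr rfl fun x _ => ?_
        rw [h2 x, Finset.mul_sum]
        refine Finset.sum_congr rfl fun t _ => ?_
        rw [show ad p (1 * t) = ad p (1 * x) * ad p (1 * (t - x)) by
          rw [← ad_add]; congr 1; ring]
        ring
    _ = _ := by
        rw [Finset.sum_comm, gs, Finset.mul_sum]
        refine Finset.sum_congr rfl fun t _ => ?_
        rw [← Finset.sum_mul, hH t, mul_assoc]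

theorem rkey_ind {q : O} (hq : q ≠ 0) {g : O → ℂ} (hg : Per q g) (s : O) :
    ∑ y ∈ res q, (if q ∣ y - s then g y else 0) = g s := by
  obtain ⟨r, hr, h⟩ := exists_res hq s
  have h' : q ∣ r - s := dvd_sub_comm.1 h
  rw [Finset.sum_eq_single_of_mem r hr, if_pos h', hg.congr h']
  intro y hy hne
  exact if_neg fun h1 => hne (res_inj hq hy hr (by simpa using dvd_add h1 h))

/-- Euler's criterion -/
theorem rkey_euler {p : O} (hp : Prime p) (h2 : ¬ p ∣ 2) {t : O} (ht : ¬ p ∣ t)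
    (h : p ∣ t ^ ((nm p - 1) / 2) - 1) : ∃ s, p ∣ s ^ 2 - t := by
  have h0 := hp.ne_zero
  have hmax : (Ideal.span {p}).IsMaximal :=
    PrincipalIdealRing.isMaximal_of_irreducible hp.irreducible
  let _ := Ideal.Quotient.field (Ideal.span {p})
  have hsurj : ∀ y : O ⧸ Ideal.span {p}, ∃ x ∈ res p, Ideal.Quotient.mk _ x = y := fun y => by
    obtain ⟨x, rfl⟩ := Ideal.Quotient.mk_surjective y
    obtain ⟨r, hr, h⟩ := exists_res h0 x
    exact ⟨r, hr, (Ideal.Quotient.eq.2 (Ideal.mem_span_singleton.2 h)).symm⟩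
  have hinj : Set.InjOn (Ideal.Quotient.mk (Ideal.span {p})) (res p) := fun x hx y hy h =>
    res_inj h0 hx hy (Ideal.mem_span_singleton.1 (Ideal.Quotient.eq.1 h))
  let _ : Fintype (O ⧸ Ideal.span {p}) :=
    ⟨(res p).image (Ideal.Quotient.mk _), fun y => Finset.mem_image.2 (hsurj y)⟩
  have huniv : (Finset.univ : Finset (O ⧸ Ideal.span {p})) =
      (res p).image (Ideal.Quotient.mk _) := rfl
  have hcard : Fintype.card (O ⧸ Ideal.span {p}) = nm p := by
    rw [Fintype.card, huniv, Finset.card_image_of_injOn hinj, card_res h0]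
  have hz : ∀ x : O, Ideal.Quotient.mk (Ideal.span {p}) x = 0 ↔ p ∣ x := fun x => by
    rw [Ideal.Quotient.eq_zero_iff_mem, Ideal.mem_span_singleton]
  have hchar : ringChar (O ⧸ Ideal.span {p}) ≠ 2 := fun hc => h2 ((hz 2).1 (by
    have := ringChar.Nat.cast_ringChar (R := O ⧸ Ideal.span {p})
    rw [hc, Nat.cast_ofNat] at this
    rw [map_ofNat]
    exact this))
  have hodd := nm_prime_mod_two hp h2
  obtain ⟨y, hy⟩ := (FiniteField.isSquare_iff hchar (mt (hz t).1 ht)).2 (by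
    have h1 := (hz _).2 h
    rw [map_sub, map_one, sub_eq_zero, map_pow] at h1
    rwa [hcard, show nm p / 2 = (nm p - 1) / 2 by omega])
  obtain ⟨s, rfl⟩ := Ideal.Quotient.mk_surjective y
  exact ⟨s, (hz _).1 (by rw [map_sub, map_pow, hy, sq, sub_self])⟩

theorem rkey_count {p : O} (hp : Prime p) (h2 : ¬ p ∣ 2) (t : O) :
    ∑ y ∈ res p, (if p ∣ t - y ^ 2 then (1 : ℂ) else 0) = 1 + qua p t := by
  have h0 := hp.ne_zero
  have hρ := rkey_qua (hp.coprime_iff_not_dvd.2 h2)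
  have h1 : ∀ s, ∑ y ∈ res p, (if p ∣ y - s then (1 : ℂ) else 0) = 1 := fun s =>
    rkey_ind h0 (g := fun _ => 1) (fun _ _ => rfl) s
  by_cases ht : p ∣ t
  · rw [(hρ.zero_iff t).2 fun hc => hp.coprime_iff_not_dvd.1 hc.symm ht, add_zero]
    refine Eq.trans (Finset.sum_congr rfl fun y _ => if_congr ?_ rfl rfl) (h1 0)
    rw [sub_zero, dvd_sub_right ht]
    exact ⟨hp.dvd_of_dvd_pow, fun h => dvd_pow h two_ne_zero⟩
  obtain ⟨u, hu1, hu2, hu3⟩ := exists_symP (k := 2) (by norm_num) hp (by simpa using h2) ht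
  have hq : qua p t = toC u := (sym_prime 2 hp t).trans hu3
  rcases sq_eq_one_iff.1 hu1 with rfl | rfl
  · obtain ⟨s, hs⟩ := rkey_euler hp h2 ht hu2
    rw [hq, map_one]
    refine Eq.trans ?_ (congrArg₂ (· + ·) (h1 s) (h1 (-s)))
    rw [← Finset.sum_add_distrib]
    refine Finset.sum_congr rfl fun y _ => ?_
    have h3 : p ∣ t - y ^ 2 ↔ p ∣ y - s ∨ p ∣ y - -s := by
      rw [← hp.dvd_mul, show (y - s) * (y - -s) = -(t - y ^ 2) - (s ^ 2 - t) by ring,
        dvd_sub_left hs, dvd_neg]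
    have h4 : ¬ (p ∣ y - s ∧ p ∣ y - -s) := fun h => by
      have h5 : p ∣ 2 * s := by simpa [two_mul] using dvd_sub h.2 h.1
      rcases hp.dvd_or_dvd h5 with h6 | h6
      · exact h2 h6
      · exact ht (by simpa using dvd_sub (dvd_pow h6 two_ne_zero) hs)
    by_cases ha : p ∣ y - s <;> by_cases hb : p ∣ y - -s <;> simp_all
  · rw [hq, map_neg, map_one, add_neg_cancel]
    refine Finset.sum_eq_zero fun y _ => if_neg fun h => ?_
    have h3 : qua p y ^ 2 = -1 := by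
      rw [sq, ← hρ.mul, ← sq, ← hρ.per.congr h, hq, map_neg, map_one]
    have h4 := sym_pow_eq (k := 2) (by norm_num) (n := p)
      (by rw [Nat.cast_ofNat]; exact hp.coprime_iff_not_dvd.2 h2) y
    change qua p y ^ 2 = _ at h4
    rw [h3] at h4
    split_ifs at h4 <;> norm_num at h4

theorem rkey_sum_sq {p : O} (hp : Prime p) (h2 : ¬ p ∣ 2) {f : O → ℂ} (hf : Per p f) :
    ∑ y ∈ res p, f (y ^ 2) = ∑ t ∈ res p, f t * (1 + qua p t) := by
  simp only [← rkey_count hp h2, Finset.mul_sum]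
  rw [Finset.sum_comm]
  refine Finset.sum_congr rfl fun y _ => ?_
  rw [← rkey_ind hp.ne_zero hf (y ^ 2)]
  exact Finset.sum_congr rfl fun t _ => by split_ifs <;> simp

/-- Hasse–Davenport duplication for Jacobi sums -/
theorem rkey_dup {p : O} (hp : Prime p) (h2 : ¬ p ∣ 2) {ψ : O → ℂ} (hψ : IsChar p ψ)
    (hn : NonPrinc p ψ) :
    ψ 4 * ∑ x ∈ res p, ψ x * ψ (1 - x) = ∑ x ∈ res p, qua p x * ψ (1 - x) := by
  have h0 := hp.ne_zero
  have hf : Per p fun t => ψ (1 - t) := fun x y => hψ.per.congr ⟨-y, by ring⟩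
  have hg : Per p fun y => ψ (1 - y ^ 2) := fun x y =>
    hψ.per.congr ⟨-(2 * x * y + p * y ^ 2), by ring⟩
  have h1 := sum_res_affine h0 hg (hp.coprime_iff_not_dvd.2 h2).symm (-1)
  have h3 := rkey_sum_sq hp h2 hf
  have h4 : ∑ t ∈ res p, ψ (1 - t) = 0 := by
    rw [← hψ.sum_eq_zero h0 hn,
      ← sum_res_affine h0 hψ.per (isCoprime_one_left (x := p)).neg_left 1]
    exact Finset.sum_congr rfl fun x _ => by congr 1; ring
  simp only [mul_add, mul_one, Finset.sum_add_distrib, h4, zero_add] at h3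
  rw [Finset.mul_sum]
  calc ∑ x ∈ res p, ψ 4 * (ψ x * ψ (1 - x)) = ∑ x ∈ res p, ψ (1 - (2 * x + -1) ^ 2) :=
        Finset.sum_congr rfl fun x _ => by rw [← hψ.mul, ← hψ.mul]; congr 1; ring
    _ = ∑ t ∈ res p, ψ (1 - t) * qua p t := h1.trans h3
    _ = _ := Finset.sum_congr rfl fun x _ => mul_comm _ _

theorem rkey_prime {p : O} (hp : Prime p) (hp' : Prim p) (h2 : IsCoprime p 2) :
    chi p 4 * (gt p * conj (g3 p)) = gam p * g3 p := by
  have h0 := hp.ne_zero
  have h6 := rkey_six hp' h2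
  have h3 := hp'.isCoprime_three
  have hχ := rkey_chi h6
  have hρ := rkey_qua h2
  have e1 : (fun x => chi p x * chi p x) = cub p := funext fun x => by rw [← sq, chi_sq h6]
  have e2 : (fun x => qua p x * chi p x) = fun x => conj (cub p x) := funext fun x => by
    rw [conj_cub h3, ← chi_cube h6, ← chi_sq h6]; ring
  have hn : NonPrinc p (chi p) := by
    obtain ⟨d, h1, h4⟩ := rcub_nonPrinc hp hp'
    exact ⟨d, h1, fun h => h4 (by rw [← chi_sq h6, h, one_pow])⟩
  have j1 := rkey_jacobi hp hχ hχ (e1 ▸ rcub_nonPrinc hp hp')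
  have j2 := rkey_jacobi hp hρ hχ (by
    rw [e2]
    obtain ⟨d, h1, h4⟩ := rcub_nonPrinc_sq hp hp'
    exact ⟨d, h1, by simpa only [conj_cub h3] using h4⟩)
  have j3 := rkey_dup hp (hp.coprime_iff_not_dvd.1 h2) hχ hn
  have j4 : gs p (fun x => conj (cub p x)) 1 = conj (gs p (cub p) 1) := by
    have h4 := conj_gs h0 (cub p) (-1)
    rw [gs_cub h3 hp.squarefree, cub_neg_one h3, map_one, one_mul, neg_neg] at h4
    exact h4.symm
  rw [e1] at j1
  rw [e2, j4, gs_qua h2 hp.squarefree, hρ.one, one_mul] at j2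
  have hN : 0 < Real.sqrt (N p) := Real.sqrt_pos.2 (N_pos h0)
  have hN' : (Real.sqrt (N p) : ℂ) ≠ 0 := by exact_mod_cast hN.ne'
  have hG : gs p (chi p) 1 ≠ 0 := fun h => by
    have := norm_gs_prime hp hχ hn
    rw [h, norm_zero] at this
    exact hN.ne this
  rw [gt, g3, map_div₀, Complex.conj_ofReal]
  field_simp
  refine mul_left_cancel₀ hG ?_
  linear_combination (chi p 4 * conj (gs p (cub p) 1)) * j1 - gs p (cub p) 1 * j2 +
    (gs p (cub p) 1 * conj (gs p (cub p) 1)) * j3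

theorem rkey_mul_conj {z : ℂ} (h : ‖z‖ = 1) : z * conj z = 1 := by
  rw [Complex.mul_conj', h]; simp

/-! ### theta coefficients and the key identity -/
theorem tau_eq {m0 c : O} (hm : Prim m0) (hs : Squarefree m0) (hc : Prim c) :
    tau (m0 * c ^ 3) = conj (g3 m0) * (Real.sqrt (N c) : ℂ) := by
  have h0 : m0 * c ^ 3 ≠ 0 := (hm.mul (hc.pow 3)).ne_zero
  have h1 : m0 * c ^ 3 / c ^ 3 = m0 := mul_div_cancel_right₀ _ (hc.pow 3).ne_zero
  rw [tau, Finset.sum_eq_single_of_mem c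
    ((mem_pdiv h0).2 ⟨hc, Dvd.dvd.mul_left (dvd_pow_self c (by norm_num)) _⟩), h1,
    if_pos ⟨dvd_mul_left _ _, hs⟩]
  intro d hd hne
  refine if_neg fun h => hne ?_
  have hd' := ((mem_pdiv h0).1 hd).1
  obtain ⟨a, ha, e1, e2⟩ := rkey_cube hc hd' h.2 (m := m0)
    (by rw [mul_comm (_ / _), EuclideanDomain.mul_div_cancel' (hd'.pow 3).ne_zero h.1])
  have h3 : a = 1 := ha.eq_one_of_isUnit (hs a (e2 ▸ Dvd.dvd.mul_left ⟨a, by ring⟩ _))
  rw [e1, h3, mul_one]
theorem tau_ne_zero {m : O} (hm : Prim m) (h : tau m ≠ 0) :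
    ∃ m0 c, Prim m0 ∧ Squarefree m0 ∧ Prim c ∧ m = m0 * c ^ 3 := by
  obtain ⟨c, hc, h1⟩ := Finset.exists_ne_zero_of_sum_ne_zero h
  have hc' := ((mem_pdiv hm.ne_zero).1 hc).1
  have h2 : c ^ 3 ∣ m ∧ Squarefree (m / c ^ 3) := by
    by_contra h2
    exact h1 (if_neg h2)
  exact ⟨m / c ^ 3, c, hm.div (hc'.pow 3) h2.1, h2.2, hc',
    by rw [mul_comm, EuclideanDomain.mul_div_cancel' (hc'.pow 3).ne_zero h2.1]⟩
theorem rkey_norm_tau {m0 c : O} (hm : Prim m0) (hs : Squarefree m0) (hc : Prim c) :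
    ‖tau (m0 * c ^ 3)‖ = Real.sqrt (N c) := by
  rw [tau_eq hm hs hc, norm_mul, Complex.norm_conj, norm_g3 hm.isCoprime_three hs, one_mul,
    Complex.norm_real, Real.norm_of_nonneg (Real.sqrt_nonneg _)]
theorem rkey_tau_ne {m0 c : O} (hm : Prim m0) (hs : Squarefree m0) (hc : Prim c) :
    tau (m0 * c ^ 3) ≠ 0 := by
  rw [← norm_ne_zero_iff, rkey_norm_tau hm hs hc]
  exact (Real.sqrt_pos.2 (N_pos hc.ne_zero)).ne'
theorem tau_mul_cube {m c : O} (hm : Prim m) (hc : Prim c) :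
    tau (m * c ^ 3) = tau m * (Real.sqrt (N c) : ℂ) := by
  by_cases h : tau m = 0
  · rw [h, zero_mul]
    by_contra h1
    obtain ⟨m0, d, hm0, hs, hd, e⟩ := tau_ne_zero (hm.mul (hc.pow 3)) h1
    obtain ⟨a, ha, -, rfl⟩ := rkey_cube hc hd hs e
    exact rkey_tau_ne hm0 hs ha h
  · obtain ⟨m0, d, hm0, hs, hd, rfl⟩ := tau_ne_zero hm h
    rw [mul_assoc, ← mul_pow, tau_eq hm0 hs (hd.mul hc), tau_eq hm0 hs hd, N_mul,
      Real.sqrt_mul (N_nonneg _), Complex.ofReal_mul, mul_assoc]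
theorem norm_tau_le {m : O} (hm : Prim m) : ‖tau m‖ ≤ N m ^ (1 / 6 : ℝ) := by
  by_cases h : tau m = 0
  · rw [h, norm_zero]
    exact Real.rpow_nonneg (N_nonneg _) _
  · obtain ⟨m0, d, hm0, hs, hd, rfl⟩ := tau_ne_zero hm h
    have h1 : Real.sqrt (N d) = (N d ^ 3) ^ (1 / 6 : ℝ) := by
      rw [Real.sqrt_eq_rpow, ← Real.rpow_natCast, ← Real.rpow_mul (N_nonneg _)]
      norm_num
    rw [rkey_norm_tau hm0 hs hd, h1, N_mul, N_pow]
    refine Real.rpow_le_rpow (pow_nonneg (N_nonneg _) _) ?_ (by norm_num)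
    exact le_mul_of_one_le_left (pow_nonneg (N_nonneg _) _) (one_le_N hm0.ne_zero)
theorem rkey_split {a b e : O} (ha : Prim a) (he : Prim e)
    (h : e ∣ a * b) : ∃ e1 e2, Prim e1 ∧ Prim e2 ∧ e1 ∣ a ∧ e2 ∣ b ∧ e = e1 * e2 := by
  obtain ⟨e1, e2, h1, h2, rfl⟩ := exists_dvd_and_dvd_of_dvd_mul h
  obtain ⟨u, hu, hp⟩ := exists_unit_mul_prim (ha.isCoprime_three.of_isCoprime_of_dvd_left h1)
  obtain ⟨v, hv⟩ := hu.exists_right_inv
  have e : e1 * e2 = u * e1 * (v * e2) := by linear_combination (-(e1 * e2)) * hv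
  refine ⟨u * e1, v * e2, hp, Prim.of_mul_left (e ▸ he) hp, (hu.mul_left_dvd).2 h1,
    ((IsUnit.of_mul_eq_one_right _ hv).mul_left_dvd).2 h2, e⟩
theorem tau_mul {a b : O} (ha : Prim a) (hb : Prim b) (hab : IsCoprime a b) :
    tau (a * b) = tau a * tau b * cub a b := by
  by_cases h : tau a ≠ 0 ∧ tau b ≠ 0
  · obtain ⟨a0, c, ha0, hs, hc, rfl⟩ := tau_ne_zero ha h.1
    obtain ⟨b0, d, hb0, hs', hd, rfl⟩ := tau_ne_zero hb h.2
    have h0 : IsCoprime a0 b0 := hab.of_mul_left_left.of_mul_right_left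
    have h1 : IsCoprime d a0 :=
      (IsCoprime.pow_right_iff (by norm_num)).1 hab.of_mul_left_left.of_mul_right_right |>.symm
    have h2 : IsCoprime (b0 * d ^ 3) c :=
      (IsCoprime.pow_left_iff (by norm_num)).1 hab.of_mul_left_right |>.symm
    have h3 : cub (a0 * c ^ 3) (b0 * d ^ 3) = cub a0 b0 := by
      have e1 : cub (a0 * c ^ 3) (b0 * d ^ 3) = cub a0 (b0 * d ^ 3) * cub c (b0 * d ^ 3) ^ 3 := by
        unfold cub
        rw [sym_mul_left 3 ha0.ne_zero (hc.pow 3).ne_zero, sym_pow_left 3 hc.ne_zero]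
      have hχ := rcub_isChar ha0
      rw [e1, rcub_cube hc h2, mul_one, hχ.mul, pow_three, hχ.mul, hχ.mul, ← pow_three,
        rcub_cube ha0 h1, mul_one]
    rw [h3, show a0 * c ^ 3 * (b0 * d ^ 3) = a0 * b0 * (c * d) ^ 3 by ring,
      tau_eq (ha0.mul hb0) (squarefree_mul_iff.2 ⟨h0.isRelPrime, hs, hs'⟩) (hc.mul hd),
      tau_eq ha0 hs hc, tau_eq hb0 hs' hd, g3_mul ha0 hb0 h0, N_mul, Real.sqrt_mul (N_nonneg _),
      map_mul, map_mul, map_pow, conj_cub ha0.isCoprime_three, Complex.ofReal_mul]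
    linear_combination (conj (g3 a0) * conj (g3 b0) * cub a0 b0 * (Real.sqrt (N c) : ℂ) *
      (Real.sqrt (N d) : ℂ)) * rcub_cube ha0 h0.symm
  · have h1 : tau a * tau b = 0 := by
      rw [mul_eq_zero]
      tauto
    rw [h1, zero_mul]
    by_contra h2
    obtain ⟨m0, e, hm0, hs, he, h3⟩ := tau_ne_zero (ha.mul hb) h2
    obtain ⟨e1, e2, he1, he2, d1, d2, rfl⟩ := rkey_split ha he
      (h3 ▸ Dvd.dvd.mul_left (dvd_pow_self e (by norm_num)) _)
    obtain ⟨a0, rfl⟩ : e1 ^ 3 ∣ a :=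
      ((hab.of_isCoprime_of_dvd_left d1).pow_left (m := 3)).dvd_of_dvd_mul_right
        ⟨m0 * e2 ^ 3, by rw [h3]; ring⟩
    obtain ⟨b0, rfl⟩ : e2 ^ 3 ∣ b :=
      ((hab.symm.of_isCoprime_of_dvd_left d2).pow_left (m := 3)).dvd_of_dvd_mul_left
        ⟨m0 * e1 ^ 3, by rw [h3]; ring⟩
    have h4 : a0 * b0 = m0 :=
      mul_left_cancel₀ (pow_ne_zero 3 he.ne_zero) (by linear_combination h3)
    subst h4
    refine h ⟨?_, ?_⟩
    · rw [mul_comm]
      exact rkey_tau_ne (ha.of_mul_left (he1.pow 3)) hs.of_mul_left he1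
    · rw [mul_comm]
      exact rkey_tau_ne (hb.of_mul_left (he2.pow 3)) hs.of_mul_right he2
theorem ang_mul (a b : O) : ang (a * b) = ang a * ang b := by
  simp [ang, mul_div_mul_comm]
theorem norm_ang {a : O} (ha : a ≠ 0) : ‖ang a‖ = 1 := by
  have h : toC a ≠ 0 := fun h => ha (toC_injective (h.trans (map_zero toC).symm))
  rw [ang, norm_div, Complex.norm_real, norm_norm, div_self (norm_ne_zero_iff.2 h)]
theorem f1_mul {a b : O} (ha : IsCoprime a 6) (hb : IsCoprime b 6) :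
    f1 (a * b) = f1 a * f1 b * sg a b := by
  have ha2 := rkey_two ha
  have hb2 := rkey_two hb
  have h1 : chi (a * b) 4 = chi a 4 * chi b 4 := sym_mul_left 6 (rkey_ne ha2) (rkey_ne hb2) 4
  rw [f1, f1, f1, h1, gam_mul ha2 hb2, map_mul, map_mul, map_mul, conj_sg ha2 hb2]
  ring
theorem norm_f1 {a : O} (ha : IsCoprime a 6) : ‖f1 a‖ = 1 := by
  have ha2 := rkey_two ha
  have h4 : IsCoprime (4 : O) a := by
    have := (ha2.mul_right ha2).symm
    norm_num at this
    exact this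
  rw [f1, norm_mul, Complex.norm_conj, Complex.norm_conj, norm_gam ha2,
    (rkey_chi ha).norm_eq_one (rkey_ne ha2) h4, one_mul]
theorem f1_congr {n n' : O} (hn : IsCoprime n 6) (h72 : (72 : O) ∣ n - n') : f1 n = f1 n' := by
  have h4 : (4 : O) ∣ n - n' := Dvd.dvd.trans ⟨18, by norm_num⟩ h72
  have h0 : (4 : O) ≠ 0 := by
    have := mul_ne_zero prime_two.ne_zero prime_two.ne_zero
    rwa [show (2 : O) * 2 = 4 by norm_num] at this
  rw [f1, f1, gam_per.congr h4, chi_congr h0 hn h72 fun p _ hp => hp.trans h4]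
/-- **Key identity.** At a prime: with `χ = χ_p`, `ρ = χ³`, Hasse–Davenport duplication
`J(χ̄,χ̄) = χ(4) J(χ̄,ρ)` (substitute `x(1-x) = (1-y²)/4`) gives
`g(χ̄) g(χ²) = χ(4) g(χ̄²) g(ρ)`; with `g(χ²) conj g(χ²) = q`, `conj g(χ²) = g(χ̄²)`,
`g̃(χ²)³ = -ang p` and `g̃(ρ) = gam p` one gets `tt p · g̃(χ̄) = -χ(4) gam p`, and
`g̃(χ̄) = χ(-1) conj g̃(χ)`.  Then induct on the number of primes with `gt_mul`, `tau_mul`,
`f1_mul`, `cub_rec`. -/
theorem key_identity {m : O} (hm : Prim m) (h2 : IsCoprime m 2) (hs : Squarefree m) :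
    mu m * gt m = chi m (-1) * f1 m * tt m := by
  refine Prim.induction
    (P := fun m => IsCoprime m 2 → Squarefree m → mu m * gt m = chi m (-1) * f1 m * tt m)
    (fun _ _ => ?_) (fun p a hp hp' ha ih h2 hs => ?_) hm h2 hs
  · have h1 := tau_eq Prim.one squarefree_one Prim.one
    rw [one_pow, one_mul] at h1
    have h3 : gs 1 (chi 1) 1 = 1 := rkey_gs_one 6
    have h4 : gs 1 (cub 1) 1 = 1 := rkey_gs_one 3
    simp [mu_one, gt, f1, tt, h1, g3, h3, h4, chi, sym_one, gam_one, ang]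
  · have hp2 := h2.of_mul_left_left
    have ha2 := h2.of_mul_left_right
    have hp6 := rkey_six hp' hp2
    have ha6 := rkey_six ha ha2
    obtain ⟨hr, -, hsa⟩ := squarefree_mul_iff.1 hs
    have hc : IsCoprime p a := hr.isCoprime
    have key : mu p * gt p = chi p (-1) * f1 p * tt p := by
      have h1 := tau_eq hp' hp.squarefree Prim.one
      rw [one_pow, mul_one, N_one, Real.sqrt_one, Complex.ofReal_one, mul_one] at h1
      have h3 : chi p (-1) = gam p ^ 2 := by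
        have hχ := rkey_chi hp6
        have e : chi p (-1) * chi p (-1) = 1 := by rw [← hχ.mul, neg_one_mul, neg_neg, hχ.one]
        rw [← qua_neg_one hp2, ← chi_cube hp6]
        linear_combination (-chi p (-1)) * e
      have h4 := rkey_prime hp hp' hp2
      have h5 := rkey_mul_conj (norm_gam hp2)
      have h6 := rkey_mul_conj (norm_g3 hp'.isCoprime_three hp.squarefree)
      have h7 : chi p 4 * conj (chi p 4) = 1 := by
        refine rkey_mul_conj ((rkey_chi hp6).norm_eq_one hp.ne_zero ?_)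
        have := (hp2.mul_right hp2).symm
        norm_num at this
        exact this
      have h8 := g3_cube hp hp'
      rw [mu_prime hp, f1, tt, h1, h3, ← neg_neg (ang p), ← h8]
      linear_combination (-(conj (chi p 4) * g3 p)) * h4 +
        (gt p * chi p 4 * conj (chi p 4)) * h6 + gt p * h7 +
        (gam p * conj (chi p 4) * conj (g3 p) * g3 p ^ 3) * h5 +
        (gam p * conj (chi p 4) * g3 p ^ 2) * h6
    have h1 : chi (p * a) (-1) = chi p (-1) * chi a (-1) :=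
      sym_mul_left 6 hp.ne_zero ha.ne_zero (-1)
    have h3 := ih ha2 hsa
    rw [mu_mul hc, gt_mul hp' ha hp2 ha2 hc, h1, f1_mul hp6 ha6, tt, tau_mul hp' ha hc, ang_mul,
      chi_sq ha6, cub_rec ha hp']
    rw [tt] at key h3
    linear_combination (mu a * gt a * cub p a * sg p a) * key +
      (chi p (-1) * f1 p * (tau p * ang p) * cub p a * sg p a) * h3

end Crest.Agent.R17
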