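import Crest.Agent.R17.RecCub

/-!
# R17 / Recip : reciprocity laws, supplements, the key identity

## Cubic reciprocity
For a primary prime `p` (`q = nm p`), `χ = (·/p)_3`, `g = gs p χ 1`: `g³ = q · J(χ,χ)`
(`gaussSum_pow_eq_prod_jacobiSum`, `χ(-1) = 1`) and `J(χ,χ) = -toC p`:  `J ∈ toC(O)`,
`J ≡ -1 mod 3` (Mathlib `exists_jacobiSum_eq_neg_one_add`), `|J|² = q`, and `p ∣ J` because
`J ≡ ∑_x x^{(q-1)/3} (1-x)^{(q-1)/3} ≡ 0` in `O/p` (power sums of degree `< q-1` vanish); so
`J = u p` with a unit `u`, and `-J` primary gives `-J = p`.  So `g³ = -q p = -p² p̄`.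
For primary primes `p, p'` with `p' ∤ q`: work in the ring of algebraic integers generated by `g`
(or in any finite field `F' ⊇ O/p'` containing the `ℓ`-th roots of unity, `ℓ = char O/p`, using
Mathlib `gaussSum_frob`/`MulChar.IsQuadratic`-style Frobenius argument): `g^{q'} = χ̄(q') g` because
`q' ≡ 1 mod 3`, so `(g³)^{(q'-1)/3} ≡ χ̄_p(q')`, i.e. `(p² p̄ / p')_3 = (q'/p)_3^{-1}`.
Write `[a,b] = (a/b)_3`.  Then `[p,p']² [p̄,p'] = [p',p]² [p̄',p]²`; applying this also to
`(p̄, p')`, `(p', p)` and using `sym_star` gives `[p,p'] = [p',p]` (Ireland–Rosen 9.4; cases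
split/split with different norms, split/inert, inert/inert — a rational integer is a cube modulo an
inert prime `-ℓ` since `ℓ - 1 ∣ (ℓ²-1)/3` — and `p' = p̄`: with the rational primary
`m = -(p + p̄)` (coprime to `p p̄`): `[p̄,p] = [m,p] = [p,m] = [p̄,m] = [m,p̄] = [p,p̄]` using the cases
already proved and `p̄ ≡ -p mod m`; any correct route is fine).
## λ-supplement by the rational trick
It suffices to show `d ≡ 1 mod 9 ⇒ (λ/d)_3 = 1`.  `d = 1 + 9x`; if `x = u λ^j x₁` (`x₁` primary) then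
`(x₁/d) = (d/x₁) = 1`, `(u/d) = 1` (`cub_om`, `N d ≡ 1 mod 9`), `(−9x/d) = 1` and `9 = λ⁴` give
`(λ/d)^{4+j} = 1`, which suffices unless `j ≡ 2 mod 3`; in that case (`27 ∣ d - 1`) apply the result to
`10` and to `10 d = 1 + 9(1 + 10 x)` (both have `j = 0`).
## Landsberg–Schaar
For `n` coprime to `2`: `∑_{x mod n} ee(x²/n) = √N(n) · gam n`.  Compute
`S(X) = ∑_{x ∈ O} ee(x²/n) Om(N x / X)` as `X → ∞` in two ways: splitting into classes mod `n`
(`poisson_gauss`-type asymptotics) `S(X) ~ X N(n)⁻¹ ∑_{x mod n} ee(x²/n)`; by the two-dimensional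
theta transformation (apply Mathlib's `Complex.tsum_exp_neg_quadratic` twice in the coordinates
`x = a + bω`; the real quadratic form `x ↦ (2/√3) Im(x²/n)` has signature `(1,1)`, so the determinant
factor tends to a positive real) the sum becomes `√N(n)/2 · ∑_{y} ee(-n y²/4) · exp(-c |y|²N(n)/(4X)+o)`,
whose leading term is `X N(n)^{-1/2} · (1/2) ∑_{y mod 2} ee(-n y²/4)`.
Any other correct proof of `gauss_sq` is welcome.
## Quadratic reciprocity
For distinct odd primes `G(pp') = G(p;p') G(p';p) = (p'/p)(p/p') G(p) G(p')` with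
`G(n;a) = ∑ ee(a x²/n)`; so `(p'/p)(p/p') = sg p p'`; extend by bimultiplicativity of `sg` (finite
check modulo `4`: the values of `gam` on the 12 odd classes are in `{±1, ±i}`).
`(−1/n) = gam n ²`; `(2/n)_2` is periodic mod `8` by the rational trick (`n = 1 + 8x`, auxiliary `9`).
-/

set_option autoImplicit false

noncomputable section

open scoped Classical ComplexConjugate

namespace Crest.Agent.R17

theorem rkub_congr {d x y : O} (h : d ∣ x - y) : cub d x = cub d y := by
  obtain ⟨t, ht⟩ := h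
  have : x = y + d * t := by linear_combination ht
  rw [this]
  exact sym_per 3 d y t

theorem rkub_mul_left {a b : O} (ha : Prim a) (hb : Prim b) (x : O) :
    cub (a * b) x = cub a x * cub b x :=
  sym_mul_left 3 ha.ne_zero hb.ne_zero x

theorem rkub_pow {d : O} (hd : Prim d) (x : O) (j : ℕ) : cub d (x ^ j) = cub d x ^ j := by
  induction j with
  | zero => simpa using (rcub_isChar hd).one
  | succ j ih => rw [pow_succ, (rcub_isChar hd).mul, ih, pow_succ]

theorem rkub_prim_of_nine {d : O} (h : (9 : O) ∣ d - 1) : Prim d :=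
  Dvd.dvd.trans ⟨3, by norm_num⟩ h

theorem rkub_omC_cube : omC ^ 3 = 1 := by
  rw [← rcub_toC_om, ← map_pow, om_cube, map_one]

theorem rkub_om_one {d : O} (h : (9 : O) ∣ d - 1) : cub d om = 1 := by
  have hd := rkub_prim_of_nine h
  rw [cub_om hd.isCoprime_three]
  obtain ⟨x, hx⟩ := h
  have hx' : d = 1 + 9 * x := by linear_combination hx
  have h9 : (9 : O) = ⟨9, 0⟩ := rfl
  have h1 : (nm d : ℤ) = 1 + 9 * (2 * x.re - x.im + 9 * (x.re ^ 2 - x.re * x.im + x.im ^ 2)) := by
    rw [nm_int, hx', h9]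
    simp only [QuadraticAlgebra.re_add, QuadraticAlgebra.im_add, QuadraticAlgebra.re_mul,
      QuadraticAlgebra.im_mul, QuadraticAlgebra.re_one, QuadraticAlgebra.im_one]
    ring
  obtain ⟨m, hm⟩ : 3 ∣ (nm d - 1) / 3 := by
    generalize 2 * x.re - x.im + 9 * (x.re ^ 2 - x.re * x.im + x.im ^ 2) = z at h1
    omega
  rw [hm, pow_mul, rkub_omC_cube, one_pow]

theorem rkub_unit_one {d u : O} (h : (9 : O) ∣ d - 1) (hu : IsUnit u) : cub d u = 1 := by
  have hd := rkub_prim_of_nine h
  have hχ := rcub_isChar hd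
  have h1 := rkub_om_one h
  have h2 := cub_neg_one hd.isCoprime_three
  have h3 : ∀ x : O, cub d (-x) = cub d x := fun x => by
    rw [← neg_one_mul, hχ.mul, h2, one_mul]
  have h4 : cub d (om ^ 2) = 1 := by rw [rkub_pow hd, h1, one_pow]
  have hm := isUnit_iff_mem_units6.1 hu
  unfold units6 at hm
  simp only [Finset.mem_insert, Finset.mem_singleton] at hm
  rcases hm with rfl | rfl | rfl | rfl | rfl | rfl
  · exact hχ.one
  · exact h2
  · exact h1
  · rw [h3, h1]
  · exact h4
  · rw [h3, h4]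

theorem rkub_lam_one_aux {x : O} (hx : ¬ lam ∣ x) : cub (1 + 9 * x) lam = 1 := by
  obtain ⟨d, hd0⟩ : ∃ d, d = 1 + 9 * x := ⟨_, rfl⟩
  rw [← hd0]
  have h9 : (9 : O) ∣ d - 1 := ⟨x, by rw [hd0]; ring⟩
  have hd := rkub_prim_of_nine h9
  have hχ := rcub_isChar hd
  obtain ⟨u, hu, hp⟩ := b1_exists_unit hx
  obtain ⟨v, hv⟩ := hu.exists_left_inv
  have h1 : cub d (u * x) = 1 := by
    rw [cub_rec hd hp, rkub_congr (y := 1) ⟨9 * v, by rw [hd0]; linear_combination (-9 * x) * hv⟩]
    exact (rcub_isChar hp).one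
  have h2 : cub d x = 1 := by
    rwa [hχ.mul, rkub_unit_one h9 hu, one_mul] at h1
  have hl : lam ^ 4 = 9 := by decide
  have h3 : cub d (lam ^ 4 * x) = 1 := by
    rw [rkub_congr (y := -1) ⟨1, by rw [hd0, hl]; ring⟩]
    exact cub_neg_one hd.isCoprime_three
  rw [hχ.mul, h2, mul_one, rkub_pow hd] at h3
  have h4 := rcub_cube hd hd.isCoprime_lam.symm
  calc cub d lam = cub d lam ^ 3 * cub d lam := by rw [h4, one_mul]
    _ = 1 := by rw [← pow_succ, h3]

theorem rkub_lam_one {d : O} (h : (9 : O) ∣ d - 1) : cub d lam = 1 := by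
  have hd := rkub_prim_of_nine h
  obtain ⟨x, hx⟩ := h
  have hx' : d = 1 + 9 * x := by linear_combination hx
  have hone : ¬ lam ∣ 1 := fun h => prime_lam.not_isUnit (isUnit_of_dvd_one h)
  by_cases hl : lam ∣ x
  · have h1 : ¬ lam ∣ 1 + 10 * x := fun h => hone ((dvd_add_left (hl.mul_left 10)).1 h)
    have h2 := rkub_lam_one_aux h1
    have h3 := rkub_lam_one_aux hone
    have h4 : Prim (1 + 9 * 1 : O) := ⟨3, by norm_num⟩
    have e : (1 + 9 * (1 + 10 * x) : O) = (1 + 9 * 1) * d := by rw [hx']; ring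
    rwa [e, rkub_mul_left h4 hd, h3, one_mul] at h2
  · rw [hx']; exact rkub_lam_one_aux hl

theorem rkub_nine {x d d' : O} (hx : ∀ e : O, (9 : O) ∣ e - 1 → cub e x = 1) (hd : Prim d)
    (hd' : Prim d') (h : (9 : O) ∣ d - d') : cub d x = cub d' x := by
  obtain ⟨y, hy⟩ := id hd
  obtain ⟨w, hw⟩ := h
  have he : Prim (2 - d) := ⟨-y, by linear_combination -hy⟩
  have h1 := hx (d * (2 - d)) ⟨-y ^ 2, by linear_combination (-(d - 1) - 3 * y) * hy⟩
  have h2 := hx (d' * (2 - d)) ⟨-y ^ 2 - w * (2 - d), by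
    linear_combination (-(d - 1) - 3 * y) * hy - (2 - d) * hw⟩
  rw [rkub_mul_left hd he] at h1
  rw [rkub_mul_left hd' he] at h2
  linear_combination cub d' x * h1 - cub d x * h2

theorem cub_lam_congr {d d' : O} (hd : Prim d) (hd' : Prim d') (h : (9 : O) ∣ d - d') :
    cub d lam = cub d' lam :=
  rkub_nine (fun _ he => rkub_lam_one he) hd hd' h

/-- periodicity of `d ↦ (c/d)_3` modulo `9 c₁` where `c = u λ^j c₁`: stated as modulo `9` and modulo
every prime divisor `≠ λ` of `c` -/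
theorem cub_congr {c d d' : O} (hd : Prim d) (hd' : Prim d') (hc : c ≠ 0) (h9 : (9 : O) ∣ d - d')
    (h : ∀ p, Prime p → p ∣ c → p ∣ d - d') : cub d c = cub d' c := by
  obtain ⟨u, j, b, hu, hb, rfl⟩ := exists_eq_unit_lam_prim hc
  have h1 : cub d u = cub d' u := rkub_nine (fun _ he => rkub_unit_one he hu) hd hd' h9
  have h2 := cub_lam_congr hd hd' h9
  have h3 : (∀ p, Prime p → p ∣ b → p ∣ d - d') → cub b d = cub b d' := by
    refine Prim.induction (P := fun b => (∀ p, Prime p → p ∣ b → p ∣ d - d') → cub b d = cub b d')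
      (fun _ => (sym_one 3 d).trans (sym_one 3 d').symm) (fun p a hp hp' ha ih hh => ?_) hb
    rw [rkub_mul_left hp' ha, rkub_mul_left hp' ha, rkub_congr (hh p hp (dvd_mul_right _ _)),
      ih fun r hr hra => hh r hr (hra.mul_left _)]
  have h4 := h3 fun p hp hpb => h p hp (hpb.mul_left _)
  rw [(rcub_isChar hd).mul, (rcub_isChar hd).mul, (rcub_isChar hd').mul, (rcub_isChar hd').mul,
    rkub_pow hd, rkub_pow hd', h1, h2, cub_rec hd hb, cub_rec hd' hb, h4]

/-- the form used for Kubota's character -/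
theorem cub_congr_three_mul {c d d' : O} (hd : Prim d) (hd' : Prim d') (hc : (3 : O) ∣ c)
    (h : 3 * c ∣ d - d') : cub d c = cub d' c := by
  by_cases h0 : c = 0
  · rw [h0, mul_zero, zero_dvd_iff, sub_eq_zero] at h
    rw [h]
  · refine cub_congr hd hd' h0 (Dvd.dvd.trans ?_ h) fun p _ hpc => (hpc.mul_left 3).trans h
    obtain ⟨w, rfl⟩ := hc
    exact ⟨w, by ring⟩

theorem rkub_prim {c d b' d' : O} (hc : (3 : O) ∣ c) (hd : Prim d) (hd' : Prim d') :
    Prim (c * b' + d * d') := by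
  have h1 : (3 : O) ∣ d * d' - 1 := hd.mul hd'
  have e : c * b' + d * d' - 1 = c * b' + (d * d' - 1) := by ring
  unfold Prim
  rw [e]
  exact dvd_add (hc.mul_right _) h1

theorem rkub_kubota {c d a' b' c' d' : O} (h' : a' * d' - b' * c' = 1)
    (hc : (3 : O) ∣ c) (hd : Prim d) (hb' : (3 : O) ∣ b') (hd' : Prim d') (hco : IsCoprime c d') :
    cub (c * b' + d * d') (c * a' + d * c') = cub d c * cub d' c' := by
  have hD : Prim (c * b' + d * d') := rkub_prim hc hd hd'
  have hχ := rcub_isChar hD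
  have hχ' := rcub_isChar hd'
  have h1 : cub (c * b' + d * d') d' * cub (c * b' + d * d') (c * a' + d * c') =
      cub (c * b' + d * d') c := by
    rw [← hχ.mul]
    exact rkub_congr ⟨c', by linear_combination c * h'⟩
  have h2 : cub (c * b' + d * d') c = cub d c * cub d' c := by
    rw [← rkub_mul_left hd hd']
    refine cub_congr_three_mul hD (hd.mul hd') hc ?_
    obtain ⟨w, rfl⟩ := hb'
    exact ⟨w, by ring⟩
  have h3 : cub (c * b' + d * d') d' = cub d' c * cub d' b' := by
    rw [cub_rec hD hd', ← hχ'.mul]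
    exact rkub_congr ⟨d, by ring⟩
  have h4 : cub d' b' * cub d' c' = 1 := by
    rw [← hχ'.mul, rkub_congr (y := -1) ⟨a', by linear_combination -h'⟩]
    exact cub_neg_one hd'.isCoprime_three
  have h5 : cub d' c ≠ 0 := fun h0 => (hχ'.zero_iff c).1 h0 hco
  rw [h2, h3] at h1
  refine mul_left_cancel₀ h5 ?_
  linear_combination cub d' c' * h1 - cub d' c * cub (c * b' + d * d') (c * a' + d * c') * h4

/-- Kubota: for `γ = (a b; c d)`, `γ' = (a' b'; c' d')` in `Γ(3)`,
`(c''/d'')_3 = (c/d)_3 (c'/d')_3`.  Proof: if `d'` is coprime to `c`: `d' c'' ≡ c mod d''`,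
`d'' ≡ d d' mod 3c`, `d'' ≡ c b' mod d'`, `b' c' ≡ -1 mod d'`.  In general replace `(b', d')` by
`(b' + a' t, d' + c' t)` with `3 ∣ t` and `d' + c' t` coprime to `c` (CRT; `c = 0` is trivial), which
changes neither side (`cub_congr_three_mul`). -/
theorem kubota {a b c d a' b' c' d' : O} (h : a * d - b * c = 1) (h' : a' * d' - b' * c' = 1)
    (ha : Prim a) (hb : (3 : O) ∣ b) (hc : (3 : O) ∣ c) (hd : Prim d)
    (ha' : Prim a') (hb' : (3 : O) ∣ b') (hc' : (3 : O) ∣ c') (hd' : Prim d') :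
    cub (c * b' + d * d') (c * a' + d * c') = cub d c * cub d' c' := by
  by_cases h0 : c = 0
  · subst h0
    have h1 : d = 1 := hd.eq_one_of_isUnit (IsUnit.of_mul_eq_one a (by linear_combination h))
    subst h1
    have h2 : cub 1 0 = 1 := sym_one 3 0
    simp [h2]
  obtain ⟨n0, n1, j, hn0, hn1, hcn⟩ := b1_split (q := d') h0
  have hcd : IsCoprime c' d' := ⟨-b', a', by linear_combination h'⟩
  have hd2 : Prim (d' + c' * (3 * n1)) := by
    have e : d' + c' * (3 * n1) - 1 = (d' - 1) + 3 * (c' * n1) := by ring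
    unfold Prim
    rw [e]
    exact dvd_add hd' (dvd_mul_right _ _)
  have hco : IsCoprime c (d' + c' * (3 * n1)) := by
    rw [hcn]
    refine IsCoprime.mul_left ?_ ?_
    · have h1 : IsCoprime d' (c' * (3 * n1)) :=
        hcd.symm.mul_right (hd'.isCoprime_three.mul_right hn1.symm)
      have h2 : IsCoprime d' (d' + c' * (3 * n1)) := by
        have := h1.add_mul_left_right 1
        rwa [mul_one, add_comm] at this
      exact h2.pow_left.of_isCoprime_of_dvd_left hn0
    · have := hn1.add_mul_left_right (3 * c')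
      rwa [show d' + n1 * (3 * c') = d' + c' * (3 * n1) by ring] at this
  have key := rkub_kubota (c := c) (d := d) (a' := a') (b' := b' + a' * (3 * n1)) (c' := c')
    (d' := d' + c' * (3 * n1)) (by linear_combination h') hc hd
    (dvd_add hb' ⟨a' * n1, by ring⟩) hd2 hco
  have h3 : (3 : O) ∣ c * a' + d * c' := dvd_add (hc.mul_right _) (hc'.mul_left _)
  rw [cub_congr_three_mul hd2 hd' hc' ⟨n1, by ring⟩,
    cub_congr_three_mul (rkub_prim hc hd hd2) (rkub_prim (b' := b') hc hd hd') h3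
      ⟨n1, by ring⟩] at key
  exact key

theorem g3_mul {a b : O} (ha : Prim a) (hb : Prim b) (hab : IsCoprime a b) :
    g3 (a * b) = g3 a * g3 b * cub a b ^ 2 := by
  have e : cub (a * b) = fun n => cub a n * cub b n := funext fun n => rkub_mul_left ha hb n
  unfold g3
  rw [e, gs_mul ha.ne_zero hb.ne_zero hab (rcub_isChar ha) (rcub_isChar hb), N_mul,
    Real.sqrt_mul (N_nonneg a), cub_rec hb ha]
  push_cast
  ring

end Crest.Agent.R17
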