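import Crest.Agent.R17.Local_Conv
import Crest.Agent.R17.Local_Log
import Crest.Agent.R17.Chars

/-!
# R17 / Local_L : bounds for `L`, `1/L`, `L'/L` inside zero-free regions
-/

set_option autoImplicit false

noncomputable section

open scoped Classical ComplexConjugate

namespace Crest.Agent.R17

theorem loc_norm_mm_le {ψ : O → ℂ} (hb : ∀ n, ‖ψ n‖ ≤ 1) (n : O) : ‖mm ψ n‖ ≤ 1 := by
  unfold mm
  rw [norm_mul]
  exact mul_le_one₀ (norm_mu_le n) (norm_nonneg _) (hb n)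

theorem loc_inv_L (Q : Lev) {ψ : O → ℂ} (h : IsHChar Q.q ψ) {s : ℂ} (hs : 1 < s.re) :
    (Lf (prim ψ) s)⁻¹ = dser (prim (mm ψ)) s := by
  rw [Lf_eq_dser Q.ne (h.per_prim Q) hs]
  exact inv_eq_of_mul_eq_one_right (dser_mul_mu h.1.one h.1.mul (h.1.norm_le Q.ne) hs)

theorem loc_L_ne (Q : Lev) {ψ : O → ℂ} (h : IsHChar Q.q ψ) {s : ℂ} (hs : 1 < s.re) :
    Lf (prim ψ) s ≠ 0 := by
  rw [Lf_eq_dser Q.ne (h.per_prim Q) hs]
  exact left_ne_zero_of_mul_eq_one (dser_mul_mu h.1.one h.1.mul (h.1.norm_le Q.ne) hs)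

theorem loc_logderiv (Q : Lev) {ψ : O → ℂ} (h : IsHChar Q.q ψ) {s : ℂ} (hs : s.re = 2) :
    -(deriv (Lf (prim ψ)) s / Lf (prim ψ) s) = dser (prim (fun n => (vm n : ℂ) * ψ n)) s := by
  have hs1 : 1 < s.re := by rw [hs]; norm_num
  have hb := h.1.norm_le Q.ne
  have e : Lf (prim ψ) =ᶠ[nhds s] dser (prim ψ) := by
    filter_upwards [(isOpen_lt continuous_const Complex.continuous_re).mem_nhds hs1] with w hw
    exact Lf_eq_dser Q.ne (h.per_prim Q) hw
  have h0 := loc_L_ne Q h hs1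
  rw [e.deriv_eq, loc_dser_deriv (loc_norm_prim_le hb) hs1, ← loc_dser_vm h.1.mul hb hs,
    ← Lf_eq_dser Q.ne (h.per_prim Q) hs1]
  field_simp

theorem loc_ball {t r : ℝ} {z : ℂ} (hz : z ∈ Metric.ball (2 + t * Complex.I : ℂ) r) :
    2 - r < z.re ∧ z.re < 2 + r ∧ |z.im| ≤ |t| + r := by
  rw [Metric.mem_ball, dist_eq_norm] at hz
  have h1 := (Complex.abs_re_le_norm _).trans_lt hz
  have h2 := (Complex.abs_im_le_norm _).trans_lt hz
  simp only [Complex.sub_re, Complex.add_re, Complex.re_ofNat, Complex.mul_re, Complex.ofReal_re,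
    Complex.I_re, mul_zero, Complex.ofReal_im, Complex.I_im, mul_one, sub_self, add_zero,
    Complex.sub_im, Complex.add_im, Complex.im_ofNat, Complex.mul_im, zero_add] at h1 h2
  have := abs_sub_abs_le_abs_sub z.im t
  rw [abs_lt] at h1
  exact ⟨by linarith, by linarith, by linarith⟩

theorem loc_dist {s : ℂ} (hs : s.re ≤ 2) : ‖s - (2 + s.im * Complex.I)‖ = 2 - s.re := by
  have : s - (2 + s.im * Complex.I) = ((s.re - 2 : ℝ) : ℂ) := by
    apply Complex.ext <;> simp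
  rw [this, Complex.norm_real, Real.norm_eq_abs, abs_of_nonpos (by linarith)]
  ring

theorem L_local {A : ℝ} (hA : 1 ≤ A) {δ ε : ℝ} (hδ : 0 < δ) (hε : 0 < ε) : ∃ C : ℝ, 0 ≤ C ∧
    ∀ Z : ℝ, 3 ≤ Z → ∀ (Q' : Lev) (ψ : O → ℂ), IsHChar Q'.q ψ → NonPrinc Q'.q ψ → N Q'.q ≤ Z ^ A →
    ∀ σ T : ℝ, 1 / 2 ≤ σ → σ ≤ 1 → ZFR ψ σ T → ∀ s : ℂ, σ + δ ≤ s.re → s.re ≤ 2 →
      |s.im| + 2 ≤ T → |s.im| ≤ 2 * Z →
      ‖Lf (prim ψ) s‖ ≤ C * Z ^ ε ∧ ‖(Lf (prim ψ) s)⁻¹‖ ≤ C * Z ^ ε ∧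
        ‖deriv (Lf (prim ψ)) s / Lf (prim ψ) s‖ ≤ C * Real.log Z := by
  obtain ⟨C1, B1, hG⟩ := Lf_growth 0 4
  obtain ⟨M, hM1, hM⟩ := loc_dser_bdd
  set A' : ℝ := (A + 2) * B1 with hA'
  have hA0 : 0 ≤ A' := by positivity
  set ε' := ε / (A' + 1) with hε'
  have hε0 : 0 < ε' := by positivity
  obtain ⟨K, hK⟩ := log_lemma hδ hε0
  set C2 := |C1| + 1 with hC2
  have hC21 : 1 ≤ C2 := by have := abs_nonneg C1; linarith
  have hl2 : 0 ≤ Real.log C2 := Real.log_nonneg hC21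
  have hl3 : 0 ≤ Real.log (3 * M) := Real.log_nonneg (by linarith)
  refine ⟨C2 ^ ε' * (3 * M) ^ K + K * (Real.log C2 + A' + Real.log (3 * M)), by positivity, ?_⟩
  intro Z hZ Q' ψ hψ hn hq σ T h1 h2 hzf s hs1 hs2 hT hs3
  have hZ0 : 0 < Z := by linarith
  have hZ1 : 1 ≤ Z := by linarith
  have hb := hψ.1.norm_le Q'.ne
  have hper := hψ.per_prim Q'
  have hE := Ef_one_nonPrinc Q' hψ hn
  have hZA : 1 ≤ Z ^ A' := Real.one_le_rpow hZ1 hA0
  have key := hK (Lf (prim ψ)) (2 + s.im * Complex.I) (2 - σ) (C2 * Z ^ A') (3 * M)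
    (by linarith) (by linarith) (Lf_differentiable Q'.ne hper hE).differentiableOn
    (fun z hz => by
      obtain ⟨a1, -, a3⟩ := loc_ball hz
      exact hzf z (by linarith) (by linarith))
    (by nlinarith) (by linarith)
    (fun z hz => by
      obtain ⟨a1, a2, a3⟩ := loc_ball hz
      refine (hG _ _ Q'.ne hper (loc_norm_prim_le hb) hE z (by linarith) (by linarith)).trans ?_
      have a4 : N Q'.q * (1 + |z.im|) ≤ Z ^ (A + 2) := by
        rw [Real.rpow_add hZ0, Real.rpow_two]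
        exact mul_le_mul hq (by nlinarith) (by positivity) (by positivity)
      rw [hA', Real.rpow_mul hZ0.le, Real.rpow_natCast]
      exact mul_le_mul (by linarith [le_abs_self C1])
        (pow_le_pow_left₀ (mul_nonneg (N_nonneg _) (by positivity)) a4 _)
        (pow_nonneg (mul_nonneg (N_nonneg _) (by positivity)) _) (by linarith))
    (fun z hz => by
      obtain ⟨a1, -, -⟩ := loc_ball hz
      rw [Lf_eq_dser Q'.ne hper (by linarith)]
      linarith [hM _ (loc_norm_prim_le hb) z (by linarith)])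
    (by
      rw [loc_inv_L Q' hψ (by simp)]
      linarith [hM _ (loc_norm_prim_le (loc_norm_mm_le hb)) (2 + s.im * Complex.I)
        (by simp; norm_num)])
    s (by rw [loc_dist hs2]; linarith)
  have hlZ : 1 ≤ Real.log Z := by
    rw [Real.le_log_iff_exp_le hZ0]
    exact (Real.exp_one_lt_d9.le.trans (by norm_num)).trans hZ
  have hZε : 1 ≤ Z ^ ε := Real.one_le_rpow hZ1 hε.le
  have e1 : (C2 * Z ^ A') ^ ε' * (3 * M) ^ K ≤
      (C2 ^ ε' * (3 * M) ^ K + K * (Real.log C2 + A' + Real.log (3 * M))) * Z ^ ε := by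
    rw [Real.mul_rpow (by linarith) (by linarith), ← Real.rpow_mul hZ0.le]
    have a1 : Z ^ (A' * ε') ≤ Z ^ ε := by
      refine Real.rpow_le_rpow_of_exponent_le hZ1 ?_
      rw [hε', ← mul_div_assoc, div_le_iff₀ (by linarith)]
      nlinarith
    have a2 : 0 ≤ C2 ^ ε' * (3 * M) ^ K := by positivity
    have a3 : 0 ≤ (K : ℝ) * (Real.log C2 + A' + Real.log (3 * M)) := by positivity
    nlinarith
  refine ⟨key.1.trans e1, key.2.1.trans e1, key.2.2.trans ?_⟩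
  rw [Real.log_mul (by linarith) (by linarith), Real.log_rpow hZ0]
  have a2 : 0 ≤ C2 ^ ε' * (3 * M) ^ K := by positivity
  have a3 : Real.log C2 + A' * Real.log Z + Real.log (3 * M) ≤
      (Real.log C2 + A' + Real.log (3 * M)) * Real.log Z := by nlinarith
  have a4 := mul_le_mul_of_nonneg_left a3 (Nat.cast_nonneg (α := ℝ) K)
  nlinarith

theorem loc_glob {β δ : ℝ} (hβ : 1 / 2 ≤ β) (hβ1 : β ≤ 1) (hδ : 0 < δ) (C1 M : ℝ) (B1 : ℕ)
    (hM : 1 ≤ M) : ∃ (C : ℝ) (B : ℕ), 0 ≤ C ∧ ∀ f : ℂ → ℂ, Differentiable ℂ f →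
    (∀ s : ℂ, β < s.re → f s ≠ 0) →
    (∀ s : ℂ, 0 ≤ s.re → s.re ≤ 4 → ‖f s‖ ≤ C1 * (1 + |s.im|) ^ B1) →
    (∀ s : ℂ, 5 / 4 ≤ s.re → s.re ≤ 3 → ‖f s‖ ≤ M * (2 + |s.im|)) →
    (∀ s : ℂ, s.re = 2 → ‖(f s)⁻¹‖ ≤ M) →
    ∀ s : ℂ, β + δ ≤ s.re → s.re ≤ 2 → ‖(f s)⁻¹‖ ≤ C * (1 + |s.im|) ^ B := by
  obtain ⟨K, hK⟩ := log_lemma hδ one_pos
  refine ⟨(|C1| + 1) * M ^ K * 3 ^ (B1 + K), B1 + K, by positivity, ?_⟩
  intro f hf h0 h1 h2 h3 s hs1 hs2
  have ht := abs_nonneg s.im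
  have hp : 1 ≤ (3 + |s.im|) ^ B1 := one_le_pow₀ (by linarith)
  have key := hK f (2 + s.im * Complex.I) (2 - β) ((|C1| + 1) * (3 + |s.im|) ^ B1)
    (M * (3 + |s.im|)) (by linarith) (by linarith) hf.differentiableOn
    (fun z hz => h0 z (by linarith [(loc_ball hz).1]))
    (by nlinarith [abs_nonneg C1]) (by nlinarith)
    (fun z hz => by
      obtain ⟨a1, a2, a3⟩ := loc_ball hz
      refine (h1 z (by linarith) (by linarith)).trans ?_
      exact mul_le_mul (by linarith [le_abs_self C1])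
        (pow_le_pow_left₀ (by positivity) (by linarith) _) (by positivity) (by positivity))
    (fun z hz => by
      obtain ⟨a1, a2, a3⟩ := loc_ball hz
      refine (h2 z (by linarith) (by linarith)).trans ?_
      exact mul_le_mul_of_nonneg_left (by linarith) (by linarith))
    ((h3 _ (by simp)).trans (by nlinarith))
    s (by rw [loc_dist hs2]; linarith)
  refine key.2.1.trans ?_
  rw [Real.rpow_one, mul_pow]
  have : (3 + |s.im|) ^ (B1 + K) ≤ 3 ^ (B1 + K) * (1 + |s.im|) ^ (B1 + K) := by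
    rw [← mul_pow]
    exact pow_le_pow_left₀ (by positivity) (by linarith) _
  calc _ = (|C1| + 1) * M ^ K * (3 + |s.im|) ^ (B1 + K) := by rw [pow_add]; ring
    _ ≤ (|C1| + 1) * M ^ K * (3 ^ (B1 + K) * (1 + |s.im|) ^ (B1 + K)) :=
        mul_le_mul_of_nonneg_left this (by positivity)
    _ = _ := by ring

theorem L_global {β : ℝ} (hβ : 1 / 2 ≤ β) (hβ1 : β ≤ 1) (hZ : ZF β) (Q : Lev) {δ : ℝ}
    (hδ : 0 < δ) : ∃ (C : ℝ) (B : ℕ), 0 ≤ C ∧ ∀ ν ∈ hchars Q.q, ∃ F : ℂ → ℂ,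
      DifferentiableOn ℂ F {s | β < s.re} ∧ (∀ s : ℂ, s.re = 2 → F s = dser (prim (mm ν)) s) ∧
      ∀ s : ℂ, β + δ ≤ s.re → s.re ≤ 2 → ‖F s‖ ≤ C * (1 + |s.im|) ^ B := by
  obtain ⟨M, hM1, hM⟩ := loc_dser_bdd
  obtain ⟨C1, B1, hG1⟩ := Lf_growth 0 4
  obtain ⟨C2, B2, hG2⟩ := Ef_growth 0 4
  obtain ⟨D1, K1, hD1, h1⟩ := loc_glob hβ hβ1 hδ (C1 * N Q.q ^ B1) M B1 hM1
  obtain ⟨D2, K2, hD2, h2⟩ := loc_glob hβ hβ1 hδ (C2 * N Q.q ^ B2) M B2 hM1
  refine ⟨D1 + D2, K1 + K2 + 1, by positivity, fun ν hν => ?_⟩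
  rw [mem_hchars Q.ne] at hν
  have hb := hν.1.norm_le Q.ne
  have hper := hν.per_prim Q
  by_cases hn : NonPrinc Q.q ν
  · have hE := Ef_one_nonPrinc Q hν hn
    have hd := Lf_differentiable Q.ne hper hE
    have h0 : ∀ s : ℂ, β < s.re → Lf (prim ν) s ≠ 0 := fun s hs => hZ Q ν hν s hs (Or.inr hn)
    refine ⟨fun s => (Lf (prim ν) s)⁻¹, hd.differentiableOn.inv h0,
      fun s hs => loc_inv_L Q hν (by rw [hs]; norm_num), fun s hs1 hs2 => ?_⟩
    have := h1 _ hd h0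
      (fun s a1 a2 => by
        have := hG1 _ _ Q.ne hper (loc_norm_prim_le hb) hE s a1 a2
        rwa [mul_pow, ← mul_assoc] at this)
      (fun s a1 a2 => by
        rw [Lf_eq_dser Q.ne hper (by linarith)]
        nlinarith [hM _ (loc_norm_prim_le hb) s a1, abs_nonneg s.im])
      (fun s a1 => by
        rw [loc_inv_L Q hν (by rw [a1]; norm_num)]
        exact hM _ (loc_norm_prim_le (loc_norm_mm_le hb)) s (by rw [a1]; norm_num)) s hs1 hs2
    refine this.trans (mul_le_mul (by linarith)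
      (pow_le_pow_right₀ (by linarith [abs_nonneg s.im]) (by omega)) (by positivity) (by positivity))
  · have hd := Ef_differentiable Q.ne hper
    have h0 : ∀ s : ℂ, β < s.re → Ef (prim ν) s ≠ 0 := fun s hs => by
      by_cases hs1 : s = 1
      · obtain ⟨r, hr, e⟩ := Ef_one_one0 Q
        rw [hs1, eq_one0_of_not_nonPrinc Q ((mem_hchars Q.ne).2 hν) hn, e]
        exact_mod_cast hr.ne'
      · have := hZ Q ν hν s hs (Or.inl hs1)
        rw [Lf_eq_div _ hs1] at this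
        exact fun e => this (by rw [e, zero_div])
    have hinv : ∀ s : ℂ, s.re = 2 → (s - 1) * (Ef (prim ν) s)⁻¹ = dser (prim (mm ν)) s := by
      intro s hs
      have hs1 : s ≠ 1 := fun e => by rw [e] at hs; norm_num at hs
      rw [← loc_inv_L Q hν (by rw [hs]; norm_num), Lf_eq_div _ hs1, inv_div, div_eq_mul_inv]
    have hn1 : ∀ s : ℂ, ‖s - 1‖ ≤ |s.re - 1| + |s.im| := fun s => by
      simpa using Complex.norm_le_abs_re_add_abs_im (s - 1)
    refine ⟨fun s => (s - 1) * (Ef (prim ν) s)⁻¹,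
      DifferentiableOn.mul (by fun_prop) (hd.differentiableOn.inv h0), hinv,
      fun s hs1 hs2 => ?_⟩
    have := h2 _ hd h0
      (fun s a1 a2 => by
        have := hG2 _ _ Q.ne hper (loc_norm_prim_le hb) s a1 a2
        rwa [mul_pow, ← mul_assoc] at this)
      (fun s a1 a2 => by
        rw [Ef_eq Q.ne hper (by linarith), norm_mul, mul_comm]
        refine mul_le_mul (hM _ (loc_norm_prim_le hb) s a1) ((hn1 s).trans ?_) (norm_nonneg _)
          (by linarith)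
        rw [abs_of_nonneg (by linarith)]
        linarith)
      (fun s a1 => by
        have e := congrArg norm (hinv s a1)
        rw [norm_mul] at e
        have a2 : 1 ≤ ‖s - 1‖ := by
          have := Complex.re_le_norm (s - 1)
          rw [Complex.sub_re, a1, Complex.one_re] at this
          linarith
        have a3 := hM _ (loc_norm_prim_le (loc_norm_mm_le hb)) s (by rw [a1]; norm_num)
        nlinarith [norm_nonneg (Ef (prim ν) s)⁻¹]) s hs1 hs2
    beta_reduce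
    rw [norm_mul]
    have a1 : ‖s - 1‖ ≤ 1 + |s.im| := (hn1 s).trans (by
      have : |s.re - 1| ≤ 1 := abs_le.2 ⟨by linarith, by linarith⟩
      linarith)
    calc _ ≤ (1 + |s.im|) * (D2 * (1 + |s.im|) ^ K2) :=
          mul_le_mul a1 this (norm_nonneg _) (by positivity)
      _ = D2 * (1 + |s.im|) ^ (K2 + 1) := by ring
      _ ≤ _ := mul_le_mul (by linarith)
          (pow_le_pow_right₀ (by linarith [abs_nonneg s.im]) (by omega)) (by positivity)
          (by positivity)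

end Crest.Agent.R17
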