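import Crest.Agent.R17.Refl1AuxB

/-!
# R17 / Reflect : kernel lemma (functional equation ⇒ summation formula), reflection of blocks,
Pólya–Vinogradov bound, asymptotics of blocks of a fixed level
-/

set_option autoImplicit false

noncomputable section

open scoped Classical ComplexConjugate
open MeasureTheory

namespace Crest.Agent.R17

/-- the terms of the dual sum -/
def refl1_F (q : O) (ψ : O → ℂ) (y t : ℝ) (n : O) : ℂ :=
  if n = 0 then 0 else gs q ψ n * (Real.sqrt (N q) : ℂ)⁻¹ *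
    (N n : ℂ) ^ (-(1 / 2 : ℂ) + t * Complex.I) *
      kern refl1_g 0 t (Real.log (N n) + y - Real.log (N q / c0 ^ 2))

theorem refl1_norm_b {q : O} (hq : q ≠ 0) {ψ : O → ℂ} (hψ : IsChar q ψ) (n : O) :
    ‖gs q ψ n * (Real.sqrt (N q) : ℂ)⁻¹‖ ≤ N q := by
  rw [norm_mul, norm_inv, Complex.norm_of_nonneg (Real.sqrt_nonneg _)]
  exact (mul_le_of_le_one_right (norm_nonneg _)
    (inv_le_one_of_one_le₀ (Real.one_le_sqrt.2 (one_le_N hq)))).trans
      (norm_gs_le hq (hψ.norm_le hq) n)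

theorem refl1_formula {q : O} (hq : q ≠ 0) {ψ : O → ℂ} (hψ : IsChar q ψ) (hn : NonPrinc q ψ)
    (y t : ℝ) : Summable (fun n => ‖refl1_F q ψ y t n‖) ∧
      ‖blk ψ y t‖ = ‖∑' n, refl1_F q ψ y t n‖ := by
  have hc0 : 0 < c0 := zero_lt_one.trans one_lt_c0
  have hN := N_pos hq
  have hR : 0 < N q / c0 ^ 2 := by positivity
  have h0 : Ef ψ 1 = 0 := by rw [Ef_one hq hψ.per, hψ.sum_eq_zero hq hn]; simp
  obtain ⟨h1, h2⟩ := kernel_lemma (a := ψ) (b := fun n => gs q ψ n * (Real.sqrt (N q) : ℂ)⁻¹)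
    ⟨1, 0, fun n _ => by simpa using hψ.norm_le hq n⟩
    ⟨N q, 0, fun n _ => by simpa only [pow_zero, mul_one] using refl1_norm_b hq hψ n⟩
    (D := Lf ψ) (γ := refl1_g) (s1 := 1) hR (Lf_differentiable hq hψ.per h0) refl1_g_diff
    ⟨1, fun s hs => Lf_eq_dser hq hψ.per hs⟩ ⟨0, fun s hs => by
      have e1 : dser (fun n => gs q ψ n * (Real.sqrt (N q) : ℂ)⁻¹) (1 - s) =
          dser (gs q ψ) (1 - s) * (Real.sqrt (N q) : ℂ)⁻¹ := by
        unfold dser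
        rw [← tsum_mul_right]
        refine tsum_congr fun n => ?_
        split_ifs
        · simp
        · ring
      have e2 : ((N q / c0 ^ 2 : ℝ) : ℂ) ^ (1 / 2 - s) * (Real.sqrt (N q) : ℂ)⁻¹ =
          (N q : ℂ) ^ (-s) * (c0 : ℂ) ^ (2 * s - 1) := by
        have e3 : (Real.sqrt (N q) : ℂ)⁻¹ = Complex.exp (-(Real.log (N q) / 2 : ℝ)) := by
          rw [Complex.exp_neg, ← Complex.ofReal_exp, ← Real.log_sqrt hN.le,
            Real.exp_log (Real.sqrt_pos.2 hN)]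
        rw [e3, Complex.cpow_def_of_ne_zero (Complex.ofReal_ne_zero.2 hR.ne'),
          Complex.cpow_def_of_ne_zero (Complex.ofReal_ne_zero.2 hN.ne'),
          Complex.cpow_def_of_ne_zero (Complex.ofReal_ne_zero.2 hc0.ne'), ← Complex.exp_add,
          ← Complex.exp_add, ← Complex.ofReal_log hR.le, ← Complex.ofReal_log hN.le,
          ← Complex.ofReal_log hc0.le, Real.log_div hN.ne' (by positivity), Real.log_pow]
        congr 1
        push_cast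
        ring
      rw [Lf_fe hq hψ.per hs, e1, ← e2, refl1_g]
      ring⟩
    (fun σ1 σ2 => by
      obtain ⟨C, B, hC⟩ := Lf_growth σ1 σ2
      refine ⟨max (|C| * N q ^ B) B, fun s h1 h2 => (hC q ψ hq hψ.per (hψ.norm_le hq) h0 s h1
        h2).trans ?_⟩
      have h3 : (1 + |s.im|) ^ B ≤ Real.exp (max (|C| * N q ^ B) B * |s.im|) := by
        refine le_trans ?_ (Real.exp_le_exp.2
          (mul_le_mul_of_nonneg_right (le_max_right _ _) (abs_nonneg _)))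
        rw [Real.exp_nat_mul]
        exact pow_le_pow_left₀ (by positivity) (by linarith [Real.add_one_le_exp |s.im|]) _
      rw [mul_pow, ← mul_assoc]
      exact mul_le_mul ((mul_le_mul_of_nonneg_right (le_abs_self C) (by positivity)).trans
        (le_max_left _ _)) h3 (by positivity) (le_max_of_le_right (Nat.cast_nonneg B)))
    refl1_g_growth (σ := 0) (by norm_num) y t
  refine ⟨h1, ?_⟩
  rw [h2, norm_mul, Complex.norm_cpow_eq_rpow_re_of_pos hR]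
  simp [refl1_F]

theorem refl1_norm_cpow' {n : O} (h : n ≠ 0) (t : ℝ) :
    ‖(N n : ℂ) ^ (-(1 / 2 : ℂ) + t * Complex.I)‖ = N n ^ (-(1 / 2 : ℝ)) := by
  rw [Complex.norm_cpow_eq_rpow_re_of_pos (N_pos h)]
  congr 1
  simp

theorem refl1_inner {q : O} (hq : q ≠ 0) {ψ : O → ℂ} (hψ : IsChar q ψ) (y t y0 y1 : ℝ) {k : O}
    (hk : k ≠ 0) :
    ‖∑' l : {l : O | Prim l ∧ IsCoprime l q},
        refl1_F q ψ y t (k * l) * (refl1_W y0 y1 (Real.log (N l)) : ℂ)‖ ≤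
      ‖gs q ψ k‖ * N k ^ (-(1 / 2 : ℝ)) * ((Real.sqrt (N q))⁻¹ * (Real.sqrt Real.pi *
        ∫ τ : ℝ, Real.exp (-τ ^ 2 / 4) * ∫ y' in Set.Icc y0 y1, ‖pb ψ y' (t + τ)‖)) := by
  have h1 := refl1_core (a := prim fun n => conj (ψ n)) (fun n => by
    unfold prim
    split_ifs
    · simpa using hψ.norm_le hq n
    · simp) y0 y1 t (Real.log (N k) + y - Real.log (N q / c0 ^ 2))
  have h2 : ∀ y' T : ℝ, ‖blk (prim fun n => conj (ψ n)) y' (-T)‖ = ‖pb ψ y' T‖ := fun y' T => by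
    rw [← Complex.norm_conj (pb ψ y' T), conj_pb]
    rfl
  simp only [h2] at h1
  rw [← tsum_subtype_eq_of_support_subset (s := {l : O | Prim l ∧ IsCoprime l q}) fun n hn => by
    by_contra h
    refine hn ?_
    have h3 : prim (fun n => conj (ψ n)) n = 0 := by
      unfold prim
      split_ifs with h4
      · simp [(hψ.zero_iff n).2 fun h5 => h ⟨h4, h5⟩]
      · rfl
    simp [h3]] at h1
  refine le_trans (le_of_eq ?_) (le_of_le_of_eq (mul_le_mul_of_nonneg_left h1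
    (norm_nonneg (gs q ψ k * (Real.sqrt (N q) : ℂ)⁻¹ *
      (N k : ℂ) ^ (-(1 / 2 : ℂ) + t * Complex.I)))) ?_)
  · rw [← norm_mul, ← tsum_mul_left]
    congr 1
    refine tsum_congr fun l => ?_
    have hl := l.2.1.ne_zero
    rw [refl1_F, if_neg (mul_ne_zero hk hl), if_neg hl, prim, if_pos l.2.1, mul_comm k,
      gs_mul_unit hq hψ l.2.2, N_mul, Real.log_mul (N_pos hl).ne' (N_pos hk).ne',
      Complex.ofReal_mul, Complex.mul_cpow_ofReal_nonneg (N_nonneg _) (N_nonneg _), add_assoc,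
      add_sub_assoc]
    ring
  · rw [norm_mul, norm_mul, norm_inv, Complex.norm_of_nonneg (Real.sqrt_nonneg _),
      refl1_norm_cpow' hk]
    ring

theorem refl1_bound {q : O} (hq : q ≠ 0) (h3 : (3 : O) ∣ q) {ψ : O → ℂ} (hψ : IsChar q ψ)
    (hn : NonPrinc q ψ) (y t y0 y1 : ℝ) {K S0 : ℝ}
    (hK : ∀ k l : O, k ≠ 0 → l ≠ 0 → ‖refl1_F q ψ y t (k * l)‖ *
      (Real.sqrt Real.pi - refl1_W y0 y1 (Real.log (N l))) ≤ K * N (k * l) ^ (-(3 / 2 : ℝ)))
    (hS : ∀ S : Finset O, (∀ k ∈ S, ∃ j : ℕ, k ∣ q ^ j) →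
      ∑ k ∈ S, ‖gs q ψ k‖ * N k ^ (-(1 / 2 : ℝ)) ≤ S0) :
    Real.sqrt Real.pi * ‖blk ψ y t‖ ≤ S0 * ((Real.sqrt (N q))⁻¹ * (Real.sqrt Real.pi *
        ∫ τ : ℝ, Real.exp (-τ ^ 2 / 4) * ∫ y' in Set.Icc y0 y1, ‖pb ψ y' (t + τ)‖)) +
      K * ∑' n : O, N n ^ (-(3 / 2 : ℝ)) := by
  obtain ⟨hs, he⟩ := refl1_formula hq hψ hn y t
  set J := (Real.sqrt (N q))⁻¹ * (Real.sqrt Real.pi *
    ∫ τ : ℝ, Real.exp (-τ ^ 2 / 4) * ∫ y' in Set.Icc y0 y1, ‖pb ψ y' (t + τ)‖) with hJ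
  have hJ0 : 0 ≤ J := mul_nonneg (by positivity) (mul_nonneg (by positivity)
    (integral_nonneg fun τ => mul_nonneg (Real.exp_pos _).le
      (integral_nonneg fun _ => norm_nonneg _)))
  let m : {k : O | ∃ j : ℕ, k ∣ q ^ j} × {l : O | Prim l ∧ IsCoprime l q} → O :=
    fun z => z.1 * z.2
  have hm : Function.Injective m := by
    rintro ⟨⟨k, i, hk⟩, l, hl⟩ ⟨⟨k', j, hk'⟩, l', hl'⟩ h
    obtain ⟨rfl, rfl⟩ := split_unique hq hk hk' hl.1 hl'.1 hl.2 hl'.2 h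
    rfl
  have hr : ∀ n, n ≠ 0 → n ∈ Set.range m := fun n h0 => by
    obtain ⟨k, l, j, h1, h2, h4, h5⟩ := exists_split hq h3 h0
    exact ⟨(⟨k, j, h1⟩, ⟨l, h2, h4⟩), h5.symm⟩
  have hk0 : ∀ k : {k : O | ∃ j : ℕ, k ∣ q ^ j}, k.1 ≠ 0 := fun ⟨k, j, hk⟩ =>
    ne_zero_of_dvd_ne_zero (pow_ne_zero j hq) hk
  have hs' : Summable fun z => ‖refl1_F q ψ y t (m z)‖ := hs.comp_injective hm
  have s1 : Summable fun z => refl1_F q ψ y t (m z) * (refl1_W y0 y1 (Real.log (N z.2)) : ℂ) :=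
    (hs'.mul_right (Real.sqrt Real.pi)).of_norm_bounded fun z => by
      rw [norm_mul, Complex.norm_of_nonneg (refl1_W_nonneg _ _ _)]
      exact mul_le_mul_of_nonneg_left (refl1_W_le_pi _ _ _) (norm_nonneg _)
  have s2 : Summable fun z => refl1_F q ψ y t (m z) *
      ((Real.sqrt Real.pi - refl1_W y0 y1 (Real.log (N z.2)) : ℝ) : ℂ) :=
    (hs'.mul_right (Real.sqrt Real.pi)).of_norm_bounded fun z => by
      rw [norm_mul, Complex.norm_of_nonneg (sub_nonneg.2 (refl1_W_le_pi _ _ _))]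
      exact mul_le_mul_of_nonneg_left (sub_le_self _ (refl1_W_nonneg _ _ _)) (norm_nonneg _)
  have e1 : (∑' n, refl1_F q ψ y t n) * (Real.sqrt Real.pi : ℂ) =
      ∑' z, refl1_F q ψ y t (m z) * (refl1_W y0 y1 (Real.log (N z.2)) : ℂ) +
      ∑' z, refl1_F q ψ y t (m z) *
        ((Real.sqrt Real.pi - refl1_W y0 y1 (Real.log (N z.2)) : ℝ) : ℂ) := by
    rw [← s1.tsum_add s2, ← hm.tsum_eq fun n h0 => hr n fun h => h0 (by simp [refl1_F, h]),
      ← tsum_mul_right]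
    refine tsum_congr fun z => ?_
    push_cast
    ring
  have b0 : ∀ u : Finset {k : O | ∃ j : ℕ, k ∣ q ^ j},
      ∑ k ∈ u, ‖gs q ψ k.1‖ * N k.1 ^ (-(1 / 2 : ℝ)) * J ≤ S0 * J := fun u => by
    rw [← Finset.sum_mul]
    refine mul_le_mul_of_nonneg_right ?_ hJ0
    have := hS (u.map (Function.Embedding.subtype _)) fun k hk => by
      obtain ⟨k', -, rfl⟩ := Finset.mem_map.1 hk
      exact k'.2
    rwa [Finset.sum_map] at this
  have b0' : 0 ≤ fun k : {k : O | ∃ j : ℕ, k ∣ q ^ j} =>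
      ‖gs q ψ k.1‖ * N k.1 ^ (-(1 / 2 : ℝ)) * J := fun k =>
    mul_nonneg (mul_nonneg (norm_nonneg _) (Real.rpow_nonneg (N_nonneg _) _)) hJ0
  have b1 : ‖∑' z, refl1_F q ψ y t (m z) * (refl1_W y0 y1 (Real.log (N z.2)) : ℂ)‖ ≤ S0 * J := by
    rw [s1.tsum_prod]
    exact (tsum_of_norm_bounded (summable_of_sum_le b0' b0).hasSum fun k =>
      refl1_inner hq hψ y t y0 y1 (hk0 k)).trans (Real.tsum_le_of_sum_le b0' b0)
  have b2 : ‖∑' z, refl1_F q ψ y t (m z) *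
      ((Real.sqrt Real.pi - refl1_W y0 y1 (Real.log (N z.2)) : ℝ) : ℂ)‖ ≤
        K * ∑' n : O, N n ^ (-(3 / 2 : ℝ)) := by
    rw [← hm.tsum_eq (f := fun n => N n ^ (-(3 / 2 : ℝ))) fun n h0 => hr n fun h => h0 (by simp [h])]
    refine tsum_of_norm_bounded (((summable_N_rpow (σ := 3 / 2) (by norm_num)).comp_injective
      hm).hasSum.mul_left K) fun z => ?_
    rw [norm_mul, Complex.norm_of_nonneg (sub_nonneg.2 (refl1_W_le_pi _ _ _))]
    exact hK _ _ (hk0 z.1) z.2.2.1.ne_zero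
  have h4 := (norm_add_le _ _).trans (add_le_add b1 b2)
  rw [← e1, norm_mul, Complex.norm_of_nonneg (Real.sqrt_nonneg _), ← he, mul_comm] at h4
  exact h4

theorem refl1_tail (A ε : ℝ) {q0 : O} (hq0 : q0 ≠ 0) {l : ℕ} (hl : 4 * A ≤ l * ε) :
    ∃ C, 0 ≤ C ∧ ∀ L : ℝ, 0 ≤ L → ∀ (ρ : O) (ψ : O → ℂ), ρ ≠ 0 → IsChar (q0 * ρ) ψ →
      N ρ ≤ Real.exp (A * L) → ∀ y t : ℝ, -(A * L) ≤ y → ∀ k n : O, k ≠ 0 → n ≠ 0 →
      ‖refl1_F (q0 * ρ) ψ y t (k * n)‖ * (Real.sqrt Real.pi -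
          refl1_W (-(ε * L)) (Real.log (N ρ) - y + ε * L) (Real.log (N n))) ≤
        C * (1 + |t|) ^ (2 * (l + 1)) * Real.exp (-(A * L)) * N (k * n) ^ (-(3 / 2 : ℝ)) := by
  obtain ⟨C1, p1, h1⟩ := refl1_kern_le 1
  obtain ⟨C2, p2, h2⟩ := refl1_kern_le (l + 1)
  have hc0 : 0 < c0 := zero_lt_one.trans one_lt_c0
  have hN := N_pos hq0
  have hl0 := Nat.cast_nonneg (α := ℝ) l
  set κ := Real.log (N q0 / c0 ^ 2) with hκ
  refine ⟨N q0 * (Real.sqrt Real.pi * Real.exp (l ^ 2 / 4) *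
    (C1 * Real.exp κ + C2 * Real.exp (κ + l * κ))), by positivity,
    fun L hL ρ ψ hρ hψ hA y t hy k n hk hn => ?_⟩
  have hkn := mul_ne_zero hk hn
  have hNρ := N_pos hρ
  have e1 : Real.log (N (q0 * ρ) / c0 ^ 2) = Real.log (N ρ) + κ := by
    rw [N_mul, hκ, ← Real.log_mul hNρ.ne' (by positivity)]
    congr 1
    ring
  have hr : Real.log (N ρ) ≤ A * L := (Real.log_le_iff_le_exp hNρ).2 hA
  have hv : 0 ≤ Real.log (N n) := Real.log_nonneg (one_le_N hn)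
  have hw : Real.log (N n) ≤ Real.log (N (k * n)) :=
    Real.log_le_log (N_pos hn) (N_le_of_dvd hkn (Dvd.intro_left _ rfl))
  have hb : ‖gs (q0 * ρ) ψ (k * n) * (Real.sqrt (N (q0 * ρ)) : ℂ)⁻¹‖ ≤
      N q0 * Real.exp (A * L) := (refl1_norm_b (mul_ne_zero hq0 hρ) hψ _).trans (by
    rw [N_mul]
    exact mul_le_mul_of_nonneg_left hA hN.le)
  rw [refl1_F, if_neg hkn, norm_mul, norm_mul, refl1_norm_cpow' hkn, e1]
  set v := Real.log (N n)
  set w := Real.log (N (k * n)) with hw'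
  set r := Real.log (N ρ)
  set P := (1 + |t|) ^ (2 * (l + 1)) with hP
  have hP0 : 0 ≤ P := by positivity
  set X := ‖kern refl1_g 0 t (w + y - (r + κ))‖ with hX
  have hlL := mul_le_mul_of_nonneg_right hl hL
  have a1 : X * Real.exp (-(l * (v - -(ε * L)))) ≤
      C1 * Real.exp κ * (P * Real.exp (-w - 2 * (A * L))) := by
    have b1 : (1 + |t|) ^ (2 * 1) ≤ P :=
      pow_le_pow_right₀ (by linarith [abs_nonneg t]) (by omega)
    refine (mul_le_mul_of_nonneg_right ((h1 t _).trans (mul_le_mul_of_nonneg_right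
      (mul_le_mul_of_nonneg_left b1 p1) (Real.exp_pos _).le)) (Real.exp_pos _).le).trans ?_
    rw [mul_assoc, ← Real.exp_add, mul_mul_mul_comm, ← Real.exp_add]
    refine mul_le_mul_of_nonneg_left (Real.exp_le_exp.2 ?_) (by positivity)
    push_cast
    nlinarith [mul_nonneg hl0 hv]
  have a2 : X * Real.exp (l * (v - (r - y + ε * L))) ≤
      C2 * Real.exp (κ + l * κ) * (P * Real.exp (-w - 2 * (A * L))) := by
    refine (mul_le_mul_of_nonneg_right (h2 t _) (Real.exp_pos _).le).trans ?_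
    rw [mul_assoc, ← Real.exp_add, mul_mul_mul_comm, ← Real.exp_add]
    refine mul_le_mul_of_nonneg_left (Real.exp_le_exp.2 ?_) (by positivity)
    push_cast
    nlinarith [mul_le_mul_of_nonneg_left hw hl0]
  have a3 : X * (Real.sqrt Real.pi - refl1_W (-(ε * L)) (r - y + ε * L) v) ≤
      Real.sqrt Real.pi * Real.exp (l ^ 2 / 4) *
        (C1 * Real.exp κ + C2 * Real.exp (κ + l * κ)) * (P * Real.exp (-w - 2 * (A * L))) := by
    refine (mul_le_mul_of_nonneg_left (refl1_sub_W_le hl0 _ _ _) (norm_nonneg _)).trans ?_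
    rw [mul_left_comm, mul_assoc _ _ (P * _), mul_add X, add_mul]
    exact mul_le_mul_of_nonneg_left (add_le_add a1 a2) (by positivity)
  have a4 : N (k * n) ^ (-(3 / 2 : ℝ)) = N (k * n) ^ (-(1 / 2 : ℝ)) * Real.exp (-w) := by
    rw [hw', Real.exp_neg, Real.exp_log (N_pos hkn), ← Real.rpow_neg_one,
      ← Real.rpow_add (N_pos hkn)]
    norm_num
  have a5 : Real.exp (A * L) * Real.exp (-w - 2 * (A * L)) =
      Real.exp (-(A * L)) * Real.exp (-w) := by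
    rw [← Real.exp_add, ← Real.exp_add]
    congr 1
    ring
  have hNr := Real.rpow_nonneg (N_nonneg (k * n)) (-(1 / 2 : ℝ))
  rw [mul_assoc, a4]
  refine (mul_le_mul (mul_le_mul_of_nonneg_right hb hNr) a3 (mul_nonneg (norm_nonneg _)
    (sub_nonneg.2 (refl1_W_le_pi _ _ _))) (by positivity)).trans_eq ?_
  linear_combination (N q0 * N (k * n) ^ (-(1 / 2 : ℝ)) * (Real.sqrt Real.pi *
    Real.exp (l ^ 2 / 4) * (C1 * Real.exp κ + C2 * Real.exp (κ + l * κ))) * P) * a5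

/-- **Reflection.**  `ψ` a non-principal Hecke character modulo `q₀ ρ` (`ρ` squarefree, coprime to
`q₀`), `q = q₀ρ`.  Work with `blk ψ = 6 pb ψ`.  `blk ψ y t = (1/2π)∫ L(1/2+it+w) √π e^{w²/4+wy}`;
shift to `Re w = -j`, use `Lf_fe`, write the dual variable as `k = k₀ k₁` (`exists_split`,
`k₀ ∣ q^∞`, `k₁` primary coprime to `q`), `gs q ψ (k₀k₁) = conj ψ(k₁) gs q ψ k₀` (`gs_mul_unit`), and
insert `1 = W(k₁) + (1 - W(k₁))` with `W(k₁) = π^{-1/2} ∫_{y' ≤ Y} gw(log N k₁ - y') dy'`,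
`Y = log N q - y + ε log Z`.  The part `1 - W` is `≤ C (1+|t|)^B Z^{-A}` on `Re w = -j`, `j` large
(`1 - W ≤ 1`, and `≤ e^{-(Y - log N k₁)²}` for `log N k₁ ≤ Y`; `|γ| ≤ (j+|t+τ|)^{2j}`); the part `W`
is moved back to `Re w = 0` where `|Γ(1-s)/Γ(s)| = 1`; `∑_{k₀} |gs q ψ k₀| N(q)^{-1/2} N(k₀)^{-1/2}
≤ C Z^{ε/2}` by `norm_gs_le_sqfree` and Rankin (`sum_smooth_le`-type bound, local factor
`≤ 2 + O(N p^{-1/2})`); finally `y' < -ε log Z` is negligible (`norm_blk_le_neg`, Gaussian decay). -/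
theorem reflect (A : ℝ) {ε : ℝ} (hε : 0 < ε) (Q : Lev) : ∃ (C : ℝ) (B : ℕ), ∀ Z : ℝ, 3 ≤ Z →
    ∀ (ρ : O) (ψ : O → ℂ), Squarefree ρ → IsCoprime Q.q ρ → IsHChar (Q.q * ρ) ψ →
    NonPrinc (Q.q * ρ) ψ → N ρ ≤ Z ^ A → ∀ y t : ℝ,
      ‖pb ψ y t‖ ≤ C * Z ^ ε * (∫ τ : ℝ, Real.exp (-τ ^ 2 / 4) *
          ∫ y' in Set.Icc (-(ε * Real.log Z)) (Real.log (N ρ) - y + ε * Real.log Z),
            ‖pb ψ y' (t + τ)‖) + C * (1 + |t|) ^ B * Z ^ (-A) := by
  rcases lt_or_ge A 0 with hA | hA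
  · refine ⟨0, 0, fun Z hZ ρ ψ hρ _ _ _ hN => absurd ((one_le_N hρ.ne_zero).trans hN) ?_⟩
    exact not_le.2 (Real.rpow_lt_one_of_one_lt_of_neg (by linarith) hA)
  obtain ⟨l, hl⟩ := exists_nat_ge (4 * A / ε)
  obtain ⟨C1, p1, h1⟩ := refl1_tail A ε Q.ne ((div_le_iff₀ hε).1 hl)
  obtain ⟨C2, p2, h2⟩ := refl1_smooth Q.ne (δ := ε / (2 * (A + 1))) (by positivity)
  obtain ⟨C3, h3⟩ := norm_blk_le_neg 1
  set ζ := ∑' n : O, N n ^ (-(3 / 2 : ℝ)) with hζ
  have hζ0 : 0 ≤ ζ := tsum_nonneg fun n => Real.rpow_nonneg (N_nonneg n) _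
  refine ⟨C2 + C1 * ζ + |C3|, 2 * (l + 1), fun Z hZ ρ ψ hρ hc hψ hn hN y t => ?_⟩
  have hZ0 : 0 < Z := by linarith
  have hL : 0 ≤ Real.log Z := Real.log_nonneg (by linarith)
  have hq := mul_ne_zero Q.ne hρ.ne_zero
  have hZA : Z ^ (-A) = Real.exp (-(A * Real.log Z)) := by
    rw [Real.rpow_def_of_pos hZ0]
    congr 1
    ring
  set J := ∫ τ : ℝ, Real.exp (-τ ^ 2 / 4) *
    ∫ y' in Set.Icc (-(ε * Real.log Z)) (Real.log (N ρ) - y + ε * Real.log Z),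
      ‖pb ψ y' (t + τ)‖ with hJ
  have hJ0 : 0 ≤ J := integral_nonneg fun τ => mul_nonneg (Real.exp_pos _).le
    (integral_nonneg fun _ => norm_nonneg _)
  set P := (1 + |t|) ^ (2 * (l + 1)) with hP
  have hP1 : 1 ≤ P := one_le_pow₀ (by linarith [abs_nonneg t])
  have hE := Real.exp_pos (-(A * Real.log Z))
  have hZε := Real.rpow_pos_of_pos hZ0 ε
  have hC3 := abs_nonneg C3
  rw [hZA]
  rcases le_total y (-(A * Real.log Z)) with hy | hy
  · have h4 : ‖pb ψ y t‖ ≤ |C3| * Real.exp (-(A * Real.log Z)) := by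
      refine (h3 (prim ψ) (fun n => ?_) y t (by nlinarith)).trans (mul_le_mul (le_abs_self _)
        (Real.exp_le_exp.2 (by simpa using hy)) (Real.exp_pos _).le hC3)
      unfold prim
      split_ifs
      · exact hψ.1.norm_le hq n
      · simp
    refine h4.trans (le_add_of_nonneg_of_le (by positivity) ?_)
    refine mul_le_mul_of_nonneg_right ?_ hE.le
    exact (le_add_of_nonneg_left (by positivity)).trans
      (le_mul_of_one_le_right (by positivity) hP1)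
  have h3q : (3 : O) ∣ Q.q * ρ :=
    (Dvd.dvd.trans ⟨24, by norm_num⟩ Q.dvd).mul_right ρ
  have h4 := refl1_bound hq h3q hψ.1 hn y t _ _ (h1 _ hL ρ ψ hρ.ne_zero hψ.1 (by
    rwa [Real.rpow_def_of_pos hZ0, mul_comm] at hN) y t hy) (h2 ρ ψ hρ hc hψ.1)
  rw [← hJ, ← hζ, ← hP] at h4
  have hNρ := N_pos hρ.ne_zero
  have h5 : N ρ ^ (2 * (ε / (2 * (A + 1)))) ≤ Z ^ ε := by
    refine (Real.rpow_le_rpow hNρ.le hN (by positivity)).trans ?_
    rw [← Real.rpow_mul hZ0.le]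
    refine Real.rpow_le_rpow_of_exponent_le (by linarith) ?_
    rw [show A * (2 * (ε / (2 * (A + 1)))) = A * ε / (A + 1) by field_simp,
      div_le_iff₀ (by positivity)]
    nlinarith
  have h6 : Real.sqrt (N ρ) * (Real.sqrt (N (Q.q * ρ)))⁻¹ ≤ 1 := by
    rw [← div_eq_mul_inv, div_le_one (Real.sqrt_pos.2 (N_pos hq))]
    exact Real.sqrt_le_sqrt (N_le_of_dvd hq (Dvd.intro_left _ rfl))
  have hpi : 1 ≤ Real.sqrt Real.pi := Real.one_le_sqrt.2 (by linarith [Real.pi_gt_three])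
  have h7 : C2 * Real.sqrt (N ρ) * N ρ ^ (2 * (ε / (2 * (A + 1)))) *
      ((Real.sqrt (N (Q.q * ρ)))⁻¹ * (Real.sqrt Real.pi * J)) ≤
        Real.sqrt Real.pi * (C2 * Z ^ ε * J) := by
    have := mul_le_mul h6 h5 (by positivity) zero_le_one
    nlinarith [mul_le_mul_of_nonneg_left this
      (show 0 ≤ C2 * (Real.sqrt Real.pi * J) by positivity)]
  have h8 : ‖blk ψ y t‖ ≤ C2 * Z ^ ε * J + C1 * ζ * P * Real.exp (-(A * Real.log Z)) := by
    refine le_of_mul_le_mul_left ?_ (zero_lt_one.trans_le hpi)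
    have := le_mul_of_one_le_left
      (show 0 ≤ C1 * ζ * P * Real.exp (-(A * Real.log Z)) by positivity) hpi
    linarith
  have h9 : ‖pb ψ y t‖ ≤ ‖blk ψ y t‖ := by
    rw [blk, blks_eq_six_mul h3q hψ hq, norm_mul]
    exact le_mul_of_one_le_left (norm_nonneg _) (by simp)
  refine h9.trans (h8.trans (add_le_add ?_ ?_))
  · exact mul_le_mul_of_nonneg_right (mul_le_mul_of_nonneg_right
      (by nlinarith [mul_nonneg p1 hζ0]) hZε.le) hJ0
  · exact mul_le_mul_of_nonneg_right (mul_le_mul_of_nonneg_right (by linarith)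
      (zero_le_one.trans hP1)) hE.le

end Crest.Agent.R17
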