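import Crest.Agent.R17.Refl1

/-!
# R17 / Reflect : kernel lemma (functional equation ⇒ summation formula), reflection of blocks,
Pólya–Vinogradov bound, asymptotics of blocks of a fixed level
-/

set_option autoImplicit false

noncomputable section

open scoped Classical ComplexConjugate
open MeasureTheory

namespace Crest.Agent.R17

theorem refl2_prim_le {a : O → ℂ} (ha : ∀ n, ‖a n‖ ≤ 1) (n : O) : ‖prim a n‖ ≤ 1 := by
  unfold prim
  split_ifs
  · exact ha n
  · simp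

theorem refl2_int {f : ℝ → ℝ} {a b K W : ℝ} (hK : 0 ≤ K) (hW : 0 ≤ W) (hab : b - a ≤ W)
    (h0 : ∀ x, 0 ≤ f x) (hf : ∀ x ∈ Set.Icc a b, f x ≤ K) : ∫ x in Set.Icc a b, f x ≤ K * W := by
  refine (le_abs_self _).trans ((norm_setIntegral_le_of_norm_le_const (C := K)
    measure_Icc_lt_top fun x hx => (Real.norm_of_nonneg (h0 x)).trans_le (hf x hx)).trans ?_)
  rw [Real.volume_real_Icc]
  exact mul_le_mul_of_nonneg_left (max_le hab hW) hK

theorem refl2_gauss : Integrable (fun τ : ℝ => Real.exp (-(1 / 8) * τ ^ 2)) :=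
  integrable_exp_neg_mul_sq (by norm_num)

theorem refl2_neg {A Z : ℝ} {ρ : O} (hA : A < 0) (hZ : 3 ≤ Z) (hρ : Squarefree ρ) :
    ¬ N ρ ≤ Z ^ A := fun hN => absurd ((one_le_N hρ.ne_zero).trans hN)
  (not_le.2 (Real.rpow_lt_one_of_one_lt_of_neg (by linarith) hA))

/-- the asymptotic formula without coprimality condition -/
theorem refl2_base (q : O) (hq : q ≠ 0) : ∃ (C : ℝ) (B : ℕ), 0 ≤ C ∧ ∀ φ : O → ℂ, Per q φ →
    (∀ n, ‖φ n‖ ≤ 1) → ‖Ef φ 1‖ ≤ C ∧ ∀ y t : ℝ,
      ‖blk φ y t - Ef φ 1 * (Real.sqrt Real.pi * Complex.exp ((1 / 2 - t * Complex.I) ^ 2 / 4 +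
        (1 / 2 - t * Complex.I) * y))‖ ≤ C * (1 + |t|) ^ B * Real.exp (-y / 2) := by
  obtain ⟨C, B, hC0, hC⟩ := Ef_growth' 0 (5 / 2)
  have hN := N_nonneg q
  set K := C * N q ^ B * (Real.sqrt Real.pi * Real.exp (2 * (B : ℝ) ^ 2)) with hK
  set J := ∫ τ : ℝ, Real.exp (-(1 / 8) * τ ^ 2) with hJ
  have hJ0 : 0 ≤ J := integral_nonneg fun _ => (Real.exp_pos _).le
  have hK0 : 0 ≤ K := by positivity
  refine ⟨C * N q ^ B + K * Real.exp (1 / 16) * J, B, by positivity, fun φ hφ hb => ⟨?_, ?_⟩⟩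
  · have := hC q φ hq hφ hb 1 (by simp) (by norm_num)
    simp only [Complex.one_im, abs_zero, add_zero, mul_one] at this
    exact this.trans (le_add_of_nonneg_right (by positivity))
  intro y t
  set G : ℂ → ℂ := fun w => Ef φ (1 / 2 + t * Complex.I + w) *
    (Real.sqrt Real.pi * Complex.exp (w ^ 2 / 4 + w * y)) with hG
  have hGd : Differentiable ℂ G :=
    ((Ef_differentiable hq hφ).comp (by fun_prop)).mul (by fun_prop)
  have hGb : ∀ σ τ : ℝ, -1 / 2 ≤ σ → σ ≤ 2 → ‖G (σ + τ * Complex.I)‖ ≤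
      K * (1 + |t|) ^ B * Real.exp (σ ^ 2 / 4 + σ * y) * Real.exp (-(1 / 8) * τ ^ 2) := by
    intro σ τ h1 h2
    have h3 := hC q φ hq hφ hb (1 / 2 + t * Complex.I + (σ + τ * Complex.I))
      (by simp; linarith) (by simp; linarith)
    have e1 : (1 / 2 + t * Complex.I + (σ + τ * Complex.I) : ℂ).im = t + τ := by simp
    have h4 : (1 + |t + τ|) ^ B ≤ (1 + |t|) ^ B * Real.exp (B * |τ|) := by
      rw [Real.exp_nat_mul, ← mul_pow]
      refine pow_le_pow_left₀ (by positivity) ?_ B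
      nlinarith [abs_add_le t τ, Real.add_one_le_exp |τ|, abs_nonneg t, abs_nonneg τ,
        mul_nonneg (abs_nonneg t) (abs_nonneg τ)]
    rw [e1, mul_pow, ← mul_assoc] at h3
    simp only [hG]
    rw [norm_mul, refl1_norm_gauss]
    refine (mul_le_mul_of_nonneg_right (h3.trans (mul_le_mul_of_nonneg_left h4 (by positivity)))
      (by positivity)).trans ?_
    have h5 : Real.exp (B * |τ|) * Real.exp (σ ^ 2 / 4 - τ ^ 2 / 4 + σ * y) ≤
        Real.exp (2 * (B : ℝ) ^ 2) * Real.exp (σ ^ 2 / 4 + σ * y) *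
          Real.exp (-(1 / 8) * τ ^ 2) := by
      simp only [← Real.exp_add]
      exact Real.exp_le_exp.2 (by linarith [refl1_exp_abs B τ])
    have h6 := mul_le_mul_of_nonneg_left h5
      (by positivity : 0 ≤ C * N q ^ B * (1 + |t|) ^ B * Real.sqrt Real.pi)
    rw [hK]
    linarith
  have hs := shift_line_pole (G := G) (a := -1 / 2) (b := 2) (s0 := 1 / 2 - t * Complex.I)
    (by simp; norm_num) (by simp; norm_num) hGd.differentiableOn
    (g := fun τ => K * (1 + |t|) ^ B * Real.exp (1 + 2 * |y|) * Real.exp (-(1 / 8) * τ ^ 2))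
    (refl2_gauss.const_mul _)
    (by simpa using (tendsto_rpow_abs_mul_exp_neg_mul_sq_cocompact (a := 1 / 8) (by norm_num)
      0).const_mul (K * (1 + |t|) ^ B * Real.exp (1 + 2 * |y|)))
    fun σ τ h1 h2 => (hGb σ τ h1 h2).trans (mul_le_mul_of_nonneg_right
      (mul_le_mul_of_nonneg_left (Real.exp_le_exp.2 (by
        have : σ * y ≤ 2 * |y| := (le_abs_self _).trans (by
          rw [abs_mul]
          exact mul_le_mul_of_nonneg_right (abs_le.2 ⟨by linarith, h2⟩) (abs_nonneg _))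
        nlinarith)) (by positivity)) (Real.exp_pos _).le)
  have e1 : blk φ y t = (1 / (2 * Real.pi) : ℂ) * ∫ τ : ℝ, G ((2 : ℝ) + τ * Complex.I) /
      ((2 : ℝ) + τ * Complex.I - (1 / 2 - t * Complex.I)) := by
    rw [blk, blks_mellin y 2]
    · congr 1
      refine integral_congr_ae (ae_of_all _ fun τ => ?_)
      have h1 : ((2 : ℝ) + τ * Complex.I - (1 / 2 - t * Complex.I) : ℂ) ≠ 0 := fun h => by
        have := congrArg Complex.re h
        norm_num at this
      simp only [hG]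
      rw [Ef_eq hq hφ (by simp; norm_num), eq_div_iff h1]
      ring
    · exact Summable.of_nonneg_of_le
        (fun n => mul_nonneg (norm_nonneg _) (Real.rpow_nonneg (N_nonneg _) _))
        (fun n => mul_le_of_le_one_left (Real.rpow_nonneg (N_nonneg _) _) (hb n))
        (summable_N_rpow (by simp; norm_num))
  have hpi : (Real.pi : ℂ) ≠ 0 := Complex.ofReal_ne_zero.2 Real.pi_ne_zero
  have e2 : G (1 / 2 - t * Complex.I) = Ef φ 1 * (Real.sqrt Real.pi *
      Complex.exp ((1 / 2 - t * Complex.I) ^ 2 / 4 + (1 / 2 - t * Complex.I) * y)) := by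
    simp only [hG]
    congr 2
    ring
  rw [e1, hs, ← e2, mul_add, ← mul_assoc, one_div_mul_cancel (by simp [hpi]), one_mul,
    add_sub_cancel_left, norm_mul]
  have h1 : ‖(1 / (2 * Real.pi) : ℂ)‖ ≤ 1 := by
    rw [norm_div, norm_one, norm_mul, Complex.norm_of_nonneg Real.pi_pos.le, Complex.norm_two]
    exact div_le_one_of_le₀ (by linarith [Real.pi_gt_three]) (by positivity)
  refine (mul_le_of_le_one_left (norm_nonneg _) h1).trans ((norm_integral_le_of_norm_le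
    (refl2_gauss.const_mul (K * (1 + |t|) ^ B * Real.exp (1 / 16 + -y / 2)))
    (ae_of_all _ fun τ => ?_)).trans ?_)
  · have h2 : 1 ≤ ‖((-1 / 2 : ℝ) + τ * Complex.I - (1 / 2 - t * Complex.I) : ℂ)‖ :=
      le_trans (by norm_num) (Complex.abs_re_le_norm _)
    rw [norm_div]
    refine (div_le_self (norm_nonneg _) h2).trans ((hGb _ τ le_rfl (by norm_num)).trans_eq ?_)
    congr 3
    ring
  · rw [integral_const_mul, Real.exp_add]
    have : 0 ≤ C * N q ^ B * (1 + |t|) ^ B * Real.exp (-y / 2) := by positivity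
    linarith

/-- sup form of `reflect` -/
theorem reflect_sup (A : ℝ) {ε : ℝ} (hε : 0 < ε) (Q : Lev) : ∃ (C : ℝ) (B : ℕ), ∀ Z : ℝ, 3 ≤ Z →
    ∀ (ρ : O) (ψ : O → ℂ), Squarefree ρ → IsCoprime Q.q ρ → IsHChar (Q.q * ρ) ψ →
    NonPrinc (Q.q * ρ) ψ → N ρ ≤ Z ^ A → ∀ y t M : ℝ, 0 ≤ M → -(A * Real.log Z) ≤ y →
      (∀ y' t', -(ε * Real.log Z) ≤ y' → y' ≤ Real.log (N ρ) - y + ε * Real.log Z →
        |t' - t| ≤ Real.log Z ^ 2 → ‖pb ψ y' t'‖ ≤ M) →
      ‖pb ψ y t‖ ≤ C * Z ^ ε * M + C * (1 + |t|) ^ B * Z ^ (-A) := by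
  rcases lt_or_ge A 0 with hA | hA
  · exact ⟨0, 0, fun Z hZ ρ ψ hρ _ _ _ hN => absurd hN (refl2_neg hA hZ hρ)⟩
  obtain ⟨C, B, hC⟩ := reflect A (half_pos hε) Q
  obtain ⟨C0, h0⟩ := norm_blk_le
  set J := ∫ τ : ℝ, Real.exp (-(1 / 8) * τ ^ 2) with hJ
  have hJ0 : 0 ≤ J := integral_nonneg fun _ => (Real.exp_pos _).le
  set K := |C| * ((2 * A + ε) / (ε / 2) * J) with hK
  have hK0 : 0 ≤ K := by positivity
  set K' := K * (|C0| * Real.exp (2 * (2 * A + 2 * ε) ^ 2)) with hK'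
  have hK0' : 0 ≤ K' := by positivity
  have hC0 := abs_nonneg C
  refine ⟨K + K' + |C|, B, fun Z hZ ρ ψ hρ hc hψ hn hN y t M hM hy hb => ?_⟩
  have hZ0 : 0 < Z := by linarith
  have hL : 1 ≤ Real.log Z := by
    rw [Real.le_log_iff_exp_le hZ0]
    linarith [Real.exp_one_lt_d9]
  have hexp : ∀ e : ℝ, Z ^ e = Real.exp (e * Real.log Z) := fun e => by
    rw [Real.rpow_def_of_pos hZ0, mul_comm]
  have hρ1 : Real.log (N ρ) ≤ A * Real.log Z := by
    rw [Real.log_le_iff_le_exp (N_pos hρ.ne_zero), ← hexp]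
    exact hN
  have hp := refl2_prim_le (hψ.1.norm_le (mul_ne_zero Q.ne hρ.ne_zero))
  have hε' : 0 ≤ ε * Real.log Z := by positivity
  have hA' : 0 ≤ A * Real.log Z := by positivity
  set E := |C0| * Real.exp ((A + ε) * Real.log Z - Real.log Z ^ 2 / 8) with hE
  have hE0 : 0 ≤ E := by positivity
  have h1 : (∫ τ : ℝ, Real.exp (-τ ^ 2 / 4) * ∫ y' in Set.Icc (-(ε / 2 * Real.log Z))
      (Real.log (N ρ) - y + ε / 2 * Real.log Z), ‖pb ψ y' (t + τ)‖) ≤
      (M + E) * ((2 * A + ε) * Real.log Z) * J := by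
    rw [hJ, ← integral_const_mul]
    refine integral_mono_of_nonneg (ae_of_all _ fun τ => mul_nonneg (Real.exp_pos _).le
      (integral_nonneg fun _ => norm_nonneg _)) (refl2_gauss.const_mul _) (ae_of_all _ fun τ => ?_)
    have hW : 0 ≤ (2 * A + ε) * Real.log Z := by positivity
    beta_reduce
    rcases le_total |τ| (Real.log Z ^ 2) with h | h
    · refine (mul_comm _ _).trans_le ?_
      refine mul_le_mul (refl2_int (by positivity) hW (by linarith) (fun _ => norm_nonneg _)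
        fun x hx => (hb x _ (by linarith [hx.1]) (by linarith [hx.2]) (by simpa using h)).trans
          (le_add_of_nonneg_right hE0)) (Real.exp_le_exp.2 (by nlinarith)) (Real.exp_pos _).le
        (by positivity)
    · refine (mul_le_mul_of_nonneg_left (refl2_int (K := |C0| * Real.exp ((A + ε) * Real.log Z))
        (by positivity) hW (by linarith) (fun _ => norm_nonneg _) fun x hx =>
          (h0 _ hp x _).trans (mul_le_mul (le_abs_self _) (Real.exp_le_exp.2
            (by linarith [hx.2])) (Real.exp_pos _).le (abs_nonneg _))) (Real.exp_pos _).le).trans ?_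
      have h2 : Real.log Z ^ 2 ≤ τ ^ 2 := by
        rw [← sq_abs τ]
        exact h.trans (le_self_pow₀ ((one_le_pow₀ hL).trans h) two_ne_zero)
      have h3 : Real.exp (-τ ^ 2 / 4) * Real.exp ((A + ε) * Real.log Z) ≤
          Real.exp ((A + ε) * Real.log Z - Real.log Z ^ 2 / 8) * Real.exp (-(1 / 8) * τ ^ 2) := by
        simp only [← Real.exp_add]
        exact Real.exp_le_exp.2 (by linarith)
      have h4 := mul_le_mul_of_nonneg_left h3
        (by positivity : 0 ≤ |C0| * ((2 * A + ε) * Real.log Z))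
      have h5 : 0 ≤ M * ((2 * A + ε) * Real.log Z) * Real.exp (-(1 / 8) * τ ^ 2) := by positivity
      simp only [hE]
      linarith
  have hZε := Real.rpow_pos_of_pos hZ0 (ε / 2)
  have h2 : |C| * Z ^ (ε / 2) * ((M + E) * ((2 * A + ε) * Real.log Z) * J) ≤
      K * Z ^ ε * (M + E) := by
    have h3 := mul_le_mul_of_nonneg_left (Real.log_le_rpow_div hZ0.le (half_pos hε))
      (by positivity : 0 ≤ |C| * Z ^ (ε / 2) * (M + E) * (2 * A + ε) * J)
    have h4 : Z ^ ε = Z ^ (ε / 2) * Z ^ (ε / 2) := by rw [← Real.rpow_add hZ0, add_halves]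
    rw [hK, h4]
    refine le_trans (le_of_eq (by ring)) (h3.trans_eq (by ring))
  have h3 : Z ^ ε * E ≤ |C0| * Real.exp (2 * (2 * A + 2 * ε) ^ 2) * Z ^ (-A) := by
    rw [hE, hexp, hexp, mul_left_comm, mul_assoc, ← Real.exp_add, ← Real.exp_add]
    exact mul_le_mul_of_nonneg_left (Real.exp_le_exp.2
      (by nlinarith [sq_nonneg (Real.log Z - 4 * (2 * A + 2 * ε))])) (abs_nonneg _)
  have hP : 1 ≤ (1 + |t|) ^ B := one_le_pow₀ (by linarith [abs_nonneg t])
  have hZA := Real.rpow_pos_of_pos hZ0 (-A)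
  have hZε' := Real.rpow_pos_of_pos hZ0 ε
  have h4 := mul_le_mul (mul_le_mul_of_nonneg_right (le_abs_self C) hZε.le) h1
    (integral_nonneg fun τ => mul_nonneg (Real.exp_pos _).le
      (integral_nonneg fun _ => norm_nonneg _)) (by positivity)
  have h5 := mul_le_mul_of_nonneg_left h3 hK0
  have h6 := mul_le_mul_of_nonneg_left hP (mul_nonneg hK0' hZA.le)
  have h7 := mul_le_mul_of_nonneg_right (le_abs_self C)
    (by positivity : 0 ≤ (1 + |t|) ^ B * Z ^ (-A))
  have h8 : 0 ≤ (K' + |C|) * Z ^ ε * M := by positivity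
  have h9 : 0 ≤ K * (1 + |t|) ^ B * Z ^ (-A) := by positivity
  have h10 := hC Z hZ ρ ψ hρ hc hψ hn hN y t
  have h11 : K * (|C0| * Real.exp (2 * (2 * A + 2 * ε) ^ 2) * Z ^ (-A)) = K' * Z ^ (-A) := by
    rw [hK']
    ring
  clear_value K K' E J
  linarith

/-- Pólya–Vinogradov: `|pb|² ≪ min(e^y, N ρ e^{-y}) ≤ √N ρ` -/
theorem polya_vinogradov (A : ℝ) {ε : ℝ} (hε : 0 < ε) (Q : Lev) : ∃ (C : ℝ) (B : ℕ), ∀ Z : ℝ,
    3 ≤ Z → ∀ (ρ : O) (ψ : O → ℂ), Squarefree ρ → IsCoprime Q.q ρ → IsHChar (Q.q * ρ) ψ →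
    NonPrinc (Q.q * ρ) ψ → N ρ ≤ Z ^ A → ∀ y t : ℝ,
      ‖pb ψ y t‖ ^ 2 ≤ C * Z ^ ε * (1 + |t|) ^ B * Real.sqrt (N ρ) := by
  rcases lt_or_ge A 0 with hA | hA
  · exact ⟨0, 0, fun Z hZ ρ ψ hρ _ _ _ hN => absurd hN (refl2_neg hA hZ hρ)⟩
  obtain ⟨C, B, hC⟩ := reflect_sup A (ε := ε / 4) (by positivity) Q
  obtain ⟨C0, h0⟩ := norm_blk_le
  refine ⟨(|C0| + |C| * |C0| + |C|) ^ 2, B * 2, fun Z hZ ρ ψ hρ hc hψ hn hN y t => ?_⟩
  have hZ0 : 0 < Z := by linarith
  have hL : 0 ≤ Real.log Z := Real.log_nonneg (by linarith)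
  have hexp : ∀ e : ℝ, Z ^ e = Real.exp (e * Real.log Z) := fun e => by
    rw [Real.rpow_def_of_pos hZ0, mul_comm]
  have hρ0 := N_pos hρ.ne_zero
  have hr : 0 ≤ Real.log (N ρ) := Real.log_nonneg (one_le_N hρ.ne_zero)
  have hp := refl2_prim_le (hψ.1.norm_le (mul_ne_zero Q.ne hρ.ne_zero))
  have hε' : 0 ≤ ε * Real.log Z := by positivity
  have hA' : 0 ≤ A * Real.log Z := by positivity
  have hP : 1 ≤ (1 + |t|) ^ B := one_le_pow₀ (by linarith [abs_nonneg t])
  set E := Real.exp (ε * Real.log Z / 2 + Real.log (N ρ) / 4) with hE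
  have hE0 : 0 < E := Real.exp_pos _
  have c1 := abs_nonneg C
  have c2 := abs_nonneg C0
  have h1 : ∀ K u : ℝ, 0 ≤ K → u ≤ ε * Real.log Z / 2 + Real.log (N ρ) / 4 →
      K * Real.exp u ≤ K * ((1 + |t|) ^ B * E) := fun K u h1 h2 =>
    mul_le_mul_of_nonneg_left ((Real.exp_le_exp.2 h2).trans (le_mul_of_one_le_left hE0.le hP)) h1
  have h2 : ‖pb ψ y t‖ ≤ (|C0| + |C| * |C0| + |C|) * ((1 + |t|) ^ B * E) := by
    have p1 : 0 ≤ |C0| * ((1 + |t|) ^ B * E) := by positivity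
    rcases le_total y (Real.log (N ρ) / 2) with h | h
    · have p2 : 0 ≤ (|C| * |C0| + |C|) * ((1 + |t|) ^ B * E) := by positivity
      have p3 := (h0 _ hp y t).trans ((mul_le_mul_of_nonneg_right (le_abs_self _)
        (Real.exp_pos _).le).trans (h1 _ _ c2 (by linarith)))
      exact p3.trans (by linarith)
    · have p2 := hC Z hZ ρ ψ hρ hc hψ hn hN y t
        (|C0| * Real.exp (ε * Real.log Z / 8 + Real.log (N ρ) / 4)) (by positivity) (by linarith)
        fun y' t' _ h3 _ => (h0 _ hp y' t').trans (mul_le_mul (le_abs_self _)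
          (Real.exp_le_exp.2 (by linarith)) (Real.exp_pos _).le c2)
      have p3 := h1 (|C| * |C0|) (ε / 4 * Real.log Z + (ε * Real.log Z / 8 + Real.log (N ρ) / 4))
        (by positivity) (by linarith)
      have p4 := mul_le_mul_of_nonneg_right (le_abs_self C) (by positivity : 0 ≤
        Real.exp (ε / 4 * Real.log Z) * (|C0| * Real.exp (ε * Real.log Z / 8 + Real.log (N ρ) / 4)))
      have p5 : C * (1 + |t|) ^ B * Real.exp (-A * Real.log Z) ≤ |C| * (1 + |t|) ^ B * E :=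
        mul_le_mul (mul_le_mul_of_nonneg_right (le_abs_self C) (by positivity))
          (Real.exp_le_exp.2 (by linarith)) (Real.exp_pos _).le (by positivity)
      rw [hexp, hexp] at p2
      rw [Real.exp_add] at p3
      linarith
  refine (pow_le_pow_left₀ (norm_nonneg _) h2 2).trans_eq ?_
  have e : E ^ 2 = Z ^ ε * Real.sqrt (N ρ) := by
    rw [hE, hexp, Real.sqrt_eq_rpow, Real.rpow_def_of_pos hρ0, ← Real.exp_add, ← Real.exp_nat_mul]
    congr 1
    push_cast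
    ring
  rw [mul_pow, mul_pow, e, pow_mul]
  ring

/-- Asymptotics of blocks of a fixed level with a coprimality condition.  For `a = 1` use
`blks_mellin`, `shift_line_pole` to `Re s = 0` and `Ef_growth`; in general `pb_coprime`. -/
theorem block_asymp (Q : Lev) : ∃ (C : ℝ) (B : ℕ), ∀ ν ∈ hchars Q.q, ∀ a : O, Prim a →
    ∃ M : ℂ, ‖M‖ ≤ C * (pdiv a).card ∧ (NonPrinc Q.q ν → M = 0) ∧
      (a = 1 → M = Ef (prim ν) 1) ∧ ∀ y t : ℝ,
      ‖pb (fun n => if IsCoprime n a then ν n else 0) y t -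
          M * (Real.sqrt Real.pi * Complex.exp ((1 / 2 - t * Complex.I) ^ 2 / 4 +
            (1 / 2 - t * Complex.I) * y))‖ ≤
        C * (1 + |t|) ^ B * (pdiv a).card * Real.exp (-y / 2) := by
  obtain ⟨C, B, hC0, hC⟩ := refl2_base Q.q Q.ne
  refine ⟨C, B, fun ν hν a ha => ?_⟩
  have hν' := (mem_hchars Q.ne).1 hν
  have hb := norm_hchar_le Q hν
  obtain ⟨h1, h2⟩ := hC _ (hν'.per_prim Q) (refl2_prim_le hb)
  have he : ∀ e ∈ pdiv a, e ≠ 0 := fun e h => ((mem_pdiv ha.ne_zero).1 h).1.ne_zero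
  have hm : ∀ e, ‖mu e * ν e‖ ≤ 1 := fun e => by
    rw [norm_mul]
    exact mul_le_one₀ (norm_mu_le e) (norm_nonneg _) (hb e)
  refine ⟨∑ e ∈ pdiv a, mu e * ν e * (N e : ℂ)⁻¹ * Ef (prim ν) 1, ?_, fun hn => ?_, ?_,
    fun y t => ?_⟩
  · rw [mul_comm, ← nsmul_eq_mul]
    refine (norm_sum_le _ _).trans (Finset.sum_le_card_nsmul _ _ _ fun e h => ?_)
    rw [norm_mul, norm_mul, norm_inv, Complex.norm_of_nonneg (N_nonneg e)]
    exact (mul_le_of_le_one_left (norm_nonneg _) (mul_le_one₀ (hm e) (inv_nonneg.2 (N_nonneg e))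
      (inv_le_one_of_one_le₀ (one_le_N (he e h))))).trans h1
  · simp [Ef_one_nonPrinc Q hν' hn]
  · rintro rfl
    have : pdiv 1 = {1} := Finset.eq_singleton_iff_unique_mem.2 ⟨one_mem_pdiv one_ne_zero,
      fun e h => ((mem_pdiv one_ne_zero).1 h).1.eq_one_of_isUnit
        (isUnit_of_dvd_one ((mem_pdiv one_ne_zero).1 h).2)⟩
    simp [this, mu_one, hν'.1.one]
  rw [pb_coprime hν'.1.mul hb ha, Finset.sum_mul, ← Finset.sum_sub_distrib, mul_right_comm,
    mul_comm _ ((pdiv a).card : ℝ), ← nsmul_eq_mul]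
  refine (norm_sum_le _ _).trans (Finset.sum_le_card_nsmul _ _ _ fun e h => ?_)
  have h0 := N_pos (he e h)
  have e1 : (N e : ℂ)⁻¹ * Complex.exp ((1 / 2 - t * Complex.I) ^ 2 / 4 +
      (1 / 2 - t * Complex.I) * y) = (N e : ℂ) ^ (-(1 / 2 + t * Complex.I)) *
      Complex.exp ((1 / 2 - t * Complex.I) ^ 2 / 4 +
        (1 / 2 - t * Complex.I) * (y - Real.log (N e) : ℝ)) := by
    rw [← Complex.cpow_neg_one, Kn.cpow_eq h0, Kn.cpow_eq h0, ← Complex.exp_add,
      ← Complex.exp_add]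
    congr 1
    push_cast
    ring
  have e2 : mu e * ν e * (N e : ℂ) ^ (-(1 / 2 + t * Complex.I)) * pb ν (y - Real.log (N e)) t -
      mu e * ν e * (N e : ℂ)⁻¹ * Ef (prim ν) 1 * (Real.sqrt Real.pi *
        Complex.exp ((1 / 2 - t * Complex.I) ^ 2 / 4 + (1 / 2 - t * Complex.I) * y)) =
      mu e * ν e * ((N e : ℂ) ^ (-(1 / 2 + t * Complex.I)) *
        (blk (prim ν) (y - Real.log (N e)) t - Ef (prim ν) 1 * (Real.sqrt Real.pi *
          Complex.exp ((1 / 2 - t * Complex.I) ^ 2 / 4 +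
            (1 / 2 - t * Complex.I) * (y - Real.log (N e) : ℝ))))) := by
    rw [pb]
    linear_combination (-(mu e * ν e * Ef (prim ν) 1 * Real.sqrt Real.pi)) * e1
  rw [e2, norm_mul, norm_mul (_ ^ _), refl1_norm_cpow (he e h)]
  refine (mul_le_of_le_one_left (by positivity) (hm e)).trans
    ((mul_le_mul_of_nonneg_left (h2 _ t) (by positivity)).trans_eq ?_)
  rw [Real.rpow_def_of_pos h0, mul_left_comm, ← Real.exp_add]
  congr 2
  ring

end Crest.Agent.R17
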