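import Crest.Agent.R17.Local_Conv
import Crest.Agent.R17.Reflect

/-!
# R17 / Local_Mert : Chebyshev and Mertens type bounds for the primes of `O`
-/

set_option autoImplicit false

noncomputable section

open scoped Classical ComplexConjugate

namespace Crest.Agent.R17

theorem loc_mem_slot {Q : Lev} {yp R : ℝ} {p : O} : p ∈ slot Q yp R ↔
    Prime p ∧ Prim p ∧ ¬ p ∣ Q.q ∧ Real.exp (yp - R) ≤ N p ∧ N p ≤ Real.exp (yp + R) := by
  unfold slot
  rw [Finset.mem_filter, mem_ball]
  exact ⟨fun h => ⟨h.2.1, h.2.2.1, h.2.2.2.1, h.2.2.2.2, h.1.2⟩,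
    fun h => ⟨⟨h.1.ne_zero, h.2.2.2.2⟩, h.1, h.2.1, h.2.2.1, h.2.2.2.1⟩⟩

theorem loc_window {x yp R : ℝ} (hx : 0 < x) :
    (Real.exp (yp - R) ≤ x ∧ x ≤ Real.exp (yp + R)) ↔ |Real.log x - yp| ≤ R := by
  rw [← Real.le_log_iff_exp_le hx, ← Real.log_le_iff_le_exp hx, abs_le]
  constructor <;> rintro ⟨h1, h2⟩ <;> constructor <;> linarith

theorem cheb_theta {X : ℝ} (hX : 0 ≤ X) (S : Finset O)
    (hS : ∀ p ∈ S, Prime p ∧ Prim p ∧ N p ≤ X) : ∑ p ∈ S, Real.log (N p) ≤ 4 * X := by
  have hdvd : ∏ p ∈ S, p ∣ ((primorial ⌊X⌋₊ : ℕ) : O) := by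
    refine Finset.prod_dvd_of_coprime (fun p hp q hq hne => ?_) fun p hp => ?_
    · exact ((hS p hp).1.coprime_iff_not_dvd).2 fun h =>
        hne (loc_prime_eq (hS q hq).1 (hS q hq).2.1 (hS p hp).1 (hS p hp).2.1 h)
    · obtain ⟨l, j, hl, h1, h2⟩ := rcub_char (hS p hp).1
      refine h1.trans (Nat.cast_dvd_cast (hl.dvd_primorial_iff.2 ?_))
      have h3 := Prime.two_le_N (hS p hp).1
      have h4 : nm p ≤ ⌊X⌋₊ := Nat.le_floor (hS p hp).2.2
      have hj : j ≠ 0 := by
        rintro rfl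
        unfold N at h3
        rw [h2] at h3
        norm_num at h3
      exact (Nat.le_self_pow hj l).trans (h2 ▸ h4)
  have h0 : ((primorial ⌊X⌋₊ : ℕ) : O) ≠ 0 := by
    intro e
    have := nm_natCast (primorial ⌊X⌋₊)
    rw [e, nm_zero] at this
    exact (pow_pos (primorial_pos _) 2).ne this
  have h1 := N_le_of_dvd h0 hdvd
  rw [N_prod] at h1
  rw [← Real.log_prod (fun p hp => (N_pos (hS p hp).1.ne_zero).ne')]
  refine (Real.log_le_log (Finset.prod_pos fun p hp => N_pos (hS p hp).1.ne_zero) h1).trans ?_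
  have h2 : N ((primorial ⌊X⌋₊ : ℕ) : O) ≤ (4 : ℝ) ^ (2 * ⌊X⌋₊) := by
    unfold N
    rw [nm_natCast, mul_comm, pow_mul]
    exact_mod_cast Nat.pow_le_pow_left (primorial_le_four_pow _) 2
  refine (Real.log_le_log (N_pos h0) h2).trans ?_
  rw [Real.log_pow]
  have h3 : Real.log 4 ≤ 2 := by
    rw [show (4 : ℝ) = 2 ^ 2 by norm_num, Real.log_pow]
    have := Real.log_two_lt_d9
    push_cast; linarith
  have h4 := Nat.floor_le hX
  push_cast
  nlinarith [(Nat.cast_nonneg ⌊X⌋₊ : (0 : ℝ) ≤ ⌊X⌋₊)]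

theorem loc_sum_exp : ∃ C : ℝ, ∀ (v : ℝ) (t : Finset ℕ),
    ∑ j ∈ t, Real.exp (-|(j : ℝ) - v|) ≤ C := by
  have hs : Summable fun k : ℤ => Real.exp (-|(k : ℝ)|) := by
    refine Summable.of_nat_of_neg ?_ ?_
    · simpa using Real.summable_exp_neg_nat
    · simpa using Real.summable_exp_neg_nat
  refine ⟨Real.exp 1 * ∑' k : ℤ, Real.exp (-|(k : ℝ)|), fun v t => ?_⟩
  have h1 := hs.sum_le_tsum (t.image fun j : ℕ => (j : ℤ) - ⌊v⌋) fun _ _ => (Real.exp_pos _).le
  rw [Finset.sum_image (fun a _ b _ h => by simpa using h)] at h1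
  refine le_trans ?_ (mul_le_mul_of_nonneg_left h1 (Real.exp_pos _).le)
  rw [Finset.mul_sum]
  refine Finset.sum_le_sum fun j _ => ?_
  rw [← Real.exp_add, Real.exp_le_exp]
  push_cast
  have a1 := Int.floor_le v
  have a2 := Int.lt_floor_add_one v
  have a3 := abs_sub_le (j : ℝ) v ⌊v⌋
  have a4 : |v - ⌊v⌋| ≤ 1 := abs_le.2 ⟨by linarith, by linarith⟩
  linarith

theorem cheb_exp : ∃ C : ℝ, ∀ (v : ℝ) (S : Finset O), (∀ p ∈ S, Prime p ∧ Prim p) →
    ∑ p ∈ S, Real.log (N p) / N p * Real.exp (-|Real.log (N p) - v|) ≤ C := by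
  obtain ⟨C, hC⟩ := loc_sum_exp
  refine ⟨4 * Real.exp 2 * C, fun v S hS => ?_⟩
  rw [← Finset.sum_fiberwise_of_maps_to (t := S.image fun p => ⌊Real.log (N p)⌋₊)
    (g := fun p => ⌊Real.log (N p)⌋₊) (fun p hp => Finset.mem_image_of_mem _ hp)]
  refine le_trans ?_ (mul_le_mul_of_nonneg_left (hC v (S.image fun p => ⌊Real.log (N p)⌋₊))
    (by positivity))
  rw [Finset.mul_sum]
  refine Finset.sum_le_sum fun j _ => ?_
  have hj : ∀ p ∈ S.filter (fun p => ⌊Real.log (N p)⌋₊ = j),
      (j : ℝ) ≤ Real.log (N p) ∧ Real.log (N p) ≤ j + 1 := fun p hp => by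
    rw [← (Finset.mem_filter.1 hp).2]
    exact ⟨Nat.floor_le (loc_log_N_nonneg p), (Nat.lt_floor_add_one _).le⟩
  have h1 := cheb_theta (X := Real.exp (j + 1)) (Real.exp_pos _).le
    (S.filter fun p => ⌊Real.log (N p)⌋₊ = j) fun p hp => by
      have := hS p (Finset.mem_filter.1 hp).1
      exact ⟨this.1, this.2, (Real.log_le_iff_le_exp (N_pos this.1.ne_zero)).1 (hj p hp).2⟩
  calc _ ≤ ∑ p ∈ S.filter (fun p => ⌊Real.log (N p)⌋₊ = j),
        Real.log (N p) * Real.exp (-j + (1 - |(j : ℝ) - v|)) := by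
        refine Finset.sum_le_sum fun p hp => ?_
        have hN := N_pos (hS p (Finset.mem_filter.1 hp).1).1.ne_zero
        rw [div_eq_mul_inv, mul_assoc]
        refine mul_le_mul_of_nonneg_left ?_ (loc_log_N_nonneg p)
        rw [← Real.exp_log hN, ← Real.exp_neg, Real.log_exp, ← Real.exp_add, Real.exp_le_exp]
        have a1 := hj p hp
        have a3 := abs_sub_le (j : ℝ) (Real.log (N p)) v
        have a4 : |(j : ℝ) - Real.log (N p)| ≤ 1 := abs_le.2 ⟨by linarith, by linarith⟩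
        linarith
    _ ≤ 4 * Real.exp (j + 1) * Real.exp (-j + (1 - |(j : ℝ) - v|)) := by
        rw [← Finset.sum_mul]
        exact mul_le_mul_of_nonneg_right h1 (Real.exp_pos _).le
    _ = _ := by
        rw [mul_assoc, mul_assoc, ← Real.exp_add, ← Real.exp_add]
        congr 2
        ring

theorem loc_gw_le (u : ℝ) : gw u ≤ Real.exp (1 / 4) * Real.exp (-|u|) := by
  unfold gw
  rw [← Real.exp_add, Real.exp_le_exp, ← sq_abs]
  nlinarith [sq_nonneg (|u| - 1 / 2)]

theorem mertens_upper' : ∃ C, ∀ (Q : Lev) (yp R : ℝ),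
    ∑ p ∈ slot Q yp R, wP yp p / N p ≤ C := by
  obtain ⟨C, hC⟩ := cheb_exp
  refine ⟨Real.exp (1 / 4) * C, fun Q yp R => ?_⟩
  refine le_trans ?_ (mul_le_mul_of_nonneg_left (hC yp (slot Q yp R) fun p hp =>
    ⟨(loc_mem_slot.1 hp).1, (loc_mem_slot.1 hp).2.1⟩) (Real.exp_pos _).le)
  rw [Finset.mul_sum]
  refine Finset.sum_le_sum fun p _ => ?_
  unfold wP
  have := mul_le_mul_of_nonneg_left (loc_gw_le (Real.log (N p) - yp))
    (div_nonneg (loc_log_N_nonneg p) (N_nonneg p))
  calc _ = Real.log (N p) / N p * gw (Real.log (N p) - yp) := by ring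
    _ ≤ _ := this
    _ = _ := by ring

theorem loc_prime_vm {n : O} (hn : Prime n) (h : vm n ≠ 0) : Prim n := by
  obtain ⟨p, j, -, hp', rfl⟩ := vm_ne_zero h
  exact hp'.pow _

/-- the prime power part at `δ = 1/2` -/
def vm2 (n : O) : ℝ := if Prime n then 0 else vm n * N n ^ (-(1 : ℝ))

theorem vm2_nonneg (n : O) : 0 ≤ vm2 n := by
  unfold vm2
  split_ifs
  · exact le_rfl
  · exact mul_nonneg (vm_nonneg n) (Real.rpow_nonneg (N_nonneg n) _)

theorem summable_vm2' : Summable vm2 := by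
  have := summable_vm2 (δ := 1 / 2) (by norm_num)
  rw [show (1 / 2 + 1 / 2 : ℝ) = 1 by norm_num] at this
  exact this

theorem cheb_vm : ∃ C : ℝ, ∀ (v : ℝ) (S : Finset O),
    ∑ n ∈ S, vm n * N n ^ (-(1 : ℝ)) * Real.exp (-|Real.log (N n) - v|) ≤ C := by
  obtain ⟨C, hC⟩ := cheb_exp
  refine ⟨C + ∑' n, vm2 n, fun v S => ?_⟩
  refine le_trans ?_ (add_le_add (hC v (S.filter fun p => Prime p ∧ Prim p)
    fun p hp => (Finset.mem_filter.1 hp).2) (summable_vm2'.sum_le_tsum S fun n _ => vm2_nonneg n))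
  rw [Finset.sum_filter, ← Finset.sum_add_distrib]
  refine Finset.sum_le_sum fun n _ => ?_
  by_cases hp : Prime n
  · by_cases h : vm n = 0
    · rw [h, zero_mul, zero_mul]
      refine add_nonneg ?_ (vm2_nonneg n)
      split_ifs
      · exact mul_nonneg (div_nonneg (loc_log_N_nonneg n) (N_nonneg n)) (Real.exp_pos _).le
      · exact le_rfl
    · rw [if_pos ⟨hp, loc_prime_vm hp h⟩, vm_prime hp (loc_prime_vm hp h), Real.rpow_neg_one,
        div_eq_mul_inv]
      linarith [vm2_nonneg n]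
  · rw [if_neg (fun h => hp h.1), zero_add]
    unfold vm2
    rw [if_neg hp]
    exact mul_le_of_le_one_right (mul_nonneg (vm_nonneg n) (Real.rpow_nonneg (N_nonneg n) _))
      (Real.exp_le_one_iff.2 (neg_nonpos.2 (abs_nonneg _)))

/-- the term of the smooth harmonic sum -/
def bt (Q : Lev) (y : ℝ) (m : O) : ℝ :=
  if P0 Q m then N m ^ (-(1 : ℝ)) * gw (Real.log (N m) - y) else 0

theorem bt_nonneg (Q : Lev) (y : ℝ) (m : O) : 0 ≤ bt Q y m := by
  unfold bt
  split_ifs
  · exact mul_nonneg (Real.rpow_nonneg (N_nonneg m) _) (gw_pos _).le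
  · exact le_rfl

theorem bt_le (Q : Lev) (y : ℝ) (m : O) :
    bt Q y m ≤ if m = 0 then 0 else N m ^ (-(1 : ℝ)) * gw (Real.log (N m) - y) := by
  unfold bt
  by_cases h : P0 Q m
  · rw [if_pos h, if_neg h.1.ne_zero]
  · rw [if_neg h]
    split_ifs
    · exact le_rfl
    · exact mul_nonneg (Real.rpow_nonneg (N_nonneg m) _) (gw_pos _).le

theorem summable_bt (Q : Lev) (y : ℝ) : Summable (bt Q y) :=
  Summable.of_nonneg_of_le (bt_nonneg Q y) (bt_le Q y) (summable_gw_rpow _ y)

theorem bt_asymp (Q : Lev) : ∃ C κ : ℝ, 1 ≤ C ∧ 0 < κ ∧ ∀ y : ℝ, ∑' m, bt Q y m ≤ C ∧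
    (y ≤ 0 → ∑' m, bt Q y m ≤ C * Real.exp y) ∧ |∑' m, bt Q y m - κ| ≤ C * Real.exp (-y) := by
  obtain ⟨C1, h1⟩ := tsum_gw_rpow (-1)
  obtain ⟨C2, h2⟩ := tsum_gw_rpow_neg (-1) 1
  obtain ⟨C3, B, h3⟩ := block_asymp Q
  obtain ⟨M, -, -, hM, h3⟩ := h3 _ (one0_mem Q) 1 Prim.one
  obtain ⟨r, hr, e⟩ := Ef_one_one0 Q
  rw [hM rfl, e] at h3
  set C4 := |C3| * (pdiv 1).card * Real.exp (3 / 16) with hC4
  have hC40 : 0 ≤ C4 := by positivity
  refine ⟨1 + |C1| + |C2| + C4, r * Real.sqrt Real.pi,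
    by linarith [abs_nonneg C1, abs_nonneg C2], by have := Real.pi_pos; positivity, fun y => ?_⟩
  have hle := (summable_bt Q y).tsum_le_tsum (bt_le Q y) (summable_gw_rpow _ y)
  refine ⟨?_, fun hy => ?_, ?_⟩
  · have := h1 y
    rw [neg_add_cancel, zero_mul, Real.exp_zero, mul_one] at this
    linarith [le_abs_self C1, abs_nonneg C2]
  · have := h2 y hy
    rw [Nat.cast_one, one_mul] at this
    refine hle.trans (this.trans (mul_le_mul_of_nonneg_right ?_ (Real.exp_pos _).le))
    linarith [le_abs_self C2, abs_nonneg C1]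
  · have e1 : ((∑' m, bt Q y m : ℝ) : ℂ) =
        blks (prim fun n => if IsCoprime n 1 then one0 Q n else 0) y
          (1 / 2 + (0 : ℝ) * Complex.I - (-1 / 2 : ℝ)) := by
      rw [Complex.ofReal_tsum]
      unfold blks
      refine tsum_congr fun n => ?_
      unfold bt prim one0 P0
      beta_reduce
      by_cases hn : Prim n
      · rw [if_neg hn.ne_zero, if_pos hn, if_pos isCoprime_one_right]
        by_cases hc : IsCoprime n Q.q
        · rw [if_pos ⟨hn, hc⟩, if_pos hc, Complex.ofReal_mul, Complex.ofReal_cpow (N_nonneg n),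
            one_mul]
          congr 2
          push_cast; ring
        · rw [if_neg (fun h => hc h.2), if_neg hc]; simp
      · rw [if_neg (fun h => hn h.1), if_neg hn]; simp
    rw [blks_shift] at e1
    have h4 := h3 (y + -1 / 2 / 2) 0
    unfold pb blk at h4
    have e2 : ((∑' m, bt Q y m - r * Real.sqrt Real.pi : ℝ) : ℂ) =
        (Real.exp (-1 / 2 * y + (-1 / 2) ^ 2 / 4) : ℂ) *
        (blks (prim fun n => if IsCoprime n 1 then one0 Q n else 0) (y + -1 / 2 / 2)
          (1 / 2 + (0 : ℝ) * Complex.I) - r * (Real.sqrt Real.pi *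
            Complex.exp ((1 / 2 - (0 : ℝ) * Complex.I) ^ 2 / 4 +
              (1 / 2 - (0 : ℝ) * Complex.I) * ((y + -1 / 2 / 2 : ℝ) : ℂ)))) := by
      rw [Complex.ofReal_sub, e1, mul_sub]
      congr 1
      rw [Complex.ofReal_exp, mul_left_comm, mul_left_comm (Complex.exp _), ← Complex.exp_add]
      have : (((-1 / 2 * y + (-1 / 2) ^ 2 / 4 : ℝ) : ℂ) + ((1 / 2 - (0 : ℝ) * Complex.I) ^ 2 / 4 +
          (1 / 2 - (0 : ℝ) * Complex.I) * ((y + -1 / 2 / 2 : ℝ) : ℂ))) = 0 := by
        push_cast; ring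
      rw [this, Complex.exp_zero]
      push_cast; ring
    rw [← Real.norm_eq_abs, ← Complex.norm_real, e2, norm_mul, Complex.norm_real,
      Real.norm_of_nonneg (Real.exp_pos _).le]
    refine (mul_le_mul_of_nonneg_left h4 (Real.exp_pos _).le).trans ?_
    rw [abs_zero, add_zero, one_pow, mul_one]
    calc _ ≤ Real.exp (-1 / 2 * y + (-1 / 2) ^ 2 / 4) *
          (|C3| * (pdiv 1).card * Real.exp (-(y + -1 / 2 / 2) / 2)) := by
          gcongr
          exact le_abs_self C3
      _ = C4 * Real.exp (-y) := by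
          rw [hC4, mul_left_comm, ← Real.exp_add, mul_assoc (|C3| * _), ← Real.exp_add]
          congr 2
          ring
      _ ≤ _ := mul_le_mul_of_nonneg_right (by linarith [abs_nonneg C1, abs_nonneg C2])
          (Real.exp_pos _).le

theorem bt_log (Q : Lev) : ∃ C : ℝ, ∀ Y : ℝ, ∃ T : ℝ,
    HasSum (fun n => Real.log (N n) * bt Q Y n) T ∧ |T - Y * ∑' m, bt Q Y m| ≤ C := by
  obtain ⟨C, hC0, hC⟩ := loc_tsum_gw 2
  refine ⟨2 * C, fun Y => ?_⟩
  have s0 := summable_gw_rpow 0 Y
  have s2 := summable_gw_rpow (-2) Y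
  have hs := (s0.mul_left (Real.exp (-Y))).add (s2.mul_left (Real.exp Y))
  have hb : ∀ n : O, ‖(Real.log (N n) - Y) * bt Q Y n‖ ≤
      Real.exp (-Y) * (if n = 0 then 0 else N n ^ (0 : ℝ) * gw (Real.log (N n) - Y)) +
      Real.exp Y * (if n = 0 then 0 else N n ^ (-2 : ℝ) * gw (Real.log (N n) - Y)) := fun n => by
    rw [norm_mul, Real.norm_eq_abs, Real.norm_of_nonneg (bt_nonneg Q Y n)]
    refine (mul_le_mul_of_nonneg_left (bt_le Q Y n) (abs_nonneg _)).trans ?_
    split_ifs with hn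
    · simp
    · have hN := N_pos hn
      have a1 : |Real.log (N n) - Y| ≤
          Real.exp (Real.log (N n) - Y) + Real.exp (-(Real.log (N n) - Y)) := by
        have b1 := Real.add_one_le_exp (Real.log (N n) - Y)
        have b2 := Real.add_one_le_exp (-(Real.log (N n) - Y))
        have b3 := Real.exp_pos (Real.log (N n) - Y)
        have b4 := Real.exp_pos (-(Real.log (N n) - Y))
        rw [abs_le]; constructor <;> linarith
      refine (mul_le_mul_of_nonneg_right a1
        (mul_nonneg (Real.rpow_nonneg hN.le _) (gw_pos _).le)).trans (le_of_eq ?_)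
      rw [Real.rpow_def_of_pos hN, Real.rpow_def_of_pos hN, Real.rpow_def_of_pos hN, add_mul,
        ← mul_assoc, ← mul_assoc, ← mul_assoc, ← mul_assoc, ← Real.exp_add, ← Real.exp_add,
        ← Real.exp_add, ← Real.exp_add]
      congr 3 <;> ring
  have s1 : Summable fun n => (Real.log (N n) - Y) * bt Q Y n := Summable.of_norm_bounded hs hb
  refine ⟨_, (s1.hasSum.add ((summable_bt Q Y).hasSum.mul_left Y)).congr_fun fun n => by ring, ?_⟩
  rw [add_sub_cancel_right, ← Real.norm_eq_abs]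
  refine (tsum_of_norm_bounded hs.hasSum hb).trans ?_
  rw [(s0.mul_left _).tsum_add (s2.mul_left _), tsum_mul_left, tsum_mul_left]
  have a1 := mul_le_mul_of_nonneg_left (hC 0 (by norm_num) Y) (Real.exp_pos (-Y)).le
  have a2 := mul_le_mul_of_nonneg_left (hC (-2) (by norm_num) Y) (Real.exp_pos Y).le
  rw [mul_left_comm, ← Real.exp_add] at a1 a2
  rw [show -Y + (0 + 1) * Y = 0 by ring, Real.exp_zero] at a1
  rw [show Y + (-2 + 1) * Y = 0 by ring, Real.exp_zero] at a2
  linarith

theorem bt_conv (Q : Lev) (Y T : ℝ) (hT : HasSum (fun n => Real.log (N n) * bt Q Y n) T) :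
    HasSum (fun a => (if P0 Q a then vm a * N a ^ (-(1 : ℝ)) else 0) *
      ∑' m, bt Q (Y - Real.log (N a)) m) T := by
  have hmul : ∀ a m, Prim a → Prim m → vm a * bt Q Y (a * m) =
      (if P0 Q a then vm a * N a ^ (-(1 : ℝ)) else 0) * bt Q (Y - Real.log (N a)) m := by
    intro a m ha hm
    unfold bt
    by_cases h1 : P0 Q a
    · by_cases h2 : P0 Q m
      · rw [if_pos h1, if_pos h2, if_pos (h1.mul h2), N_mul,
          Real.mul_rpow (N_nonneg a) (N_nonneg m),
          Real.log_mul (N_pos ha.ne_zero).ne' (N_pos hm.ne_zero).ne',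
          show Real.log (N a) + Real.log (N m) - Y = Real.log (N m) - (Y - Real.log (N a)) by ring]
        ring
      · rw [if_neg h2, if_neg (fun h : P0 Q (a * m) => h2 (h.of_dvd hm (dvd_mul_left m a)))]
        simp
    · rw [if_neg h1, if_neg (fun h : P0 Q (a * m) => h1 (h.of_dvd ha (dvd_mul_right a m)))]
      simp
  have hs : Summable fun x : O × O =>
      if Prim x.1 ∧ Prim x.2 then (fun a m => vm a * bt Q Y (a * m)) x.1 x.2 else 0 := by
    have hg : Summable fun x : O × O =>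
        (Real.exp (Y + 1 / 4) * (2 * N x.1 ^ (-(3 / 2 : ℝ)))) * N x.2 ^ (-(2 : ℝ)) :=
      Summable.mul_of_nonneg
        (((summable_N_rpow (σ := 3 / 2) (by norm_num)).mul_left 2).mul_left _)
        (summable_N_rpow (σ := 2) (by norm_num))
        (fun a => mul_nonneg (Real.exp_pos _).le
          (mul_nonneg (by norm_num) (Real.rpow_nonneg (N_nonneg a) _)))
        (fun m => Real.rpow_nonneg (N_nonneg m) _)
    refine Summable.of_nonneg_of_le (fun x => ?_) (fun x => ?_) hg
    · split_ifs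
      · exact mul_nonneg (vm_nonneg _) (bt_nonneg _ _ _)
      · exact le_rfl
    · split_ifs with h
      · have ha := N_pos h.1.ne_zero
        have hm := N_pos h.2.ne_zero
        have hn := (h.1.mul h.2).ne_zero
        have a1 : bt Q Y (x.1 * x.2) ≤ Real.exp (Y + 1 / 4) * N (x.1 * x.2) ^ (-(2 : ℝ)) := by
          refine (bt_le Q Y _).trans ?_
          rw [if_neg hn, Real.rpow_def_of_pos (N_pos hn), Real.rpow_def_of_pos (N_pos hn)]
          unfold gw
          rw [← Real.exp_add, ← Real.exp_add, Real.exp_le_exp]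
          nlinarith [sq_nonneg (Real.log (N (x.1 * x.2)) - Y - 1 / 2)]
        rw [N_mul, Real.mul_rpow ha.le hm.le] at a1
        calc _ ≤ vm x.1 * (Real.exp (Y + 1 / 4) * (N x.1 ^ (-(2 : ℝ)) * N x.2 ^ (-(2 : ℝ)))) :=
              mul_le_mul_of_nonneg_left a1 (vm_nonneg _)
          _ = Real.exp (Y + 1 / 4) * (vm x.1 * N x.1 ^ (-(2 : ℝ))) * N x.2 ^ (-(2 : ℝ)) := by ring
          _ ≤ _ := by
              have := loc_vm_two x.1
              gcongr
      · exact mul_nonneg (mul_nonneg (Real.exp_pos _).le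
          (mul_nonneg (by norm_num) (Real.rpow_nonneg (N_nonneg _) _)))
          (Real.rpow_nonneg (N_nonneg _) _)
  have h1 := loc_hasSum_conv (F := fun a m => vm a * bt Q Y (a * m)) hs.hasSum
  have h2 : HasSum (fun n => Real.log (N n) * bt Q Y n) (∑' x : O × O,
      if Prim x.1 ∧ Prim x.2 then (fun a m => vm a * bt Q Y (a * m)) x.1 x.2 else 0) := by
    refine h1.congr_fun fun n => ?_
    split_ifs with hn
    · rw [← sum_vm hn, Finset.sum_mul]
      refine Finset.sum_congr rfl fun e he => ?_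
      rw [mem_pdiv hn.ne_zero] at he
      rw [EuclideanDomain.mul_div_cancel' he.1.ne_zero he.2]
    · unfold bt
      rw [if_neg (fun h : P0 Q n => hn h.1), mul_zero]
  rw [hT.unique h2]
  refine hs.hasSum.prod_fiberwise fun a => ?_
  refine ((summable_bt Q (Y - Real.log (N a))).hasSum.mul_left _).congr_fun fun m => ?_
  by_cases h : Prim a ∧ Prim m
  · rw [if_pos h]
    exact hmul a m h.1 h.2
  · rw [if_neg h]
    unfold bt
    by_cases h1 : P0 Q a
    · rw [if_neg (fun h' : P0 Q m => h ⟨h1.1, h'.1⟩), mul_zero]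
    · rw [if_neg h1, zero_mul]

theorem mertens_lower' (Q : Lev) : ∃ c > 0, ∃ y2 : ℝ, ∀ yp R : ℝ, y2 ≤ yp → y2 ≤ R →
    c ≤ ∑ p ∈ slot Q yp R, wP yp p / N p := by
  obtain ⟨C1, κ, hC1, hκ, hB⟩ := bt_asymp Q
  obtain ⟨C2, hT⟩ := bt_log Q
  obtain ⟨C3, hV⟩ := cheb_vm
  set C4 := ∑' n, vm2 n with hC4
  set H := |2 * C1 + 2 * C2 + C1 * C4 + 4 * C1 * C3 + C1| / (2 * κ) with hH
  have hH0 : 0 ≤ H := by positivity
  have hH1 : 2 * C1 + 2 * C2 + C1 * C4 + 4 * C1 * C3 + C1 ≤ 2 * H * κ := by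
    rw [hH]
    field_simp
    exact le_abs_self _
  refine ⟨Real.exp (-H ^ 2), Real.exp_pos _, H, fun Y R hY hR => ?_⟩
  set B : ℝ → ℝ := fun y => ∑' m, bt Q y m with hBdef
  have hB0 : ∀ y, 0 ≤ B y := fun y => tsum_nonneg (bt_nonneg Q y)
  obtain ⟨T1, hT1, hT1'⟩ := hT (Y + H)
  obtain ⟨T2, hT2, hT2'⟩ := hT (Y - H)
  have hsum := (bt_conv Q _ _ hT1).sub (bt_conv Q _ _ hT2)
  have hxe : ∀ x : ℝ, 0 ≤ x → |x * B x - x * κ| ≤ C1 := fun x hx => by
    rw [← mul_sub, abs_mul, abs_of_nonneg hx]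
    refine (mul_le_mul_of_nonneg_left (hB x).2.2 hx).trans ?_
    have : x * Real.exp (-x) ≤ 1 := by
      rw [Real.exp_neg, ← div_eq_mul_inv, div_le_one (Real.exp_pos _)]
      linarith [Real.add_one_le_exp x]
    nlinarith
  have hlow : 2 * H * κ - 2 * C1 - 2 * C2 ≤ T1 - T2 := by
    have a1 := abs_le.1 (hxe (Y + H) (by linarith))
    have a2 := abs_le.1 (hxe (Y - H) (by linarith))
    have a3 := abs_le.1 hT1'
    have a4 := abs_le.1 hT2'
    simp only [hBdef] at a1 a2
    linarith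
  set W := ∑ p ∈ slot Q Y H, Real.log (N p) / N p with hW
  have hup : T1 - T2 ≤ C1 * W + C1 * C4 + 4 * C1 * C3 := by
    refine hasSum_le_of_sum_le hsum fun s => ?_
    have hpt : ∀ a : O, (if P0 Q a then vm a * N a ^ (-(1 : ℝ)) else 0) *
          B (Y + H - Real.log (N a)) - (if P0 Q a then vm a * N a ^ (-(1 : ℝ)) else 0) *
          B (Y - H - Real.log (N a)) ≤
        C1 * (if a ∈ slot Q Y H then Real.log (N a) / N a else 0) + C1 * vm2 a +
        2 * C1 * (vm a * N a ^ (-(1 : ℝ)) * Real.exp (-|Real.log (N a) - (Y - H)|)) +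
        2 * C1 * (vm a * N a ^ (-(1 : ℝ)) * Real.exp (-|Real.log (N a) - (Y + H)|)) := by
      intro a
      have g0 : 0 ≤ vm a * N a ^ (-(1 : ℝ)) :=
        mul_nonneg (vm_nonneg a) (Real.rpow_nonneg (N_nonneg a) _)
      have t1 : 0 ≤ C1 * (if a ∈ slot Q Y H then Real.log (N a) / N a else 0) := by
        refine mul_nonneg (by linarith) ?_
        split_ifs
        · exact div_nonneg (loc_log_N_nonneg a) (N_nonneg a)
        · exact le_rfl
      have t2 : 0 ≤ C1 * vm2 a := mul_nonneg (by linarith) (vm2_nonneg a)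
      have t3 : 0 ≤ 2 * C1 * (vm a * N a ^ (-(1 : ℝ)) *
          Real.exp (-|Real.log (N a) - (Y - H)|)) := by positivity
      have t4 : 0 ≤ 2 * C1 * (vm a * N a ^ (-(1 : ℝ)) *
          Real.exp (-|Real.log (N a) - (Y + H)|)) := by positivity
      by_cases ha : P0 Q a
      · rw [if_pos ha, ← mul_sub]
        generalize hu : Real.log (N a) = u at *
        by_cases h1 : u ≤ Y - H
        · have b1 := abs_le.1 (hB (Y + H - u)).2.2
          have b2 := abs_le.1 (hB (Y - H - u)).2.2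
          have b3 : Real.exp (-(Y + H - u)) ≤ Real.exp (-(Y - H - u)) :=
            Real.exp_le_exp.2 (by linarith)
          have b4 : B (Y + H - u) - B (Y - H - u) ≤ 2 * C1 * Real.exp (-|u - (Y - H)|) := by
            rw [abs_of_nonpos (by linarith), show -(-(u - (Y - H))) = -(Y - H - u) by ring]
            simp only [hBdef]
            nlinarith
          nlinarith [mul_le_mul_of_nonneg_left b4 g0]
        · by_cases h2 : Y + H ≤ u
          · have b1 := (hB (Y + H - u)).2.1 (by linarith)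
            have b2 := hB0 (Y - H - u)
            have b4 : B (Y + H - u) - B (Y - H - u) ≤ 2 * C1 * Real.exp (-|u - (Y + H)|) := by
              rw [abs_of_nonneg (by linarith), show -(u - (Y + H)) = Y + H - u by ring]
              simp only [hBdef] at b2 ⊢
              nlinarith [Real.exp_pos (Y + H - u)]
            nlinarith [mul_le_mul_of_nonneg_left b4 g0]
          · have b4 : B (Y + H - u) - B (Y - H - u) ≤ C1 := by
              linarith [(hB (Y + H - u)).1, hB0 (Y - H - u)]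
            have b5 : vm a * N a ^ (-(1 : ℝ)) ≤
                (if a ∈ slot Q Y H then u / N a else 0) + vm2 a := by
              by_cases hp : Prime a
              · have hmem : a ∈ slot Q Y H := by
                  rw [loc_mem_slot]
                  refine ⟨hp, ha.1, hp.coprime_iff_not_dvd.1 ha.2,
                    (loc_window (N_pos hp.ne_zero)).2 ?_⟩
                  rw [hu, abs_le]; constructor <;> linarith
                rw [if_pos hmem, vm_prime hp ha.1, hu, Real.rpow_neg_one, div_eq_mul_inv]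
                linarith [vm2_nonneg a]
              · rw [if_neg (fun h => hp (loc_mem_slot.1 h).1), zero_add]
                unfold vm2
                rw [if_neg hp]
            nlinarith [mul_le_mul_of_nonneg_left b4 g0,
              mul_le_mul_of_nonneg_left b5 (show 0 ≤ C1 by linarith)]
      · rw [if_neg ha]
        linarith
    refine (Finset.sum_le_sum fun a _ => hpt a).trans ?_
    simp only [Finset.sum_add_distrib, ← Finset.mul_sum]
    have c1 : ∑ a ∈ s, (if a ∈ slot Q Y H then Real.log (N a) / N a else 0) ≤ W := by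
      rw [← Finset.sum_filter]
      exact Finset.sum_le_sum_of_subset_of_nonneg (fun a ha => (Finset.mem_filter.1 ha).2)
        fun a _ _ => div_nonneg (loc_log_N_nonneg a) (N_nonneg a)
    have c2 : ∑ a ∈ s, vm2 a ≤ C4 := summable_vm2'.sum_le_tsum s fun n _ => vm2_nonneg n
    have c3 := hV (Y - H) s
    have c4 := hV (Y + H) s
    nlinarith
  have hW1 : 1 ≤ W := by nlinarith
  calc Real.exp (-H ^ 2) ≤ Real.exp (-H ^ 2) * W := le_mul_of_one_le_right (Real.exp_pos _).le hW1
    _ ≤ ∑ p ∈ slot Q Y H, wP Y p / N p := by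
        rw [hW, Finset.mul_sum]
        refine Finset.sum_le_sum fun p hp => ?_
        rw [loc_mem_slot] at hp
        have := (loc_window (N_pos hp.1.ne_zero)).1 hp.2.2.2
        have h2 : Real.exp (-H ^ 2) ≤ gw (Real.log (N p) - Y) := by
          unfold gw
          rw [Real.exp_le_exp, neg_le_neg_iff, ← sq_abs]
          exact pow_le_pow_left₀ (abs_nonneg _) this 2
        unfold wP
        calc _ ≤ gw (Real.log (N p) - Y) * (Real.log (N p) / N p) :=
              mul_le_mul_of_nonneg_right h2 (div_nonneg (loc_log_N_nonneg p) (N_nonneg p))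
          _ = _ := by ring
    _ ≤ _ := by
        refine Finset.sum_le_sum_of_subset_of_nonneg (fun p hp => ?_) fun p _ _ =>
          div_nonneg (mul_nonneg (loc_log_N_nonneg p) (gw_pos _).le) (N_nonneg p)
        rw [loc_mem_slot] at hp ⊢
        refine ⟨hp.1, hp.2.1, hp.2.2.1, (loc_window (N_pos hp.1.ne_zero)).2 ?_⟩
        exact ((loc_window (N_pos hp.1.ne_zero)).1 hp.2.2.2).trans hR

end Crest.Agent.R17
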