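import Crest.Agent.R17.Reflect
import Crest.Agent.R17.Local_L
import Crest.Agent.R17.Local_Mert

/-!
# R17 / Local : bounds for blocks from zero-free regions, Mertens for `O`  (PART E1)

**Log lemma.** Let `f` be holomorphic and non-zero on the disc `|s - s₀| < r₃` (`s₀ = 2 + it`,
`r₃ = 2 - σ ∈ [1, 3/2]`), `|f| ≤ e^Λ` there, and `f = exp h` with `|h| ≤ C₀` on `|s - s₀| ≤ 1/2`
(for `L = dser (prim ψ)`, `Re s ≥ 3/2`: `|L| ≤ ζ_K(3/2)`, `|1/L| ≤ ζ_K(3/2)` by `dser_mul_mu`; a bound for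
`|h|` follows from `|L'/L| ≤ C`, i.e. from Cauchy estimates on `Re s ≥ 5/4`).  Extend `h` to the big
disc (primitive of `f'/f`), Borel–Carathéodory gives `|h| ≤ C(δ)(Λ + C₀)` on radius `r₃ - δ`; the
Taylor coefficients satisfy `|a_n| ≤ min(C₀ 2^n, C(δ)(Λ+C₀)(r₃-δ)^{-n})`, so on radius `r₃ - 2δ`,
splitting at `n₀(ε,δ)`: `|h| ≤ εΛ + C(ε,δ,C₀)`.  Also `|f'/f| ≤ C(δ)(Λ + C₀)` on radius `r₃ - 2δ`.
With `Lf_growth`, `Λ ≤ C log Z` for `N q ≤ Z^A`, `|t| ≤ 2Z`.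
**Blocks.** `blks_mellin` on `Re(s+w) = 2` with `dser (prim (mm ψ)) = 1/L`, resp. `L`, resp. `-L'/L`
(`= ∑ Λ(n) ψ(n) N(n)^{-s}` over primary prime powers); truncate at `|τ| ≤ log² Z - 2` (Gaussian
tails `e^{-τ²/4}`), Cauchy's theorem on the rectangle, left side `Re = σ + 2δ`.  For `y < 0` use
`norm_blk_le_neg`.  For `Pb`: prime powers `p^j`, `j ≥ 2` contribute `≤ C e^{x yP}(1 + yP)`, the primes
outside the window `|log N p - yP| ≤ ρ log Z` contribute `≤ Z^{-3A}` (`blks_shift` handles `x`).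
**Global bounds** for a fixed level: apply the log lemma to `f(s) = Ef(s)/s`-type normalisation when
`ν` is principal (`Ef 1 ≠ 0` by `Ef_one_one0`), `Λ = C log(2+|t|)`, and shift the whole line.
**Mertens**: `∑_{N n ≤ x, n primary} log N n = ∑_a Λ(a) #{N m ≤ x/N a}` with
`#{m primary, N m ≤ Y} = cY + O(√Y)`, and Chebyshev's upper bound (each rational prime has at most two
primes above it; Mathlib `Chebyshev.theta_le`/`primorial_le_4_pow`), or any other route (e.g.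
`Crest.Agent.R20.Mertens` for rational primes plus primes in progressions is NOT needed).
-/

set_option autoImplicit false

noncomputable section

open scoped Classical ComplexConjugate

namespace Crest.Agent.R17

theorem loc_block {A : ℝ} (hA : 1 ≤ A) : ∃ C Z0 : ℝ, 0 ≤ C ∧ 3 ≤ Z0 ∧ ∀ Z : ℝ, Z0 ≤ Z →
    ∀ (a : O → ℂ) (F : ℂ → ℂ) (σ' u t M y T : ℝ),
    Summable (fun n => ‖a n‖ * N n ^ (-(2 : ℝ))) → 0 ≤ σ' → σ' ≤ 2 → |u| ≤ 3 → 0 ≤ y →
    y ≤ A * Real.log Z → |t| + Real.log Z ^ 2 ≤ T → |t| ≤ Z →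
    (∀ s : ℂ, σ' ≤ s.re → s.re ≤ 2 → |s.im| + 2 ≤ T → |s.im| ≤ 2 * Z →
      DifferentiableAt ℂ F s ∧ ‖F s‖ ≤ M) →
    (∀ s : ℂ, s.re = 2 → F s = dser a s) → (∀ s : ℂ, s.re = 2 → ‖dser a s‖ ≤ M) →
    ‖blks a y (u + t * Complex.I)‖ ≤ C * M * Real.exp ((σ' - u) * y) := by
  obtain ⟨C, hC0, hC⟩ := blks_le_rect
  refine ⟨2 * C, Real.exp (16 * A), by positivity,
    by linarith [Real.add_one_le_exp (16 * A)], ?_⟩
  intro Z hZ a F σ' u t M y T hs h0 h2 hu hy hyA hT ht hF hFd hM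
  have hZ0 : 0 < Z := (Real.exp_pos _).trans_le hZ
  have hl : 16 * A ≤ Real.log Z := (Real.le_log_iff_exp_le hZ0).2 hZ
  have hl2 : Real.log Z ≤ Z := by linarith [Real.log_le_sub_one_of_pos hZ0]
  have hM0 : 0 ≤ M := (norm_nonneg _).trans (hM 2 (by simp))
  have him : ∀ s : ℂ, |s.im - t| ≤ Real.log Z → |s.im| + 2 ≤ T ∧ |s.im| ≤ 2 * Z := fun s h => by
    have := abs_sub_abs_le_abs_sub s.im t
    constructor <;> nlinarith
  refine (hC a F σ' u t (Real.log Z) M y hs h0 h2 hu (by linarith) hy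
    (fun s h => (hF s h.1 h.2.1 (him s h.2.2).1 (him s h.2.2).2).1.differentiableWithinAt)
    (fun s h _ => hFd s h) (fun s a1 a2 a3 => (hF s a1 a2 (him s a3).1 (him s a3).2).2) hM).trans ?_
  have : Real.exp ((2 - u) * y - Real.log Z ^ 2 / 8) ≤ Real.exp ((σ' - u) * y) := by
    rw [Real.exp_le_exp]
    nlinarith [mul_le_mul_of_nonneg_right hl (show 0 ≤ Real.log Z by linarith)]
  nlinarith [mul_nonneg hC0 hM0]

theorem loc_pb_eq (a : O → ℂ) (y t : ℝ) :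
    pb a y t = blks (prim a) y (((1 / 2 : ℝ) : ℂ) + t * Complex.I) := by
  unfold pb blk
  congr 2
  push_cast; ring

theorem loc_MZ (A : ℝ) {ε : ℝ} (hε : 0 < ε) : ∃ C Z0 : ℝ, ∀ Z : ℝ, Z0 ≤ Z →
    ∀ (Q' : Lev) (ψ : O → ℂ), IsHChar Q'.q ψ → NonPrinc Q'.q ψ → N Q'.q ≤ Z ^ A →
    ∀ σ T y t : ℝ, 1 / 2 ≤ σ → σ ≤ 1 → ZFR ψ σ T → |t| + Real.log Z ^ 2 ≤ T → |t| ≤ Z →
      y ≤ A * Real.log Z → ∀ (a : O → ℂ) (F : ℂ → ℂ), (∀ n, ‖a n‖ ≤ 1) →
      (∀ s : ℂ, s.re = 2 → F s = dser (prim a) s) →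
      (F = Lf (prim ψ) ∨ F = fun s => (Lf (prim ψ) s)⁻¹) →
      ‖pb a y t‖ ≤ C * Z ^ ε * Real.exp ((σ - 1 / 2) * y) := by
  set A' := max A 1 with hA'
  have hA1 : 1 ≤ A' := le_max_right _ _
  set δ := min (ε / (2 * A')) (1 / 2) with hδ
  have hδ0 : 0 < δ := lt_min (by positivity) (by norm_num)
  have hδ1 : δ ≤ 1 / 2 := min_le_right _ _
  have hδ2 : δ * A' ≤ ε / 2 := by
    have : δ ≤ ε / (2 * A') := min_le_left _ _
    rw [le_div_iff₀ (by positivity)] at this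
    linarith
  obtain ⟨C1, Z0, hC1, hZ0, h1⟩ := loc_block hA1
  obtain ⟨C2, hC2, h2⟩ := L_local hA1 hδ0 (half_pos hε)
  obtain ⟨M, hM1, hM⟩ := loc_dser_bdd
  obtain ⟨C3, h3⟩ := norm_blk_le_neg 1
  refine ⟨C1 * (C2 + M) + |C3|, Z0, ?_⟩
  intro Z hZ Q' ψ hψ hn hq σ T y t a1 a2 hzf hT ht hy a F ha hFd hF
  have hZ1 : 1 ≤ Z := by linarith
  have hZp : 0 < Z := by linarith
  have hl : 0 ≤ Real.log Z := Real.log_nonneg hZ1
  have hZε : 1 ≤ Z ^ ε := Real.one_le_rpow hZ1 hε.le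
  have hZε2 : 1 ≤ Z ^ (ε / 2) := Real.one_le_rpow hZ1 (half_pos hε).le
  have hK : 0 ≤ C1 * (C2 + M) := by positivity
  rcases le_total 0 y with hy0 | hy0
  · have hq' : N Q'.q ≤ Z ^ A' :=
      hq.trans (Real.rpow_le_rpow_of_exponent_le hZ1 (le_max_left _ _))
    have hy' : y ≤ A' * Real.log Z := hy.trans (mul_le_mul_of_nonneg_right (le_max_left _ _) hl)
    have hd := Lf_differentiable Q'.ne (hψ.per_prim Q') (Ef_one_nonPrinc Q' hψ hn)
    have key := h1 Z hZ (prim a) F (σ + δ) (1 / 2) t ((C2 + M) * Z ^ (ε / 2)) y T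
      (loc_summable_bdd (loc_norm_prim_le ha) (by norm_num)) (by linarith) (by linarith)
      (by rw [abs_of_pos] <;> norm_num) hy0 hy' hT ht
      (fun s b1 b2 b3 b4 => by
        have := h2 Z (by linarith) Q' ψ hψ hn hq' σ T a1 a2 hzf s b1 b2 b3 b4
        rcases hF with rfl | rfl
        · exact ⟨hd s, this.1.trans (by nlinarith)⟩
        · exact ⟨(hd s).inv (hzf s (by linarith) (by linarith)), this.2.1.trans (by nlinarith)⟩)
      hFd (fun s hs => (hM _ (loc_norm_prim_le ha) s (by rw [hs]; norm_num)).trans (by nlinarith))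
    rw [loc_pb_eq]
    refine key.trans ?_
    have e1 : Real.exp ((σ + δ - 1 / 2) * y) ≤ Z ^ (ε / 2) * Real.exp ((σ - 1 / 2) * y) := by
      rw [Real.rpow_def_of_pos hZp, ← Real.exp_add, Real.exp_le_exp]
      nlinarith [mul_le_mul_of_nonneg_left hy' hδ0.le, mul_le_mul_of_nonneg_right hδ2 hl]
    have e2 : Z ^ ε = Z ^ (ε / 2) * Z ^ (ε / 2) := by rw [← Real.rpow_add hZp, add_halves]
    calc _ ≤ C1 * ((C2 + M) * Z ^ (ε / 2)) * (Z ^ (ε / 2) * Real.exp ((σ - 1 / 2) * y)) :=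
          mul_le_mul_of_nonneg_left e1 (by positivity)
      _ = C1 * (C2 + M) * Z ^ ε * Real.exp ((σ - 1 / 2) * y) := by rw [e2]; ring
      _ ≤ _ := by gcongr; linarith [abs_nonneg C3]
  · refine (h3 (prim a) (loc_norm_prim_le ha) y t hy0).trans ?_
    refine mul_le_mul ?_ (Real.exp_le_exp.2 (by push_cast; nlinarith)) (Real.exp_pos _).le
      (by positivity)
    nlinarith [le_abs_self C3, abs_nonneg C3]

theorem loc_Pb_diff {A δ ρ : ℝ} (hA : 1 ≤ A) (hδ : 0 < δ) (hδ1 : δ ≤ 1) (hρ : 0 < ρ) :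
    ∃ C : ℝ, 0 ≤ C ∧ ∀ Z : ℝ, 1 ≤ Z → ∀ (Q Q' : Lev) (ψ : O → ℂ), Q.q ∣ Q'.q → IsHChar Q'.q ψ →
    ∀ yp x τ : ℝ, 0 ≤ yp → yp ≤ A * Real.log Z → |x| ≤ 2 →
      ‖blks (prim fun n => (vm n : ℂ) * ψ n) yp (((1 / 2 - x : ℝ) : ℂ) + (-τ : ℝ) * Complex.I) -
        Pb Q ψ yp (ρ * Real.log Z) x τ‖ ≤ C * Real.exp ((x + δ) * yp) := by
  set k := 2 * A / ρ with hk
  have hk0 : 0 ≤ k := by positivity
  obtain ⟨Cg, hCg0, hCg⟩ := loc_tsum_gw (3 + k)
  have sv := summable_vm2 hδ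
  have hv0 : ∀ n : O, 0 ≤ (if Prime n then 0 else vm n * N n ^ (-(1 / 2 + δ))) := fun n => by
    split_ifs
    · exact le_rfl
    · exact mul_nonneg (vm_nonneg n) (Real.rpow_nonneg (N_nonneg n) _)
  refine ⟨Real.exp 3 * (∑' n : O, if Prime n then 0 else vm n * N n ^ (-(1 / 2 + δ))) + 2 * Cg,
    add_nonneg (mul_nonneg (Real.exp_pos _).le (tsum_nonneg hv0)) (by positivity), ?_⟩
  intro Z hZ Q Q' ψ hQ hψ yp x τ hy hyA hx
  have hb := hψ.1.norm_le Q'.ne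
  have hx' := abs_le.1 hx
  set R := ρ * Real.log Z with hR
  set s : ℂ := ((1 / 2 - x : ℝ) : ℂ) + (-τ : ℝ) * Complex.I with hs
  have hsre : (-s).re = -(1 / 2) + x := by simp [hs]; ring
  set term : O → ℂ := fun n => if n = 0 then 0 else
    prim (fun n => (vm n : ℂ) * ψ n) n * (N n : ℂ) ^ (-s) * (gw (Real.log (N n) - yp) : ℂ)
    with hterm
  have s1 := summable_gw_rpow (1 / 2 + x + k) yp
  have s2 := summable_gw_rpow (1 / 2 + x - k) yp
  have hg := (sv.mul_left (Real.exp ((x + δ) * yp + 3))).add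
    ((s1.mul_left (Real.exp (-(k * R) - k * yp))).add (s2.mul_left (Real.exp (-(k * R) + k * yp))))
  have hw0 : ∀ (e : ℝ) (n : O),
      0 ≤ (if n = 0 then 0 else N n ^ e * gw (Real.log (N n) - yp)) := fun e n => by
    split_ifs
    · exact le_rfl
    · exact mul_nonneg (Real.rpow_nonneg (N_nonneg n) _) (gw_pos _).le
  have hrest : ∀ n : O, ‖if n ∈ slot Q yp R then 0 else term n‖ ≤
      Real.exp ((x + δ) * yp + 3) * (if Prime n then 0 else vm n * N n ^ (-(1 / 2 + δ))) +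
      (Real.exp (-(k * R) - k * yp) *
        (if n = 0 then 0 else N n ^ (1 / 2 + x + k) * gw (Real.log (N n) - yp)) +
      Real.exp (-(k * R) + k * yp) *
        (if n = 0 then 0 else N n ^ (1 / 2 + x - k) * gw (Real.log (N n) - yp))) := by
    intro n
    have t1 := mul_nonneg (Real.exp_pos ((x + δ) * yp + 3)).le (hv0 n)
    have t2 := mul_nonneg (Real.exp_pos (-(k * R) - k * yp)).le (hw0 (1 / 2 + x + k) n)
    have t3 := mul_nonneg (Real.exp_pos (-(k * R) + k * yp)).le (hw0 (1 / 2 + x - k) n)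
    by_cases hmem : n ∈ slot Q yp R
    · rw [if_pos hmem, norm_zero]; linarith
    rw [if_neg hmem]
    by_cases hn : Prim n
    swap
    · have : term n = 0 := by simp [hterm, prim, hn]
      rw [this, norm_zero]; linarith
    have hn0 := hn.ne_zero
    have hN := N_pos hn0
    have hnorm : ‖term n‖ = vm n * ‖ψ n‖ * (N n ^ (-(1 / 2) + x) * gw (Real.log (N n) - yp)) := by
      simp only [hterm, prim, if_neg hn0, if_pos hn]
      rw [norm_mul, norm_mul, norm_mul, loc_norm_cpow hn0, hsre, Complex.norm_real,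
        Complex.norm_real, Real.norm_of_nonneg (vm_nonneg n), Real.norm_of_nonneg (gw_pos _).le]
      ring
    have hw : 0 ≤ N n ^ (-(1 / 2) + x) * gw (Real.log (N n) - yp) :=
      mul_nonneg (Real.rpow_nonneg hN.le _) (gw_pos _).le
    have hle : ‖term n‖ ≤ vm n * (N n ^ (-(1 / 2) + x) * gw (Real.log (N n) - yp)) := by
      rw [hnorm]
      exact mul_le_mul_of_nonneg_right (mul_le_of_le_one_right (vm_nonneg n) (hb n)) hw
    by_cases hp : Prime n
    · by_cases hd : n ∣ Q.q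
      · have : ψ n = 0 := (hψ.1.zero_iff n).2 fun h => hp.coprime_iff_not_dvd.1 h (hd.trans hQ)
        rw [hnorm, this, norm_zero, mul_zero, zero_mul]; linarith
      · have hwin : R < |Real.log (N n) - yp| := by
          by_contra hc
          exact hmem (loc_mem_slot.2 ⟨hp, hn, hd, (loc_window hN).2 (not_lt.1 hc)⟩)
        have a1 : vm n ≤ Real.exp (Real.log (N n)) :=
          (vm_le_log n).trans (by linarith [Real.add_one_le_exp (Real.log (N n))])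
        have a2 : 1 ≤ Real.exp (k * (Real.log (N n) - yp) - k * R) +
            Real.exp (-(k * (Real.log (N n) - yp)) - k * R) := by
          rcases lt_abs.1 hwin with h | h
          · have : 1 ≤ Real.exp (k * (Real.log (N n) - yp) - k * R) :=
              Real.one_le_exp (by nlinarith)
            linarith [Real.exp_pos (-(k * (Real.log (N n) - yp)) - k * R)]
          · have : 1 ≤ Real.exp (-(k * (Real.log (N n) - yp)) - k * R) :=
              Real.one_le_exp (by nlinarith)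
            linarith [Real.exp_pos (k * (Real.log (N n) - yp) - k * R)]
        have a3 : ‖term n‖ ≤ (Real.exp (k * (Real.log (N n) - yp) - k * R) +
            Real.exp (-(k * (Real.log (N n) - yp)) - k * R)) * (Real.exp (Real.log (N n)) *
              (N n ^ (-(1 / 2) + x) * gw (Real.log (N n) - yp))) :=
          (hle.trans (mul_le_mul_of_nonneg_right a1 hw)).trans
            (le_mul_of_one_le_left (mul_nonneg (Real.exp_pos _).le hw) a2)
        refine a3.trans (le_add_of_nonneg_of_le t1 (le_of_eq ?_))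
        rw [if_neg hn0, if_neg hn0, Real.rpow_def_of_pos hN, Real.rpow_def_of_pos hN,
          Real.rpow_def_of_pos hN, add_mul]
        simp only [← mul_assoc, ← Real.exp_add]
        congr 3 <;> ring
    · refine hle.trans (le_add_of_le_of_nonneg ?_ (add_nonneg t2 t3))
      rw [if_neg hp, show -(1 / 2) + x = -(1 / 2 + δ) + (x + δ) by ring, Real.rpow_add hN,
        Real.rpow_def_of_pos hN (x + δ), mul_comm (Real.log _), mul_assoc, exp_mul_gw]
      have a1 : Real.exp ((x + δ) * yp + (x + δ) ^ 2 / 4) *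
          gw (Real.log (N n) - (yp + (x + δ) / 2)) ≤ Real.exp ((x + δ) * yp + 3) :=
        (mul_le_of_le_one_right (Real.exp_pos _).le (gw_le_one _)).trans
          (Real.exp_le_exp.2 (by nlinarith))
      have a2 : 0 ≤ vm n * N n ^ (-(1 / 2 + δ)) :=
        mul_nonneg (vm_nonneg n) (Real.rpow_nonneg hN.le _)
      nlinarith [mul_le_mul_of_nonneg_left a1 a2]
  have srest : Summable fun n : O => if n ∈ slot Q yp R then 0 else term n :=
    Summable.of_norm_bounded hg hrest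
  have hind : HasSum (fun n : O => if n ∈ slot Q yp R then term n else 0) (Pb Q ψ yp R x τ) := by
    have : Pb Q ψ yp R x τ = ∑ n ∈ slot Q yp R, if n ∈ slot Q yp R then term n else 0 := by
      unfold Pb
      refine Finset.sum_congr rfl fun p hp => ?_
      rw [if_pos hp]
      rw [loc_mem_slot] at hp
      simp only [hterm, prim, if_neg hp.1.ne_zero, if_pos hp.2.1, vm_prime hp.1 hp.2.1, wP]
      rw [show -s = -(1 / 2 : ℂ) + x + τ * Complex.I by rw [hs]; push_cast; ring]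
      push_cast; ring
    rw [this]
    exact hasSum_sum_of_ne_finset_zero fun n hn => if_neg hn
  have hblk : blks (prim fun n => (vm n : ℂ) * ψ n) yp s =
      Pb Q ψ yp R x τ + ∑' n : O, if n ∈ slot Q yp R then 0 else term n := by
    refine ((hind.add srest.hasSum).congr_fun fun n => ?_).tsum_eq
    by_cases h : n ∈ slot Q yp R
    · rw [if_pos h, if_pos h, add_zero]
    · rw [if_neg h, if_neg h, zero_add]
  rw [hblk, add_sub_cancel_left]
  refine (tsum_of_norm_bounded hg.hasSum hrest).trans ?_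
  rw [(sv.mul_left _).tsum_add ((s1.mul_left _).add (s2.mul_left _)),
    (s1.mul_left _).tsum_add (s2.mul_left _), tsum_mul_left, tsum_mul_left, tsum_mul_left]
  have hkR : 2 * yp ≤ k * R := by
    have : k * R = 2 * (A * Real.log Z) := by rw [hk, hR]; field_simp
    linarith
  have b1 := mul_le_mul_of_nonneg_left (hCg (1 / 2 + x + k)
    (abs_le.2 ⟨by linarith, by linarith⟩) yp) (Real.exp_pos (-(k * R) - k * yp)).le
  have b2 := mul_le_mul_of_nonneg_left (hCg (1 / 2 + x - k)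
    (abs_le.2 ⟨by linarith, by linarith⟩) yp) (Real.exp_pos (-(k * R) + k * yp)).le
  rw [mul_left_comm _ Cg, ← Real.exp_add] at b1 b2
  have b3 : Real.exp (-(k * R) - k * yp + (1 / 2 + x + k + 1) * yp) ≤ Real.exp ((x + δ) * yp) :=
    Real.exp_le_exp.2 (by nlinarith)
  have b4 : Real.exp (-(k * R) + k * yp + (1 / 2 + x - k + 1) * yp) ≤ Real.exp ((x + δ) * yp) :=
    Real.exp_le_exp.2 (by nlinarith)
  rw [Real.exp_add ((x + δ) * yp) 3]
  nlinarith [mul_le_mul_of_nonneg_left b3 hCg0, mul_le_mul_of_nonneg_left b4 hCg0]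

theorem localM (A : ℝ) {ε : ℝ} (hε : 0 < ε) : ∃ C Z0 : ℝ, ∀ Z : ℝ, Z0 ≤ Z →
    ∀ (Q' : Lev) (ψ : O → ℂ), IsHChar Q'.q ψ → NonPrinc Q'.q ψ → N Q'.q ≤ Z ^ A →
    ∀ σ T y t : ℝ, 1 / 2 ≤ σ → σ ≤ 1 → ZFR ψ σ T → |t| + Real.log Z ^ 2 ≤ T → |t| ≤ Z →
      y ≤ A * Real.log Z → ‖pb (mm ψ) y t‖ ≤ C * Z ^ ε * Real.exp ((σ - 1 / 2) * y) := by
  obtain ⟨C, Z0, h⟩ := loc_MZ A hε
  refine ⟨C, Z0, fun Z hZ Q' ψ hψ hn hq σ T y t a1 a2 a3 a4 a5 a6 => ?_⟩
  exact h Z hZ Q' ψ hψ hn hq σ T y t a1 a2 a3 a4 a5 a6 _ _ (loc_norm_mm_le (hψ.1.norm_le Q'.ne))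
    (fun s hs => loc_inv_L Q' hψ (by rw [hs]; norm_num)) (Or.inr rfl)

theorem localZ (A : ℝ) {ε : ℝ} (hε : 0 < ε) : ∃ C Z0 : ℝ, ∀ Z : ℝ, Z0 ≤ Z →
    ∀ (Q' : Lev) (ψ : O → ℂ), IsHChar Q'.q ψ → NonPrinc Q'.q ψ → N Q'.q ≤ Z ^ A →
    ∀ σ T y t : ℝ, 1 / 2 ≤ σ → σ ≤ 1 → ZFR ψ σ T → |t| + Real.log Z ^ 2 ≤ T → |t| ≤ Z →
      y ≤ A * Real.log Z → ‖pb ψ y t‖ ≤ C * Z ^ ε * Real.exp ((σ - 1 / 2) * y) := by
  obtain ⟨C, Z0, h⟩ := loc_MZ A hε
  refine ⟨C, Z0, fun Z hZ Q' ψ hψ hn hq σ T y t a1 a2 a3 a4 a5 a6 => ?_⟩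
  exact h Z hZ Q' ψ hψ hn hq σ T y t a1 a2 a3 a4 a5 a6 _ _ (hψ.1.norm_le Q'.ne)
    (fun s hs => Lf_eq_dser Q'.ne (hψ.per_prim Q') (by rw [hs]; norm_num)) (Or.inl rfl)

theorem localP (A : ℝ) {ε ρ : ℝ} (hε : 0 < ε) (hρ : 0 < ρ) : ∃ C Z0 : ℝ, ∀ Z : ℝ, Z0 ≤ Z →
    ∀ (Q Q' : Lev) (ψ : O → ℂ), Q.q ∣ Q'.q → IsHChar Q'.q ψ → NonPrinc Q'.q ψ → N Q'.q ≤ Z ^ A →
    ∀ σ T yp x τ : ℝ, 1 / 2 ≤ σ → σ ≤ 1 → ZFR ψ σ T → |τ| + Real.log Z ^ 2 ≤ T → |τ| ≤ Z →
      0 ≤ yp → yp ≤ A * Real.log Z → |x| ≤ 2 →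
      ‖Pb Q ψ yp (ρ * Real.log Z) x τ‖ ≤
        C * Real.log Z ^ 2 * Real.exp ((σ - 1 / 2 + x + ε) * yp) := by
  set A' := max A 1 with hA'
  have hA1 : 1 ≤ A' := le_max_right _ _
  set δ := min ε (1 / 2) with hδ
  have hδ0 : 0 < δ := lt_min hε (by norm_num)
  have hδ1 : δ ≤ 1 / 2 := min_le_right _ _
  have hδ2 : δ ≤ ε := min_le_left _ _
  obtain ⟨C1, Z0, hC1, hZ0, h1⟩ := loc_block hA1
  obtain ⟨C2, hC2, h2⟩ := L_local hA1 hδ0 one_pos
  obtain ⟨M, hM⟩ := loc_dser_vm_bdd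
  obtain ⟨C3, hC3, h3⟩ := loc_Pb_diff hA1 hδ0 (by linarith) hρ
  refine ⟨C1 * (C2 + |M|) + C3, Z0, ?_⟩
  intro Z hZ Q Q' ψ hQ hψ hn hq σ T yp x τ a1 a2 hzf hT ht hy0 hy hx
  have hZ1 : 1 ≤ Z := by linarith
  have hZp : 0 < Z := by linarith
  have hl : 1 ≤ Real.log Z := by
    rw [Real.le_log_iff_exp_le hZp]
    exact (Real.exp_one_lt_d9.le.trans (by norm_num)).trans (hZ0.trans hZ)
  have hb := hψ.1.norm_le Q'.ne
  have hx' := abs_le.1 hx
  have hq' : N Q'.q ≤ Z ^ A' := hq.trans (Real.rpow_le_rpow_of_exponent_le hZ1 (le_max_left _ _))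
  have hy' : yp ≤ A' * Real.log Z :=
    hy.trans (mul_le_mul_of_nonneg_right (le_max_left _ _) (by linarith))
  have hd := Lf_differentiable Q'.ne (hψ.per_prim Q') (Ef_one_nonPrinc Q' hψ hn)
  have hM0 := abs_nonneg M
  have key := h1 Z hZ (prim fun n => (vm n : ℂ) * ψ n)
    (fun s => -(deriv (Lf (prim ψ)) s / Lf (prim ψ) s)) (σ + δ) (1 / 2 - x) (-τ)
    ((C2 + |M|) * Real.log Z) yp T (loc_summable_vm hb) (by linarith) (by linarith)
    (abs_le.2 ⟨by linarith, by linarith⟩) hy0 hy' (by rwa [abs_neg]) (by rwa [abs_neg])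
    (fun s b1 b2 b3 b4 => by
      have := h2 Z (by linarith) Q' ψ hψ hn hq' σ T a1 a2 hzf s b1 b2 b3 b4
      refine ⟨((hd.deriv s).div (hd s) (hzf s (by linarith) (by linarith))).neg, ?_⟩
      rw [norm_neg]
      exact this.2.2.trans (by nlinarith))
    (fun s hs => loc_logderiv Q' hψ hs)
    (fun s hs => (hM ψ hb s hs).trans (by nlinarith [le_abs_self M]))
  have k2 := h3 Z hZ1 Q Q' ψ hQ hψ yp x τ hy0 hy' hx
  have k3 := norm_le_norm_add_norm_sub (blks (prim fun n => (vm n : ℂ) * ψ n) yp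
    (((1 / 2 - x : ℝ) : ℂ) + (-τ : ℝ) * Complex.I)) (Pb Q ψ yp (ρ * Real.log Z) x τ)
  have e1 : Real.exp ((σ + δ - (1 / 2 - x)) * yp) ≤ Real.exp ((σ - 1 / 2 + x + ε) * yp) :=
    Real.exp_le_exp.2 (by nlinarith)
  have e2 : Real.exp ((x + δ) * yp) ≤ Real.exp ((σ - 1 / 2 + x + ε) * yp) :=
    Real.exp_le_exp.2 (by nlinarith)
  have e3 : C1 * ((C2 + |M|) * Real.log Z) ≤ C1 * (C2 + |M|) * Real.log Z ^ 2 := by
    rw [← mul_assoc]
    exact mul_le_mul_of_nonneg_left (by nlinarith) (by positivity)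
  have e4 : C3 ≤ C3 * Real.log Z ^ 2 := le_mul_of_one_le_right hC3 (by nlinarith)
  have e5 := mul_le_mul e3 e1 (Real.exp_pos _).le (by positivity)
  have e6 := mul_le_mul e4 e2 (Real.exp_pos _).le (by positivity)
  linarith

theorem globalP (A : ℝ) {ε ρ : ℝ} (hε : 0 < ε) (hρ : 0 < ρ) : ∃ (C Z0 : ℝ) (B : ℕ), ∀ β : ℝ,
    1 / 2 ≤ β → β ≤ 1 → ZF β → ∀ Z : ℝ, Z0 ≤ Z →
    ∀ (Q Q' : Lev) (ψ : O → ℂ), Q.q ∣ Q'.q → IsHChar Q'.q ψ → NonPrinc Q'.q ψ → N Q'.q ≤ Z ^ A →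
    ∀ yp x τ : ℝ, 0 ≤ yp → yp ≤ A * Real.log Z → |x| ≤ 2 →
      ‖Pb Q ψ yp (ρ * Real.log Z) x τ‖ ≤
        C * Real.log Z ^ 2 * (1 + |τ|) ^ B * Real.exp ((β - 1 / 2 + x + ε) * yp) := by
  obtain ⟨C1, Z0, h1⟩ := localP A hε hρ
  obtain ⟨Cg, hCg0, hCg⟩ := loc_tsum_gw 3
  refine ⟨|C1| + Cg, max Z0 3, ⌈2 * A⌉₊, ?_⟩
  intro β b1 b2 hZF Z hZ Q Q' ψ hQ hψ hn hq yp x τ hy0 hy hx
  have hZ3 : 3 ≤ Z := (le_max_right _ _).trans hZ
  have hZp : 0 < Z := by linarith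
  have hl : 1 ≤ Real.log Z := by
    rw [Real.le_log_iff_exp_le hZp]
    exact (Real.exp_one_lt_d9.le.trans (by norm_num)).trans hZ3
  have hτ := abs_nonneg τ
  have hx' := abs_le.1 hx
  have hC1 := abs_nonneg C1
  rcases le_total |τ| Z with ht | ht
  · refine (h1 Z ((le_max_left _ _).trans hZ) Q Q' ψ hQ hψ hn hq β (|τ| + Real.log Z ^ 2) yp x τ
      b1 b2 (fun s hs _ => hZF Q' ψ hψ s hs (Or.inr hn)) le_rfl ht hy0 hy hx).trans ?_
    refine mul_le_mul_of_nonneg_right ?_ (Real.exp_pos _).le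
    refine le_trans ?_ (le_mul_of_one_le_right (by positivity) (one_le_pow₀ (by linarith)))
    exact mul_le_mul_of_nonneg_right (by linarith [le_abs_self C1]) (by positivity)
  · have hb := hψ.1.norm_le Q'.ne
    have k1 : ‖Pb Q ψ yp (ρ * Real.log Z) x τ‖ ≤ Cg * Real.exp ((1 / 2 + x + 1) * yp) := by
      refine le_trans ?_ (hCg (1 / 2 + x) (abs_le.2 ⟨by linarith, by linarith⟩) yp)
      refine le_trans ?_ ((summable_gw_rpow (1 / 2 + x) yp).sum_le_tsum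
        (slot Q yp (ρ * Real.log Z)) fun n _ => ?_)
      · unfold Pb
        refine (norm_sum_le _ _).trans (Finset.sum_le_sum fun p hp => ?_)
        have hp0 := (loc_mem_slot.1 hp).1.ne_zero
        have hN := N_pos hp0
        rw [if_neg hp0, norm_mul, norm_mul, loc_norm_cpow hp0, Complex.norm_real,
          show (-(1 / 2 : ℂ) + x + τ * Complex.I).re = -(1 / 2) + x by simp,
          show 1 / 2 + x = 1 + (-(1 / 2) + x) by ring, Real.rpow_add hN 1, Real.rpow_one]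
        unfold wP
        rw [Real.norm_of_nonneg (mul_nonneg (loc_log_N_nonneg p) (gw_pos _).le)]
        have a1 : Real.log (N p) ≤ N p := by linarith [Real.log_le_sub_one_of_pos hN]
        have a2 := gw_pos (Real.log (N p) - yp)
        have a3 := loc_log_N_nonneg p
        calc _ ≤ 1 * (N p * gw (Real.log (N p) - yp)) * N p ^ (-(1 / 2) + x) := by
              gcongr
              exact hb p
          _ = _ := by ring
      · split_ifs
        · exact le_rfl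
        · exact mul_nonneg (Real.rpow_nonneg (N_nonneg n) _) (gw_pos _).le
    refine k1.trans ?_
    have k2 : Real.exp (2 * yp) ≤ (1 + |τ|) ^ ⌈2 * A⌉₊ := by
      refine le_trans ?_ (pow_le_pow_left₀ hZp.le (show Z ≤ 1 + |τ| by linarith) _)
      rw [← Real.exp_log hZp, ← Real.exp_nat_mul, Real.exp_le_exp]
      nlinarith [mul_le_mul_of_nonneg_right (Nat.le_ceil (2 * A)) (show 0 ≤ Real.log Z by linarith)]
    have k3 : Real.exp ((1 / 2 + x + 1) * yp) ≤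
        (1 + |τ|) ^ ⌈2 * A⌉₊ * Real.exp ((β - 1 / 2 + x + ε) * yp) := by
      refine le_trans ?_ (mul_le_mul_of_nonneg_right k2 (Real.exp_pos _).le)
      rw [← Real.exp_add, Real.exp_le_exp]
      nlinarith
    rw [mul_assoc]
    exact mul_le_mul ((le_add_of_nonneg_left hC1).trans
      (le_mul_of_one_le_right (by positivity) (one_le_pow₀ hl))) k3 (Real.exp_pos _).le
      (by positivity)

theorem globalM {β : ℝ} (hβ : 1 / 2 ≤ β) (hβ1 : β ≤ 1) (hZ : ZF β) (Q : Lev) {ε : ℝ} (hε : 0 < ε) :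
    ∃ (C : ℝ) (B : ℕ), ∀ ν ∈ hchars Q.q, ∀ y t : ℝ,
      ‖pb (mm ν) y t‖ ≤ C * (1 + |t|) ^ B * Real.exp ((β - 1 / 2 + ε) * y) := by
  set δ := min (ε / 2) (1 / 2) with hδ
  have hδ0 : 0 < δ := lt_min (half_pos hε) (by norm_num)
  have hδ1 : δ ≤ 1 / 2 := min_le_right _ _
  have hδ2 : δ ≤ ε / 2 := min_le_left _ _
  obtain ⟨C1, hC1, h1⟩ := blks_le_rect
  obtain ⟨C2, B, hC2, h2⟩ := L_global hβ hβ1 hZ Q hδ0
  obtain ⟨M, hM1, hM⟩ := loc_dser_bdd
  obtain ⟨C3, h3⟩ := norm_blk_le_neg ⌈β + ε⌉₊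
  set C4 := (B.factorial : ℝ) / δ ^ B * Real.exp (5 * δ) with hC4
  have hC40 : 0 ≤ C4 := by positivity
  refine ⟨2 * C1 * (C2 + M) * C4 + |C3|, B, fun ν hν y t => ?_⟩
  obtain ⟨F, hF1, hF2, hF3⟩ := h2 ν hν
  have hb := loc_norm_prim_le (loc_norm_mm_le (norm_hchar_le Q hν))
  have ht := abs_nonneg t
  have hp : 1 ≤ (1 + |t|) ^ B := one_le_pow₀ (by linarith)
  have hK : 0 ≤ 2 * C1 * (C2 + M) * C4 := by positivity
  rcases le_total 0 y with hy | hy
  · have hp2 : 1 ≤ ((1 + |t|) * (5 + y)) ^ B := one_le_pow₀ (by nlinarith)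
    have key := h1 (prim (mm ν)) F (β + δ) (1 / 2) t (y + 4) ((C2 + M) * ((1 + |t|) * (5 + y)) ^ B)
      y (loc_summable_bdd hb (by norm_num)) (by linarith) (by linarith)
      (by rw [abs_of_pos] <;> norm_num) (by linarith) hy
      (hF1.mono fun s hs => by
        simp only [Set.mem_ofPred_eq] at hs ⊢
        linarith [hs.1])
      (fun s hs _ => hF2 s hs)
      (fun s a1 a2 a3 => (hF3 s a1 a2).trans (mul_le_mul (by linarith)
        (pow_le_pow_left₀ (by positivity) (by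
          have := abs_sub_abs_le_abs_sub s.im t
          nlinarith) _) (by positivity) (by positivity)))
      (fun s hs => (hM _ hb s (by rw [hs]; norm_num)).trans (by nlinarith))
    rw [loc_pb_eq]
    refine key.trans ?_
    have e1 : Real.exp ((2 - 1 / 2) * y - (y + 4) ^ 2 / 8) ≤ Real.exp ((β + δ - 1 / 2) * y) :=
      Real.exp_le_exp.2 (by nlinarith [sq_nonneg (y - 4)])
    have e2 : (5 + y) ^ B ≤ C4 * Real.exp (δ * y) := by
      have := Real.pow_div_factorial_le_exp (δ * (5 + y)) (by positivity) B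
      rw [div_le_iff₀ (by positivity), mul_pow] at this
      rw [hC4, mul_assoc, ← Real.exp_add, div_mul_eq_mul_div, le_div_iff₀ (by positivity),
        show 5 * δ + δ * y = δ * (5 + y) by ring]
      linarith
    have e3 : Real.exp (δ * y) * Real.exp ((β + δ - 1 / 2) * y) ≤
        Real.exp ((β - 1 / 2 + ε) * y) := by
      rw [← Real.exp_add, Real.exp_le_exp]
      nlinarith
    calc _ ≤ C1 * ((C2 + M) * ((1 + |t|) * (5 + y)) ^ B) * (2 * Real.exp ((β + δ - 1 / 2) * y)) :=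
          mul_le_mul_of_nonneg_left (by linarith) (by positivity)
      _ = 2 * C1 * (C2 + M) * (1 + |t|) ^ B * ((5 + y) ^ B * Real.exp ((β + δ - 1 / 2) * y)) := by
          rw [mul_pow]; ring
      _ ≤ 2 * C1 * (C2 + M) * (1 + |t|) ^ B * (C4 * Real.exp ((β - 1 / 2 + ε) * y)) := by
          refine mul_le_mul_of_nonneg_left ?_ (by positivity)
          refine (mul_le_mul_of_nonneg_right e2 (Real.exp_pos _).le).trans ?_
          rw [mul_assoc]
          exact mul_le_mul_of_nonneg_left e3 hC40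
      _ = 2 * C1 * (C2 + M) * C4 * (1 + |t|) ^ B * Real.exp ((β - 1 / 2 + ε) * y) := by ring
      _ ≤ _ := by gcongr; linarith [abs_nonneg C3]
  · refine (h3 (prim (mm ν)) hb y t hy).trans ?_
    refine mul_le_mul ?_ (Real.exp_le_exp.2 ?_) (Real.exp_pos _).le (by positivity)
    · nlinarith [le_abs_self C3, abs_nonneg C3]
    · nlinarith [Nat.le_ceil (β + ε)]

theorem mertens_upper : ∃ C, ∀ (Q : Lev) (yp R : ℝ),
    ∑ p ∈ slot Q yp R, wP yp p / N p ≤ C := by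
  exact mertens_upper'

theorem mertens_lower (Q : Lev) : ∃ c > 0, ∃ y2 : ℝ, ∀ yp R : ℝ, y2 ≤ yp → y2 ≤ R →
    c ≤ ∑ p ∈ slot Q yp R, wP yp p / N p := by
  exact mertens_lower' Q

theorem isSlot_slot (Q : Lev) (yp R : ℝ) :
    IsSlot Q (slot Q yp R) (Real.exp (yp - R)) (Real.exp (yp + R)) := by
  intro p hp
  exact loc_mem_slot.1 hp

end Crest.Agent.R17
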