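import Crest.Agent.R17.Contour

/-!
# R17 / LCont : contour shifting, continuation and growth of `dser φ` for periodic `φ`

`θ_φ(t) = ∑ φ(k) Om(t N k)` satisfies `θ_φ(t) = (t N q)⁻¹ θ_{φ̂}(1/(t N q))` (`poisson_per`,
`φ̂ = gs q φ`), so (Mathlib `WeakFEPair`, or directly by splitting the Mellin integral at
`t = (N q)^{-1/2}`) `Λ_φ(s) = Γ(s) c0^{-s} dser φ s` continues, `s(s-1)Λ_φ(s)` is entire and bounded by
a polynomial on vertical strips, `Λ_φ(s) = (N q)^{-s} Λ_{φ̂}(1-s)`.  `1/Γ` is entire with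
`|1/Γ(s)| ≤ C e^{π|t|}` on strips (reflection formula + recursion), which is enough to shift Gaussian
contour integrals.  Polynomial growth: on `Re s = 1/2 - j` one has exactly
`|Γ(1-s)/Γ(s)| = ∏_{i<2j} |1/2 - j + i + it| ≤ (j + |t|)^{2j}`; apply the maximum principle /
Phragmén–Lindelöf (`PhragmenLindelof.vertical_strip`) or the three lines theorem to
`Ef φ s · exp((s - it₀)²)` on the strip `1/2 - j ≤ Re s ≤ 2`.
-/

set_option autoImplicit false

noncomputable section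

open scoped Classical ComplexConjugate
open MeasureTheory

namespace Crest.Agent.R17

variable {q : O} {φ : O → ℂ}

theorem Per.bdd (hq : q ≠ 0) (hφ : Per q φ) : ∃ M, ∀ n, ‖φ n‖ ≤ M := by
  refine ⟨∑ r ∈ res q, ‖φ r‖, fun n => ?_⟩
  obtain ⟨r, hr, hd⟩ := exists_res hq n
  rw [hφ.congr hd]
  exact Finset.single_le_sum (f := fun r => ‖φ r‖) (fun _ _ => norm_nonneg _) hr
theorem Per.prim (hφ : Per q φ) : Per (3 * q) (prim φ) := by
  intro x t
  unfold R17.prim
  have h1 : Prim (x + 3 * q * t) ↔ Prim x := by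
    unfold Prim
    have : x + 3 * q * t - 1 = (x - 1) + 3 * (q * t) := by ring
    rw [this]
    exact dvd_add_left (dvd_mul_right 3 _)
  have h2 : φ (x + 3 * q * t) = φ x := by
    have : x + 3 * q * t = x + q * (3 * t) := by ring
    rw [this]
    exact hφ x _
  simp only [h1, h2]
theorem IsHChar.per_prim (Q : Lev) {ψ : O → ℂ} (h : IsHChar Q.q ψ) : Per Q.q (prim ψ) := by
  intro x t
  unfold R17.prim
  have h3 : (3 : O) ∣ Q.q := dvd_trans ⟨24, by norm_num⟩ Q.dvd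
  have h1 : Prim (x + Q.q * t) ↔ Prim x := by
    unfold Prim
    have : x + Q.q * t - 1 = (x - 1) + Q.q * t := by ring
    rw [this]
    exact dvd_add_left (h3.mul_right _)
  simp only [h1, h.1.per x t]

/-! ### theta functions and the `WeakFEPair` -/

theorem c0_pos : 0 < c0 := lt_trans one_pos one_lt_c0

theorem Per.gs (q : O) (φ : O → ℂ) : Per q (gs q φ) := by
  intro x t
  unfold R17.gs
  refine Finset.sum_congr rfl fun y _ => ?_
  have h1 : (x + q * t) * y = x * y + q * (t * y) := by ring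
  rw [h1, ad_add, ad_of_dvd (dvd_mul_right q _), mul_one]

theorem gs_zero (q : O) (φ : O → ℂ) : gs q φ 0 = ∑ x ∈ res q, φ x := by
  unfold gs
  simp [ad_zero]

/-- `θ(x) = ∑ φ(k) exp(-c N(k) x)` -/
def th (φ : O → ℂ) (c x : ℝ) : ℂ := ∑' k : O, φ k * (Real.exp (-(c * N k) * x) : ℝ)

theorem summable_exp_N {c : ℝ} (hc : 0 < c) :
    Summable (fun k : O => Real.exp (-(c * N k))) := by
  have h := summable_Om (X := c0 / c) (div_pos c0_pos hc) 0
  refine h.congr fun k => ?_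
  have := c0_pos
  simp only [pow_zero, one_mul, Om]
  congr 1
  field_simp

theorem summable_exp_N' {c x : ℝ} (hc : 0 < c) (hx : 0 < x) :
    Summable (fun k : O => Real.exp (-(c * N k) * x)) := by
  refine (summable_exp_N (mul_pos hc hx)).congr fun k => ?_
  congr 1
  ring

theorem norm_th_term {M : ℝ} (hM : ∀ n, ‖φ n‖ ≤ M) (c x : ℝ) (k : O) :
    ‖φ k * ((Real.exp (-(c * N k) * x) : ℝ) : ℂ)‖ ≤ M * Real.exp (-(c * N k) * x) := by
  rw [norm_mul, Complex.norm_real, Real.norm_eq_abs, abs_of_pos (Real.exp_pos _)]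
  exact mul_le_mul_of_nonneg_right (hM k) (Real.exp_pos _).le

theorem summable_th {M : ℝ} (hM : ∀ n, ‖φ n‖ ≤ M) {c x : ℝ} (hc : 0 < c) (hx : 0 < x) :
    Summable (fun k : O => φ k * ((Real.exp (-(c * N k) * x) : ℝ) : ℂ)) :=
  Summable.of_norm_bounded ((summable_exp_N' hc hx).mul_left M) (norm_th_term hM c x)

theorem continuousOn_th {M : ℝ} (hM : ∀ n, ‖φ n‖ ≤ M) {c : ℝ} (hc : 0 < c) :
    ContinuousOn (th φ c) (Set.Ioi 0) := by
  have hM0 : 0 ≤ M := le_trans (norm_nonneg _) (hM 0)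
  intro x0 hx0
  have hx0' : 0 < x0 := hx0
  have h1 : ContinuousOn (th φ c) (Set.Ici (x0 / 2)) := by
    unfold th
    refine continuousOn_tsum (u := fun k => M * Real.exp (-(c * N k) * (x0 / 2)))
      (fun k => ?_) ((summable_exp_N' hc (half_pos hx0')).mul_left M) (fun k x hx => ?_)
    · refine Continuous.continuousOn ?_
      fun_prop
    · refine le_trans (norm_th_term hM c x k) (mul_le_mul_of_nonneg_left ?_ hM0)
      refine Real.exp_le_exp.mpr ?_
      have h2 : 0 ≤ c * N k := mul_nonneg hc.le (N_nonneg k)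
      have h3 : x0 / 2 ≤ x := hx
      nlinarith
  exact (h1.continuousAt (Ici_mem_nhds (by linarith))).continuousWithinAt

theorem hasSum_th_sub {M : ℝ} (hM : ∀ n, ‖φ n‖ ≤ M) {c x : ℝ} (hc : 0 < c) (hx : 0 < x) :
    HasSum (fun k : O => (if k = 0 then 0 else φ k) * ((Real.exp (-(c * N k) * x) : ℝ) : ℂ))
      (th φ c x - φ 0) := by
  have h := (summable_th hM hc hx).hasSum
  have h2 := hasSum_ite_sub_hasSum h 0
  simp only [N_zero, mul_zero, neg_zero, zero_mul, Real.exp_zero, Complex.ofReal_one,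
    mul_one] at h2
  have h3 : (fun k : O => (if k = 0 then 0 else φ k) * ((Real.exp (-(c * N k) * x) : ℝ) : ℂ)) =
      fun k : O => if k = 0 then 0 else φ k * ((Real.exp (-(c * N k) * x) : ℝ) : ℂ) := by
    funext k
    split_ifs <;> simp
  rw [h3]
  exact h2

theorem norm_th_sub_le {M : ℝ} (hM : ∀ n, ‖φ n‖ ≤ M) {c x : ℝ} (hc : 0 < c) (hx : 1 ≤ x) :
    ‖th φ c x - φ 0‖ ≤
      (M * Real.exp c * ∑' k : O, Real.exp (-(c * N k))) * Real.exp (-c * x) := by
  have hM0 : 0 ≤ M := le_trans (norm_nonneg _) (hM 0)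
  have h := hasSum_th_sub hM hc (lt_of_lt_of_le one_pos hx)
  have h2 := (((summable_exp_N hc).hasSum.mul_left (M * Real.exp c)).mul_right
    (Real.exp (-c * x)))
  refine h.norm_le_of_bounded h2 fun k => ?_
  by_cases hk : k = 0
  · simp only [hk, if_true, zero_mul, norm_zero]
    positivity
  · simp only [hk, if_false]
    refine le_trans (norm_th_term hM c x k) ?_
    rw [mul_assoc, mul_assoc, ← Real.exp_add, ← Real.exp_add]
    refine mul_le_mul_of_nonneg_left (Real.exp_le_exp.mpr ?_) hM0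
    have h3 := one_le_N hk
    have h4 : 0 ≤ c * ((N k - 1) * (x - 1)) :=
      mul_nonneg hc.le (mul_nonneg (by linarith) (by linarith))
    nlinarith

theorem th_isBigO {M : ℝ} (hM : ∀ n, ‖φ n‖ ≤ M) {c : ℝ} (hc : 0 < c) (r : ℝ) :
    (fun x => th φ c x - φ 0) =O[Filter.atTop] (fun x : ℝ => x ^ r) := by
  refine Asymptotics.IsBigO.trans ?_ (isLittleO_exp_neg_mul_rpow_atTop hc r).isBigO
  refine Asymptotics.IsBigO.of_bound
    (M * Real.exp c * ∑' k : O, Real.exp (-(c * N k))) ?_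
  filter_upwards [Filter.eventually_ge_atTop 1] with x hx
  rw [Real.norm_eq_abs, abs_of_pos (Real.exp_pos _)]
  exact norm_th_sub_le hM hc hx

theorem mellin_th {M : ℝ} (hM : ∀ n, ‖φ n‖ ≤ M) {c : ℝ} (hc : 0 < c) {s : ℂ} (hs : 1 < s.re) :
    mellin (fun x => th φ c x - φ 0) s = Complex.Gamma s * (c : ℂ) ^ (-s) * dser φ s := by
  have hM0 : 0 ≤ M := le_trans (norm_nonneg _) (hM 0)
  have h := hasSum_mellin (a := fun k : O => if k = 0 then 0 else φ k) (p := fun k => c * N k)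
    (F := fun x => th φ c x - φ 0) (s := s) (fun k => ?_) (by linarith)
    (fun t ht => hasSum_th_sub hM hc ht) ?_
  · rw [← h.tsum_eq, dser, ← tsum_mul_left]
    refine tsum_congr fun k => ?_
    by_cases hk : k = 0
    · simp [hk]
    · simp only [hk, if_false]
      rw [Complex.ofReal_mul, Complex.mul_cpow_ofReal_nonneg hc.le (N_nonneg k),
        Complex.cpow_neg, Complex.cpow_neg]
      ring
  · by_cases hk : k = 0
    · simp [hk]
    · exact Or.inr (mul_pos hc (N_pos hk))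
  · refine Summable.of_nonneg_of_le (fun k => ?_) (fun k => ?_)
      ((summable_N_rpow hs).mul_left (M * c ^ (-s.re)))
    · exact div_nonneg (norm_nonneg _) (Real.rpow_nonneg (mul_nonneg hc.le (N_nonneg k)) _)
    · by_cases hk : k = 0
      · simp only [hk, if_true, norm_zero, zero_div]
        exact mul_nonneg (mul_nonneg hM0 (Real.rpow_nonneg hc.le _))
          (Real.rpow_nonneg (N_nonneg _) _)
      · simp only [hk, if_false]
        rw [Real.mul_rpow hc.le (N_nonneg k), Real.rpow_neg hc.le, Real.rpow_neg (N_nonneg k),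
          div_eq_mul_inv, mul_inv, ← mul_assoc]
        have h1 : 0 ≤ (c ^ s.re)⁻¹ := inv_nonneg.mpr (Real.rpow_nonneg hc.le _)
        have h2 : 0 ≤ (N k ^ s.re)⁻¹ := inv_nonneg.mpr (Real.rpow_nonneg (N_nonneg k) _)
        exact mul_le_mul_of_nonneg_right (mul_le_mul_of_nonneg_right (hM k) h1) h2

theorem th_feq (hq : q ≠ 0) (hφ : Per q φ) {x : ℝ} (hx : 0 < x) :
    th φ c0 (1 / x) = ((N q : ℂ)⁻¹ * ((x ^ (1 : ℝ) : ℝ) : ℂ)) • th (gs q φ) (c0 / N q) x := by
  have h := poisson_per hq hφ hx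
  have hN := N_pos hq
  have h1 : th φ c0 (1 / x) = ∑' k : O, φ k * (Om (N k / x) : ℂ) := by
    unfold th Om
    refine tsum_congr fun k => ?_
    congr 3
    ring
  have h2 : th (gs q φ) (c0 / N q) x = ∑' d : O, gs q φ d * (Om (x * N d / N q) : ℂ) := by
    unfold th Om
    refine tsum_congr fun k => ?_
    congr 3
    ring
  rw [h1, h2, h, Real.rpow_one, smul_eq_mul]
  congr 1
  push_cast
  ring

/-- the `WeakFEPair` attached to a periodic function:
`f x = ∑ φ(k) Om(N(k) x)`, `g x = ∑ φ̂(k) Om(N(k) x / N q)`, `k = 1`, `ε = (N q)⁻¹`. -/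
def thP (hq : q ≠ 0) (hφ : Per q φ) : WeakFEPair ℂ where
  f := th φ c0
  g := th (gs q φ) (c0 / N q)
  k := 1
  ε := (N q : ℂ)⁻¹
  f₀ := φ 0
  g₀ := gs q φ 0
  hf_int := (continuousOn_th (hφ.bdd hq).choose_spec c0_pos).locallyIntegrableOn measurableSet_Ioi
  hg_int := (continuousOn_th ((Per.gs q φ).bdd hq).choose_spec
    (div_pos c0_pos (N_pos hq))).locallyIntegrableOn measurableSet_Ioi
  hk := one_pos
  hε := inv_ne_zero (Complex.ofReal_ne_zero.mpr (N_pos hq).ne')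
  h_feq := fun _ hx => th_feq hq hφ hx
  hf_top := th_isBigO (hφ.bdd hq).choose_spec c0_pos
  hg_top := th_isBigO ((Per.gs q φ).bdd hq).choose_spec (div_pos c0_pos (N_pos hq))

theorem thP_Λ (hq : q ≠ 0) (hφ : Per q φ) {s : ℂ} (hs : 1 < s.re) :
    (thP hq hφ).Λ s = Complex.Gamma s * (c0 : ℂ) ^ (-s) * dser φ s := by
  rw [← ((thP hq hφ).hasMellin (s := s) hs).2]
  exact mellin_th (hφ.bdd hq).choose_spec c0_pos hs

theorem thP_symm_Λ (hq : q ≠ 0) (hφ : Per q φ) {s : ℂ} (hs : 1 < s.re) :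
    (thP hq hφ).symm.Λ s =
      Complex.Gamma s * ((c0 / N q : ℝ) : ℂ) ^ (-s) * dser (gs q φ) s := by
  rw [← ((thP hq hφ).symm.hasMellin (s := s) hs).2]
  exact mellin_th ((Per.gs q φ).bdd hq).choose_spec (div_pos c0_pos (N_pos hq)) hs

theorem thP_Λ_eq (hq : q ≠ 0) (hφ : Per q φ) (s : ℂ) :
    (thP hq hφ).Λ s =
      (thP hq hφ).Λ₀ s - (1 / s) * φ 0 - ((N q : ℂ)⁻¹ / (1 - s)) * gs q φ 0 := by
  simp only [WeakFEPair.Λ, smul_eq_mul]
  simp [thP]

/-- the explicit entire function `(s-1) c0^s Γ(s)⁻¹ Λ(s)` -/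
def EE (hq : q ≠ 0) (hφ : Per q φ) (s : ℂ) : ℂ :=
  (c0 : ℂ) ^ s * ((s - 1) * (Complex.Gamma s)⁻¹ * (thP hq hφ).Λ₀ s
    - (s - 1) * (Complex.Gamma (s + 1))⁻¹ * φ 0
    + (Complex.Gamma s)⁻¹ * (N q : ℂ)⁻¹ * gs q φ 0)

theorem EE_differentiable (hq : q ≠ 0) (hφ : Per q φ) : Differentiable ℂ (EE hq hφ) := by
  have h1 : Differentiable ℂ (fun s : ℂ => (c0 : ℂ) ^ s) :=
    differentiable_id.const_cpow (Or.inl (Complex.ofReal_ne_zero.mpr c0_pos.ne'))
  have h2 : Differentiable ℂ (fun s : ℂ => (Complex.Gamma s)⁻¹) :=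
    Complex.differentiable_one_div_Gamma
  have h3 : Differentiable ℂ (fun s : ℂ => (Complex.Gamma (s + 1))⁻¹) :=
    h2.comp (differentiable_id.add_const 1)
  have h4 := (thP hq hφ).differentiable_Λ₀
  have h5 : Differentiable ℂ (fun s : ℂ => s - 1) := differentiable_id.sub_const 1
  unfold EE
  exact h1.mul ((((h5.mul h2).mul h4).sub ((h5.mul h3).mul_const _)).add
    ((h2.mul_const _).mul_const _))

theorem EE_eq (hq : q ≠ 0) (hφ : Per q φ) {s : ℂ} (h0 : s ≠ 0) (h1 : s ≠ 1) :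
    EE hq hφ s = (s - 1) * ((c0 : ℂ) ^ s * (Complex.Gamma s)⁻¹ * (thP hq hφ).Λ s) := by
  have h2 : (1 : ℂ) - s ≠ 0 := sub_ne_zero.mpr h1.symm
  rw [thP_Λ_eq, EE, Complex.Gamma_add_one s h0, mul_inv]
  have h3 : (s - 1) * ((N q : ℂ)⁻¹ / (1 - s)) = -(N q : ℂ)⁻¹ := by
    field_simp
    ring
  linear_combination ((c0 : ℂ) ^ s * (Complex.Gamma s)⁻¹ * gs q φ 0) * h3

theorem EE_eq_dser (hq : q ≠ 0) (hφ : Per q φ) {s : ℂ} (hs : 1 < s.re) :
    EE hq hφ s = (s - 1) * dser φ s := by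
  have h0 : s ≠ 0 := by
    rintro rfl
    simp at hs
    linarith
  have h1 : s ≠ 1 := by
    rintro rfl
    simp at hs
  have hG : Complex.Gamma s ≠ 0 := Complex.Gamma_ne_zero_of_re_pos (by linarith)
  have hc : (c0 : ℂ) ^ s ≠ 0 := by
    rw [Ne, Complex.cpow_eq_zero_iff]
    exact fun h => (Complex.ofReal_ne_zero.mpr c0_pos.ne') h.1
  rw [EE_eq hq hφ h0 h1, thP_Λ hq hφ hs, Complex.cpow_neg]
  field_simp

theorem exists_Ef (hq : q ≠ 0) (hφ : Per q φ) :
    ∃ E : ℂ → ℂ, Differentiable ℂ E ∧ ∀ s : ℂ, 1 < s.re → E s = (s - 1) * dser φ s :=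
  ⟨EE hq hφ, EE_differentiable hq hφ, fun _ hs => EE_eq_dser hq hφ hs⟩

theorem Ef_differentiable (hq : q ≠ 0) (hφ : Per q φ) : Differentiable ℂ (Ef φ) := by
  have h := exists_Ef hq hφ
  unfold Ef
  rw [dif_pos h]
  exact h.choose_spec.1
theorem Ef_eq (hq : q ≠ 0) (hφ : Per q φ) {s : ℂ} (hs : 1 < s.re) :
    Ef φ s = (s - 1) * dser φ s := by
  have h := exists_Ef hq hφ
  unfold Ef
  rw [dif_pos h]
  exact h.choose_spec.2 s hs
/-- explicit formula for `Ef φ` in terms of the entire function `Λ₀` of the `WeakFEPair` -/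
theorem Ef_eq_EE (hq : q ≠ 0) (hφ : Per q φ) : Ef φ = EE hq hφ := by
  have h1 : AnalyticOnNhd ℂ (Ef φ) Set.univ :=
    (Ef_differentiable hq hφ).differentiableOn.analyticOnNhd isOpen_univ
  have h2 : AnalyticOnNhd ℂ (EE hq hφ) Set.univ :=
    (EE_differentiable hq hφ).differentiableOn.analyticOnNhd isOpen_univ
  refine h1.eq_of_eventuallyEq h2 (z₀ := 2) ?_
  have h3 : {s : ℂ | 1 < s.re} ∈ nhds (2 : ℂ) :=
    (isOpen_lt continuous_const Complex.continuous_re).mem_nhds (by simp)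
  filter_upwards [h3] with s hs
  rw [Ef_eq hq hφ hs, EE_eq_dser hq hφ hs]
theorem Ef_one (hq : q ≠ 0) (hφ : Per q φ) :
    Ef φ 1 = (c0 : ℂ) * (∑ x ∈ res q, φ x) / (N q : ℂ) := by
  rw [Ef_eq_EE hq hφ, EE, gs_zero]
  simp only [sub_self, zero_mul, Complex.cpow_one, Complex.Gamma_one, inv_one, one_mul, zero_add]
  ring
theorem Lf_eq_div (φ : O → ℂ) {s : ℂ} (hs : s ≠ 1) : Lf φ s = Ef φ s / (s - 1) := by
  have h : s - 1 ≠ 0 := sub_ne_zero.mpr hs
  rw [Lf, dslope_of_ne _ hs, slope_def_field]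
  field_simp
  ring
theorem Lf_eq_dser (hq : q ≠ 0) (hφ : Per q φ) {s : ℂ} (hs : 1 < s.re) : Lf φ s = dser φ s := by
  have h1 : s ≠ 1 := by
    rintro rfl
    simp at hs
  have h : s - 1 ≠ 0 := sub_ne_zero.mpr h1
  rw [Lf_eq_div φ h1, Ef_eq hq hφ hs]
  field_simp
theorem Lf_differentiableAt (hq : q ≠ 0) (hφ : Per q φ) {s : ℂ} (hs : s ≠ 1) :
    DifferentiableAt ℂ (Lf φ) s := by
  have h : s - 1 ≠ 0 := sub_ne_zero.mpr hs
  have h1 : DifferentiableAt ℂ (fun z => Ef φ z / (z - 1)) s :=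
    (Ef_differentiable hq hφ s).div (differentiableAt_id.sub_const 1) h
  refine h1.congr_of_eventuallyEq ?_
  filter_upwards [isOpen_ne.mem_nhds hs] with z hz
  exact Lf_eq_div φ hz
theorem Lf_differentiable (hq : q ≠ 0) (hφ : Per q φ) (h0 : Ef φ 1 = 0) :
    Differentiable ℂ (Lf φ) := by
  have h1 : Lf φ = dslope (Ef φ) 1 := by
    funext s
    rw [Lf, h0, zero_div, add_zero]
  rw [h1, ← differentiableOn_univ]
  exact (Complex.differentiableOn_dslope Filter.univ_mem).mpr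
    (Ef_differentiable hq hφ).differentiableOn
theorem Ef_one_nonPrinc (Q : Lev) {ψ : O → ℂ} (h : IsHChar Q.q ψ) (hn : NonPrinc Q.q ψ) :
    Ef (prim ψ) 1 = 0 := by
  have hper := h.per_prim Q
  rw [Ef_one Q.ne hper]
  obtain ⟨n, hnc, hn1⟩ := hn
  have h3 : (3 : O) ∣ Q.q := dvd_trans ⟨24, by norm_num⟩ Q.dvd
  obtain ⟨u, hu, hp⟩ := exists_unit_mul_prim (hnc.of_isCoprime_of_dvd_right h3)
  have hc : IsCoprime (u * n) Q.q := (isCoprime_mul_unit_left_left hu n Q.q).mpr hnc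
  have hψ : ψ (u * n) = ψ n := by rw [h.1.mul, h.2 u hu, one_mul]
  have h4 := sum_res_affine Q.ne hper hc 0
  have h5 : ∑ x ∈ res Q.q, prim ψ (u * n * x + 0) = ψ n * ∑ x ∈ res Q.q, prim ψ x := by
    rw [Finset.mul_sum]
    refine Finset.sum_congr rfl fun x _ => ?_
    rw [add_zero]
    unfold R17.prim
    by_cases hx : Prim x
    · rw [if_pos (hp.mul hx), if_pos hx, h.1.mul, hψ]
    · rw [if_neg (fun h' => hx (h'.of_mul_left hp)), if_neg hx, mul_zero]
  have h6 : ∑ x ∈ res Q.q, prim ψ x = 0 := by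
    have h7 : (ψ n - 1) * ∑ x ∈ res Q.q, prim ψ x = 0 := by
      rw [sub_mul, one_mul, ← h5, h4, sub_self]
    exact (mul_eq_zero.mp h7).resolve_left (sub_ne_zero.mpr hn1)
  rw [h6, mul_zero, zero_div]
theorem Ef_one_one0 (Q : Lev) : ∃ r : ℝ, 0 < r ∧ Ef (prim (one0 Q)) 1 = r := by
  have h3 : (3 : O) ∣ Q.q := dvd_trans ⟨24, by norm_num⟩ Q.dvd
  have hP : ∀ x t : O, P0 Q (x + Q.q * t) ↔ P0 Q x := by
    intro x t
    have h1 : Prim (x + Q.q * t) ↔ Prim x := by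
      unfold Prim
      have : x + Q.q * t - 1 = (x - 1) + Q.q * t := by ring
      rw [this]
      exact dvd_add_left (h3.mul_right _)
    unfold P0
    rw [h1, IsCoprime.add_mul_left_left_iff]
  have hf : prim (one0 Q) = fun n => if P0 Q n then 1 else 0 := by
    funext n
    unfold R17.prim one0 P0
    by_cases h1 : Prim n <;> by_cases h2 : IsCoprime n Q.q <;> simp [h1, h2]
  have hper : Per Q.q (prim (one0 Q)) := by
    intro x t
    rw [hf]
    simp only [hP]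
  rw [Ef_one Q.ne hper, hf, Finset.sum_boole]
  obtain ⟨r, hr, t, ht⟩ := exists_res Q.ne 1
  have hr1 : P0 Q r := by
    have : (1 : O) = r + Q.q * t := by rw [← ht]; ring
    rw [← hP r t, ← this]
    exact P0.one Q
  have hc : 0 < ((res Q.q).filter (fun n => P0 Q n)).card :=
    Finset.card_pos.mpr ⟨r, Finset.mem_filter.mpr ⟨hr, hr1⟩⟩
  refine ⟨c0 * ((res Q.q).filter (fun n => P0 Q n)).card / N Q.q, ?_, ?_⟩
  · exact div_pos (mul_pos c0_pos (Nat.cast_pos.mpr hc)) (N_pos Q.ne)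
  · push_cast
    rfl
/-- functional equation (for `s` with `Re s < 0`, where both sides are unambiguous; extend by
continuity/analyticity where needed) -/
theorem Lf_fe (hq : q ≠ 0) (hφ : Per q φ) {s : ℂ} (hs : s.re < 0) :
    Lf φ s = (N q : ℂ) ^ (-s) * (c0 : ℂ) ^ (2 * s - 1) * Complex.Gamma (1 - s) *
      (Complex.Gamma s)⁻¹ * dser (gs q φ) (1 - s) := by
  have h0 : s ≠ 0 := by
    rintro rfl
    simp at hs
  have h1 : s ≠ 1 := by
    rintro rfl
    simp at hs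
    linarith
  have h : s - 1 ≠ 0 := sub_ne_zero.mpr h1
  have hN := N_pos hq
  have hs' : 1 < (1 - s).re := by
    simp
    linarith
  have hfe := (thP hq hφ).functional_equation (1 - s)
  rw [thP_symm_Λ hq hφ hs'] at hfe
  have hk : (((thP hq hφ).k : ℝ) : ℂ) - (1 - s) = s := by simp [thP]
  have hε : (thP hq hφ).ε = (N q : ℂ)⁻¹ := rfl
  rw [hk, hε, smul_eq_mul] at hfe
  rw [Lf_eq_div φ h1, Ef_eq_EE hq hφ, EE_eq hq hφ h0 h1, mul_div_cancel_left₀ _ h, hfe]
  have hc : (c0 : ℂ) ≠ 0 := Complex.ofReal_ne_zero.mpr c0_pos.ne'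
  have hNc : (N q : ℂ) ≠ 0 := Complex.ofReal_ne_zero.mpr hN.ne'
  have e1 : ((c0 / N q : ℝ) : ℂ) ^ (-(1 - s)) = (c0 : ℂ) ^ (s - 1) * (N q : ℂ) ^ (1 - s) := by
    rw [div_eq_mul_inv, Complex.ofReal_mul,
      Complex.mul_cpow_ofReal_nonneg c0_pos.le (inv_nonneg.mpr hN.le), Complex.ofReal_inv,
      Complex.inv_cpow _ _ (by rw [Complex.arg_ofReal_of_nonneg hN.le]; exact Real.pi_pos.ne),
      ← Complex.cpow_neg, neg_neg, neg_sub]
  have e2 : (N q : ℂ) ^ (1 - s) = (N q : ℂ) * (N q : ℂ) ^ (-s) := by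
    rw [sub_eq_add_neg, Complex.cpow_add _ _ hNc, Complex.cpow_one]
  have e3 : (c0 : ℂ) ^ (2 * s - 1) = (c0 : ℂ) ^ s * (c0 : ℂ) ^ (s - 1) := by
    rw [← Complex.cpow_add _ _ hc]
    congr 1
    ring
  rw [e1, e2, e3]
  field_simp

end Crest.Agent.R17
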