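import Crest.Agent.R17.LCont1

/-!
# R17 / LCont : contour shifting, continuation and growth of `dser φ` for periodic `φ`

`θ_φ(t) = ∑ φ(k) Om(t N k)` satisfies `θ_φ(t) = (t N q)⁻¹ θ_{φ̂}(1/(t N q))` (`poisson_per`,
`φ̂ = gs q φ`), so (Mathlib `WeakFEPair`, or directly by splitting the Mellin integral at
`t = (N q)^{-1/2}`) `Λ_φ(s) = Γ(s) c0^{-s} dser φ s` continues, `s(s-1)Λ_φ(s)` is entire and bounded by
a polynomial on vertical strips, `Λ_φ(s) = (N q)^{-s} Λ_{φ̂}(1-s)`.  `1/Γ` is entire with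
`|1/Γ(s)| ≤ C e^{π|t|}` on strips (reflection formula + recursion), which is enough to shift Gaussian
contour integrals.  Polynomial growth: on `Re s = 1/2 - j` one has exactly
`|Γ(1-s)/Γ(s)| = ∏_{i<2j} |1/2 - j + i + it| ≤ (j + |t|)^{2j}`; apply the maximum principle /
Phragmén–Lindelöf (`PhragmenLindelof.vertical_strip`) or the three lines theorem to
`Ef φ s · exp((s - it₀)²)` on the strip `1/2 - j ≤ Re s ≤ 2`.
-/

set_option autoImplicit false

noncomputable section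

open scoped Classical ComplexConjugate
open MeasureTheory

namespace Crest.Agent.R17

/-! ### Gamma function bounds -/

theorem norm_Gamma_le_re {s : ℂ} (hs : 0 < s.re) : ‖Complex.Gamma s‖ ≤ Real.Gamma s.re := by
  rw [Complex.Gamma_eq_integral hs, Real.Gamma_eq_integral hs, Complex.GammaIntegral]
  refine le_trans (norm_integral_le_integral_norm _) (le_of_eq ?_)
  refine setIntegral_congr_fun measurableSet_Ioi fun x hx => ?_
  have hx' : 0 < x := hx
  rw [norm_mul, Complex.norm_real, Real.norm_eq_abs, abs_of_pos (Real.exp_pos _),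
    Complex.norm_cpow_eq_rpow_re_of_pos hx', Complex.sub_re, Complex.one_re]

theorem norm_sin_le_exp (z : ℂ) : ‖Complex.sin z‖ ≤ Real.exp |z.im| := by
  have h1 : ‖Complex.exp (-z * Complex.I)‖ ≤ Real.exp |z.im| := by
    rw [Complex.norm_exp]
    refine Real.exp_le_exp.mpr ?_
    simpa using le_abs_self z.im
  have h2 : ‖Complex.exp (z * Complex.I)‖ ≤ Real.exp |z.im| := by
    rw [Complex.norm_exp]
    refine Real.exp_le_exp.mpr ?_
    simpa using neg_le_abs z.im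
  rw [Complex.sin, norm_div, norm_mul, Complex.norm_I, mul_one]
  have h3 := norm_sub_le (Complex.exp (-z * Complex.I)) (Complex.exp (z * Complex.I))
  have h4 : ‖(2 : ℂ)‖ = 2 := by simp
  rw [h4]
  linarith

theorem inv_Gamma_eq {z : ℂ} (hz : z.re < 1) :
    (Complex.Gamma z)⁻¹ = Complex.Gamma (1 - z) * Complex.sin (Real.pi * z) / Real.pi := by
  have h1 : Complex.Gamma (1 - z) ≠ 0 :=
    Complex.Gamma_ne_zero_of_re_pos (by simp; linarith)
  have h2 := congrArg (fun w : ℂ => w⁻¹) (Complex.Gamma_mul_Gamma_one_sub z)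
  simp only [mul_inv, inv_div] at h2
  rw [mul_div_assoc, ← h2]
  field_simp

theorem norm_inv_Gamma_le_left (a : ℝ) : ∃ K, 0 ≤ K ∧ ∀ z : ℂ, a ≤ z.re → z.re ≤ 0 →
    ‖(Complex.Gamma z)⁻¹‖ ≤ K * Real.exp (Real.pi * |z.im|) := by
  have hc : ContinuousOn Real.Gamma (Set.Icc 1 (1 - a)) := by
    intro x hx
    refine (Real.differentiableAt_Gamma fun m => ?_).continuousAt.continuousWithinAt
    have h1 : (0 : ℝ) ≤ m := Nat.cast_nonneg m
    have h2 := hx.1
    intro h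
    linarith
  obtain ⟨K, hK⟩ := isCompact_Icc.exists_bound_of_continuousOn hc
  refine ⟨max K 0, le_max_right _ _, fun z h1 h2 => ?_⟩
  rw [inv_Gamma_eq (by linarith), norm_div, norm_mul, Complex.norm_real, Real.norm_eq_abs,
    abs_of_pos Real.pi_pos]
  have h3 : ‖Complex.Gamma (1 - z)‖ ≤ max K 0 := by
    refine le_trans (norm_Gamma_le_re (by simp; linarith)) (le_trans ?_ (le_max_left _ _))
    refine le_trans (le_abs_self _) (hK _ ⟨?_, ?_⟩)
    · simp; linarith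
    · simp; linarith
  have h4 : ‖Complex.sin (Real.pi * z)‖ ≤ Real.exp (Real.pi * |z.im|) := by
    refine le_trans (norm_sin_le_exp _) (le_of_eq ?_)
    simp [abs_mul, abs_of_pos Real.pi_pos]
  refine le_trans (div_le_self (by positivity) (by linarith [Real.pi_gt_three])) ?_
  exact mul_le_mul h3 h4 (norm_nonneg _) (le_max_right _ _)

theorem norm_inv_Gamma_add_nat (n : ℕ) {z : ℂ} (hz : 1 ≤ |z.im|) :
    ‖(Complex.Gamma (z + n))⁻¹‖ ≤ ‖(Complex.Gamma z)⁻¹‖ := by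
  induction n with
  | zero => simp
  | succ n ih =>
    have h1 : 1 ≤ ‖z + n‖ := by
      refine le_trans ?_ (Complex.abs_im_le_norm _)
      simpa using hz
    have h2 : z + n ≠ 0 := by
      intro h
      rw [h, norm_zero] at h1
      linarith
    rw [Nat.cast_succ, ← add_assoc, Complex.Gamma_add_one _ h2, mul_inv, norm_mul]
    refine le_trans (mul_le_of_le_one_left (norm_nonneg _) ?_) ih
    rw [norm_inv]
    exact inv_le_one_of_one_le₀ h1

theorem norm_inv_Gamma_le (a b : ℝ) : ∃ K, 0 ≤ K ∧ ∀ z : ℂ, a ≤ z.re → z.re ≤ b → 1 ≤ |z.im| →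
    ‖(Complex.Gamma z)⁻¹‖ ≤ K * Real.exp (Real.pi * |z.im|) := by
  obtain ⟨n, hn⟩ := exists_nat_ge b
  obtain ⟨K, hK0, hK⟩ := norm_inv_Gamma_le_left (a - n)
  refine ⟨K, hK0, fun z h1 h2 h3 => ?_⟩
  have h4 := norm_inv_Gamma_add_nat n (z := z - n) (by simpa using h3)
  rw [sub_add_cancel] at h4
  refine le_trans h4 ?_
  have h5 := hK (z - n) (by simp; linarith) (by simp; linarith)
  simpa using h5

theorem norm_Gamma_add_nat_le {s : ℂ} {R : ℝ} (n : ℕ)
    (h : ∀ i : ℕ, i < n → s + i ≠ 0 ∧ ‖s + i‖ ≤ R) :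
    ‖Complex.Gamma (s + n)‖ ≤ R ^ n * ‖Complex.Gamma s‖ := by
  induction n with
  | zero => simp
  | succ n ih =>
    have h1 := h n (Nat.lt_succ_self n)
    have h2 := ih fun i hi => h i (Nat.lt_succ_of_lt hi)
    have hR : 0 ≤ R := le_trans (norm_nonneg _) h1.2
    rw [Nat.cast_succ, ← add_assoc, Complex.Gamma_add_one _ h1.1, norm_mul, pow_succ', mul_assoc]
    exact mul_le_mul h1.2 h2 (norm_nonneg _) hR

theorem norm_Gamma_ratio {j : ℕ} {s : ℂ} (hs : s.re = 1 / 2 - j) :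
    ‖Complex.Gamma (1 - s)‖ * ‖(Complex.Gamma s)⁻¹‖ ≤ (j + |s.im|) ^ (2 * j) := by
  have h1 : conj (1 - s) = s + ((2 * j : ℕ) : ℂ) := by
    apply Complex.ext
    · simp [hs]
      ring
    · simp
  have h2 : ‖Complex.Gamma (1 - s)‖ = ‖Complex.Gamma (s + ((2 * j : ℕ) : ℂ))‖ := by
    rw [← h1, Complex.Gamma_conj, Complex.norm_conj]
  have h3 := norm_Gamma_add_nat_le (s := s) (R := j + |s.im|) (2 * j) fun i hi => ?_
  · rw [h2, norm_inv]
    refine le_trans (mul_le_mul_of_nonneg_right h3 (inv_nonneg.mpr (norm_nonneg _))) ?_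
    rw [mul_assoc]
    exact mul_le_of_le_one_right (by positivity) mul_inv_le_one
  · have hre : (s + i).re = 1 / 2 - j + i := by simp [hs]
    have hi' : (i : ℝ) + 1 ≤ 2 * j := by exact_mod_cast hi
    have hi0 : (0 : ℝ) ≤ i := Nat.cast_nonneg i
    constructor
    · intro h
      rw [h, Complex.zero_re] at hre
      have h4 : (1 : ℝ) + 2 * i = 2 * j := by linarith
      have h5 : 1 + 2 * i = 2 * j := by exact_mod_cast h4
      omega
    · refine le_trans (Complex.norm_le_abs_re_add_abs_im _) ?_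
      have h6 : |(s + i).re| ≤ j := by
        rw [hre, abs_le]
        constructor <;> linarith
      have h7 : (s + i).im = s.im := by simp
      rw [h7]
      linarith

/-! ### Phragmén–Lindelöf with polynomial bounds -/

theorem PL_poly {f : ℂ → ℂ} (hf : Differentiable ℂ f) {a b : ℝ} (hab : a < b) {K A : ℝ}
    (hA : 0 ≤ A)
    (hgr : ∀ s : ℂ, a ≤ s.re → s.re ≤ b → 1 ≤ |s.im| → ‖f s‖ ≤ K * Real.exp (A * |s.im|))
    {M : ℝ} (hM : 0 ≤ M) {B : ℕ} (ha : ∀ s : ℂ, s.re = a → ‖f s‖ ≤ M * (1 + |s.im|) ^ B)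
    (hb : ∀ s : ℂ, s.re = b → ‖f s‖ ≤ M * (1 + |s.im|) ^ B) {s : ℂ} (h1 : a ≤ s.re)
    (h2 : s.re ≤ b) : ‖f s‖ ≤ M * (2 * (b - a + 1)) ^ B * (1 + |s.im|) ^ B := by
  set w : ℂ → ℂ := fun z => z - a + 1 with hw
  have hw1 : ∀ z : ℂ, a ≤ z.re → 1 ≤ ‖w z‖ := by
    intro z hz
    refine le_trans ?_ (Complex.re_le_norm _)
    simp [hw]
    linarith
  have hw2 : ∀ z : ℂ, a ≤ z.re → 1 + |z.im| ≤ 2 * ‖w z‖ := by
    intro z hz
    have h3 := hw1 z hz
    have h4 : |z.im| ≤ ‖w z‖ := by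
      refine le_trans (le_of_eq ?_) (Complex.abs_im_le_norm _)
      simp [hw]
    linarith
  have hw0 : ∀ z : ℂ, a ≤ z.re → w z ≠ 0 := by
    intro z hz h
    have := hw1 z hz
    rw [h, norm_zero] at this
    linarith
  set g : ℂ → ℂ := fun z => f z / w z ^ B with hg
  have hedge : ∀ z : ℂ, a ≤ z.re → ‖f z‖ ≤ M * (1 + |z.im|) ^ B → ‖g z‖ ≤ M * 2 ^ B := by
    intro z hz h
    have h3 : 0 < ‖w z‖ ^ B := pow_pos (lt_of_lt_of_le one_pos (hw1 z hz)) B
    simp only [hg]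
    rw [norm_div, norm_pow, div_le_iff₀ h3, mul_assoc, ← mul_pow]
    refine le_trans h (mul_le_mul_of_nonneg_left ?_ hM)
    exact pow_le_pow_left₀ (by positivity) (hw2 z hz) B
  have hgd : DiffContOnCl ℂ g (Complex.re ⁻¹' Set.Ioo a b) := by
    refine DifferentiableOn.diffContOnCl ?_
    have hcl : closure (Complex.re ⁻¹' Set.Ioo a b) ⊆ Complex.re ⁻¹' Set.Ici a :=
      closure_minimal (fun z hz => le_of_lt hz.1) (isClosed_Ici.preimage Complex.continuous_re)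
    intro z hz
    have hz' : a ≤ z.re := hcl hz
    refine DifferentiableAt.differentiableWithinAt ?_
    refine (hf z).div ?_ (pow_ne_zero _ (hw0 z hz'))
    simp only [hw]
    fun_prop
  have hc : 0 < Real.pi / (b - a) := div_pos Real.pi_pos (by linarith)
  have hPL := PhragmenLindelof.vertical_strip (C := M * 2 ^ B) (z := s) hgd
    ⟨Real.pi / (b - a) / 2, half_lt_self hc, A / (Real.pi / (b - a) / 2), ?_⟩
    (fun z hz => hedge z hz.ge (ha z hz)) (fun z hz => hedge z (by linarith) (hb z hz)) h1 h2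
  · have h3 : f s = g s * w s ^ B := by
      simp only [hg]
      rw [div_mul_cancel₀ _ (pow_ne_zero _ (hw0 s h1))]
    have h4 : ‖w s‖ ≤ (b - a + 1) * (1 + |s.im|) := by
      refine le_trans (Complex.norm_le_abs_re_add_abs_im _) ?_
      have h5 : (w s).re = s.re - a + 1 := by simp [hw]
      have h6 : (w s).im = s.im := by simp [hw]
      rw [h5, h6, abs_of_nonneg (by linarith)]
      nlinarith [abs_nonneg s.im]
    rw [h3, norm_mul, norm_pow, mul_pow, mul_assoc, mul_assoc, ← mul_pow, ← mul_assoc]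
    exact mul_le_mul hPL (pow_le_pow_left₀ (norm_nonneg _) h4 B) (by positivity) (by positivity)
  · set c := Real.pi / (b - a) / 2 with hcdef
    have hc0 : 0 < c := half_pos hc
    refine Asymptotics.IsBigO.of_bound (max K 0) ?_
    have e1 : ∀ᶠ z in Filter.comap (_root_.abs ∘ Complex.im) Filter.atTop ⊓
        Filter.principal (Complex.re ⁻¹' Set.Ioo a b), 1 ≤ |z.im| :=
      Filter.Eventually.filter_mono inf_le_left
        (Filter.tendsto_comap.eventually (Filter.eventually_ge_atTop 1))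
    have e2 : ∀ᶠ z in Filter.comap (_root_.abs ∘ Complex.im) Filter.atTop ⊓
        Filter.principal (Complex.re ⁻¹' Set.Ioo a b), z ∈ Complex.re ⁻¹' Set.Ioo a b :=
      Filter.Eventually.filter_mono inf_le_right (Filter.mem_principal_self _)
    filter_upwards [e1, e2] with z hz1 hz2
    have h3 := hgr z hz2.1.le hz2.2.le hz1
    have h4 : ‖g z‖ ≤ ‖f z‖ := by
      simp only [hg]
      rw [norm_div, norm_pow]
      exact div_le_self (norm_nonneg _) (one_le_pow₀ (hw1 z hz2.1.le))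
    rw [Real.norm_eq_abs, abs_of_pos (Real.exp_pos _)]
    refine le_trans h4 (le_trans h3 (mul_le_mul (le_max_left _ _) (Real.exp_le_exp.mpr ?_)
      (Real.exp_pos _).le (le_max_right _ _)))
    have h5 : c * |z.im| ≤ Real.exp (c * |z.im|) := by
      linarith [Real.add_one_le_exp (c * |z.im|)]
    have h6 : A * |z.im| = A / c * (c * |z.im|) := by field_simp
    rw [h6]
    exact mul_le_mul_of_nonneg_left h5 (div_nonneg hA hc0.le)

/-! ### a priori bounds -/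

theorem Lam0_bdd (P : WeakFEPair ℂ) (a b : ℝ) :
    ∃ L, 0 ≤ L ∧ ∀ s : ℂ, a ≤ s.re → s.re ≤ b → ‖P.Λ₀ s‖ ≤ L := by
  have ha : MellinConvergent P.f_modif a := (P.isStrongFEPair_toStrongFEPair.hasMellin a).1
  have hb : MellinConvergent P.f_modif b := (P.isStrongFEPair_toStrongFEPair.hasMellin b).1
  have hi := (Integrable.norm ha).add (Integrable.norm hb)
  refine ⟨max (∫ t in Set.Ioi (0 : ℝ), (‖(t : ℂ) ^ ((a : ℂ) - 1) • P.f_modif t‖ +
    ‖(t : ℂ) ^ ((b : ℂ) - 1) • P.f_modif t‖)) 0, le_max_right _ _, fun s h1 h2 => ?_⟩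
  refine le_trans ?_ (le_max_left _ _)
  unfold WeakFEPair.Λ₀ mellin
  refine norm_integral_le_of_norm_le hi ?_
  refine (ae_restrict_iff' measurableSet_Ioi).mpr (Filter.Eventually.of_forall fun t ht => ?_)
  have ht' : 0 < t := ht
  simp only [norm_smul, Complex.norm_cpow_eq_rpow_re_of_pos ht', Complex.sub_re, Complex.one_re,
    Complex.ofReal_re]
  rw [← add_mul]
  refine mul_le_mul_of_nonneg_right ?_ (norm_nonneg _)
  have h3 := Real.rpow_nonneg ht'.le (a - 1)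
  have h4 := Real.rpow_nonneg ht'.le (b - 1)
  rcases le_total t 1 with h | h
  · have := Real.rpow_le_rpow_of_exponent_ge ht' h (show a - 1 ≤ s.re - 1 by linarith)
    linarith
  · have := Real.rpow_le_rpow_of_exponent_le h (show s.re - 1 ≤ b - 1 by linarith)
    linarith

theorem Ef_apriori {q : O} {φ : O → ℂ} (hq : q ≠ 0) (hφ : Per q φ) (a b : ℝ) :
    ∃ K, ∀ s : ℂ, a ≤ s.re → s.re ≤ b → 1 ≤ |s.im| →
      ‖Ef φ s‖ ≤ K * Real.exp ((Real.pi + 1) * |s.im|) := by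
  obtain ⟨L, hL0, hL⟩ := Lam0_bdd (thP hq hφ) a b
  obtain ⟨K, hK0, hK⟩ := norm_inv_Gamma_le a (b + 1)
  set R := |a| + |b| + 1 with hR
  have hR1 : 1 ≤ R := by
    have := abs_nonneg a
    have := abs_nonneg b
    linarith
  refine ⟨c0 ^ b * (R * K * L + R * K * ‖φ 0‖ + K * ‖(N q : ℂ)⁻¹‖ * ‖gs q φ 0‖),
    fun s h1 h2 h3 => ?_⟩
  set E1 := Real.exp (Real.pi * |s.im|) with hE1
  set E2 := Real.exp |s.im| with hE2
  have hE : Real.exp ((Real.pi + 1) * |s.im|) = E1 * E2 := by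
    rw [hE1, hE2, ← Real.exp_add]
    congr 1
    ring
  have hE10 : 0 ≤ E1 := (Real.exp_pos _).le
  have hE21 : 1 + |s.im| ≤ E2 := by linarith [Real.add_one_le_exp |s.im|]
  have hE22 : 1 ≤ E2 := by linarith [abs_nonneg s.im]
  have g1 : ‖(Complex.Gamma s)⁻¹‖ ≤ K * E1 := hK s h1 (by linarith) h3
  have g2 : ‖(Complex.Gamma (s + 1))⁻¹‖ ≤ K * E1 := by
    refine le_trans ?_ g1
    simpa using norm_inv_Gamma_add_nat 1 h3
  have g3 : ‖s - 1‖ ≤ R * E2 := by
    refine le_trans (Complex.norm_le_abs_re_add_abs_im _) ?_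
    have h4 : |(s - 1).re| ≤ R := by
      rw [abs_le]
      have := neg_abs_le a
      have := le_abs_self b
      have := abs_nonneg a
      have := abs_nonneg b
      simp only [Complex.sub_re, Complex.one_re]
      constructor <;> linarith
    have h5 : (s - 1).im = s.im := by simp
    rw [h5]
    nlinarith [abs_nonneg s.im]
  have g4 : ‖(c0 : ℂ) ^ s‖ ≤ c0 ^ b := by
    rw [Complex.norm_cpow_eq_rpow_re_of_pos c0_pos]
    exact Real.rpow_le_rpow_of_exponent_le one_lt_c0.le h2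
  have g5 := hL s h1 h2
  rw [Ef_eq_EE hq hφ, EE, norm_mul, hE, mul_assoc (c0 ^ b)]
  refine mul_le_mul g4 ?_ (norm_nonneg _) (Real.rpow_nonneg c0_pos.le _)
  refine le_trans (norm_add_le _ _) (le_trans (add_le_add_left (norm_sub_le _ _) _) ?_)
  simp only [norm_mul]
  have t1 : ‖s - 1‖ * ‖(Complex.Gamma s)⁻¹‖ * ‖(thP hq hφ).Λ₀ s‖ ≤ R * E2 * (K * E1) * L := by
    gcongr
  have t2 : ‖s - 1‖ * ‖(Complex.Gamma (s + 1))⁻¹‖ * ‖φ 0‖ ≤ R * E2 * (K * E1) * ‖φ 0‖ := by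
    gcongr
  have t3 : ‖(Complex.Gamma s)⁻¹‖ * ‖(N q : ℂ)⁻¹‖ * ‖gs q φ 0‖ ≤
      K * E1 * E2 * ‖(N q : ℂ)⁻¹‖ * ‖gs q φ 0‖ := by
    gcongr
    exact le_trans g1 (le_mul_of_one_le_right (by positivity) hE22)
  refine le_trans (add_le_add (add_le_add t1 t2) t3) (le_of_eq ?_)
  ring

theorem norm_dser_le {φ : O → ℂ} {M : ℝ} (hM : ∀ n, ‖φ n‖ ≤ M) {s : ℂ} (hs : 1 < s.re) :
    ‖dser φ s‖ ≤ M * ∑' n : O, N n ^ (-s.re) := by
  have hM0 : 0 ≤ M := le_trans (norm_nonneg _) (hM 0)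
  refine tsum_of_norm_bounded ((summable_N_rpow hs).hasSum.mul_left M) fun n => ?_
  by_cases hn : n = 0
  · simp only [hn, if_true, norm_zero]
    exact mul_nonneg hM0 (Real.rpow_nonneg (N_nonneg _) _)
  · simp only [hn, if_false]
    rw [norm_mul, Complex.norm_cpow_eq_rpow_re_of_pos (N_pos hn), Complex.neg_re]
    exact mul_le_mul_of_nonneg_right (hM n) (Real.rpow_nonneg (N_nonneg _) _)

theorem norm_gs_le_N {q : O} {φ : O → ℂ} (hq : q ≠ 0) (hM : ∀ n, ‖φ n‖ ≤ 1) (k : O) :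
    ‖gs q φ k‖ ≤ N q := by
  unfold gs
  refine le_trans (norm_sum_le _ _) ?_
  refine le_trans (Finset.sum_le_card_nsmul _ _ 1 fun x _ => ?_) ?_
  · rw [norm_mul, norm_ad, mul_one]
    exact hM x
  · rw [card_res hq, nsmul_eq_mul, mul_one]
    exact le_rfl

theorem tsum_N_rpow_nonneg (σ : ℝ) : 0 ≤ ∑' n : O, N n ^ σ :=
  tsum_nonneg fun _ => Real.rpow_nonneg (N_nonneg _) _

theorem Ef_left {q : O} {φ : O → ℂ} (hq : q ≠ 0) (hφ : Per q φ) (hM : ∀ n, ‖φ n‖ ≤ 1)
    {j : ℕ} (hj : 1 ≤ j) {s : ℂ} (hs : s.re = 1 / 2 - j) :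
    ‖Ef φ s‖ ≤ N q ^ (2 * j + 1) * ((j + 1 : ℝ) ^ (2 * j + 1) * ∑' n : O, N n ^ (-(1 / 2 + j : ℝ))) *
      (1 + |s.im|) ^ (2 * j + 1) := by
  have hj' : (1 : ℝ) ≤ j := by exact_mod_cast hj
  have hs0 : s.re < 0 := by linarith
  have h1 : s ≠ 1 := by
    rintro rfl
    simp at hs0
    linarith
  have hN := one_le_N hq
  have ht := abs_nonneg s.im
  have e : Ef φ s = (s - 1) * Lf φ s := by
    rw [Lf_eq_div φ h1, mul_div_cancel₀ _ (sub_ne_zero.mpr h1)]
  have g1 : ‖s - 1‖ ≤ (j + 1) * (1 + |s.im|) := by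
    refine le_trans (Complex.norm_le_abs_re_add_abs_im _) ?_
    have h4 : |(s - 1).re| ≤ j + 1 := by
      rw [abs_le]
      simp only [Complex.sub_re, Complex.one_re]
      constructor <;> linarith
    have h5 : (s - 1).im = s.im := by simp
    rw [h5]
    nlinarith
  have g2 : ‖(N q : ℂ) ^ (-s)‖ ≤ N q ^ (2 * j) := by
    rw [Complex.norm_cpow_eq_rpow_re_of_pos (N_pos hq), ← Real.rpow_natCast]
    refine Real.rpow_le_rpow_of_exponent_le hN ?_
    simp only [Complex.neg_re, hs]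
    push_cast
    linarith
  have g3 : ‖(c0 : ℂ) ^ (2 * s - 1)‖ ≤ 1 := by
    rw [Complex.norm_cpow_eq_rpow_re_of_pos c0_pos]
    refine Real.rpow_le_one_of_one_le_of_nonpos one_lt_c0.le ?_
    simp
    linarith
  have g4 : ‖Complex.Gamma (1 - s)‖ * ‖(Complex.Gamma s)⁻¹‖ ≤ ((j + 1) * (1 + |s.im|)) ^ (2 * j) := by
    refine le_trans (norm_Gamma_ratio hs) (pow_le_pow_left₀ (by positivity) ?_ _)
    nlinarith
  have hre : (1 - s).re = 1 / 2 + j := by
    simp only [Complex.sub_re, Complex.one_re, hs]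
    ring
  have g5 : ‖dser (gs q φ) (1 - s)‖ ≤ N q * ∑' n : O, N n ^ (-(1 / 2 + j : ℝ)) := by
    rw [← hre]
    exact norm_dser_le (norm_gs_le_N hq hM) (by rw [hre]; linarith)
  have hZ := tsum_N_rpow_nonneg (-(1 / 2 + j : ℝ))
  rw [e, Lf_fe hq hφ hs0]
  simp only [norm_mul]
  calc _ = ‖s - 1‖ * ‖(N q : ℂ) ^ (-s)‖ * ‖(c0 : ℂ) ^ (2 * s - 1)‖ *
        (‖Complex.Gamma (1 - s)‖ * ‖(Complex.Gamma s)⁻¹‖) * ‖dser (gs q φ) (1 - s)‖ := by ring
    _ ≤ (j + 1) * (1 + |s.im|) * N q ^ (2 * j) * 1 * ((j + 1) * (1 + |s.im|)) ^ (2 * j) *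
        (N q * ∑' n : O, N n ^ (-(1 / 2 + j : ℝ))) := by gcongr
    _ = _ := by
      rw [mul_pow]
      ring

theorem Ef_right {q : O} {φ : O → ℂ} (hq : q ≠ 0) (hφ : Per q φ) (hM : ∀ n, ‖φ n‖ ≤ 1)
    {b : ℝ} (hb : 2 ≤ b) {s : ℂ} (hs : s.re = b) :
    ‖Ef φ s‖ ≤ (b * ∑' n : O, N n ^ (-b)) * (1 + |s.im|) := by
  have hs1 : 1 < s.re := by linarith
  have ht := abs_nonneg s.im
  have g1 : ‖s - 1‖ ≤ b * (1 + |s.im|) := by
    refine le_trans (Complex.norm_le_abs_re_add_abs_im _) ?_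
    have h4 : |(s - 1).re| ≤ b := by
      rw [abs_le]
      simp only [Complex.sub_re, Complex.one_re]
      constructor <;> linarith
    have h5 : (s - 1).im = s.im := by simp
    rw [h5]
    nlinarith
  have g2 := norm_dser_le hM hs1
  rw [hs, one_mul] at g2
  rw [Ef_eq hq hφ hs1, norm_mul]
  refine le_trans (mul_le_mul g1 g2 (norm_nonneg _) (by positivity)) (le_of_eq ?_)
  ring

theorem Ef_growth' (σ1 σ2 : ℝ) : ∃ (C : ℝ) (B : ℕ), 0 ≤ C ∧ ∀ (q : O) (φ : O → ℂ), q ≠ 0 →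
    Per q φ → (∀ n, ‖φ n‖ ≤ 1) → ∀ s : ℂ, σ1 ≤ s.re → s.re ≤ σ2 →
      ‖Ef φ s‖ ≤ C * (N q * (1 + |s.im|)) ^ B := by
  obtain ⟨j0, hj0⟩ := exists_nat_ge (-σ1)
  set j := j0 + 1 with hj
  have hj1 : 1 ≤ j := by omega
  have hjr : (j : ℝ) = j0 + 1 := by rw [hj]; push_cast; ring
  have hj00 : (0 : ℝ) ≤ j0 := Nat.cast_nonneg _
  set a : ℝ := 1 / 2 - j with ha
  set b : ℝ := max σ2 2 with hb
  have hb2 : 2 ≤ b := le_max_right _ _
  have hab : a < b := by linarith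
  set Z1 := (j + 1 : ℝ) ^ (2 * j + 1) * ∑' n : O, N n ^ (-(1 / 2 + j : ℝ)) with hZ1
  set Z2 := b * ∑' n : O, N n ^ (-b) with hZ2
  have hZ10 : 0 ≤ Z1 := mul_nonneg (by positivity) (tsum_N_rpow_nonneg _)
  have hZ20 : 0 ≤ Z2 := mul_nonneg (by linarith) (tsum_N_rpow_nonneg _)
  have hba : 0 ≤ 2 * (b - a + 1) := by linarith
  refine ⟨(Z1 + Z2) * (2 * (b - a + 1)) ^ (2 * j + 1), 2 * j + 1, by positivity,
    fun q φ hq hφ hM s h1 h2 => ?_⟩
  obtain ⟨K, hK⟩ := Ef_apriori hq hφ a b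
  have hN := one_le_N hq
  have hNp : 1 ≤ N q ^ (2 * j + 1) := one_le_pow₀ hN
  have h := PL_poly (Ef_differentiable hq hφ) hab (K := K) (A := Real.pi + 1) (by positivity) hK
    (M := N q ^ (2 * j + 1) * (Z1 + Z2)) (by positivity) (B := 2 * j + 1) (fun z hz => ?_)
    (fun z hz => ?_) (s := s) (by linarith) (le_trans h2 (le_max_left _ _))
  · refine le_trans h (le_of_eq ?_)
    rw [mul_pow (N q)]
    ring
  · refine le_trans (Ef_left hq hφ hM hj1 hz) ?_
    rw [← hZ1]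
    gcongr
    linarith
  · refine le_trans (Ef_right hq hφ hM hb2 hz) ?_
    rw [← hZ2]
    have h3 : 1 ≤ 1 + |z.im| := by linarith [abs_nonneg z.im]
    refine mul_le_mul ?_ (le_self_pow₀ h3 (by omega)) (by positivity) (by positivity)
    nlinarith

/-- polynomial growth, uniform in the modulus -/
theorem Ef_growth (σ1 σ2 : ℝ) : ∃ (C : ℝ) (B : ℕ), ∀ (q : O) (φ : O → ℂ), q ≠ 0 → Per q φ →
    (∀ n, ‖φ n‖ ≤ 1) → ∀ s : ℂ, σ1 ≤ s.re → s.re ≤ σ2 →
      ‖Ef φ s‖ ≤ C * (N q * (1 + |s.im|)) ^ B := by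
  obtain ⟨C, B, -, h⟩ := Ef_growth' σ1 σ2
  exact ⟨C, B, h⟩
/-- the same for `Lf` in the entire case (Cauchy estimate / maximum principle near `s = 1`) -/
theorem Lf_growth (σ1 σ2 : ℝ) : ∃ (C : ℝ) (B : ℕ), ∀ (q : O) (φ : O → ℂ), q ≠ 0 → Per q φ →
    (∀ n, ‖φ n‖ ≤ 1) → Ef φ 1 = 0 → ∀ s : ℂ, σ1 ≤ s.re → s.re ≤ σ2 →
      ‖Lf φ s‖ ≤ C * (N q * (1 + |s.im|)) ^ B := by
  obtain ⟨C, B, hC, h⟩ := Ef_growth' (min σ1 0) (max σ2 2)
  refine ⟨C * 2 ^ B, B, fun q φ hq hφ hM h0 s h1 h2 => ?_⟩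
  have hN := one_le_N hq
  have key : ∀ z : ℂ, 1 ≤ ‖z - 1‖ → ‖Lf φ z‖ ≤ ‖Ef φ z‖ := by
    intro z hz
    have hz1 : z ≠ 1 := by
      rintro rfl
      simp at hz
      linarith
    rw [Lf_eq_div φ hz1, norm_div]
    exact div_le_self (norm_nonneg _) hz
  have ht := abs_nonneg s.im
  by_cases hs : 1 ≤ ‖s - 1‖
  · refine le_trans (key s hs) (le_trans (h q φ hq hφ hM s (le_trans (min_le_left _ _) h1)
      (le_trans h2 (le_max_left _ _))) ?_)
    refine mul_le_mul_of_nonneg_right (le_mul_of_one_le_right hC (one_le_pow₀ (by norm_num))) ?_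
    positivity
  · have hs' : s ∈ closure (Metric.ball (1 : ℂ) 1) := by
      refine subset_closure ?_
      rw [Metric.mem_ball, dist_eq_norm]
      exact lt_of_not_ge hs
    have hb := Complex.norm_le_of_forall_mem_frontier_norm_le (U := Metric.ball (1 : ℂ) 1)
      Metric.isBounded_ball (Lf_differentiable hq hφ h0).diffContOnCl
      (C := C * (N q * 2) ^ B) (fun z hz => ?_) hs'
    · refine le_trans hb ?_
      rw [mul_assoc, ← mul_pow]
      refine mul_le_mul_of_nonneg_left (pow_le_pow_left₀ (by positivity) ?_ _) hC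
      nlinarith
    · rw [frontier_ball _ one_ne_zero, Metric.mem_sphere, dist_eq_norm] at hz
      have h3 := Complex.abs_re_le_norm (z - 1)
      have h4 := Complex.abs_im_le_norm (z - 1)
      rw [hz] at h3 h4
      simp only [Complex.sub_re, Complex.one_re, Complex.sub_im, Complex.one_im, sub_zero] at h3 h4
      rw [abs_le] at h3
      refine le_trans (key z hz.ge) (le_trans (h q φ hq hφ hM z
        (le_trans (min_le_right _ _) (by linarith)) (le_trans (by linarith) (le_max_right _ _))) ?_)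
      refine mul_le_mul_of_nonneg_left (pow_le_pow_left₀ (by positivity) ?_ _) hC
      nlinarith

end Crest.Agent.R17
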