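import Crest.Agent.R17.LGrowth

/-!
# R17 / LCont : contour shifting, continuation and growth of `dser φ` for periodic `φ`

`θ_φ(t) = ∑ φ(k) Om(t N k)` satisfies `θ_φ(t) = (t N q)⁻¹ θ_{φ̂}(1/(t N q))` (`poisson_per`,
`φ̂ = gs q φ`), so (Mathlib `WeakFEPair`, or directly by splitting the Mellin integral at
`t = (N q)^{-1/2}`) `Λ_φ(s) = Γ(s) c0^{-s} dser φ s` continues, `s(s-1)Λ_φ(s)` is entire and bounded by
a polynomial on vertical strips, `Λ_φ(s) = (N q)^{-s} Λ_{φ̂}(1-s)`.  `1/Γ` is entire with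
`|1/Γ(s)| ≤ C e^{π|t|}` on strips (reflection formula + recursion), which is enough to shift Gaussian
contour integrals.  Polynomial growth: on `Re s = 1/2 - j` one has exactly
`|Γ(1-s)/Γ(s)| = ∏_{i<2j} |1/2 - j + i + it| ≤ (j + |t|)^{2j}`; apply the maximum principle /
Phragmén–Lindelöf (`PhragmenLindelof.vertical_strip`) or the three lines theorem to
`Ef φ s · exp((s - it₀)²)` on the strip `1/2 - j ≤ Re s ≤ 2`.
-/

set_option autoImplicit false

noncomputable section

open scoped Classical ComplexConjugate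
open MeasureTheory

namespace Crest.Agent.R17

variable {q : O} {φ : O → ℂ}

namespace LM

open Complex Filter Topology

theorem cpow_eq {x : ℝ} (hx : 0 < x) (w : ℂ) : (x : ℂ) ^ w = cexp (w * Real.log x) := by
  rw [cpow_def_of_ne_zero (ofReal_ne_zero.2 hx.ne'), ← ofReal_log hx.le, mul_comm]

theorem entire_ext {f g : ℂ → ℂ} (hf : Differentiable ℂ f) (hg : Differentiable ℂ g)
    (h : ∀ s : ℂ, 1 < s.re → f s = g s) : f = g := by
  have h1 : AnalyticOnNhd ℂ f Set.univ := hf.differentiableOn.analyticOnNhd isOpen_univ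
  have h2 : AnalyticOnNhd ℂ g Set.univ := hg.differentiableOn.analyticOnNhd isOpen_univ
  refine h1.eq_of_eventuallyEq h2 (z₀ := 2) ?_
  have h3 : {s : ℂ | 1 < s.re} ∈ nhds (2 : ℂ) :=
    (isOpen_lt continuous_const Complex.continuous_re).mem_nhds (by simp)
  filter_upwards [h3] with s hs using h s hs

theorem N_cpow_mul (a b : O) (w : ℂ) :
    (N (a * b) : ℂ) ^ w = (N a : ℂ) ^ w * (N b : ℂ) ^ w := by
  rw [N_mul, ofReal_mul, mul_cpow_ofReal_nonneg (N_nonneg a) (N_nonneg b)]

theorem dser_prim (f : O → ℂ) (s : ℂ) :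
    dser (prim f) s = ∑' n : O, if Prim n then f n * (N n : ℂ) ^ (-s) else 0 := by
  unfold dser prim
  refine tsum_congr fun n => ?_
  by_cases h : Prim n
  · simp [h, h.ne_zero]
  · simp [h]

theorem norm_term_le {f : O → ℂ} (hb : ∀ n, ‖f n‖ ≤ 1) (s : ℂ) {n : O} (hn : n ≠ 0) :
    ‖f n * (N n : ℂ) ^ (-s)‖ ≤ N n ^ (-s.re) := by
  rw [norm_mul, norm_cpow_eq_rpow_re_of_pos (N_pos hn), neg_re]
  exact mul_le_of_le_one_left (Real.rpow_nonneg (N_nonneg n) _) (hb n)

theorem summable_term {f : O → ℂ} (hb : ∀ n, ‖f n‖ ≤ 1) {s : ℂ} (hs : 1 < s.re) (P : O → Prop)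
    [DecidablePred P] (hP : ∀ n, P n → n ≠ 0) :
    Summable (fun n : O => if P n then f n * (N n : ℂ) ^ (-s) else 0) := by
  refine Summable.of_norm_bounded (summable_N_rpow hs) fun n => ?_
  split_ifs with h
  · exact norm_term_le hb s (hP n h)
  · rw [norm_zero]
    exact Real.rpow_nonneg (N_nonneg n) _

theorem remove_one {f : O → ℂ} (hb : ∀ n, ‖f n‖ ≤ 1) {p : O} (hp : Prim p) {c : ℂ}
    (hf : ∀ m, f (p * m) = c * f m) {s : ℂ} (hs : 1 < s.re) :
    dser (prim (fun n => if ¬ p ∣ n then f n else 0)) s =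
      dser (prim f) s * (1 - c * (N p : ℂ) ^ (-s)) := by
  rw [dser_prim, dser_prim]
  have h1 := summable_term hb hs Prim (fun n h => h.ne_zero)
  have h2 := summable_term hb hs (fun n => Prim n ∧ p ∣ n) (fun n h => h.1.ne_zero)
  have h3 := tsum_prim_dvd hp (fun n => f n * (N n : ℂ) ^ (-s))
  have h4 : ∑' m : O, (if Prim m then f (p * m) * (N (p * m) : ℂ) ^ (-s) else 0) =
      (∑' n : O, if Prim n then f n * (N n : ℂ) ^ (-s) else 0) * (c * (N p : ℂ) ^ (-s)) := by
    rw [← tsum_mul_right]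
    refine tsum_congr fun m => ?_
    split_ifs with h
    · rw [hf, N_cpow_mul]
      ring
    · simp
  rw [mul_sub, mul_one, ← h4, ← h3, ← h1.tsum_sub h2]
  refine tsum_congr fun n => ?_
  by_cases h : Prim n <;> by_cases h' : p ∣ n <;> simp [h, h']

theorem remove_set {ψ : O → ℂ} (hψ : ∀ a b, ψ (a * b) = ψ a * ψ b) (hb : ∀ n, ‖ψ n‖ ≤ 1)
    {s : ℂ} (hs : 1 < s.re) (S : Finset O) (hS : ∀ p ∈ S, Prime p ∧ Prim p) :
    dser (prim (fun n => if ∀ p ∈ S, ¬ p ∣ n then ψ n else 0)) s =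
      dser (prim ψ) s * ∏ p ∈ S, (1 - ψ p * (N p : ℂ) ^ (-s)) := by
  induction S using Finset.induction_on with
  | empty => simp
  | insert p S hpS ih =>
    have hp := hS p (Finset.mem_insert_self _ _)
    have hS' : ∀ p ∈ S, Prime p ∧ Prim p := fun r hr => hS r (Finset.mem_insert_of_mem hr)
    rw [Finset.prod_insert hpS, mul_comm (1 - _), ← mul_assoc, ← ih hS',
      ← remove_one (c := ψ p) (fun n => ?_) hp.2 (fun m => ?_) hs]
    · congr 2
      funext n
      by_cases h : p ∣ n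
      · simp [h]
      · simp [h]
    · split_ifs
      · exact hb n
      · simp
    · have : (∀ r ∈ S, ¬ r ∣ p * m) ↔ (∀ r ∈ S, ¬ r ∣ m) := by
        refine forall₂_congr fun r hr => not_congr ⟨fun h => ?_, fun h => h.mul_left _⟩
        rcases (hS' r hr).1.dvd_or_dvd h with h1 | h1
        · have h2 := (hS' r hr).2.eq_of_associated hp.2
            ((hS' r hr).1.associated_of_dvd hp.1 h1)
          exact absurd (h2 ▸ hr) hpS
        · exact h1
      simp only [this]
      split_ifs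
      · exact hψ _ _
      · simp

theorem coprime_iff {n a : O} (hn : Prim n) (ha : a ≠ 0) :
    IsCoprime n a ↔ ∀ p ∈ (pdiv a).filter Prime, ¬ p ∣ n := by
  constructor
  · intro h p hp hpn
    rw [Finset.mem_filter, mem_pdiv ha] at hp
    exact hp.2.not_isUnit (h.isUnit_of_dvd' hpn hp.1.2)
  · intro h
    refine isCoprime_of_prime_dvd (fun h0 => ha h0.2) fun z hz hzn hza => ?_
    obtain ⟨u, hu, hp⟩ := exists_unit_mul_prim (hn.isCoprime_three.of_isCoprime_of_dvd_left hzn)
    have hass : Associated z (u * z) := (associated_unit_mul_right z u hu)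
    refine h (u * z) ?_ (hass.symm.dvd.trans hzn)
    rw [Finset.mem_filter, mem_pdiv ha]
    exact ⟨⟨hp, hass.symm.dvd.trans hza⟩, hass.prime hz⟩

theorem norm_Gamma_le_re {s : ℂ} (hs : 0 < s.re) : ‖Gamma s‖ ≤ Real.Gamma s.re := by
  rw [Complex.Gamma_eq_integral hs, Real.Gamma_eq_integral hs, GammaIntegral]
  refine (norm_integral_le_integral_norm _).trans (le_of_eq ?_)
  refine setIntegral_congr_fun measurableSet_Ioi fun x hx => ?_
  have hx0 : 0 < x := hx
  rw [norm_mul, norm_cpow_eq_rpow_re_of_pos hx0, Complex.norm_real,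
    Real.norm_of_nonneg (Real.exp_pos _).le]
  simp

theorem Gamma_decay (m : ℕ) : ∀ a b : ℝ, 0 < a → ∃ C, 0 ≤ C ∧ ∀ σ τ : ℝ, a ≤ σ → σ ≤ b →
    ‖Gamma (σ + τ * I)‖ * (1 + |τ|) ^ m ≤ C := by
  induction m with
  | zero =>
    intro a b ha
    have h1 : ContinuousOn Real.Gamma (Set.Icc a b) := fun x hx =>
      (Real.differentiableAt_Gamma fun m h => by
        have h2 : (0 : ℝ) ≤ m := Nat.cast_nonneg m
        linarith [hx.1]).continuousAt.continuousWithinAt
    obtain ⟨C, hC⟩ := isCompact_Icc.exists_bound_of_continuousOn h1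
    refine ⟨|C|, abs_nonneg _, fun σ τ h1 h2 => ?_⟩
    have h3 := norm_Gamma_le_re (s := σ + τ * I) (by simp; linarith)
    have h4 := hC σ ⟨h1, h2⟩
    simp only [add_re, ofReal_re, mul_re, I_re, mul_zero, ofReal_im, I_im, mul_one, sub_self,
      add_zero] at h3
    rw [pow_zero, mul_one]
    exact h3.trans ((le_abs_self _).trans (h4.trans (le_abs_self C)))
  | succ m ih =>
    intro a b ha
    obtain ⟨C, hC0, hC⟩ := ih (a + 1) (b + 1) (by linarith)
    refine ⟨(1 / a + 1) * C, by positivity, fun σ τ h1 h2 => ?_⟩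
    have h3 := hC (σ + 1) τ (by linarith) (by linarith)
    have hre : a ≤ ‖(σ + τ * I : ℂ)‖ := by
      refine le_trans ?_ (re_le_norm _)
      simpa using h1
    have him : |τ| ≤ ‖(σ + τ * I : ℂ)‖ := by
      refine le_trans ?_ (abs_im_le_norm _)
      simp
    have h0 : (σ + τ * I : ℂ) ≠ 0 := norm_pos_iff.1 (lt_of_lt_of_le ha hre)
    have e : (((σ + 1 : ℝ) : ℂ) + τ * I : ℂ) = (σ + τ * I) + 1 := by push_cast; ring
    rw [e, Complex.Gamma_add_one _ h0, norm_mul] at h3
    have h4 : 1 + |τ| ≤ (1 / a + 1) * ‖(σ + τ * I : ℂ)‖ := by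
      have : 1 ≤ 1 / a * ‖(σ + τ * I : ℂ)‖ := by
        rw [div_mul_eq_mul_div, one_mul, le_div_iff₀ ha]
        linarith
      linarith
    calc _ = (1 + |τ|) * (‖Gamma (σ + τ * I)‖ * (1 + |τ|) ^ m) := by ring
      _ ≤ ((1 / a + 1) * ‖(σ + τ * I : ℂ)‖) * (‖Gamma (σ + τ * I)‖ * (1 + |τ|) ^ m) :=
          mul_le_mul_of_nonneg_right h4 (by positivity)
      _ = (1 / a + 1) * (‖(σ + τ * I : ℂ)‖ * ‖Gamma (σ + τ * I)‖ * (1 + |τ|) ^ m) := by ring
      _ ≤ _ := mul_le_mul_of_nonneg_left h3 (by positivity)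

theorem Ef_bound {q : O} {φ : O → ℂ} (hq : q ≠ 0) (hφ : Per q φ) (σ1 σ2 : ℝ) :
    ∃ (C : ℝ) (B : ℕ), 0 ≤ C ∧ ∀ s : ℂ, σ1 ≤ s.re → s.re ≤ σ2 →
      ‖Ef φ s‖ ≤ C * (1 + |s.im|) ^ B := by
  obtain ⟨C, B, hC⟩ := Ef_growth σ1 σ2
  obtain ⟨M, hM⟩ := hφ.bdd hq
  have hM1 : 0 < |M| + 1 := by positivity
  have hM2 : ((|M| + 1 : ℝ) : ℂ) ≠ 0 := ofReal_ne_zero.2 hM1.ne'
  have hφ' : Per q (fun n => φ n / ((|M| + 1 : ℝ) : ℂ)) := fun x t => by
    simp only [hφ x t]
  have h1 : Ef φ = fun s => ((|M| + 1 : ℝ) : ℂ) * Ef (fun n => φ n / ((|M| + 1 : ℝ) : ℂ)) s := by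
    refine entire_ext (Ef_differentiable hq hφ) ((Ef_differentiable hq hφ').const_mul _)
      fun s hs => ?_
    rw [Ef_eq hq hφ hs, Ef_eq hq hφ' hs, mul_left_comm]
    congr 1
    rw [dser, dser, ← tsum_mul_left]
    refine tsum_congr fun n => ?_
    split_ifs
    · simp
    · field_simp
  refine ⟨(|M| + 1) * (|C| * N q ^ B), B, by have := N_nonneg q; positivity, fun s h2 h3 => ?_⟩
  have h4 := hC q _ hq hφ' (fun n => ?_) s h2 h3
  · rw [h1]
    simp only
    rw [norm_mul, Complex.norm_real, Real.norm_of_nonneg hM1.le, mul_assoc]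
    refine mul_le_mul_of_nonneg_left (h4.trans ?_) hM1.le
    rw [mul_assoc, ← mul_pow]
    have := N_nonneg q
    exact mul_le_mul_of_nonneg_right (le_abs_self C) (by positivity)
  · rw [norm_div, Complex.norm_real, Real.norm_of_nonneg hM1.le, div_le_one hM1]
    linarith [hM n, le_abs_self M]

theorem shift_pole {G : ℂ → ℂ} {a b : ℝ} {s0 : ℂ} (h0 : 0 < a) (ha : a < s0.re) (hb : s0.re < b)
    (hG : DifferentiableOn ℂ G {s | 0 < s.re})
    {g : ℝ → ℝ} (hg : Integrable g) (hg0 : Filter.Tendsto g (Filter.cocompact ℝ) (nhds 0))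
    (hbd : ∀ σ τ : ℝ, a ≤ σ → σ ≤ b → ‖G (σ + τ * Complex.I)‖ ≤ g τ) :
    ∫ τ : ℝ, G (b + τ * Complex.I) / (b + τ * Complex.I - s0) =
      2 * Real.pi * G s0 + ∫ τ : ℝ, G (a + τ * Complex.I) / (a + τ * Complex.I - s0) := by
  have ha0 : (a : ℂ) ≠ 0 := ofReal_ne_zero.2 h0.ne'
  have hre : (s0 / a).re = s0.re / a := div_ofReal_re _ _
  have key : ∀ x : ℝ, ∫ τ : ℝ, G (a * ((x / a : ℝ) + τ * I)) / ((x / a : ℝ) + τ * I - s0 / a) =
      ∫ τ : ℝ, G (x + τ * I) / (x + τ * I - s0) := by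
    intro x
    have h1 := Measure.integral_comp_mul_left (fun τ : ℝ => G (x + τ * I) / (x + τ * I - s0)) a
    rw [abs_of_pos (inv_pos.2 h0), real_smul] at h1
    have h2 : ∫ τ : ℝ, G (x + τ * I) / (x + τ * I - s0) =
        a * ∫ τ : ℝ, G (x + (a * τ : ℝ) * I) / (x + (a * τ : ℝ) * I - s0) := by
      rw [h1, ← mul_assoc]
      push_cast
      rw [mul_inv_cancel₀ ha0, one_mul]
    rw [h2, ← integral_const_mul]
    refine integral_congr_ae (Filter.Eventually.of_forall fun τ => ?_)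
    simp only
    have e1 : (a * ((x / a : ℝ) + τ * I) : ℂ) = x + (a * τ : ℝ) * I := by
      push_cast
      field_simp
    have e2 : ((x / a : ℝ) + τ * I - s0 / a : ℂ) = (x + (a * τ : ℝ) * I - s0) / a := by
      push_cast
      field_simp
    rw [e1, e2, div_div_eq_mul_div]
    ring
  have h3 := shift_line_pole (G := fun w => G (a * w)) (a := a / a) (b := b / a) (s0 := s0 / a)
    (by rw [hre]; exact div_lt_div_of_pos_right ha h0)
    (by rw [hre]; exact div_lt_div_of_pos_right hb h0)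
    (hG.comp (by fun_prop) fun w hw => ?_) (g := fun τ => g (a * τ)) (hg.comp_mul_left' h0.ne')
    (hg0.comp (Filter.tendsto_cocompact_mul_left₀ h0.ne')) (fun σ τ h1 h2 => ?_)
  · rw [key, key, mul_div_cancel₀ _ ha0] at h3
    exact h3
  · have h1 : a / a - 1 < w.re := hw.1
    rw [div_self h0.ne', sub_self] at h1
    simpa using mul_pos h0 h1
  · have e1 : (a * (σ + τ * I) : ℂ) = (a * σ : ℝ) + (a * τ : ℝ) * I := by
      push_cast
      ring
    rw [e1]
    rw [div_le_iff₀ h0] at h1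
    rw [le_div_iff₀ h0] at h2
    exact hbd _ _ (by linarith) (by linarith)

end LM

/-- lattice sums of `Om(N(n)^k/Υ)`: `mellin_Om` on a line `σ' > 1/k`, Fubini, then
`shift_line_pole` across `z = 1/k` -/
theorem lattice_mellin (hq : q ≠ 0) (hφ : Per q φ) {k : ℕ} (hk : 1 ≤ k) {σ : ℝ} (hσ : 0 < σ)
    (hσk : σ < 1 / k) :
    Integrable (fun τ : ℝ => ‖Lf φ (k * (σ + τ * Complex.I))‖ * Gm σ τ) ∧
    ∀ Υ : ℝ, 0 < Υ →
      ∑' n : O, (if n = 0 then 0 else φ n * (Om (N n ^ k / Υ) : ℂ)) =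
        Ef φ 1 / k * Complex.Gamma (1 / k) * ((Υ / c0 : ℝ) : ℂ) ^ (1 / k : ℂ) +
        (1 / (2 * Real.pi) : ℂ) * ∫ τ : ℝ, Lf φ (k * (σ + τ * Complex.I)) *
          Complex.Gamma (σ + τ * Complex.I) * ((Υ / c0 : ℝ) : ℂ) ^ (σ + τ * Complex.I) := by
  have hk0 : (0 : ℝ) < k := Nat.cast_pos.2 hk
  have hk1 : (1 : ℝ) ≤ k := Nat.one_le_cast.2 hk
  have hkc : (k : ℂ) ≠ 0 := Nat.cast_ne_zero.2 (by omega)
  have hkσ : k * σ < 1 := by
    rw [lt_div_iff₀ hk0] at hσk
    linarith
  have hk2 : (1 : ℝ) / k ≤ 1 := by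
    rw [div_le_one hk0]
    exact hk1
  obtain ⟨C, B, hC0, hC⟩ := LM.Ef_bound hq hφ (k * σ) (k * 2)
  have hE : ∀ x τ : ℝ, σ ≤ x → x ≤ 2 →
      ‖Ef φ (k * (x + τ * Complex.I))‖ ≤ C * k ^ B * (1 + |τ|) ^ B := by
    intro x τ h1 h2
    refine (hC _ (by simpa using mul_le_mul_of_nonneg_left h1 hk0.le)
      (by simpa using mul_le_mul_of_nonneg_left h2 hk0.le)).trans ?_
    rw [mul_assoc, ← mul_pow]
    refine mul_le_mul_of_nonneg_left (pow_le_pow_left₀ (by positivity) ?_ B) hC0
    have : ((k : ℂ) * (x + τ * Complex.I)).im = k * τ := by simp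
    rw [this, abs_mul, abs_of_pos hk0]
    linarith
  have hne : ∀ x τ : ℝ, (k : ℝ) * x ≠ 1 → (k : ℂ) * (x + τ * Complex.I) ≠ 1 := by
    intro x τ h1 h2
    have := congrArg Complex.re h2
    simp at this
    exact h1 this
  refine ⟨?_, fun Υ hΥ => ?_⟩
  · refine ((integrable_Gm hσ B).const_mul (C * k ^ B / (1 - k * σ))).mono'
      (Continuous.aestronglyMeasurable (Continuous.mul (Continuous.norm ?_) (continuous_Gm hσ)))
      (Filter.Eventually.of_forall fun τ => ?_)
    · refine continuous_iff_continuousAt.2 fun τ => ?_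
      exact ContinuousAt.comp (f := fun τ : ℝ => (k : ℂ) * (σ + τ * Complex.I))
        (Lf_differentiableAt hq hφ (hne σ τ hkσ.ne)).continuousAt (by fun_prop)
    · have hG : 0 ≤ Gm σ τ := norm_nonneg _
      rw [Real.norm_of_nonneg (mul_nonneg (norm_nonneg _) hG), Lf_eq_div _ (hne σ τ hkσ.ne),
        norm_div]
      have h1 : 1 - k * σ ≤ ‖(k : ℂ) * (σ + τ * Complex.I) - 1‖ := by
        refine le_trans ?_ (Complex.abs_re_le_norm _)
        have : ((k : ℂ) * (σ + τ * Complex.I) - 1).re = k * σ - 1 := by simp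
        rw [this, abs_sub_comm]
        exact le_abs_self _
      have h2 := div_le_div₀ (by positivity) (hE σ τ le_rfl (by linarith)) (by linarith) h1
      refine (mul_le_mul_of_nonneg_right h2 hG).trans (le_of_eq ?_)
      ring
  · have hx0 : 0 < Υ / c0 := div_pos hΥ c0_pos
    set x0 := Υ / c0 with hx0def
    have hx0c : (x0 : ℂ) ≠ 0 := Complex.ofReal_ne_zero.2 hx0.ne'
    let G : ℂ → ℂ := fun z => Ef φ (k * z) / k * Complex.Gamma z * (x0 : ℂ) ^ z
    have hG : DifferentiableOn ℂ G {s | 0 < s.re} := by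
      intro z hz
      refine DifferentiableAt.differentiableWithinAt ?_
      refine (DifferentiableAt.mul (DifferentiableAt.div_const ?_ _) ?_).mul ?_
      · exact (Ef_differentiable hq hφ _).comp z (by fun_prop)
      · refine Complex.differentiableAt_Gamma _ fun m h => ?_
        have h1 : 0 < z.re := hz
        have h2 : (0 : ℝ) ≤ m := Nat.cast_nonneg m
        rw [h] at h1
        simp at h1
        linarith
      · exact differentiableAt_id.const_cpow (Or.inl hx0c)
    obtain ⟨D, hD0, hD⟩ := LM.Gamma_decay (B + 2) σ 2 hσ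
    have hL : ∀ x τ : ℝ, (k : ℝ) * x ≠ 1 →
        G (x + τ * Complex.I) / (x + τ * Complex.I - 1 / k) =
        Lf φ (k * (x + τ * Complex.I)) * Complex.Gamma (x + τ * Complex.I) *
          (x0 : ℂ) ^ (x + τ * Complex.I) := by
      intro x τ h1
      have h2 := sub_ne_zero.2 (hne x τ h1)
      have h3 : (x + τ * Complex.I - 1 / k : ℂ) = (k * (x + τ * Complex.I) - 1) / k := by
        field_simp
      rw [Lf_eq_div _ (hne x τ h1), h3]
      simp only [G]
      field_simp
    have hre : (1 / k : ℂ).re = 1 / k := by simp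
    have hs := LM.shift_pole (G := G) (a := σ) (b := 2) (s0 := 1 / k) hσ (by rw [hre]; exact hσk)
      (by rw [hre]; linarith) hG (g := fun τ => C * k ^ B * D * (1 + x0 ^ 2) * (1 + τ ^ 2)⁻¹)
      (integrable_inv_one_add_sq.const_mul _) ?_ ?_
    rotate_left
    · have h1 : Filter.Tendsto (fun τ : ℝ => 1 + τ ^ 2) (Filter.cocompact ℝ) Filter.atTop := by
        refine Filter.tendsto_atTop_add_const_left _ _ ?_
        have := (Filter.tendsto_pow_atTop (α := ℝ) (n := 2) (by norm_num)).comp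
          (tendsto_norm_cocompact_atTop (E := ℝ))
        refine this.congr fun τ => ?_
        simp
      simpa using (h1.inv_tendsto_atTop).const_mul (C * k ^ B * D * (1 + x0 ^ 2))
    · intro x τ h1 h2
      have h3 := hE x τ h1 h2
      have h4 := hD x τ h1 h2
      have h5 : ‖(x0 : ℂ) ^ (x + τ * Complex.I : ℂ)‖ ≤ 1 + x0 ^ 2 := by
        rw [Complex.norm_cpow_eq_rpow_re_of_pos hx0]
        have : (x + τ * Complex.I : ℂ).re = x := by simp
        rw [this]
        rcases le_total x0 1 with h | h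
        · exact (Real.rpow_le_one hx0.le h (by linarith)).trans (by nlinarith)
        · refine (Real.rpow_le_rpow_of_exponent_le h h2).trans ?_
          rw [Real.rpow_two]
          linarith
      have h6 : ‖Ef φ (k * (x + τ * Complex.I)) / k‖ ≤ C * k ^ B * (1 + |τ|) ^ B := by
        rw [norm_div, Complex.norm_natCast]
        exact (div_le_self (norm_nonneg _) hk1).trans h3
      have h7 : (1 + |τ|) ^ B * ‖Complex.Gamma (x + τ * Complex.I)‖ ≤ D * (1 + τ ^ 2)⁻¹ := by
        rw [← div_eq_mul_inv, le_div_iff₀ (by positivity)]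
        refine le_trans ?_ h4
        rw [pow_add, mul_comm ((1 + |τ|) ^ B), mul_assoc]
        refine mul_le_mul_of_nonneg_left (mul_le_mul_of_nonneg_left ?_ (by positivity))
          (norm_nonneg _)
        rw [← sq_abs τ]
        nlinarith [abs_nonneg τ]
      simp only [G]
      rw [norm_mul, norm_mul]
      calc _ ≤ C * k ^ B * (1 + |τ|) ^ B * ‖Complex.Gamma (x + τ * Complex.I)‖ * (1 + x0 ^ 2) :=
            mul_le_mul (mul_le_mul_of_nonneg_right h6 (norm_nonneg _)) h5 (norm_nonneg _)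
              (by positivity)
        _ = C * k ^ B * (1 + x0 ^ 2) * ((1 + |τ|) ^ B * ‖Complex.Gamma (x + τ * Complex.I)‖) := by
            ring
        _ ≤ C * k ^ B * (1 + x0 ^ 2) * (D * (1 + τ ^ 2)⁻¹) :=
            mul_le_mul_of_nonneg_left h7 (by positivity)
        _ = _ := by ring
    simp only [hL σ _ hkσ.ne, hL 2 _ (by linarith)] at hs
    obtain ⟨M, hM⟩ := hφ.bdd hq
    have hM0 : 0 ≤ M := (norm_nonneg _).trans (hM 0)
    let F : O → ℝ → ℂ := fun n τ => if n = 0 then 0 else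
      φ n * (Complex.Gamma ((2 : ℝ) + τ * Complex.I) *
        ((c0 * (N n ^ k / Υ) : ℝ) : ℂ) ^ (-((2 : ℝ) + τ * Complex.I)))
    have hpos : ∀ n : O, n ≠ 0 → 0 < N n ^ k / Υ := fun n hn => div_pos (pow_pos (N_pos hn) k) hΥ
    have hpow : ∀ n : O, n ≠ 0 → ∀ w : ℂ, ((c0 * (N n ^ k / Υ) : ℝ) : ℂ) ^ (-w) =
        (N n : ℂ) ^ (-(k * w)) * (x0 : ℂ) ^ w := by
      intro n hn w
      rw [LM.cpow_eq (mul_pos c0_pos (hpos n hn)), LM.cpow_eq (N_pos hn), LM.cpow_eq hx0,
        ← Complex.exp_add, hx0def, Real.log_mul c0_pos.ne' (hpos n hn).ne',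
        Real.log_div (pow_pos (N_pos hn) k).ne' hΥ.ne', Real.log_div hΥ.ne' c0_pos.ne',
        Real.log_pow]
      congr 1
      push_cast
      ring
    have hFb : ∀ n τ, ‖F n τ‖ ≤ M * x0 ^ 2 * N n ^ (-2 : ℝ) * Gm 2 τ := by
      intro n τ
      have hG : 0 ≤ Gm 2 τ := norm_nonneg _
      simp only [F]
      split_ifs with hn
      · rw [norm_zero]
        have := Real.rpow_nonneg (N_nonneg n) (-2)
        positivity
      · have hN := N_pos hn
        rw [hpow n hn, norm_mul, norm_mul, norm_mul, Complex.norm_cpow_eq_rpow_re_of_pos hN,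
          Complex.norm_cpow_eq_rpow_re_of_pos hx0]
        have e1 : (-((k : ℂ) * ((2 : ℝ) + τ * Complex.I))).re = -(k * 2) := by simp
        have e2 : (((2 : ℝ) : ℂ) + τ * Complex.I).re = 2 := by simp
        rw [e1, e2, Real.rpow_two]
        have h1 : N n ^ (-(k * 2 : ℝ)) ≤ N n ^ (-2 : ℝ) :=
          Real.rpow_le_rpow_of_exponent_le (one_le_N hn) (by linarith)
        calc _ ≤ M * (Gm 2 τ * (N n ^ (-2 : ℝ) * x0 ^ 2)) :=
              mul_le_mul (hM n) (mul_le_mul_of_nonneg_left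
                (mul_le_mul_of_nonneg_right h1 (by positivity)) hG) (by positivity) hM0
          _ = _ := by ring
    have hgi : Integrable (Gm 2) := by simpa using integrable_Gm (σ := 2) two_pos 0
    have hFi : ∀ n, Integrable (F n) := by
      intro n
      refine Integrable.mono' (hgi.const_mul _) (Continuous.aestronglyMeasurable ?_)
        (Filter.Eventually.of_forall (hFb n))
      simp only [F]
      split_ifs with hn
      · exact continuous_const
      · refine continuous_const.mul ((Po.continuous_Gamma_line two_pos).mul ?_)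
        exact Continuous.const_cpow (by fun_prop)
          (Or.inl (Complex.ofReal_ne_zero.2 (mul_pos c0_pos (hpos n hn)).ne'))
    have hFs : Summable (fun n => ∫ τ, ‖F n τ‖) := by
      refine Summable.of_nonneg_of_le (fun n => integral_nonneg fun τ => norm_nonneg _)
        (fun n => ?_) (((summable_N_rpow (σ := 2) (by norm_num)).mul_left (M * x0 ^ 2)).mul_right
          (∫ τ : ℝ, Gm 2 τ))
      rw [← integral_const_mul]
      exact integral_mono (hFi n).norm (hgi.const_mul _) (hFb n)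
    have hsum := hasSum_integral_of_summable_integral_norm hFi hFs
    have hterm : ∀ n : O, (if n = 0 then 0 else φ n * (Om (N n ^ k / Υ) : ℂ)) =
        (1 / (2 * Real.pi) : ℂ) * ∫ τ, F n τ := by
      intro n
      simp only [F]
      split_ifs with hn
      · simp
      · rw [mellin_Om two_pos (hpos n hn), integral_const_mul]
        ring
    have hpt : ∀ τ : ℝ, ∑' n, F n τ = Lf φ (k * ((2 : ℝ) + τ * Complex.I)) *
        Complex.Gamma ((2 : ℝ) + τ * Complex.I) * (x0 : ℂ) ^ ((2 : ℝ) + τ * Complex.I) := by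
      intro τ
      rw [Lf_eq_dser hq hφ (by simp; linarith), dser, ← tsum_mul_right, ← tsum_mul_right]
      refine tsum_congr fun n => ?_
      simp only [F]
      split_ifs with hn
      · simp
      · rw [hpow n hn]
        ring
    simp only [hterm]
    rw [tsum_mul_left, hsum.tsum_eq]
    simp only [hpt]
    rw [hs]
    simp only [G]
    rw [mul_one_div_cancel hkc, mul_add, ← mul_assoc, one_div_mul_cancel (by simp),
      one_mul]

/-- removing finitely many Euler factors -/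
theorem Lf_remove (Q : Lev) {ψ : O → ℂ} (h : IsHChar Q.q ψ) {a : O} (ha : a ≠ 0) {s : ℂ}
    (hs : s ≠ 1 ∨ NonPrinc Q.q ψ) :
    Lf (prim (fun n => if IsCoprime n a then ψ n else 0)) s =
      Lf (prim ψ) s * ∏ p ∈ (pdiv a).filter Prime, (1 - ψ p * (N p : ℂ) ^ (-s)) := by
  have hb : ∀ n, ‖ψ n‖ ≤ 1 := h.1.norm_le Q.ne
  have hq2 : Q.q * a ≠ 0 := mul_ne_zero Q.ne ha
  have hper2 : Per Q.q (prim ψ) := h.per_prim Q
  have hper1 : Per (Q.q * a) (prim (fun n => if IsCoprime n a then ψ n else 0)) := by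
    have h1 := (hper2.of_dvd (dvd_mul_right Q.q a)).mul
      ((s3_princ a).per.of_dvd (dvd_mul_left a Q.q))
    convert h1 using 1
    funext n
    unfold prim
    by_cases h1 : Prim n <;> by_cases h2 : IsCoprime n a <;> simp [h1, h2]
  have hP : Differentiable ℂ
      (fun s : ℂ => ∏ p ∈ (pdiv a).filter Prime, (1 - ψ p * (N p : ℂ) ^ (-s))) := by
    refine Differentiable.fun_finsetProd fun p hp => ?_
    have hp0 : (N p : ℂ) ≠ 0 :=
      Complex.ofReal_ne_zero.2 (N_pos (Finset.mem_filter.1 hp).2.ne_zero).ne'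
    exact (differentiable_const _).sub ((differentiable_const _).mul
      (differentiable_id.neg.const_cpow (Or.inl hp0)))
  have hd : ∀ s : ℂ, 1 < s.re → dser (prim (fun n => if IsCoprime n a then ψ n else 0)) s =
      dser (prim ψ) s * ∏ p ∈ (pdiv a).filter Prime, (1 - ψ p * (N p : ℂ) ^ (-s)) := by
    intro s hs
    rw [← LM.remove_set h.1.mul hb hs _ (fun p hp => ?_)]
    · congr 1
      funext n
      unfold prim
      by_cases hn : Prim n
      · simp only [hn, if_true, LM.coprime_iff hn ha]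
      · simp only [hn, if_false]
    · rw [Finset.mem_filter, mem_pdiv ha] at hp
      exact ⟨hp.2, hp.1.1⟩
  have hE : Ef (prim (fun n => if IsCoprime n a then ψ n else 0)) = fun s =>
      Ef (prim ψ) s * ∏ p ∈ (pdiv a).filter Prime, (1 - ψ p * (N p : ℂ) ^ (-s)) := by
    refine LM.entire_ext (Ef_differentiable hq2 hper1) ((Ef_differentiable Q.ne hper2).mul hP)
      fun s hs => ?_
    rw [Ef_eq hq2 hper1 hs, Ef_eq Q.ne hper2 hs, hd s hs, mul_assoc]
  rcases hs with hs | hs
  · rw [Lf_eq_div _ hs, Lf_eq_div _ hs, hE]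
    ring
  · have h0 := Ef_one_nonPrinc Q h hs
    have h1 : Ef (prim (fun n => if IsCoprime n a then ψ n else 0)) 1 = 0 := by
      rw [hE]
      simp only [h0, zero_mul]
    have h2 := LM.entire_ext (Lf_differentiable hq2 hper1 h1)
      ((Lf_differentiable Q.ne hper2 h0).mul hP) fun s hs => by
        rw [Pi.mul_apply, Lf_eq_dser hq2 hper1 hs, Lf_eq_dser Q.ne hper2 hs, hd s hs]
    exact congrFun h2 s

/-- `L · (1/L) = 1` on `Re s > 1` (Dirichlet convolution over primary elements, `sum_mu_pdiv`) -/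
theorem dser_mul_mu {ψ : O → ℂ} (h1 : ψ 1 = 1) (hψ : ∀ a b, ψ (a * b) = ψ a * ψ b)
    (hb : ∀ n, ‖ψ n‖ ≤ 1) {s : ℂ} (hs : 1 < s.re) :
    dser (prim ψ) s * dser (prim (mm ψ)) s = 1 := by
  let H : O → O → ℂ := fun n e =>
    if Prim e then (if Prim n ∧ e ∣ n then mu e * (ψ n * (N n : ℂ) ^ (-s)) else 0) else 0
  have hfin : ∀ n e, e ∉ pdiv n → H n e = 0 := by
    intro n e he
    simp only [H]
    split_ifs with h2 h3
    · exact absurd ((mem_pdiv h3.1.ne_zero).2 ⟨h2, h3.2⟩) he
    · rfl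
    · rfl
  have hHb : ∀ n e, ‖H n e‖ ≤ N n ^ (-s.re) := by
    intro n e
    have h0 := Real.rpow_nonneg (N_nonneg n) (-s.re)
    simp only [H]
    split_ifs with h2 h3
    · rw [norm_mul]
      exact (mul_le_of_le_one_left (norm_nonneg _) (norm_mu_le e)).trans
        (LM.norm_term_le hb s h3.1.ne_zero)
    · simpa using h0
    · simpa using h0
  have hsum : Summable (Function.uncurry H) := by
    refine Summable.of_norm ?_
    rw [summable_prod_of_nonneg (fun _ => norm_nonneg _)]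
    refine ⟨fun n => summable_of_ne_finset_zero (s := pdiv n) fun e he => ?_, ?_⟩
    · simp [hfin n e he]
    · obtain ⟨C, hC⟩ := card_pdiv_le (ε := (s.re - 1) / 2) (by linarith)
      refine Summable.of_nonneg_of_le (fun n => tsum_nonneg fun _ => norm_nonneg _) (fun n => ?_)
        ((summable_N_rpow (σ := (s.re + 1) / 2) (by linarith)).mul_left |C|)
      rw [tsum_eq_sum (s := pdiv n) (fun e he => by simp [hfin n e he])]
      by_cases hn : n = 0
      · refine le_trans (le_of_eq (Finset.sum_eq_zero fun e _ => ?_))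
          (mul_nonneg (abs_nonneg _) (Real.rpow_nonneg (N_nonneg n) _))
        have : ¬ Prim n := fun h => h.ne_zero hn
        simp [H, this]
      · have hN := N_pos hn
        refine (Finset.sum_le_card_nsmul _ _ _ fun e _ => hHb n e).trans ?_
        rw [nsmul_eq_mul]
        calc _ ≤ (|C| * N n ^ ((s.re - 1) / 2)) * N n ^ (-s.re) :=
              mul_le_mul_of_nonneg_right ((hC n hn).trans
                (mul_le_mul_of_nonneg_right (le_abs_self C) (by positivity))) (by positivity)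
          _ = _ := by
              rw [mul_assoc, ← Real.rpow_add hN]
              congr 2
              ring
  have h2 : dser (prim ψ) s * dser (prim (mm ψ)) s = ∑' e, ∑' n, H n e := by
    rw [LM.dser_prim (mm ψ), ← tsum_mul_left]
    refine tsum_congr fun e => ?_
    simp only [H]
    split_ifs with he
    · rw [tsum_prim_dvd he (fun n => mu e * (ψ n * (N n : ℂ) ^ (-s))), LM.dser_prim,
        ← tsum_mul_right]
      refine tsum_congr fun m => ?_
      split_ifs with hm
      · rw [hψ, LM.N_cpow_mul, mm]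
        ring
      · simp
    · simp
  rw [h2, hsum.tsum_comm]
  have h3 : ∀ n, ∑' e, H n e = if n = 1 then 1 else 0 := by
    intro n
    rw [tsum_eq_sum (s := pdiv n) (hfin n)]
    by_cases hn : Prim n
    · have h4 : ∑ e ∈ pdiv n, H n e = (∑ e ∈ pdiv n, mu e) * (ψ n * (N n : ℂ) ^ (-s)) := by
        rw [Finset.sum_mul]
        refine Finset.sum_congr rfl fun e he => ?_
        rw [mem_pdiv hn.ne_zero] at he
        simp only [H, he.1, he.2, hn, and_self, if_true]
      rw [h4, sum_mu_pdiv hn]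
      split_ifs with h5
      · subst h5
        simp [h1]
      · simp
    · have h5 : n ≠ 1 := fun h => hn (h ▸ Prim.one)
      rw [if_neg h5]
      exact Finset.sum_eq_zero fun e _ => by simp [H, hn]
  simp only [h3]
  exact tsum_ite_eq 1 1


end Crest.Agent.R17
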