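import Crest.Prelude.Def_HeckeK3
import Crest.Agent.R17.LCont
import Crest.Agent.R17.Block
import Crest.Agent.R17.Chars

/-!
# R17 / FinalH : from `ZF (7/8)` to the statement about ray class characters of `K3`

1. A ring isomorphism `e : O ≃+* O3` (`IsPrimitiveRoot.adjoinEquivRingOfIntegers`-type results or
   `IsCyclotomicExtension.Rat.Three` lemmas / the integral power basis `{1, ζ}`; send `ω ↦ ζ₃`).
   Ideals correspond, `absNorm` is preserved, `absNorm (span {x}) = nm x` (`absNorm_span`).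
2. `m.comap e = span {q₀}`, `q₀ ≠ 0`.  `ψ̃ n := ψ.toFun (span {e n})` is an `IsHChar q₀` (for periodicity:
   if `n` is coprime to `q₀`, choose `n'` with `n n' ≡ 1`; then `ψ̃(n) ψ̃(n') = 1 = ψ̃(n + q₀t) ψ̃(n')`).
3. For `Re s > 1`: `LSeries (coeff ψ) s = (1/6) dser ψ̃ s` (each non-zero ideal has six generators).
   Take `G = (1/6) Lf ψ̃` (`Lf_eq_dser`, `Lf_differentiableAt`, `Lf_differentiable` with `Ef_one` and
   `IsChar.sum_eq_zero`).
4. `Q = 72 q₀`, `ψ' = ψ̃ · 1_{(·,6)=1}` is an `IsHChar Q.q`; for `Re s > 1`, hence (identity theorem for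
   the entire functions `Ef`) everywhere,
   `Ef ψ' = Ef ψ̃ · (1 - ψ̃(2) 4^{-s}) (1 - ψ̃(λ) 3^{-s})` and `Ef ψ' = 6 Ef (prim ψ')`.  So a zero of
   `Lf ψ̃` is a zero of `Lf (prim ψ')`.  Non-principality transfers (move `n` within its class mod `q₀` to
   make it coprime to `6`).
-/

set_option autoImplicit false

noncomputable section

open scoped Classical ComplexConjugate
open Crest.NumberTheoryR.EisensteinField

namespace Crest.Agent.R17

namespace FH

/-! ### The ring isomorphism -/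

theorem exists_equiv : Nonempty (O ≃+* O3) := by
  have : IsCyclotomicExtension {3} ℚ K3 := CyclotomicField.isCyclotomicExtension 3 ℚ
  have hζ := IsCyclotomicExtension.zeta_spec 3 ℚ K3
  have h1 := hζ.toInteger_isPrimitiveRoot.geom_sum_eq_zero (by norm_num)
  simp only [Finset.sum_range_succ, Finset.range_zero, Finset.sum_empty] at h1
  let f : O →ₐ[ℤ] O3 := QuadraticAlgebra.lift ⟨hζ.toInteger, by
    simp only [neg_smul, one_smul]
    linear_combination h1⟩
  have hf : f om = hζ.toInteger := by simp [f, om]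
  refine ⟨RingEquiv.ofBijective (f : O →+* O3) ⟨?_, ?_⟩⟩
  · rw [injective_iff_map_eq_zero]
    intro x hx
    have h2 : (f : O →+* O3) (x * star x) = 0 := by rw [map_mul, hx, zero_mul]
    rw [mul_star_self, map_natCast, Nat.cast_eq_zero] at h2
    exact nm_eq_zero.1 h2
  · have h3 : f.range = ⊤ := by
      rw [eq_top_iff, ← IsCyclotomicExtension.Rat.adjoin_singleton_eq_top hζ]
      exact Algebra.adjoin_le (Set.singleton_subset_iff.2 ⟨om, hf⟩)
    exact (AlgHom.range_eq_top f).1 h3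

theorem map_span (e : O ≃+* O3) (x : O) :
    Ideal.span {e x} = (Ideal.span {x}).map (e : O →+* O3) := by
  rw [Ideal.map_span, Set.image_singleton]; rfl

theorem absNorm_e (e : O ≃+* O3) (x : O) : Ideal.absNorm (Ideal.span {e x}) = nm x := by
  rw [← absNorm_span, Ideal.absNorm_apply, Ideal.absNorm_apply, Submodule.cardQuot_apply,
    Submodule.cardQuot_apply]
  exact (Nat.card_congr (Ideal.quotientEquiv _ _ e (map_span e x)).toEquiv).symm

theorem exists_gen (e : O ≃+* O3) (I : Ideal O3) : ∃ x, I = Ideal.span {e x} := by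
  obtain ⟨x, hx⟩ := (IsPrincipalIdealRing.principal (I.comap (e : O →+* O3))).principal
  refine ⟨x, ?_⟩
  rw [map_span, ← Ideal.submodule_span_eq, ← hx]
  exact (Ideal.map_comap_of_surjective _ e.surjective I).symm

theorem span_eq_iff (e : O ≃+* O3) (x y : O) :
    Ideal.span {e x} = Ideal.span {e y} ↔ Associated x y := by
  rw [Ideal.span_singleton_eq_span_singleton]
  refine ⟨fun h => ?_, fun h => h.map e⟩
  simpa using h.map e.symm

theorem sup_iff (e : O ≃+* O3) (x y : O) :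
    Ideal.span {e x} ⊔ Ideal.span {e y} = ⊤ ↔ IsCoprime x y := by
  rw [← Ideal.isCoprime_iff_sup_eq, Ideal.isCoprime_span_singleton_iff]
  refine ⟨fun h => ?_, fun h => h.map (e : O →+* O3)⟩
  simpa using h.map (e.symm : O3 →+* O)

theorem isHChar (e : O ≃+* O3) {q : O} (ψ : RayClassChar (Ideal.span {e q})) :
    IsHChar q (fun n => ψ.toFun (Ideal.span {e n})) := by
  have h1 : ∀ n, q ∣ n - 1 → ψ.toFun (Ideal.span {e n}) = 1 := fun n hn => by
    refine ψ.map_span_of_sub_one_mem _ ?_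
    rw [Ideal.mem_span_singleton, ← map_one e, ← map_sub]
    exact map_dvd e hn
  have hmul : ∀ a b, ψ.toFun (Ideal.span {e (a * b)}) =
      ψ.toFun (Ideal.span {e a}) * ψ.toFun (Ideal.span {e b}) := fun a b => by
    rw [map_mul, ← Ideal.span_singleton_mul_span_singleton, ψ.map_mul]
  have hz : ∀ n, ψ.toFun (Ideal.span {e n}) = 0 ↔ ¬ IsCoprime n q := fun n => by
    rw [← sup_iff e]
    exact ⟨fun h h' => ψ.ne_zero_of_coprime _ h' h, ψ.eq_zero_of_not_coprime _⟩
  refine ⟨⟨h1 1 (by simp), hmul, fun x t => ?_, hz⟩, fun u hu => ?_⟩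
  · by_cases hx : IsCoprime x q
    · obtain ⟨a, b, hab⟩ := hx
      have e1 := h1 (a * x) ⟨-b, by linear_combination hab⟩
      have e2 := h1 (a * (x + q * t)) ⟨a * t - b, by linear_combination hab⟩
      rw [hmul] at e1 e2
      exact mul_left_cancel₀ (left_ne_zero_of_mul_eq_one e1) (e2.trans e1.symm)
    · have hx' : ¬ IsCoprime (x + q * t) q := by rwa [IsCoprime.add_mul_left_left_iff]
      exact ((hz _).2 hx').trans ((hz _).2 hx).symm
  · rw [← h1 1 (by simp)]
    exact congrArg ψ.toFun ((span_eq_iff e u 1).2 (associated_one_iff_isUnit.2 hu))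

/-! ### Dirichlet series -/

theorem summable_dser {f : O → ℂ} (hb : ∀ n, ‖f n‖ ≤ 1) {s : ℂ} (hs : 1 < s.re) :
    Summable (fun n : O => if n = 0 then 0 else f n * (N n : ℂ) ^ (-s)) := by
  simpa only [ite_not] using LM.summable_term hb hs (fun n => ¬ n = 0) fun _ h => h

theorem sum_fiber (e : O ≃+* O3) {m : Ideal O3} (ψ : RayClassChar m) {k : ℕ} (hk : k ≠ 0) :
    ∑ n ∈ (ball k).filter (fun n => nm n = k), ψ.toFun (Ideal.span {e n}) = 6 * coeff ψ k := by
  set T := (ball k).filter (fun n => nm n = k) with hT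
  have hmem : ∀ n, n ∈ T ↔ nm n = k := fun n => by
    rw [hT, Finset.mem_filter, mem_ball]
    refine ⟨fun h => h.2, fun h => ⟨⟨fun h0 => hk (by rw [← h, h0, nm_zero]), ?_⟩, h⟩⟩
    rw [N, h]
  have h1 : coeff ψ k = ∑ I ∈ T.image (fun n => Ideal.span {e n}), ψ.toFun I := by
    unfold coeff
    rw [finsum_eq_sum_of_support_subset (s := T.image fun n => Ideal.span {e n})]
    · refine Finset.sum_congr rfl fun I hI => if_pos ?_
      obtain ⟨n, hn, rfl⟩ := Finset.mem_image.1 hI
      rw [absNorm_e, (hmem n).1 hn]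
    · intro I hI
      obtain ⟨n, rfl⟩ := exists_gen e I
      refine Finset.mem_coe.2 (Finset.mem_image_of_mem _ ((hmem n).2 ?_))
      by_contra h
      exact hI (if_neg (by rwa [absNorm_e]))
  rw [h1, Finset.sum_comp ψ.toFun (fun n => Ideal.span {e n}), Finset.mul_sum]
  refine Finset.sum_congr rfl fun I hI => ?_
  obtain ⟨n, hn, rfl⟩ := Finset.mem_image.1 hI
  have hn0 : n ≠ 0 := fun h0 => hk (by rw [← (hmem n).1 hn, h0, nm_zero])
  have h2 : T.filter (fun a => Ideal.span {e a} = Ideal.span {e n}) = units6.image (· * n) := by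
    ext a
    rw [Finset.mem_filter, span_eq_iff, Finset.mem_image]
    constructor
    · rintro ⟨-, h⟩
      obtain ⟨u, rfl⟩ := h.symm
      exact ⟨u, isUnit_iff_mem_units6.1 u.isUnit, mul_comm _ _⟩
    · rintro ⟨u, hu, rfl⟩
      have hu' := isUnit_iff_mem_units6.2 hu
      refine ⟨(hmem _).2 ?_, associated_unit_mul_left n u hu'⟩
      rw [nm_mul, isUnit_iff_nm.1 hu', one_mul, (hmem n).1 hn]
  rw [h2, Finset.card_image_of_injective _ (mul_left_injective₀ hn0), card_units6, nsmul_eq_mul]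
  norm_num

theorem lseries_eq (e : O ≃+* O3) {m : Ideal O3} (ψ : RayClassChar m)
    (hb : ∀ n, ‖ψ.toFun (Ideal.span {e n})‖ ≤ 1) {s : ℂ} (hs : 1 < s.re) :
    dser (fun n => ψ.toFun (Ideal.span {e n})) s = 6 * LSeries (coeff ψ) s := by
  have h1 := (summable_dser hb hs).hasSum.tsum_fiberwise nm
  unfold dser LSeries
  rw [← h1.tsum_eq, ← tsum_mul_left]
  refine tsum_congr fun k => ?_
  rcases eq_or_ne k 0 with rfl | hk
  · rw [LSeries.term_zero, mul_zero]
    have : ∀ n : nm ⁻¹' {0}, (if n.1 = 0 then 0 else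
        ψ.toFun (Ideal.span {e n.1}) * (N n.1 : ℂ) ^ (-s)) = 0 :=
      fun n => if_pos (nm_eq_zero.1 n.2)
    simp only [this, tsum_zero]
  · have h2 : nm ⁻¹' {k} = ((ball k).filter (fun n => nm n = k) : Finset O) := by
      ext n
      rw [Finset.mem_coe, Finset.mem_filter, mem_ball]
      refine ⟨fun h => ⟨⟨fun h0 => hk (by rw [← Set.mem_singleton_iff.1 h, h0, nm_zero]), ?_⟩, h⟩,
        fun h => h.2⟩
      rw [N, Set.mem_singleton_iff.1 h]
    rw [h2, Finset.tsum_subtype' _ (fun n => if n = 0 then 0 else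
      ψ.toFun (Ideal.span {e n}) * (N n : ℂ) ^ (-s)), LSeries.term_of_ne_zero hk, ← mul_div_assoc,
      ← sum_fiber e ψ hk, Finset.sum_div]
    refine Finset.sum_congr rfl fun n hn => ?_
    rw [Finset.mem_filter, mem_ball] at hn
    rw [if_neg hn.1.1, N, hn.2, Complex.cpow_neg, div_eq_mul_inv, Complex.ofReal_natCast]

theorem remove_one {f : O → ℂ} (hb : ∀ n, ‖f n‖ ≤ 1) {p : O} (hp : p ≠ 0) {c : ℂ}
    (hf : ∀ m, f (p * m) = c * f m) {s : ℂ} (hs : 1 < s.re) :
    dser (fun n => if p ∣ n then 0 else f n) s = dser f s * (1 - c * (N p : ℂ) ^ (-s)) := by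
  unfold dser
  have h1 := summable_dser hb hs
  have h2 := LM.summable_term hb hs (fun n => n ≠ 0 ∧ p ∣ n) (fun n h => h.1)
  have h3 := tsum_dvd hp (fun n => if n = 0 then 0 else f n * (N n : ℂ) ^ (-s))
  have h4 : ∑' m : O, (if p * m = 0 then 0 else f (p * m) * (N (p * m) : ℂ) ^ (-s)) =
      (∑' n : O, if n = 0 then 0 else f n * (N n : ℂ) ^ (-s)) * (c * (N p : ℂ) ^ (-s)) := by
    rw [← tsum_mul_right]
    refine tsum_congr fun m => ?_
    by_cases h : m = 0
    · simp [h]
    · rw [if_neg (mul_ne_zero hp h), if_neg h, hf, LM.N_cpow_mul]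
      ring
  have h5 : ∑' n : O, (if p ∣ n then (if n = 0 then 0 else f n * (N n : ℂ) ^ (-s)) else 0) =
      ∑' n : O, (if n ≠ 0 ∧ p ∣ n then f n * (N n : ℂ) ^ (-s) else 0) :=
    tsum_congr fun n => by by_cases h : n = 0 <;> by_cases h' : p ∣ n <;> simp [h, h']
  rw [mul_sub, mul_one, ← h4, ← h3, h5, ← h1.tsum_sub h2]
  refine tsum_congr fun n => ?_
  by_cases h : n = 0 <;> by_cases h' : p ∣ n <;> simp [h, h']

theorem dser_unit {u : O} (hu : IsUnit u) (a : O → ℂ) (s : ℂ) :
    dser (fun n => a (u * n)) s = dser a s := by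
  have h := tsum_dvd hu.ne_zero (fun n => if n = 0 then 0 else a n * (N n : ℂ) ^ (-s))
  have h1 : N u = 1 := by unfold N; rw [isUnit_iff_nm.1 hu, Nat.cast_one]
  simp only [hu.dvd, if_true, mul_eq_zero, hu.ne_zero, false_or, N_mul, h1, one_mul] at h
  exact h.symm

theorem dser_six {q : O} (h3 : (3 : O) ∣ q) {ψ : O → ℂ} (hψ : IsHChar q ψ) (hq : q ≠ 0) {s : ℂ}
    (hs : 1 < s.re) : dser ψ s = 6 * dser (prim ψ) s := by
  have hb : ∀ n, ‖prim ψ n‖ ≤ 1 := bk2_prim_le (hψ.1.norm_le hq)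
  have h1 : ∀ n, ψ n = ∑ u ∈ units6, prim ψ (u * n) := by
    intro n
    by_cases hn : IsCoprime n 3
    · obtain ⟨u, hu, hp⟩ := exists_unit_mul_prim hn
      rw [Finset.sum_eq_single u]
      · unfold prim
        rw [if_pos hp, hψ.1.mul, hψ.2 u hu, one_mul]
      · intro v hv hvu
        have hv' := isUnit_iff_mem_units6.2 hv
        unfold prim
        refine if_neg fun hp' => hvu ?_
        have h0 : n ≠ 0 := right_ne_zero_of_mul hp.ne_zero
        exact mul_right_cancel₀ h0 (hp'.eq_of_associated hp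
          ((associated_unit_mul_left n v hv').trans (associated_unit_mul_left n u hu).symm))
      · exact fun h => absurd (isUnit_iff_mem_units6.1 hu) h
    · have h0 : ψ n = 0 := (hψ.1.zero_iff n).2 fun h => hn (h.of_isCoprime_of_dvd_right h3)
      rw [h0]
      refine (Finset.sum_eq_zero fun u _ => ?_).symm
      unfold prim
      rw [hψ.1.mul, h0, mul_zero, ite_self]
  calc dser ψ s = ∑' n : O, ∑ u ∈ units6,
        (if n = 0 then 0 else prim ψ (u * n) * (N n : ℂ) ^ (-s)) := by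
        refine tsum_congr fun n => ?_
        split_ifs
        · simp
        · rw [← Finset.sum_mul, ← h1]
    _ = ∑ u ∈ units6, dser (fun n => prim ψ (u * n)) s :=
        Summable.tsum_finsetSum fun u _ => summable_dser (fun n => hb _) hs
    _ = ∑ u ∈ units6, dser (prim ψ) s :=
        Finset.sum_congr rfl fun u hu => dser_unit (isUnit_iff_mem_units6.2 hu) _ s
    _ = _ := by rw [Finset.sum_const, card_units6]; simp

theorem coprime_72 (n : O) : IsCoprime n 72 ↔ ¬ (2 : O) ∣ n ∧ ¬ lam ∣ n := by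
  have h : (72 : O) = 2 ^ 3 * lam ^ 4 := by
    rw [show lam ^ 4 = (lam ^ 2) ^ 2 by ring, lam_sq]; norm_num
  rw [h, IsCoprime.mul_right_iff, IsCoprime.pow_right_iff (by norm_num),
    IsCoprime.pow_right_iff (by norm_num), isCoprime_comm, isCoprime_comm (x := n),
    prime_two.coprime_iff_not_dvd, prime_lam.coprime_iff_not_dvd]

/-- Zeros of `Lf ψ` for an arbitrary modulus. -/
theorem Lf_ne_zero {β : ℝ} (h : ZF β) {q : O} (hq : q ≠ 0) {ψ : O → ℂ} (hψ : IsHChar q ψ) {s : ℂ}
    (hs : β < s.re) (h1 : NonPrinc q ψ ∨ s ≠ 1) : Lf ψ s ≠ 0 := by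
  have hb := hψ.1.norm_le hq
  let Q : Lev := ⟨q * 72, mul_ne_zero hq (by decide), dvd_mul_left _ _⟩
  set ψ' : O → ℂ := fun n => ψ n * (if IsCoprime n 72 then 1 else 0) with hψ'
  have hH : IsHChar Q.q ψ' := ⟨hψ.1.mul_moduli (s3_princ 72), fun u hu => by
    simp only [hψ', hψ.2 u hu, if_pos (b1_unit_coprime hu 72), one_mul]⟩
  have hper : Per Q.q (prim ψ') := hH.per_prim Q
  set Eu : ℂ → ℂ := fun s => (1 - ψ 2 * (N 2 : ℂ) ^ (-s)) * (1 - ψ lam * (N lam : ℂ) ^ (-s)) with hEu
  have hEd : Differentiable ℂ Eu := by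
    have key : ∀ p : O, p ≠ 0 → Differentiable ℂ fun s : ℂ => 1 - ψ p * (N p : ℂ) ^ (-s) :=
      fun p hp => (differentiable_const _).sub ((differentiable_const _).mul
        (differentiable_id.neg.const_cpow (Or.inl (Complex.ofReal_ne_zero.2 (N_pos hp).ne'))))
    exact (key 2 prime_two.ne_zero).mul (key lam prime_lam.ne_zero)
  have hd : ∀ s : ℂ, 1 < s.re → 6 * dser (prim ψ') s = dser ψ s * Eu s := by
    intro s hs
    have e1 := remove_one hb prime_two.ne_zero (hψ.1.mul 2) hs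
    have e2 := remove_one (f := fun n => if (2 : O) ∣ n then 0 else ψ n) (p := lam) (c := ψ lam)
      (fun n => by split_ifs; exacts [by simp, hb n]) prime_lam.ne_zero (fun m => by
        have : (2 : O) ∣ lam * m ↔ (2 : O) ∣ m := by
          rw [prime_two.dvd_mul, or_iff_right]
          rw [b1_two_dvd_iff]; decide
        simp only [this]
        split_ifs
        · simp
        · exact hψ.1.mul _ _) hs
    rw [← dser_six (ChA.three_dvd Q) hH Q.ne hs, hEu, ← mul_assoc, ← e1, ← e2]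
    congr 1
    funext n
    simp only [hψ', coprime_72]
    by_cases a1 : (2 : O) ∣ n <;> by_cases a2 : lam ∣ n <;> simp [a1, a2]
  have hE : (fun s => 6 * Ef (prim ψ') s) = fun s => Ef ψ s * Eu s :=
    LM.entire_ext ((Ef_differentiable Q.ne hper).const_mul 6)
      ((Ef_differentiable hq hψ.1.per).mul hEd) fun s hs => by
        rw [Ef_eq Q.ne hper hs, Ef_eq hq hψ.1.per hs, mul_left_comm, hd s hs, mul_assoc]
  intro h0
  by_cases hs1 : s = 1
  · have hn := h1.resolve_right (not_not.2 hs1)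
    have a0 : Ef ψ 1 = 0 := by rw [Ef_one hq hψ.1.per, hψ.1.sum_eq_zero hq hn]; simp
    have a1 : Ef (prim ψ') 1 = 0 := by
      have := congrFun hE 1
      simpa [a0] using this
    have a2 : NonPrinc Q.q ψ' := by
      by_contra hc
      obtain ⟨r, hr, hr'⟩ := Ef_one_one0 Q
      rw [← eq_one0_of_not_nonPrinc Q ((mem_hchars Q.ne).2 hH) hc, a1] at hr'
      exact hr.ne (by exact_mod_cast hr')
    have a3 := LM.entire_ext ((Lf_differentiable Q.ne hper a1).const_mul 6)
      ((Lf_differentiable hq hψ.1.per a0).mul hEd) fun s hs => by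
        rw [Pi.mul_apply, Lf_eq_dser Q.ne hper hs, Lf_eq_dser hq hψ.1.per hs, hd s hs]
    have a4 := congrFun a3 s
    rw [Pi.mul_apply, h0, zero_mul] at a4
    exact h Q ψ' hH s hs (Or.inr a2) (by simpa using a4)
  · refine h Q ψ' hH s hs (Or.inl hs1) ?_
    rw [Lf_eq_div _ hs1, div_eq_zero_iff, or_iff_left (sub_ne_zero.2 hs1)] at h0 ⊢
    have := congrFun hE s
    simpa [h0] using this

end FH

theorem hecke_of_ZF (h : ZF (7 / 8)) (m : Ideal O3) (hm : m ≠ ⊥) (ψ : RayClassChar m) :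
    ∃ G : ℂ → ℂ, (∀ s : ℂ, 1 < s.re → G s = LSeries (coeff ψ) s) ∧
      ∀ s : ℂ, 7 / 8 < s.re → (¬ IsPrincipalChar ψ ∨ s ≠ 1) →
        DifferentiableAt ℂ G s ∧ G s ≠ 0 := by
  obtain ⟨e⟩ := FH.exists_equiv
  obtain ⟨q, rfl⟩ := FH.exists_gen e m
  have hq : q ≠ 0 := by
    rintro rfl
    exact hm (by simp)
  have hH := FH.isHChar e ψ
  refine ⟨fun s => 6⁻¹ * Lf (fun n => ψ.toFun (Ideal.span {e n})) s, fun s hs => ?_,
    fun s hs h1 => ?_⟩
  · simp only
    rw [Lf_eq_dser hq hH.1.per hs, FH.lseries_eq e ψ (hH.1.norm_le hq) hs,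
      inv_mul_cancel_left₀ (by norm_num)]
  · have h2 : NonPrinc q (fun n => ψ.toFun (Ideal.span {e n})) ∨ s ≠ 1 := by
      refine h1.imp_left fun h1 => ?_
      by_contra hc
      refine h1 fun I hI => ?_
      obtain ⟨n, rfl⟩ := FH.exists_gen e I
      by_contra hn
      exact hc ⟨n, (FH.sup_iff e n q).1 hI, hn⟩
    refine ⟨DifferentiableAt.const_mul ?_ _,
      mul_ne_zero (by norm_num) (FH.Lf_ne_zero h hq hH hs h2)⟩
    rcases h2 with h2 | h2
    · refine Lf_differentiable hq hH.1.per ?_ s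
      rw [Ef_one hq hH.1.per, hH.1.sum_eq_zero hq h2]; simp
    · exact Lf_differentiableAt hq hH.1.per h2

end Crest.Agent.R17
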