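import Crest.Agent.R17.VoC4
import Crest.Agent.R17.LGrowth

/-!
# R17 / VoC5 : from the inversion formula to the functional equation

`L = |ℓ|`, `Mv(w) = π/(2Γ(4/3)) c0^{-w} Γ(w/2) Γ(w/2+1/3)` is the Mellin transform of `Vr`.
`w(s) = 2s - 1/3 + L`, so `w(s)/2 = s - 1/6 + L/2`, `k - w(s) = w(1-s)` for `k = 2L + 4/3`.
See `LCont1.lean` (`thP`, `EE`, ...) and `Ef_apriori` in `LGrowth.lean` for the same argument for
ordinary theta series.
-/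

set_option autoImplicit false

noncomputable section

open scoped Classical ComplexConjugate Topology
open MeasureTheory Filter

namespace Crest.Agent.R17.Vor

/-- the constant term of `Phi` -/
def Phi0 (ℓ : ℤ) (a : O → ℂ) : ℂ := if ℓ = 0 then a 0 * (3 * Real.pi) else 0

theorem c5_cpow {x : ℝ} (hx : 0 < x) (w : ℂ) : (x : ℂ) ^ w = Complex.exp (w * Real.log x) := by
  rw [Complex.cpow_def_of_ne_zero (Complex.ofReal_ne_zero.2 hx.ne'), Complex.ofReal_log hx.le, mul_comm]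

theorem c5_rpow {x : ℝ} (hx : 0 < x) (y : ℝ) :
    ((x ^ y : ℝ) : ℂ) = Complex.exp (y * Real.log x) := by
  rw [Complex.ofReal_cpow hx.le, c5_cpow hx]

theorem c5_one_le {n : O} (hn : n ≠ 0) : 1 ≤ ‖toC n‖ := by
  rw [norm_toC]
  exact Real.one_le_sqrt.2 (one_le_N hn)

theorem c5_pos {n M : O} (hn : n ≠ 0) (hM : M ≠ 0) : 0 < ‖toC n / toC M‖ :=
  norm_pos_iff.2 (div_ne_zero (b4_toC_ne_zero hn) (b4_toC_ne_zero hM))

theorem c5_log {n M : O} (hn : n ≠ 0) (hM : M ≠ 0) :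
    Real.log ‖toC n / toC M‖ = (Real.log (N n) - Real.log (N M)) / 2 := by
  rw [norm_div, norm_toC, norm_toC, Real.log_div (Real.sqrt_pos.2 (N_pos hn)).ne'
    (Real.sqrt_pos.2 (N_pos hM)).ne', Real.log_sqrt (N_nonneg _), Real.log_sqrt (N_nonneg _)]
  ring

theorem c5_bd (ℓ : ℤ) {M : O} (hM : M ≠ 0) {a : O → ℂ} (ha : PolyBd a) :
    ∃ (K : ℝ) (J : ℕ), 0 ≤ K ∧ ∀ n, n ≠ 0 → ‖a n * hp ℓ (toC n / toC M)‖ ≤ K * N n ^ J := by
  obtain ⟨C, j, h⟩ := ha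
  refine ⟨|C|, j + ℓ.natAbs, abs_nonneg C, fun n hn => ?_⟩
  rw [norm_mul, norm_hp, pow_add, ← mul_assoc]
  have h0 := N_nonneg n
  refine mul_le_mul ((h n hn).trans (by gcongr; exact le_abs_self C))
    (pow_le_pow_left₀ (norm_nonneg _) ?_ _) (by positivity) (by positivity)
  rw [norm_div, ← norm_toC_sq]
  refine (div_le_self (norm_nonneg _) (c5_one_le hM)).trans ?_
  nlinarith [c5_one_le hn]

theorem c5_hasSum (ℓ : ℤ) {M : O} (hM : M ≠ 0) {a : O → ℂ} (ha : PolyBd a) {v : ℝ} (hv : 0 < v) :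
    HasSum (fun n : O => if n = 0 then 0 else
      a n * hp ℓ (toC n / toC M) * (Vr (‖toC n / toC M‖ * v) : ℂ)) (Phi ℓ M a v - Phi0 ℓ a) := by
  obtain ⟨u, hu, h⟩ := summable_dom hM ha ℓ.natAbs hv
  have hs : Summable fun n : O => a n * hp ℓ (toC n / toC M) * (Vr (‖toC n / toC M‖ * v) : ℂ) := by
    refine Summable.of_norm_bounded hu fun n => ?_
    rw [norm_mul, norm_mul, norm_hp, Complex.norm_real, Real.norm_of_nonneg (core_Vr_pos _).le]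
    exact h n v le_rfl
  have h1 : Phi0 ℓ a = a 0 * hp ℓ (toC 0 / toC M) * (Vr (‖toC 0 / toC M‖ * v) : ℂ) := by
    rw [map_zero, zero_div, norm_zero, zero_mul, core_Vr_zero, Phi0, hp]
    by_cases h0 : ℓ = 0
    · simp [h0]
    · simp [h0]
  rw [h1]
  exact hasSum_ite_sub_hasSum hs.hasSum 0

/-- the term `n = 0` of `Phi` is `Phi0` (`core_Vr_zero`); the others decay like `e^{-δ v}` with
`δ = 1/(2‖toC M‖)` (`core_Vr_le`, `summable_N_pow_exp`). -/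
theorem Phi_isBigO (ℓ : ℤ) {M : O} (hM : M ≠ 0) {a : O → ℂ} (ha : PolyBd a) (r : ℝ) :
    (fun v => Phi ℓ M a v - Phi0 ℓ a) =O[atTop] (fun v : ℝ => v ^ r) := by
  obtain ⟨K, J, hK, h⟩ := c5_bd ℓ hM ha
  obtain ⟨C, hC⟩ := core_Vr_le
  have hM1 := c5_one_le hM
  set δ := 1 / (2 * ‖toC M‖) with hδ
  have hδ0 : 0 < δ := by positivity
  have hs := (summable_N_pow_exp J hδ0).mul_left (K * |C|)
  refine Asymptotics.IsBigO.trans ?_ (isLittleO_exp_neg_mul_rpow_atTop hδ0 r).isBigO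
  refine Asymptotics.IsBigO.of_bound (∑' n : O, K * |C| * (N n ^ J * Real.exp (-(δ * ‖toC n‖))))
    ((eventually_ge_atTop 1).mono fun v hv => ?_)
  rw [Real.norm_of_nonneg (Real.exp_pos _).le, ← (c5_hasSum ℓ hM ha (by linarith : 0 < v)).tsum_eq]
  refine tsum_of_norm_bounded (hs.hasSum.mul_right _) fun n => ?_
  have h0 := N_nonneg n
  split_ifs with hn
  · rw [norm_zero]; positivity
  · rw [norm_mul, Complex.norm_real, Real.norm_of_nonneg (core_Vr_pos _).le]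
    have h1 := c5_one_le hn
    have h2 : Vr (‖toC n / toC M‖ * v) ≤ |C| * (Real.exp (-(δ * ‖toC n‖)) * Real.exp (-δ * v)) := by
      refine (hC _ (by positivity)).trans (mul_le_mul (le_abs_self C) ?_ (Real.exp_pos _).le
        (abs_nonneg C))
      rw [← Real.exp_add, Real.exp_le_exp, norm_div,
        show ‖toC n‖ / ‖toC M‖ = 2 * δ * ‖toC n‖ by rw [hδ]; field_simp]
      nlinarith [mul_nonneg hδ0.le (mul_nonneg (sub_nonneg.2 h1) (sub_nonneg.2 hv)),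
        mul_nonneg hδ0.le (sub_nonneg.2 h1), mul_nonneg hδ0.le (sub_nonneg.2 hv)]
    refine (mul_le_mul (h n hn) h2 (core_Vr_pos _).le (by positivity)).trans_eq ?_
    ring

/-- for `n ≠ 0`: `hp ℓ (n/M) = |n/M|^L (ang n)^ℓ (ang M)^{-ℓ}` -/
theorem hp_div (ℓ : ℤ) {n M : O} (hn : n ≠ 0) (hM : M ≠ 0) :
    hp ℓ (toC n / toC M) = (‖toC n / toC M‖ : ℂ) ^ ℓ.natAbs * ang n ^ ℓ * ang M ^ (-ℓ) := by
  have e : ∀ {x : O}, x ≠ 0 → (‖toC x‖ : ℂ) ≠ 0 := fun hx =>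
    Complex.ofReal_ne_zero.2 (norm_ne_zero_iff.2 (b4_toC_ne_zero hx))
  have h1 : toC n / toC M = (‖toC n / toC M‖ : ℝ) * (ang n / ang M) := by
    have := e hn
    have := e hM
    have := b4_toC_ne_zero hM
    rw [norm_div, ang, ang]
    push_cast
    field_simp
  have h2 : ‖ang n / ang M‖ = 1 := by rw [norm_div, norm_ang hn, norm_ang hM, div_one]
  rw [mul_assoc, zpow_neg, ← div_eq_mul_inv, ← div_zpow]
  conv_lhs => rw [h1, hp_real_mul]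
  congr 1
  rw [hp]
  split_ifs with h
  · rw [← zpow_natCast, Int.natAbs_of_nonneg h]
  · rw [← Complex.inv_eq_conj h2, ← zpow_natCast, Int.ofNat_natAbs_of_nonpos (le_of_not_ge h), inv_zpow',
      neg_neg]

theorem c5_norm_int (b w : ℂ) {r : ℝ} (hr : 0 < r) :
    ∫ t in Set.Ioi (0 : ℝ), ‖(t : ℂ) ^ (w - 1) • (b * (Vr (r * t) : ℂ))‖ =
      ‖b‖ * r ^ (-w.re) * ∫ t in Set.Ioi (0 : ℝ), ‖(t : ℂ) ^ (w - 1) • (Vr t : ℂ)‖ := by
  have h := integral_comp_mul_left_Ioi (fun t : ℝ => ‖(t : ℂ) ^ (w - 1) • (Vr t : ℂ)‖) 0 hr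
  rw [mul_zero, smul_eq_mul] at h
  rw [show -w.re = -(w - 1).re + -1 by simp only [Complex.sub_re, Complex.one_re]; ring,
    Real.rpow_add hr, Real.rpow_neg_one, ← mul_assoc,
    mul_assoc _ r⁻¹, ← h, ← integral_const_mul]
  refine setIntegral_congr_fun measurableSet_Ioi fun t ht => ?_
  have ht' : (0 : ℝ) < t := ht
  simp only [norm_smul, norm_mul, Complex.norm_cpow_eq_rpow_re_of_pos ht',
    Complex.norm_cpow_eq_rpow_re_of_pos (mul_pos hr ht'), Real.mul_rpow hr.le ht'.le,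
    Real.rpow_neg hr.le]
  have := (Real.rpow_pos_of_pos hr (w - 1).re).ne'
  field_simp

/-- Termwise Mellin transform (`integral_tsum` / `hasSum_integral_of_summable_integral_norm`,
`mellin_comp_mul_left`, `core_mellin_Vr`; the norm of the `n`-th term integrates to
`‖a n‖ |n/M|^{L - Re w} mellin Vr (Re w)`), `|n/M|² = N n / N M`. -/
theorem mellin_Phi (ℓ : ℤ) {M : O} (hM : M ≠ 0) {a : O → ℂ} (ha : PolyBd a) :
    ∃ σ0 : ℝ, ∀ s : ℂ, σ0 < s.re →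
      mellin (fun v => Phi ℓ M a v - Phi0 ℓ a) (2 * s - 1 / 3 + ℓ.natAbs) =
        ((Real.pi / (2 * Real.Gamma (4 / 3)) : ℝ) : ℂ) * (c0 : ℂ) ^ (-(2 * s - 1 / 3 + ℓ.natAbs)) *
          Complex.Gamma (s - 1 / 6 + (ℓ.natAbs : ℂ) / 2) *
          Complex.Gamma (s + 1 / 6 + (ℓ.natAbs : ℂ) / 2) *
          (N M : ℂ) ^ (s - 1 / 6) * ang M ^ (-ℓ) *
          dser (fun n => a n * ((N n ^ (1 / 6 : ℝ) : ℝ) : ℂ) * ang n ^ ℓ) s := by
  obtain ⟨K, J, hK, h⟩ := c5_bd ℓ hM ha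
  refine ⟨J + 2, fun s hs => ?_⟩
  set w : ℂ := 2 * s - 1 / 3 + ℓ.natAbs with hw
  have hre : w.re = 2 * s.re - 1 / 3 + ℓ.natAbs := by simp [hw]
  have hJ : (0 : ℝ) ≤ J := J.cast_nonneg
  have hL : (0 : ℝ) ≤ ℓ.natAbs := Nat.cast_nonneg _
  obtain ⟨hc, hm⟩ := core_mellin_Vr (w := w) (by linarith)
  have key := hasSum_integral_of_summable_integral_norm (μ := volume.restrict (Set.Ioi (0 : ℝ)))
    (F := fun (n : O) (t : ℝ) => (t : ℂ) ^ (w - 1) • (if n = 0 then 0 else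
      a n * hp ℓ (toC n / toC M) * (Vr (‖toC n / toC M‖ * t) : ℂ))) (fun n => ?_) ?_
  · have h1 : mellin (fun v => Phi ℓ M a v - Phi0 ℓ a) w = _ := (setIntegral_congr_fun measurableSet_Ioi
      fun t ht => ((c5_hasSum ℓ hM ha ht).const_smul ((t : ℂ) ^ (w - 1))).tsum_eq.symm)
    rw [h1, ← key.tsum_eq, dser, ← tsum_mul_left]
    refine tsum_congr fun n => ?_
    split_ifs with hn
    · simp
    · have h2 := mellin_const_smul (fun t => (Vr (‖toC n / toC M‖ * t) : ℂ)) w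
        (a n * hp ℓ (toC n / toC M))
      rw [mellin_comp_mul_left (fun t => (Vr t : ℂ)) w (c5_pos hn hM), hm] at h2
      refine Eq.trans h2 ?_
      have h3 : (‖toC n / toC M‖ : ℂ) ^ ℓ.natAbs * (‖toC n / toC M‖ : ℂ) ^ (-w) =
          (N M : ℂ) ^ (s - 1 / 6) * ((N n ^ (1 / 6 : ℝ) : ℝ) : ℂ) * (N n : ℂ) ^ (-s) := by
        rw [← Complex.cpow_natCast, c5_cpow (c5_pos hn hM), c5_cpow (c5_pos hn hM), c5_cpow (N_pos hM),
          c5_cpow (N_pos hn), c5_rpow (N_pos hn), c5_log hn hM, hw]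
        simp only [← Complex.exp_add]
        congr 1
        push_cast
        ring
      rw [hp_div ℓ hn hM, show w / 2 = s - 1 / 6 + (ℓ.natAbs : ℂ) / 2 by rw [hw]; ring,
        show s - 1 / 6 + (ℓ.natAbs : ℂ) / 2 + 1 / 3 = s + 1 / 6 + (ℓ.natAbs : ℂ) / 2 by ring]
      simp only [smul_eq_mul]
      linear_combination (a n * ang n ^ ℓ * ang M ^ (-ℓ) * ((Real.pi / (2 * Real.Gamma (4 / 3)) : ℝ) *
        (c0 : ℂ) ^ (-w) * Complex.Gamma (s - 1 / 6 + (ℓ.natAbs : ℂ) / 2) *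
        Complex.Gamma (s + 1 / 6 + (ℓ.natAbs : ℂ) / 2))) * h3
  · by_cases hn : n = 0
    · simp [hn]
    · simp only [if_neg hn]
      exact ((MellinConvergent.comp_mul_left (c5_pos hn hM)).2 hc).const_smul
        (a n * hp ℓ (toC n / toC M))
  · set I := ∫ t in Set.Ioi (0 : ℝ), ‖(t : ℂ) ^ (w - 1) • (Vr t : ℂ)‖ with hI
    have hI0 : 0 ≤ I := integral_nonneg fun _ => norm_nonneg _
    refine Summable.of_nonneg_of_le (fun n => integral_nonneg fun _ => norm_nonneg _) (fun n => ?_)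
      ((summable_N_rpow (σ := w.re / 2 - J) (by linarith)).mul_left (K * N M ^ (w.re / 2) * I))
    have h0 := N_nonneg n
    have h0' := N_nonneg M
    by_cases hn : n = 0
    · simp only [if_pos hn, smul_zero, norm_zero, integral_zero]
      positivity
    · simp only [if_neg hn]
      rw [c5_norm_int _ _ (c5_pos hn hM), mul_right_comm _ I]
      refine mul_le_mul_of_nonneg_right ((mul_le_mul_of_nonneg_right (h n hn)
        (Real.rpow_nonneg (norm_nonneg _) _)).trans_eq ?_) hI0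
      rw [mul_assoc, mul_assoc, ← Real.rpow_natCast, Real.rpow_def_of_pos (c5_pos hn hM),
        Real.rpow_def_of_pos (N_pos hn), Real.rpow_def_of_pos (N_pos hn),
        Real.rpow_def_of_pos (N_pos hM), c5_log hn hM, ← Real.exp_add, ← Real.exp_add]
      congr 2
      ring

/-- exponential growth in vertical strips, away from the real axis -/
def c5Gr (f : ℂ → ℂ) : Prop := ∀ σ1 σ2 : ℝ, ∃ K A : ℝ, 0 ≤ K ∧ 0 ≤ A ∧
  ∀ s : ℂ, σ1 ≤ s.re → s.re ≤ σ2 → 1 ≤ |s.im| → ‖f s‖ ≤ K * Real.exp (A * |s.im|)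

theorem c5Gr.mul {f g : ℂ → ℂ} (hf : c5Gr f) (hg : c5Gr g) : c5Gr fun s => f s * g s := fun σ1 σ2 => by
  obtain ⟨K, A, hK, hA, h⟩ := hf σ1 σ2
  obtain ⟨K', A', hK', hA', h'⟩ := hg σ1 σ2
  refine ⟨K * K', A + A', by positivity, by positivity, fun s h1 h2 h3 => ?_⟩
  rw [norm_mul, add_mul, Real.exp_add, mul_mul_mul_comm]
  exact mul_le_mul (h s h1 h2 h3) (h' s h1 h2 h3) (norm_nonneg _) (by positivity)

theorem c5Gr.of_le {f g k : ℂ → ℂ} (hf : c5Gr f) (hg : c5Gr g)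
    (hk : ∀ s : ℂ, 1 ≤ |s.im| → ‖k s‖ ≤ ‖f s‖ + ‖g s‖) : c5Gr k := fun σ1 σ2 => by
  obtain ⟨K, A, hK, hA, h⟩ := hf σ1 σ2
  obtain ⟨K', A', hK', hA', h'⟩ := hg σ1 σ2
  refine ⟨K + K', A + A', by positivity, by positivity, fun s h1 h2 h3 => (hk s h3).trans ?_⟩
  rw [add_mul K]
  have := abs_nonneg s.im
  refine add_le_add ((h s h1 h2 h3).trans ?_) ((h' s h1 h2 h3).trans ?_) <;> gcongr <;> linarith

theorem c5Gr.add {f g : ℂ → ℂ} (hf : c5Gr f) (hg : c5Gr g) : c5Gr fun s => f s + g s :=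
  hf.of_le hg fun _ _ => norm_add_le _ _

theorem c5Gr.sub {f g : ℂ → ℂ} (hf : c5Gr f) (hg : c5Gr g) : c5Gr fun s => f s - g s :=
  hf.of_le hg fun _ _ => norm_sub_le _ _

theorem c5Gr.of_bdd {f : ℂ → ℂ}
    (h : ∀ σ1 σ2 : ℝ, ∃ K, ∀ s : ℂ, σ1 ≤ s.re → s.re ≤ σ2 → ‖f s‖ ≤ K) : c5Gr f := fun σ1 σ2 => by
  obtain ⟨K, hK⟩ := h σ1 σ2
  exact ⟨|K|, 0, abs_nonneg K, le_rfl, fun s h1 h2 _ => by
    simpa using (hK s h1 h2).trans (le_abs_self K)⟩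

theorem c5Gr.const (c : ℂ) : c5Gr fun _ => c := .of_bdd fun _ _ => ⟨‖c‖, fun _ _ _ => le_rfl⟩

theorem c5Gr.id : c5Gr fun s => s := fun σ1 σ2 => by
  refine ⟨|σ1| + |σ2| + 1, 1, by positivity, zero_le_one, fun s h1 h2 _ => ?_⟩
  have h3 : |s.re| ≤ |σ1| + |σ2| := abs_le.2
    ⟨by linarith [neg_abs_le σ1, abs_nonneg σ2], by linarith [le_abs_self σ2, abs_nonneg σ1]⟩
  have h4 := Real.add_one_le_exp |s.im|
  have h5 := Complex.norm_le_abs_re_add_abs_im s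
  rw [one_mul]
  nlinarith [abs_nonneg σ1, abs_nonneg σ2, abs_nonneg s.im]

theorem c5Gr.cpow {x : ℝ} (hx : 0 < x) {u : ℂ → ℂ} {g : ℝ → ℝ} (hg : Continuous g)
    (hu : ∀ s, (u s).re = g s.re) : c5Gr fun s => (x : ℂ) ^ u s := .of_bdd fun σ1 σ2 => by
  obtain ⟨K, hK⟩ := (isCompact_Icc (a := σ1) (b := σ2)).exists_bound_of_continuousOn
    (f := fun y => x ^ g y) ((Real.continuous_const_rpow hx.ne').comp hg).continuousOn
  refine ⟨K, fun s h1 h2 => ?_⟩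
  rw [Complex.norm_cpow_eq_rpow_re_of_pos hx, hu]
  exact (le_abs_self _).trans (hK _ ⟨h1, h2⟩)

theorem c5Gr.gamma {u : ℂ → ℂ} (c : ℝ) (hu : ∀ s, u s = s + c) :
    c5Gr fun s => (Complex.Gamma (u s))⁻¹ := fun σ1 σ2 => by
  obtain ⟨K, hK, h⟩ := norm_inv_Gamma_le (σ1 + c) (σ2 + c)
  refine ⟨K, Real.pi, hK, Real.pi_pos.le, fun s h1 h2 h3 => ?_⟩
  simpa [hu] using h (s + c) (by simpa) (by simpa) (by simpa)

theorem c5Gr.expGr {f : ℂ → ℂ} (hf : c5Gr f) (hc : Continuous f) : ExpGr f := fun σ1 σ2 => by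
  obtain ⟨K, A, hK, hA, h⟩ := hf σ1 σ2
  obtain ⟨B, hB⟩ := ((isCompact_Icc (a := σ1) (b := σ2)).reProdIm
    (isCompact_Icc (a := (-1 : ℝ)) (b := 1))).exists_bound_of_continuousOn hc.continuousOn
  refine ⟨K + A + |B|, fun s h1 h2 => ?_⟩
  have h0 := abs_nonneg s.im
  have hB0 := abs_nonneg B
  rcases le_total 1 |s.im| with h3 | h3
  · refine (h s h1 h2 h3).trans ?_
    gcongr <;> linarith
  · refine ((hB s ⟨⟨h1, h2⟩, abs_le.1 h3⟩).trans (le_abs_self B)).trans ?_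
    have := Real.one_le_exp (show 0 ≤ (K + A + |B|) * |s.im| by positivity)
    nlinarith

theorem c5_dser_mul (c : ℂ) (φ : O → ℂ) (s : ℂ) : dser (fun n => c * φ n) s = c * dser φ s := by
  rw [dser, dser, ← tsum_mul_left]
  refine tsum_congr fun n => ?_
  split_ifs
  · simp
  · ring

/-- **Abstract functional equation.**  `P : WeakFEPair ℂ` with `f = Phi ℓ M₁ a₁`,
`g = Phi (-ℓ) M₂ a₂`, `k = 2L + 4/3`, `ε = 1`, `f₀ = Phi0 ℓ a₁`, `g₀ = Phi0 (-ℓ) a₂` (`phi_fe`,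
`continuousOn_Phi`, `Phi_isBigO`).  `P.Λ w = P.Λ₀ w - f₀/w - g₀/(k-w)`, `P.hasMellin`,
`P.functional_equation`.  With `A(s) = (π/(2Γ(4/3)))⁻¹ c0^{w(s)} N(M₁)^{1/6-s} ang(M₁)^ℓ`,
`D(s) = A(s) Γ(s-1/6+L/2)⁻¹ Γ(s+1/6+L/2)⁻¹ P.Λ(w(s))`.  Put
`G(s) = A(s)[(s-5/6) Γ⁻¹Γ⁻¹ Λ₀(w) - (s-5/6) Γ(s+5/6)⁻¹Γ(s+1/6)⁻¹ f₀/2 + Γ⁻¹Γ⁻¹ g₀/2]` (entire; for
`L = 0`, `w = 2(s-1/6)`, `k - w = 2(5/6-s)`, `1/((s-1/6)Γ(s-1/6)) = 1/Γ(s+5/6)`; for `L ≠ 0`,
`f₀ = g₀ = 0`), so `G(s) = (s-5/6) D(s)`; `E = dslope G (5/6)`, `R = G(5/6)`.  Growth: `Lam0_bdd`,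
`norm_inv_Gamma_le` for `|Im s| ≥ 1`, compactness for `|Im s| ≤ 1`.  For `Re s` very negative
`P.Λ(w(s)) = P.symm.Λ(w(1-s))` is given by `mellin_Phi (-ℓ)` at `1-s`; collect the powers:
`N(M₁)^{1/6-s} N(M₂)^{5/6-s} c0^{4s-2} = (N M₂/N M₁)^{1/3} (N M₁ N M₂/c0⁴)^{1/2-s}`. -/
theorem fe_abstract (ℓ : ℤ) {M1 M2 : O} (h1 : M1 ≠ 0) (h2 : M2 ≠ 0) {F1 F2 : X → ℂ}
    {a1 a2 : O → ℂ} (e1 : HasExp F1 M1 a1) (e2 : HasExp F2 M2 a2) (b1 : PolyBd a1)
    (b2 : PolyBd a2) (hS : ∀ w, F1 w = F2 (act SS w)) :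
    HasFE ℓ (fun n => a1 n * ((N n ^ (1 / 6 : ℝ) : ℝ) : ℂ) * ang n ^ ℓ)
      (fun n => ang (M1 * M2) ^ ℓ * (((N M2 / N M1) ^ (1 / 3 : ℝ) : ℝ) : ℂ) *
        (a2 n * ((N n ^ (1 / 6 : ℝ) : ℝ) : ℂ) * ang n ^ (-ℓ)))
      (N M1 * N M2 / c0 ^ 4)
      (if ℓ = 0 then ((cres * N M1 ^ (-(2 / 3 : ℝ)) : ℝ) : ℂ) * a2 0 else 0) := by
  let P : WeakFEPair ℂ :=
    { f := Phi ℓ M1 a1, g := Phi (-ℓ) M2 a2, k := 2 * (ℓ.natAbs : ℝ) + 4 / 3, ε := 1
      f₀ := Phi0 ℓ a1, g₀ := Phi0 (-ℓ) a2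
      hf_int := (continuousOn_Phi ℓ h1 b1).locallyIntegrableOn measurableSet_Ioi
      hg_int := (continuousOn_Phi (-ℓ) h2 b2).locallyIntegrableOn measurableSet_Ioi
      hk := by positivity
      hε := one_ne_zero
      h_feq := fun x hx => by rw [phi_fe ℓ h1 h2 e1 e2 b1 b2 hS hx, one_mul, smul_eq_mul]
      hf_top := Phi_isBigO ℓ h1 b1
      hg_top := Phi_isBigO (-ℓ) h2 b2 }
  have hk' : P.k = 2 * (ℓ.natAbs : ℝ) + 4 / 3 := rfl
  have hk : (P.k : ℂ) = 2 * (ℓ.natAbs : ℂ) + 4 / 3 := by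
    rw [hk']
    simp only [Complex.ofReal_add, Complex.ofReal_mul, Complex.ofReal_div, Complex.ofReal_ofNat,
      Complex.ofReal_natCast]
  have hL : (0 : ℝ) ≤ ℓ.natAbs := Nat.cast_nonneg _
  have hG43 : 0 < Real.Gamma (4 / 3) := Real.Gamma_pos_of_pos (by norm_num)
  have hκ : ((Real.pi / (2 * Real.Gamma (4 / 3)) : ℝ) : ℂ) ≠ 0 :=
    Complex.ofReal_ne_zero.2 (by positivity)
  set κ : ℂ := ((Real.pi / (2 * Real.Gamma (4 / 3)) : ℝ) : ℂ) with hκd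
  set L : ℂ := (ℓ.natAbs : ℂ) with hLd
  set A : ℂ → ℂ := fun s => κ⁻¹ * ang M1 ^ ℓ * (c0 : ℂ) ^ (2 * s - 1 / 3 + L) *
    (N M1 : ℂ) ^ (1 / 6 - s) with hA
  set g1 : ℂ → ℂ := fun s => (Complex.Gamma (s - 1 / 6 + L / 2))⁻¹ with hg1
  set g2 : ℂ → ℂ := fun s => (Complex.Gamma (s + 1 / 6 + L / 2))⁻¹ with hg2
  set g3 : ℂ → ℂ := fun s => (Complex.Gamma (s + 5 / 6))⁻¹ with hg3
  set G : ℂ → ℂ := fun s => A s * g2 s * ((s - 5 / 6) * g1 s * P.Λ₀ (2 * s - 1 / 3 + L) -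
    (s - 5 / 6) * g3 s * (P.f₀ / 2) + g1 s * (P.g₀ / 2)) with hG
  have hc0 : (c0 : ℂ) ≠ 0 := Complex.ofReal_ne_zero.2 c0_pos.ne'
  have hN1 : (N M1 : ℂ) ≠ 0 := Complex.ofReal_ne_zero.2 (N_pos h1).ne'
  have hGd : Differentiable ℂ G := by
    have d0 : Differentiable ℂ fun s : ℂ => (Complex.Gamma s)⁻¹ := Complex.differentiable_one_div_Gamma
    have d1 : Differentiable ℂ g1 := d0.comp (by fun_prop)
    have d2 : Differentiable ℂ g2 := d0.comp (by fun_prop)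
    have d3 : Differentiable ℂ g3 := d0.comp (by fun_prop)
    have d4 : Differentiable ℂ fun s => P.Λ₀ (2 * s - 1 / 3 + L) :=
      P.differentiable_Λ₀.comp (by fun_prop)
    have d5 : Differentiable ℂ A := ((differentiable_const _).mul
      (Differentiable.const_cpow (by fun_prop) (Or.inl hc0))).mul
      (Differentiable.const_cpow (by fun_prop) (Or.inl hN1))
    fun_prop
  have hGg : c5Gr G := by
    have d1 : c5Gr g1 := .gamma (-1 / 6 + ℓ.natAbs / 2) fun s => by push_cast; ring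
    have d2 : c5Gr g2 := .gamma (1 / 6 + ℓ.natAbs / 2) fun s => by push_cast; ring
    have d3 : c5Gr g3 := .gamma (5 / 6) fun s => by push_cast; ring
    have d4 : c5Gr fun s => P.Λ₀ (2 * s - 1 / 3 + L) := .of_bdd fun σ1 σ2 => by
      obtain ⟨K, -, hK⟩ := Lam0_bdd P (2 * σ1 - 1 / 3 + ℓ.natAbs) (2 * σ2 - 1 / 3 + ℓ.natAbs)
      exact ⟨K, fun s h1 h2 => hK _ (by simpa [hLd]) (by simpa [hLd])⟩
    have d5 : c5Gr A := ((c5Gr.const _).mul (.cpow c0_pos (g := fun y => 2 * y - 1 / 3 + ℓ.natAbs)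
      (by fun_prop) fun s => by simp [hLd])).mul
      (.cpow (N_pos h1) (g := fun y => 1 / 6 - y) (by fun_prop) fun s => by simp)
    have d6 : c5Gr fun s => s - 5 / 6 := c5Gr.id.sub (.const _)
    exact (d5.mul d2).mul ((((d6.mul d1).mul d4).sub ((d6.mul d3).mul (.const _))).add
      (d1.mul (.const _)))
  have hR : G (5 / 6) = if ℓ = 0 then ((cres * N M1 ^ (-(2 / 3 : ℝ)) : ℝ) : ℂ) * a2 0 else 0 := by
    simp only [hG, sub_self, zero_mul, zero_add]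
    split_ifs with h0
    · have hL0 : L = 0 := by simp [hLd, h0]
      have hg0 : P.g₀ = a2 0 * (3 * Real.pi) := by simp [P, Phi0, h0]
      have hpi : (Real.pi : ℂ) ≠ 0 := Complex.ofReal_ne_zero.2 Real.pi_pos.ne'
      have hG' : (Real.Gamma (4 / 3) : ℂ) ≠ 0 := Complex.ofReal_ne_zero.2 hG43.ne'
      simp only [hA, hg1, hg2, hL0, hg0, h0, zpow_zero, hκd, cres]
      rw [show (5 / 6 + 1 / 6 + 0 / 2 : ℂ) = 1 by ring, Complex.Gamma_one,
        show (5 / 6 - 1 / 6 + 0 / 2 : ℂ) = ((2 / 3 : ℝ) : ℂ) by push_cast; ring, Complex.Gamma_ofReal,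
        show (2 * (5 / 6) - 1 / 3 + 0 : ℂ) = ((4 / 3 : ℝ) : ℂ) by push_cast; ring,
        show (1 / 6 - 5 / 6 : ℂ) = ((-(2 / 3) : ℝ) : ℂ) by push_cast; ring,
        ← Complex.ofReal_cpow c0_pos.le, ← Complex.ofReal_cpow (N_nonneg _)]
      simp only [Complex.ofReal_mul, Complex.ofReal_div, Complex.ofReal_ofNat]
      field_simp
    · have hg0 : P.g₀ = 0 := by simp [P, Phi0, h0]
      simp [hg0]
  have hE : ∀ s : ℂ, s ≠ 1 / 6 → s ≠ 5 / 6 → dslope G (5 / 6) s + G (5 / 6) / (s - 5 / 6) =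
      A s * g1 s * g2 s * P.Λ (2 * s - 1 / 3 + L) := fun s hs1 hs5 => by
    have h5 := sub_ne_zero.2 hs5
    rw [dslope_of_ne _ hs5, slope_def_field, ← add_div, sub_add_cancel, div_eq_iff h5]
    simp only [hG, WeakFEPair.Λ, smul_eq_mul, hk, show P.ε = 1 from rfl]
    by_cases h0 : ℓ = 0
    · have hL0 : L = 0 := by simp [hLd, h0]
      have h6 := sub_ne_zero.2 hs1
      have h7 : g3 s = (s - 1 / 6)⁻¹ * g1 s := by
        simp only [hg3, hg1, hL0]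
        rw [show s + 5 / 6 = s - 1 / 6 + 1 by ring, Complex.Gamma_add_one _ h6, mul_inv, zero_div,
          add_zero]
      rw [h7, hL0, show 2 * s - 1 / 3 + 0 = 2 * (s - 1 / 6) by ring,
        show 2 * (0 : ℂ) + 4 / 3 - 2 * (s - 1 / 6) = -2 * (s - 5 / 6) by ring]
      generalize s - 1 / 6 = x at h6 ⊢
      generalize s - 5 / 6 = y at h5 ⊢
      field_simp
      ring
    · have hg0 : P.g₀ = 0 := by simp [P, Phi0, h0]
      have hf0 : P.f₀ = 0 := by simp [P, Phi0, h0]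
      rw [hg0, hf0]
      ring
  have hre : ∀ s : ℂ, (2 * s - 1 / 3 + L).re = 2 * s.re - 1 / 3 + ℓ.natAbs := fun s => by simp [hLd]
  rw [← hR]
  have hEd : Differentiable ℂ (dslope G (5 / 6)) := differentiableOn_univ.1
    ((Complex.differentiableOn_dslope univ_mem).2 hGd.differentiableOn)
  refine ⟨dslope G (5 / 6), hEd, c5Gr.expGr (hGg.of_le (.const (G (5 / 6))) fun s hs => ?_)
    hEd.continuous, ?_, ?_⟩
  · have h3 : 1 ≤ ‖s - 5 / 6‖ := by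
      refine hs.trans (le_of_eq_of_le ?_ (Complex.abs_im_le_norm _))
      simp
    rw [dslope_of_ne _ (sub_ne_zero.1 (norm_pos_iff.1 (by linarith))), slope_def_field, norm_div]
    exact (div_le_self (norm_nonneg _) h3).trans (norm_sub_le _ _)
  · obtain ⟨σ0, h⟩ := mellin_Phi ℓ h1 b1
    refine ⟨max σ0 (ℓ.natAbs + 1), fun s hs => ?_⟩
    rw [max_lt_iff] at hs
    have hΛ : P.Λ (2 * s - 1 / 3 + L) = _ :=
      (P.hasMellin (by rw [hre, hk']; linarith)).2.symm.trans (h s hs.1)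
    have k1 : Complex.Gamma (s - 1 / 6 + L / 2) ≠ 0 :=
      Complex.Gamma_ne_zero_of_re_pos (by simp [hLd, -Nat.cast_natAbs]; linarith)
    have k2 : Complex.Gamma (s + 1 / 6 + L / 2) ≠ 0 :=
      Complex.Gamma_ne_zero_of_re_pos (by simp [hLd, -Nat.cast_natAbs]; linarith)
    have hs0 : 1 < s.re := by linarith
    have k3 : (c0 : ℂ) ^ (2 * s - 1 / 3 + L) ≠ 0 := by simp [hc0]
    have k4 : (N M1 : ℂ) ^ (1 / 6 - s) ≠ 0 := by simp [hN1]
    have k5 : ang M1 ^ ℓ ≠ 0 := zpow_ne_zero _ (norm_ne_zero_iff.1 (by rw [norm_ang h1]; simp))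
    rw [hE s (by rintro rfl; norm_num at hs0) (by rintro rfl; norm_num at hs0), hΛ,
      ← neg_sub (1 / 6) s, Complex.cpow_neg, Complex.cpow_neg, zpow_neg, neg_sub, ← hκd, ← hLd]
    simp only [hA, hg1, hg2]
    generalize Complex.Gamma (s - 1 / 6 + L / 2) = x1 at k1 ⊢
    generalize Complex.Gamma (s + 1 / 6 + L / 2) = x2 at k2 ⊢
    generalize (c0 : ℂ) ^ (2 * s - 1 / 3 + L) = x3 at k3 ⊢
    generalize (N M1 : ℂ) ^ (1 / 6 - s) = x4 at k4 ⊢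
    field_simp
  · obtain ⟨σ0, h⟩ := mellin_Phi (-ℓ) h2 b2
    refine ⟨min (1 - σ0) (-ℓ.natAbs - 1), fun s hs => ?_⟩
    rw [lt_min_iff] at hs
    have h3 := h (1 - s) (by simp; linarith)
    rw [Int.natAbs_neg, neg_neg] at h3
    have hΛ0 : P.Λ (2 * s - 1 / 3 + L) = P.symm.Λ (2 * (1 - s) - 1 / 3 + L) := by
      rw [show 2 * s - 1 / 3 + L = P.k - (2 * (1 - s) - 1 / 3 + L) by rw [hk]; ring,
        P.functional_equation, show P.ε = 1 from rfl, one_smul]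
    have hΛ := hΛ0.trans ((P.symm.hasMellin (by
      rw [hre, P.symm_k, hk', Complex.sub_re, Complex.one_re]; linarith)).2.symm.trans h3)
    rw [← hκd, ← hLd] at hΛ
    have h4 : (c0 : ℂ) ^ (2 * s - 1 / 3 + L) * (N M1 : ℂ) ^ (1 / 6 - s) *
        (c0 : ℂ) ^ (-(2 * (1 - s) - 1 / 3 + L)) * (N M2 : ℂ) ^ (1 - s - 1 / 6) =
        ((N M1 * N M2 / c0 ^ 4 : ℝ) : ℂ) ^ (1 / 2 - s) * (((N M2 / N M1) ^ (1 / 3 : ℝ) : ℝ) : ℂ) := by
      have p1 := N_pos h1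
      have p2 := N_pos h2
      have p3 := c0_pos
      rw [c5_cpow p3, c5_cpow p3, c5_cpow p1, c5_cpow p2, c5_cpow (by positivity),
        c5_rpow (by positivity), Real.log_div p2.ne' p1.ne', Real.log_div (by positivity) (by positivity),
        Real.log_mul p1.ne' p2.ne', Real.log_pow]
      simp only [← Complex.exp_add]
      congr 1
      push_cast
      ring
    have hs0 : s.re < 0 := by linarith
    rw [hE s (by rintro rfl; norm_num at hs0) (by rintro rfl; norm_num at hs0), hΛ,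
      c5_dser_mul, ang_mul, mul_zpow, gamL, show 1 - s - 1 / 6 + L / 2 = 5 / 6 + L / 2 - s by ring,
      show 1 - s + 1 / 6 + L / 2 = 7 / 6 + L / 2 - s by ring]
    simp only [hA, hg1, hg2]
    linear_combination (ang M1 ^ ℓ * ang M2 ^ ℓ * Complex.Gamma (5 / 6 + L / 2 - s) *
      Complex.Gamma (7 / 6 + L / 2 - s) * (Complex.Gamma (s - 1 / 6 + L / 2))⁻¹ *
      (Complex.Gamma (s + 1 / 6 + L / 2))⁻¹ *
      dser (fun n => a2 n * ((N n ^ (1 / 6 : ℝ) : ℝ) : ℂ) * ang n ^ (-ℓ)) (1 - s)) * (h4 +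
      ((c0 : ℂ) ^ (2 * s - 1 / 3 + L) * (N M1 : ℂ) ^ (1 / 6 - s) *
        (c0 : ℂ) ^ (-(2 * (1 - s) - 1 / 3 + L)) * (N M2 : ℂ) ^ (1 - s - 1 / 6)) * inv_mul_cancel₀ hκ)

end Crest.Agent.R17.Vor
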