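import Crest.Agent.R17.VoC0
import Crest.Agent.R17.LGrowth
import Crest.Agent.R17.Kernel

/-!
# R17 / VoGam : the gamma factor `gamL ℓ` and its kernel
-/

set_option autoImplicit false

noncomputable section

open scoped Classical ComplexConjugate Topology
open MeasureTheory Filter

namespace Crest.Agent.R17.Vor

theorem vogam_diffAt {z : ℂ} (hz : 0 < z.re) : DifferentiableAt ℂ Complex.Gamma z := by
  refine Complex.differentiableAt_Gamma z fun m h => ?_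
  rw [h] at hz
  have : (0 : ℝ) ≤ m := Nat.cast_nonneg m
  simp at hz
  linarith

theorem vogam_num {a : ℝ} (ha : 0 < a) (b : ℝ) :
    ∃ K, 0 ≤ K ∧ ∀ z : ℂ, a ≤ z.re → z.re ≤ b → ‖Complex.Gamma z‖ ≤ K := by
  have hc : ContinuousOn Real.Gamma (Set.Icc a b) := by
    intro x hx
    refine (Real.differentiableAt_Gamma fun m => ?_).continuousAt.continuousWithinAt
    have h1 : (0 : ℝ) ≤ m := Nat.cast_nonneg m
    have h2 := hx.1
    intro h
    linarith
  obtain ⟨K, hK⟩ := isCompact_Icc.exists_bound_of_continuousOn hc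
  refine ⟨max K 0, le_max_right _ _, fun z h1 h2 => ?_⟩
  exact le_trans (norm_Gamma_le_re (by linarith))
    (le_trans (le_trans (le_abs_self _) (hK _ ⟨h1, h2⟩)) (le_max_left _ _))

theorem vogam_den (a b : ℝ) : ∃ K, 0 ≤ K ∧ ∀ z : ℂ, a ≤ z.re → z.re ≤ b →
    ‖(Complex.Gamma z)⁻¹‖ ≤ K * Real.exp (Real.pi * |z.im|) := by
  obtain ⟨K, hK0, hK⟩ := norm_inv_Gamma_le a b
  obtain ⟨K', hK'⟩ := (isCompact_closedBall (0 : ℂ) (|a| + |b| + 1)).exists_bound_of_continuousOn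
    Complex.differentiable_one_div_Gamma.continuous.continuousOn
  refine ⟨max K K', le_trans hK0 (le_max_left _ _), fun z h1 h2 => ?_⟩
  rcases le_total 1 |z.im| with h | h
  · exact le_trans (hK z h1 h2 h) (mul_le_mul_of_nonneg_right (le_max_left _ _) (Real.exp_pos _).le)
  · refine le_trans (hK' z ?_) (le_trans (le_max_right K _)
      (le_mul_of_one_le_right (le_trans hK0 (le_max_left _ _)) (Real.one_le_exp (by positivity))))
    rw [mem_closedBall_zero_iff]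
    refine le_trans (Complex.norm_le_abs_re_add_abs_im _) (add_le_add ?_ h)
    rw [abs_le]
    constructor
    · linarith [neg_abs_le a, abs_nonneg b]
    · linarith [le_abs_self b, abs_nonneg a]

theorem vogam_ratio {z w : ℂ} {n : ℕ} {R : ℝ} (hR : 0 ≤ R) (hw : conj w = z + n)
    (h : ∀ i : ℕ, i < n → z + i ≠ 0 ∧ ‖z + i‖ ≤ R) :
    ‖Complex.Gamma w‖ * ‖(Complex.Gamma z)⁻¹‖ ≤ R ^ n := by
  have h2 : ‖Complex.Gamma w‖ = ‖Complex.Gamma (z + n)‖ := by
    rw [← hw, Complex.Gamma_conj, Complex.norm_conj]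
  rw [h2, norm_inv]
  refine le_trans (mul_le_mul_of_nonneg_right (norm_Gamma_add_nat_le n h)
    (inv_nonneg.mpr (norm_nonneg _))) ?_
  rw [mul_assoc]
  exact mul_le_of_le_one_right (by positivity) mul_inv_le_one

theorem vogam_step {z : ℂ} {j L c : ℕ} (hc : c = 2 ∨ c = 4) (hz : 6 * z.re = c - 6 * j + 3 * L)
    (i : ℕ) (hi : i < 2 * j) : z + i ≠ 0 ∧ ‖z + i‖ ≤ 2 * j + L + 1 + |z.im| := by
  have hi' : (i : ℝ) + 1 ≤ 2 * j := by exact_mod_cast hi
  have hi0 : (0 : ℝ) ≤ i := Nat.cast_nonneg i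
  have hL0 : (0 : ℝ) ≤ L := Nat.cast_nonneg L
  have hre : (z + i).re = z.re + i := by simp
  constructor
  · intro h
    rw [h, Complex.zero_re] at hre
    have h4 : (c : ℝ) + 3 * L + 6 * i = 6 * j := by linarith
    have h5 : c + 3 * L + 6 * i = 6 * j := by exact_mod_cast h4
    omega
  · refine le_trans (Complex.norm_le_abs_re_add_abs_im _) ?_
    have hc' : (0 : ℝ) ≤ c ∧ (c : ℝ) ≤ 4 := by
      rcases hc with rfl | rfl <;> norm_num
    have h6 : |(z + i).re| ≤ 2 * j + L + 1 := by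
      rw [hre, abs_le]
      constructor <;> linarith [hc'.1, hc'.2]
    have h7 : (z + i).im = z.im := by simp
    rw [h7]
    linarith

theorem vogam_one {z w : ℂ} (hz : 0 < z.re) (hw : conj w = z) :
    ‖Complex.Gamma w‖ * ‖(Complex.Gamma (z + 1))⁻¹‖ ≤ (z.re)⁻¹ := by
  have h0 : z ≠ 0 := by
    rintro rfl
    simp at hz
  have h2 : ‖Complex.Gamma w‖ = ‖Complex.Gamma z‖ := by
    rw [← hw, Complex.Gamma_conj, Complex.norm_conj]
  rw [h2, Complex.Gamma_add_one z h0, mul_inv, norm_mul, norm_inv, norm_inv, mul_left_comm]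
  exact le_trans (mul_le_of_le_one_right (by positivity) mul_inv_le_one)
    (inv_anti₀ hz (Complex.re_le_norm z))

theorem vogam_re (σ τ u : ℝ) :
    ((σ + τ * Complex.I : ℂ) ^ 2 / 4 + (σ + τ * Complex.I) * u).re = σ ^ 2 / 4 + σ * u - τ ^ 2 / 4 := by
  simp [pow_two, Complex.div_ofNat_re]
  ring

/-- `Complex.differentiableAt_Gamma` (real part `> 0`), `Complex.differentiable_one_div_Gamma` -/
theorem gamL_diff (ℓ : ℤ) :
    DifferentiableOn ℂ (gamL ℓ) {s | s.re < 5 / 6 + (ℓ.natAbs : ℝ) / 2} := by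
  intro s hs
  have hs' : s.re < 5 / 6 + (ℓ.natAbs : ℝ) / 2 := hs
  refine DifferentiableAt.differentiableWithinAt ?_
  unfold gamL
  refine DifferentiableAt.mul (DifferentiableAt.mul (DifferentiableAt.mul ?_ ?_) ?_) ?_
  · refine (vogam_diffAt ?_).comp s (by fun_prop)
    simp only [Complex.sub_re, Complex.add_re, Complex.div_ofNat_re, Complex.natCast_re,
      Complex.re_ofNat]
    linarith
  · refine (vogam_diffAt ?_).comp s (by fun_prop)
    simp only [Complex.sub_re, Complex.add_re, Complex.div_ofNat_re, Complex.natCast_re,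
      Complex.re_ofNat]
    linarith
  · exact (Complex.differentiable_one_div_Gamma _).comp s (by fun_prop)
  · exact (Complex.differentiable_one_div_Gamma _).comp s (by fun_prop)

/-- `norm_Gamma_le_re` (and continuity of `Real.Gamma` on a compact interval) for the numerators,
`norm_inv_Gamma_le` for `|Im s| ≥ 1`, compactness for `|Im s| ≤ 1` -/
theorem gamL_growth (ℓ : ℤ) (σ1 σ2 : ℝ) (h : σ2 < 5 / 6 + (ℓ.natAbs : ℝ) / 2) : ∃ C, ∀ s : ℂ,
    σ1 ≤ s.re → s.re ≤ σ2 → ‖gamL ℓ s‖ ≤ C * Real.exp (C * |s.im|) := by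
  set L : ℝ := (ℓ.natAbs : ℝ) with hL
  obtain ⟨K1, hK10, hK1⟩ := vogam_num (a := 5 / 6 + L / 2 - σ2) (by linarith) (7 / 6 + L / 2 - σ1)
  obtain ⟨K2, hK20, hK2⟩ := vogam_den (σ1 - 1 / 6 + L / 2) (σ2 + 1 / 6 + L / 2)
  refine ⟨K1 ^ 2 * K2 ^ 2 + 2 * Real.pi, fun s h1 h2 => ?_⟩
  have r1 : (5 / 6 + (ℓ.natAbs : ℂ) / 2 - s).re = 5 / 6 + L / 2 - s.re := by simp [hL]
  have r2 : (7 / 6 + (ℓ.natAbs : ℂ) / 2 - s).re = 7 / 6 + L / 2 - s.re := by simp [hL]
  have r3 : (s - 1 / 6 + (ℓ.natAbs : ℂ) / 2).re = s.re - 1 / 6 + L / 2 := by simp [hL]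
  have r4 : (s + 1 / 6 + (ℓ.natAbs : ℂ) / 2).re = s.re + 1 / 6 + L / 2 := by simp [hL]
  have i3 : (s - 1 / 6 + (ℓ.natAbs : ℂ) / 2).im = s.im := by simp
  have i4 : (s + 1 / 6 + (ℓ.natAbs : ℂ) / 2).im = s.im := by simp
  have a1 := hK1 _ (by rw [r1]; linarith) (by rw [r1]; linarith)
  have a2 := hK1 _ (by rw [r2]; linarith) (by rw [r2]; linarith)
  have a3 := hK2 _ (by rw [r3]; linarith) (by rw [r3]; linarith)
  have a4 := hK2 _ (by rw [r4]; linarith) (by rw [r4]; linarith)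
  rw [i3] at a3
  rw [i4] at a4
  have hpi := Real.pi_pos
  have ht := abs_nonneg s.im
  unfold gamL
  rw [norm_mul, norm_mul, norm_mul]
  calc _ ≤ K1 * K1 * (K2 * Real.exp (Real.pi * |s.im|)) * (K2 * Real.exp (Real.pi * |s.im|)) := by
        gcongr
    _ = K1 ^ 2 * K2 ^ 2 * Real.exp (2 * Real.pi * |s.im|) := by
        rw [mul_assoc 2, two_mul, Real.exp_add]
        ring
    _ ≤ _ := by
        gcongr
        · linarith
        · exact le_add_of_nonneg_left (by positivity)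

/-- On `Re s = 1/2 - j` put `z₁ = s - 1/6 + L/2`, `z₂ = s + 1/6 + L/2`.  Then
`conj(5/6+L/2-s) = z₁ + 2j`, `conj(7/6+L/2-s) = z₂ + 2j` (`Complex.Gamma_conj`); `z_i + m ≠ 0` because
`6 Re z₁ = 2 - 6j + 3L`, `6 Re z₂ = 4 - 6j + 3L` are not divisible by `3`; `norm_Gamma_add_nat_le`
with `n = 2j`, `R = 2j + L + 1 + |Im s|`, and `‖Γ z‖ ‖(Γ z)⁻¹‖ ≤ 1`. -/
theorem norm_gamL_left (ℓ : ℤ) (j : ℕ) {s : ℂ} (hs : s.re = 1 / 2 - j) :
    ‖gamL ℓ s‖ ≤ (2 * j + ℓ.natAbs + 1 + |s.im|) ^ (4 * j) := by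
  have i3 : (s - 1 / 6 + (ℓ.natAbs : ℂ) / 2).im = s.im := by simp
  have i4 : (s + 1 / 6 + (ℓ.natAbs : ℂ) / 2).im = s.im := by simp
  have hR : (0 : ℝ) ≤ 2 * j + ℓ.natAbs + 1 + |s.im| := by positivity
  have a1 := vogam_ratio (z := s - 1 / 6 + (ℓ.natAbs : ℂ) / 2) (w := 5 / 6 + (ℓ.natAbs : ℂ) / 2 - s)
    (n := 2 * j) hR ?_ fun i hi => by
      rw [← i3]
      refine vogam_step (c := 2) (Or.inl rfl) ?_ i hi
      simp only [Complex.sub_re, Complex.add_re, Complex.div_ofNat_re, Complex.natCast_re,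
        Complex.one_re, hs]
      push_cast
      ring
  have a2 := vogam_ratio (z := s + 1 / 6 + (ℓ.natAbs : ℂ) / 2) (w := 7 / 6 + (ℓ.natAbs : ℂ) / 2 - s)
    (n := 2 * j) hR ?_ fun i hi => by
      rw [← i4]
      refine vogam_step (c := 4) (Or.inr rfl) ?_ i hi
      simp only [Complex.add_re, Complex.div_ofNat_re, Complex.natCast_re,
        Complex.one_re, hs]
      push_cast
      ring
  · unfold gamL
    rw [norm_mul, norm_mul, norm_mul, show 4 * j = 2 * j + 2 * j by ring, pow_add]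
    refine le_trans (le_of_eq ?_) (mul_le_mul a1 a2 (by positivity) (by positivity))
    ring
  · apply Complex.ext
    · rw [Complex.conj_re]
      simp [hs]
      ring
    · rw [Complex.conj_im]
      simp
  · apply Complex.ext
    · rw [Complex.conj_re]
      simp [hs]
      ring
    · rw [Complex.conj_im]
      simp

/-- On `Re s = 1`, `ℓ = 1`: `Γ(s+1/3) = (s-2/3)Γ(s-2/3)`, `conj(4/3-s) = s-2/3`; likewise
`Γ(s+2/3) = (s-1/3)Γ(s-1/3)`; so `‖gamL 1 s‖ = ‖(s-2/3)(s-1/3)‖⁻¹ ≤ 9/2`. -/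
theorem norm_gamL_one {s : ℂ} (hs : s.re = 1) : ‖gamL 1 s‖ ≤ 9 / 2 := by
  have a1 := vogam_one (z := s - 2 / 3) (w := 4 / 3 - s) (by simp [hs]; norm_num) (by
    apply Complex.ext
    · rw [Complex.conj_re]
      simp [hs]
      norm_num
    · rw [Complex.conj_im]
      simp)
  have a2 := vogam_one (z := s - 1 / 3) (w := 5 / 3 - s) (by simp [hs]; norm_num) (by
    apply Complex.ext
    · rw [Complex.conj_re]
      simp [hs]
      norm_num
    · rw [Complex.conj_im]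
      simp)
  have r1 : (s - 2 / 3).re⁻¹ = 3 := by
    simp [hs]
    norm_num
  have r2 : (s - 1 / 3).re⁻¹ = 3 / 2 := by
    simp [hs]
    norm_num
  rw [r1] at a1
  rw [r2] at a2
  have e : gamL 1 s = (Complex.Gamma (4 / 3 - s) * (Complex.Gamma (s - 2 / 3 + 1))⁻¹) *
      (Complex.Gamma (5 / 3 - s) * (Complex.Gamma (s - 1 / 3 + 1))⁻¹) := by
    unfold gamL
    simp only [Int.natAbs_one, Nat.cast_one]
    rw [show (5 / 6 + 1 / 2 - s : ℂ) = 4 / 3 - s by ring, show (7 / 6 + 1 / 2 - s : ℂ) = 5 / 3 - s by ring,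
      show s - 1 / 6 + 1 / 2 = s - 2 / 3 + 1 by ring, show s + 1 / 6 + 1 / 2 = s - 1 / 3 + 1 by ring]
    ring
  rw [e, norm_mul, norm_mul, norm_mul]
  refine le_trans (mul_le_mul a1 a2 (by positivity) (by norm_num)) (by norm_num)

/-- the kernel on the lines `σ = -j`: `Kn.shift` from `σ` to `-j` (or from `-j` to `σ`), then
`norm_gamL_left`, `1 + |t + τ| ≤ (1+|t|)(1+|τ|)` and the Gaussian integral. -/
theorem kern_gamL_le (ℓ : ℤ) (j : ℕ) : ∃ C : ℝ, 0 ≤ C ∧ ∀ σ t u : ℝ,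
    1 / 2 + σ < 5 / 6 + (ℓ.natAbs : ℝ) / 2 →
    ‖kern (gamL ℓ) σ t u‖ ≤ C * (1 + |t|) ^ (4 * j) * Real.exp (-(j * u)) := by
  have hgi : Integrable (fun τ : ℝ => Real.exp (-(1 / 8) * τ ^ 2)) :=
    integrable_exp_neg_mul_sq (by norm_num)
  set A : ℝ := (2 * j + ℓ.natAbs + 1 : ℝ) ^ (4 * j) * Real.sqrt Real.pi *
    Real.exp ((j : ℝ) ^ 2 / 4 + 32 * (j : ℝ) ^ 2) with hA
  have hI : 0 ≤ ∫ τ : ℝ, Real.exp (-(1 / 8) * τ ^ 2) := integral_nonneg fun _ => (Real.exp_pos _).le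
  refine ⟨‖(1 / (2 * Real.pi) : ℂ)‖ * (A * ∫ τ : ℝ, Real.exp (-(1 / 8) * τ ^ 2)), by positivity,
    fun σ t u hσ => ?_⟩
  have hj : (0 : ℝ) ≤ j := Nat.cast_nonneg j
  have hL : (0 : ℝ) ≤ ℓ.natAbs := Nat.cast_nonneg _
  have hsh : ∀ a b : ℝ, a ≤ b → 1 / 2 + b < 5 / 6 + (ℓ.natAbs : ℝ) / 2 →
      kern (gamL ℓ) a t u = kern (gamL ℓ) b t u := by
    intro a b hab hb
    obtain ⟨C, hC⟩ := gamL_growth ℓ (1 / 2 + a) (1 / 2 + b) hb
    exact Kn.shift hab t u ((gamL_diff ℓ).mono fun s hs => lt_of_le_of_lt hs.2 hb) hC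
  have h1 : kern (gamL ℓ) σ t u = kern (gamL ℓ) (-j : ℝ) t u := by
    rcases le_total σ (-j) with h | h
    · exact hsh _ _ h (by linarith)
    · exact (hsh _ _ h hσ).symm
  rw [h1, kern, norm_mul, mul_assoc, mul_assoc]
  refine mul_le_mul_of_nonneg_left ?_ (norm_nonneg _)
  refine le_trans (norm_integral_le_of_norm_le
    (hgi.const_mul (A * ((1 + |t|) ^ (4 * j) * Real.exp (-(j * u))))) (Eventually.of_forall fun τ => ?_))
    (le_of_eq ?_)
  · have e1 : (1 / 2 + t * Complex.I + (((-j : ℝ) : ℂ) + τ * Complex.I)).im = t + τ := by simp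
    have h2 := norm_gamL_left ℓ j (s := 1 / 2 + t * Complex.I + (((-j : ℝ) : ℂ) + τ * Complex.I))
      (by simp; ring)
    rw [e1] at h2
    have ht := abs_nonneg t
    have hτ := abs_nonneg τ
    have h3 : 2 * j + ℓ.natAbs + 1 + |t + τ| ≤ (2 * j + ℓ.natAbs + 1) * (1 + |t|) * Real.exp |τ| := by
      have b1 := abs_add_le t τ
      have b2 := Real.add_one_le_exp |τ|
      have b3 : 0 ≤ (2 * j + ℓ.natAbs : ℝ) := by positivity
      calc _ ≤ (2 * j + ℓ.natAbs + 1) * (1 + |t|) * (|τ| + 1) := by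
            nlinarith [mul_nonneg ht hτ, mul_nonneg b3 ht, mul_nonneg b3 hτ,
              mul_nonneg b3 (mul_nonneg ht hτ)]
        _ ≤ _ := by gcongr
    have h4 := le_trans h2 (pow_le_pow_left₀ (by positivity) h3 _)
    rw [mul_pow, mul_pow, ← Real.exp_nat_mul] at h4
    rw [norm_mul, norm_mul, Complex.norm_exp, vogam_re, Complex.norm_real,
      Real.norm_of_nonneg (Real.sqrt_nonneg _)]
    refine le_trans (mul_le_mul_of_nonneg_right h4 (by positivity)) ?_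
    have h5 : Real.exp (((4 * j : ℕ) : ℝ) * |τ|) * Real.exp ((-j : ℝ) ^ 2 / 4 + -j * u - τ ^ 2 / 4) ≤
        Real.exp ((j : ℝ) ^ 2 / 4 + 32 * (j : ℝ) ^ 2) * Real.exp (-(j * u)) *
          Real.exp (-(1 / 8) * τ ^ 2) := by
      simp only [← Real.exp_add]
      refine Real.exp_le_exp.mpr ?_
      push_cast
      rw [← sq_abs τ]
      nlinarith [sq_nonneg (|τ| - 16 * j)]
    calc _ = (2 * j + ℓ.natAbs + 1 : ℝ) ^ (4 * j) * (1 + |t|) ^ (4 * j) * Real.sqrt Real.pi *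
          (Real.exp (((4 * j : ℕ) : ℝ) * |τ|) *
            Real.exp ((-j : ℝ) ^ 2 / 4 + -j * u - τ ^ 2 / 4)) := by ring
      _ ≤ (2 * j + ℓ.natAbs + 1 : ℝ) ^ (4 * j) * (1 + |t|) ^ (4 * j) * Real.sqrt Real.pi *
          (Real.exp ((j : ℝ) ^ 2 / 4 + 32 * (j : ℝ) ^ 2) * Real.exp (-(j * u)) *
            Real.exp (-(1 / 8) * τ ^ 2)) := by gcongr
      _ = _ := by
          rw [hA]
          ring
  · rw [integral_const_mul]
    ring

/-- the kernel on the line `σ = 1/2` for `ℓ = 1`: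
`κ(τ) = (2π)⁻¹ gamL 1 (1 + i(t+τ)) √π exp((1/2+iτ)²/4)` -/
theorem kern_gamL_one : ∃ C : ℝ, ∀ t : ℝ, ∃ κ : ℝ → ℂ, Integrable κ ∧ (∫ τ, ‖κ τ‖) ≤ C ∧
    ∀ u : ℝ, kern (gamL 1) (1 / 2) t u =
      Real.exp (u / 2) * ∫ τ : ℝ, κ τ * Complex.exp (τ * u * Complex.I) := by
  have hgi : Integrable (fun τ : ℝ => Real.exp (-(1 / 4) * τ ^ 2)) :=
    integrable_exp_neg_mul_sq (by norm_num)
  set A : ℝ := ‖(1 / (2 * Real.pi) : ℂ)‖ * (9 / 2 * (Real.sqrt Real.pi * Real.exp (1 / 16))) with hA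
  refine ⟨∫ τ : ℝ, A * Real.exp (-(1 / 4) * τ ^ 2), fun t => ?_⟩
  set κ : ℝ → ℂ := fun τ => (1 / (2 * Real.pi) : ℂ) *
    (gamL 1 (1 / 2 + t * Complex.I + (((1 / 2 : ℝ) : ℂ) + τ * Complex.I)) *
      (Real.sqrt Real.pi * Complex.exp ((((1 / 2 : ℝ) : ℂ) + τ * Complex.I) ^ 2 / 4))) with hκ
  have hre : ∀ τ : ℝ, (1 / 2 + t * Complex.I + (((1 / 2 : ℝ) : ℂ) + τ * Complex.I)).re = 1 := by
    intro τ
    simp
    norm_num
  have hb : ∀ τ, ‖κ τ‖ ≤ A * Real.exp (-(1 / 4) * τ ^ 2) := by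
    intro τ
    have h1 := norm_gamL_one (hre τ)
    have h2 := vogam_re (1 / 2) τ 0
    rw [Complex.ofReal_zero, mul_zero, add_zero] at h2
    simp only [hκ, hA]
    rw [norm_mul, norm_mul, norm_mul, Complex.norm_exp, h2, Complex.norm_real,
      Real.norm_of_nonneg (Real.sqrt_nonneg _), mul_assoc, mul_assoc, mul_assoc, ← Real.exp_add,
      show (1 / 2 : ℝ) ^ 2 / 4 + 1 / 2 * 0 - τ ^ 2 / 4 = 1 / 16 + -(1 / 4) * τ ^ 2 by ring]
    gcongr
  have hc : Continuous κ := by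
    refine continuous_const.mul (Continuous.mul ?_ (by fun_prop))
    refine (gamL_diff 1).continuousOn.comp_continuous (by fun_prop) fun τ => ?_
    simp only [Set.mem_ofPred_eq, hre]
    norm_num
  have hi : Integrable κ :=
    Integrable.mono' (hgi.const_mul A) hc.aestronglyMeasurable (Eventually.of_forall hb)
  refine ⟨κ, hi, integral_mono hi.norm (hgi.const_mul A) hb, fun u => ?_⟩
  rw [kern, ← integral_const_mul, ← integral_const_mul]
  refine integral_congr_ae (Eventually.of_forall fun τ => ?_)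
  simp only [hκ]
  have e : Complex.exp ((((1 / 2 : ℝ) : ℂ) + τ * Complex.I) ^ 2 / 4 +
      (((1 / 2 : ℝ) : ℂ) + τ * Complex.I) * u) =
      (Real.exp (u / 2) : ℂ) * Complex.exp ((((1 / 2 : ℝ) : ℂ) + τ * Complex.I) ^ 2 / 4) *
        Complex.exp (τ * u * Complex.I) := by
    rw [Complex.ofReal_exp]
    simp only [← Complex.exp_add]
    congr 1
    push_cast
    ring
  rw [e]
  ring

end Crest.Agent.R17.Vor
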