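import Crest.Agent.R17.VoC0

/-!
# R17 / VoC4 : angular harmonics of the relation `F₁ = F₂ ∘ S`

`L = |ℓ|`, `K = 2L+1`, `η = exp(2πi/K)`.  `ee α = exp(c0 (α - conj α))`.
-/

set_option autoImplicit false

noncomputable section

open scoped Classical ComplexConjugate Topology
open MeasureTheory Filter

namespace Crest.Agent.R17.Vor

theorem hp_conj (ℓ : ℤ) (α : ℂ) : hp ℓ (conj α) = hp (-ℓ) α := by
  unfold hp
  rw [Int.natAbs_neg, Complex.conj_conj]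
  rcases lt_trichotomy ℓ 0 with h | rfl | h
  · rw [if_neg (by omega), if_pos (by omega)]
  · simp
  · rw [if_pos (by omega), if_neg (by omega)]
theorem hp_real_mul (ℓ : ℤ) (r : ℝ) (α : ℂ) : hp ℓ (r * α) = (r : ℂ) ^ ℓ.natAbs * hp ℓ α := by
  unfold hp
  split_ifs
  · rw [mul_pow]
  · rw [map_mul, Complex.conj_ofReal, mul_pow]
theorem norm_hp (ℓ : ℤ) (α : ℂ) : ‖hp ℓ α‖ = ‖α‖ ^ ℓ.natAbs := by
  unfold hp
  split_ifs
  · rw [norm_pow]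
  · rw [norm_pow, Complex.norm_conj]
/-- `ee (-conj z) = ee z` (same imaginary part) -/
theorem ee_neg_conj (z : ℂ) : ee (-conj z) = ee z := by
  unfold ee
  rw [Complex.neg_im, Complex.conj_im, neg_neg]

/-- the `K`-th roots of unity -/
def voc4_e (K j : ℕ) : ℂ := Complex.exp (2 * Real.pi * Complex.I * j / K)

theorem voc4_e_eq (K j : ℕ) : voc4_e K j = Complex.exp (2 * Real.pi * Complex.I / K) ^ j := by
  rw [voc4_e, ← Complex.exp_nat_mul]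
  congr 1
  ring

theorem voc4_norm_e (K j : ℕ) : ‖voc4_e K j‖ = 1 := by
  rw [voc4_e, show (2 * Real.pi * Complex.I * j / K : ℂ) = ((2 * Real.pi * j / K : ℝ) : ℂ) * Complex.I
    by push_cast; ring]
  exact Complex.norm_exp_ofReal_mul_I _

theorem voc4_e_ne (K j : ℕ) : voc4_e K j ≠ 0 := Complex.exp_ne_zero _

theorem voc4_sum_e {K : ℕ} {m : ℤ} (hm : |m| < K) :
    ∑ j ∈ Finset.range K, voc4_e K j ^ m = if m = 0 then (K : ℂ) else 0 := by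
  split_ifs with h
  · simp [h]
  · have hK : K ≠ 0 := by
      have := abs_nonneg m
      omega
    have hprim := Complex.isPrimitiveRoot_exp K hK
    have e : ∀ j : ℕ, voc4_e K j ^ m = (Complex.exp (2 * Real.pi * Complex.I / K) ^ m) ^ j :=
      fun j => by rw [voc4_e_eq, ← zpow_natCast, ← zpow_natCast, ← zpow_mul, ← zpow_mul,
        mul_comm (j : ℤ) m]
    have h1 : Complex.exp (2 * Real.pi * Complex.I / K) ^ m ≠ 1 := fun h1 =>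
      h (Int.eq_zero_of_abs_lt_dvd ((hprim.zpow_eq_one_iff_dvd m).1 h1) hm)
    simp only [e]
    rw [geom_sum_eq h1, ← zpow_natCast, ← zpow_mul,
      (hprim.zpow_eq_one_iff_dvd _).2 (dvd_mul_left _ _), sub_self, zero_div]

theorem voc4_avg_pow (ℓ : ℤ) {r : ℕ} (hr : r ≤ ℓ.natAbs) (α β : ℂ) :
    ∑ j ∈ Finset.range (2 * ℓ.natAbs + 1), voc4_e (2 * ℓ.natAbs + 1) j ^ (-ℓ) *
      (α * voc4_e (2 * ℓ.natAbs + 1) j + β * (voc4_e (2 * ℓ.natAbs + 1) j)⁻¹) ^ r =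
    if r = ℓ.natAbs then ((2 * ℓ.natAbs + 1 : ℕ) : ℂ) * (if 0 ≤ ℓ then α else β) ^ r else 0 := by
  have e : ∀ u : ℂ, u ≠ 0 → u ^ (-ℓ) * (α * u + β * u⁻¹) ^ r = ∑ p ∈ Finset.range (r + 1),
      α ^ p * β ^ (r - p) * (r.choose p : ℂ) * u ^ (2 * (p : ℤ) - r - ℓ) := fun u hu => by
    rw [add_pow, Finset.mul_sum]
    refine Finset.sum_congr rfl fun p hp => ?_
    have hp' : p ≤ r := Nat.lt_succ_iff.1 (Finset.mem_range.1 hp)
    have : u ^ (2 * (p : ℤ) - r - ℓ) = u ^ (-ℓ) * (u ^ p * u⁻¹ ^ (r - p)) := by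
      rw [inv_pow, ← zpow_natCast, ← zpow_natCast, ← zpow_neg, ← zpow_add₀ hu, ← zpow_add₀ hu,
        Nat.cast_sub hp']
      congr 1
      ring
    rw [this, mul_pow, mul_pow]
    ring
  simp only [e _ (voc4_e_ne _ _)]
  rw [Finset.sum_comm]
  simp only [← Finset.mul_sum]
  rw [Finset.sum_congr rfl fun p hp => by
    rw [voc4_sum_e (by
      have := Finset.mem_range.1 hp
      rw [abs_lt]
      omega)]]
  by_cases h : r = ℓ.natAbs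
  · rw [if_pos h]
    by_cases h0 : 0 ≤ ℓ
    · rw [if_pos h0, Finset.sum_eq_single r, if_pos (by omega)]
      · simp [mul_comm]
      · intro p _ hp
        rw [if_neg (by omega), mul_zero]
      · intro hn
        exact (hn (Finset.self_mem_range_succ r)).elim
    · rw [if_neg h0, Finset.sum_eq_single 0, if_pos (by omega)]
      · simp [mul_comm]
      · intro p _ hp
        rw [if_neg (by omega), mul_zero]
      · intro hn
        exact (hn (Finset.mem_range.2 (Nat.succ_pos r))).elim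
  · rw [if_neg h]
    refine Finset.sum_eq_zero fun p hp => ?_
    have := Finset.mem_range.1 hp
    rw [if_neg (by omega), mul_zero]

theorem voc4_taylor (n : ℕ) : ∃ C : ℝ, 0 ≤ C ∧ ∀ x : ℂ, ‖Complex.exp x‖ ≤ 1 →
    ‖Complex.exp x - ∑ m ∈ Finset.range (n + 1), x ^ m / m.factorial‖ ≤ C * ‖x‖ ^ (n + 1) := by
  refine ⟨((n + 1).succ : ℝ) * ((n + 1).factorial * (n + 1 : ℕ) : ℝ)⁻¹ + (n + 2), by positivity,
    fun x hx => ?_⟩
  have h0 : 0 ≤ ‖x‖ ^ (n + 1) := by positivity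
  rcases le_total ‖x‖ 1 with h | h
  · have := Complex.exp_bound h (Nat.succ_pos n)
    have h1 : 0 ≤ ((n : ℝ) + 2) * ‖x‖ ^ (n + 1) := by positivity
    rw [add_mul, mul_comm]
    exact this.trans (le_add_of_nonneg_right h1)
  · have h1 : ‖∑ m ∈ Finset.range (n + 1), x ^ m / m.factorial‖ ≤ (n + 1) * ‖x‖ ^ (n + 1) := by
      refine (norm_sum_le _ _).trans ((Finset.sum_le_card_nsmul _ _ (‖x‖ ^ (n + 1))
        fun m hm => ?_).trans (by simp))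
      rw [norm_div, norm_pow, Complex.norm_natCast]
      exact (div_le_self (by positivity) (by exact_mod_cast Nat.factorial_pos m)).trans
        (pow_le_pow_right₀ h (Finset.mem_range.1 hm).le)
    have h2 : 1 ≤ ‖x‖ ^ (n + 1) := one_le_pow₀ h
    have h3 : 0 ≤ ((n + 1).succ : ℝ) * ((n + 1).factorial * (n + 1 : ℕ) : ℝ)⁻¹ * ‖x‖ ^ (n + 1) := by
      positivity
    have h4 := norm_sub_le (Complex.exp x) (∑ m ∈ Finset.range (n + 1), x ^ m / m.factorial)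
    linarith

theorem voc4_ee (z : ℂ) : ee z = Complex.exp (c0 * (z - conj z)) := by
  rw [Complex.sub_conj, ee, c0]
  congr 1
  push_cast
  ring

theorem voc4_c0_pos : 0 < c0 := by
  unfold c0
  have := Real.pi_pos
  positivity

/-- Averaging over the `K`-th roots of unity picks the harmonic `ℓ`.  `ee(αη^j) = exp(i y_j)`,
`i y_j = c0(αη^j - conj α η^{-j})`, `|y_j| ≤ 2c0|α|`.  Taylor: `‖exp(iy) - ∑_{r ≤ L} (iy)^r/r!‖ ≤
C |y|^{L+1}` for all real `y` (`Complex.exp_bound` for `|y| ≤ 1`, triangle inequality for `|y| ≥ 1`).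
Expand `(αη^j - conj α η^{-j})^r` (`add_pow`); `K⁻¹∑_j η^{j(2p - r - ℓ)}` is `0` unless
`K ∣ 2p - r - ℓ`, i.e. (`|2p - r - ℓ| ≤ 2L < K`) `2p - r = ℓ`, which for `r ≤ L` forces `r = L` and
`p = L` (`ℓ ≥ 0`) or `p = 0` (`ℓ < 0`).  So `c = (± c0)^L / L!`. -/
theorem avg_ee (ℓ : ℤ) : ∃ (c : ℂ) (C : ℝ), c ≠ 0 ∧ 0 ≤ C ∧ ∀ α : ℂ,
    ‖((2 * ℓ.natAbs + 1 : ℕ) : ℂ)⁻¹ * ∑ j ∈ Finset.range (2 * ℓ.natAbs + 1),
        Complex.exp (2 * Real.pi * Complex.I * j / (2 * ℓ.natAbs + 1 : ℕ)) ^ (-ℓ) *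
          ee (α * Complex.exp (2 * Real.pi * Complex.I * j / (2 * ℓ.natAbs + 1 : ℕ))) -
      c * hp ℓ α‖ ≤ C * ‖α‖ ^ (ℓ.natAbs + 1) := by
  obtain ⟨C, hC, h⟩ := voc4_taylor ℓ.natAbs
  have hc0 := voc4_c0_pos
  refine ⟨(if 0 ≤ ℓ then (c0 : ℂ) else -c0) ^ ℓ.natAbs / ℓ.natAbs.factorial,
    C * (2 * c0) ^ (ℓ.natAbs + 1), ?_, by positivity, fun α => ?_⟩
  · refine div_ne_zero (pow_ne_zero _ ?_) (by exact_mod_cast Nat.factorial_ne_zero _)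
    split_ifs
    · exact_mod_cast hc0.ne'
    · exact neg_ne_zero.2 (by exact_mod_cast hc0.ne')
  change ‖((2 * ℓ.natAbs + 1 : ℕ) : ℂ)⁻¹ * ∑ j ∈ Finset.range (2 * ℓ.natAbs + 1),
    voc4_e (2 * ℓ.natAbs + 1) j ^ (-ℓ) * ee (α * voc4_e (2 * ℓ.natAbs + 1) j) - _‖ ≤ _
  have hK : ((2 * ℓ.natAbs + 1 : ℕ) : ℂ) ≠ 0 := Nat.cast_ne_zero.2 (by omega)
  have e1 : ∑ j ∈ Finset.range (2 * ℓ.natAbs + 1), voc4_e (2 * ℓ.natAbs + 1) j ^ (-ℓ) *
      ∑ m ∈ Finset.range (ℓ.natAbs + 1), (c0 * (α * voc4_e (2 * ℓ.natAbs + 1) j -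
        conj (α * voc4_e (2 * ℓ.natAbs + 1) j))) ^ m / (m.factorial : ℂ) =
      ((2 * ℓ.natAbs + 1 : ℕ) : ℂ) *
        ((if 0 ≤ ℓ then (c0 : ℂ) else -c0) ^ ℓ.natAbs / ℓ.natAbs.factorial * hp ℓ α) := by
    have e2 : ∀ j, (c0 : ℂ) * (α * voc4_e (2 * ℓ.natAbs + 1) j -
        conj (α * voc4_e (2 * ℓ.natAbs + 1) j)) = c0 * α * voc4_e (2 * ℓ.natAbs + 1) j +
          -c0 * conj α * (voc4_e (2 * ℓ.natAbs + 1) j)⁻¹ := fun j => by
      rw [Complex.inv_eq_conj (voc4_norm_e _ _), map_mul]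
      ring
    simp only [e2, Finset.mul_sum, ← mul_div_assoc]
    rw [Finset.sum_comm]
    simp only [← Finset.sum_div]
    rw [Finset.sum_congr rfl fun m hm => by
      rw [voc4_avg_pow ℓ (Nat.lt_succ_iff.1 (Finset.mem_range.1 hm))],
      Finset.sum_eq_single ℓ.natAbs, if_pos rfl]
    · unfold hp
      split_ifs <;> rw [mul_pow] <;> ring
    · intro m _ hm
      rw [if_neg hm, zero_div]
    · intro hn
      exact (hn (Finset.self_mem_range_succ _)).elim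
  rw [← inv_mul_cancel_left₀ hK (_ * hp ℓ α), ← e1, ← mul_sub, ← Finset.sum_sub_distrib, norm_mul,
    norm_inv, Complex.norm_natCast, inv_mul_le_iff₀ (by positivity)]
  refine (norm_sum_le _ _).trans ((Finset.sum_le_card_nsmul _ _
    (C * (2 * c0) ^ (ℓ.natAbs + 1) * ‖α‖ ^ (ℓ.natAbs + 1)) fun j _ => ?_).trans (by simp))
  rw [← mul_sub, norm_mul, norm_zpow, voc4_norm_e, one_zpow, one_mul, voc4_ee]
  refine (h _ (by rw [← voc4_ee, norm_ee])).trans ?_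
  rw [mul_assoc C, ← mul_pow]
  refine mul_le_mul_of_nonneg_left (pow_le_pow_left₀ (norm_nonneg _) ?_ _) hC
  have := norm_sub_le (α * voc4_e (2 * ℓ.natAbs + 1) j) (conj (α * voc4_e (2 * ℓ.natAbs + 1) j))
  rw [Complex.norm_conj, norm_mul, voc4_norm_e, mul_one] at this
  rw [norm_mul, Complex.norm_real, Real.norm_eq_abs, abs_of_pos hc0]
  nlinarith

/-- domination on `v ≥ δ`: `core_Vr_le`, `summable_N_pow_exp` -/
theorem summable_dom {M : O} (hM : M ≠ 0) {a : O → ℂ} (ha : PolyBd a) (i : ℕ) {δ : ℝ}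
    (hδ : 0 < δ) : ∃ u : O → ℝ, Summable u ∧ ∀ n v, δ ≤ v →
      ‖a n‖ * ‖toC n / toC M‖ ^ i * Vr (‖toC n / toC M‖ * v) ≤ u n := by
  obtain ⟨C, j, hC⟩ := ha
  obtain ⟨Cv, hCv⟩ := core_Vr_le
  have hM1 : 1 ≤ ‖toC M‖ := by
    rw [norm_toC]
    exact Real.one_le_sqrt.2 (one_le_N hM)
  have hδ' : 0 < δ / ‖toC M‖ := by positivity
  refine ⟨fun n => (|C| + ‖a 0‖) * |Cv| * (N n ^ (j + i) * Real.exp (-(δ / ‖toC M‖ * ‖toC n‖)) +
      N n ^ i * Real.exp (-(δ / ‖toC M‖ * ‖toC n‖))),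
    ((summable_N_pow_exp _ hδ').add (summable_N_pow_exp _ hδ')).mul_left _, fun n v hv => ?_⟩
  have hN := N_nonneg n
  have h1 : ‖a n‖ ≤ (|C| + ‖a 0‖) * (N n ^ j + 1) := by
    have p1 : 0 ≤ N n ^ j := by positivity
    have p2 := mul_nonneg (abs_nonneg C) p1
    have p3 := mul_nonneg (norm_nonneg (a 0)) p1
    by_cases hn : n = 0
    · subst hn
      linarith [abs_nonneg C]
    · have := mul_le_mul_of_nonneg_right (le_abs_self C) p1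
      linarith [hC n hn, abs_nonneg C, norm_nonneg (a 0)]
  have h2 : ‖toC n / toC M‖ ≤ N n := by
    rw [norm_div]
    refine (div_le_self (norm_nonneg _) hM1).trans ?_
    by_cases hn : n = 0
    · rw [hn, map_zero, norm_zero]
      exact N_nonneg _
    · have h3 : 1 ≤ ‖toC n‖ := by
        rw [norm_toC]
        exact Real.one_le_sqrt.2 (one_le_N hn)
      rw [← norm_toC_sq]
      nlinarith
  have h3 : Vr (‖toC n / toC M‖ * v) ≤ |Cv| * Real.exp (-(δ / ‖toC M‖ * ‖toC n‖)) := by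
    refine (hCv _ (mul_nonneg (norm_nonneg _) (hδ.le.trans hv))).trans
      (mul_le_mul (le_abs_self _) (Real.exp_le_exp.2 (neg_le_neg ?_)) (Real.exp_pos _).le
        (abs_nonneg _))
    rw [norm_div, div_mul_comm]
    exact mul_le_mul_of_nonneg_left hv (by positivity)
  calc _ ≤ (|C| + ‖a 0‖) * (N n ^ j + 1) * N n ^ i *
        (|Cv| * Real.exp (-(δ / ‖toC M‖ * ‖toC n‖))) :=
        mul_le_mul (mul_le_mul h1 (pow_le_pow_left₀ (norm_nonneg _) h2 i) (by positivity)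
          (by positivity)) h3 (core_Vr_pos _).le (by positivity)
    _ = _ := by ring

theorem voc4_norm_term (ℓ : ℤ) (M : O) (a : O → ℂ) (v : ℝ) (n : O) :
    ‖a n * hp ℓ (toC n / toC M) * (Vr (‖toC n / toC M‖ * v) : ℂ)‖ =
      ‖a n‖ * ‖toC n / toC M‖ ^ ℓ.natAbs * Vr (‖toC n / toC M‖ * v) := by
  rw [norm_mul, norm_mul, norm_hp, Complex.norm_real, Real.norm_eq_abs,
    abs_of_pos (core_Vr_pos _)]

theorem voc4_hasSum_Phi (ℓ : ℤ) {M : O} (hM : M ≠ 0) {a : O → ℂ} (ha : PolyBd a) {v : ℝ}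
    (hv : 0 < v) : HasSum (fun n : O => a n * hp ℓ (toC n / toC M) * (Vr (‖toC n / toC M‖ * v) : ℂ))
      (Phi ℓ M a v) := by
  obtain ⟨u, hu, h⟩ := summable_dom hM ha ℓ.natAbs hv
  exact (Summable.of_norm_bounded hu fun n => (voc4_norm_term ℓ M a v n).trans_le
    (h n v le_rfl)).hasSum

/-- `continuousOn_tsum` on `[δ, ∞)` -/
theorem continuousOn_Phi (ℓ : ℤ) {M : O} (hM : M ≠ 0) {a : O → ℂ} (ha : PolyBd a) :
    ContinuousOn (Phi ℓ M a) (Set.Ioi 0) := by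
  intro v hv
  have hv2 : 0 < v / 2 := half_pos hv
  obtain ⟨u, hu, h⟩ := summable_dom hM ha ℓ.natAbs hv2
  have hc : ContinuousOn (Phi ℓ M a) (Set.Ici (v / 2)) :=
    continuousOn_tsum (fun n => (continuous_const.mul (Complex.continuous_ofReal.comp
      (core_continuous_Vr.comp (continuous_const_mul _)))).continuousOn) hu
      fun n t ht => (voc4_norm_term ℓ M a t n).trans_le (h n t ht)
  exact (hc.continuousAt (Ici_mem_nhds (half_lt_self hv))).continuousWithinAt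

theorem voc4_avg_sum {ℓ : ℤ} {K L : ℕ} {c : ℂ} {C : ℝ} (hC : 0 ≤ C)
    (hc : ∀ α : ℂ, ‖(K : ℂ)⁻¹ * ∑ j ∈ Finset.range K, voc4_e K j ^ (-ℓ) * ee (α * voc4_e K j) -
      c * hp ℓ α‖ ≤ C * ‖α‖ ^ L) {b γ : O → ℂ} {G : ℕ → ℂ}
    (hG : ∀ j, HasSum (fun n => b n * ee (γ n * voc4_e K j)) (G j)) {P : ℂ}
    (hP : HasSum (fun n => b n * hp ℓ (γ n)) P) {u : O → ℝ} {U : ℝ} (hu : HasSum u U)
    (hb : ∀ n, ‖b n‖ * ‖γ n‖ ^ L ≤ u n) :
    ‖(K : ℂ)⁻¹ * ∑ j ∈ Finset.range K, voc4_e K j ^ (-ℓ) * G j - c * P‖ ≤ C * U := by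
  have h1 := ((hasSum_sum (s := Finset.range K) fun j _ =>
    (hG j).mul_left (voc4_e K j ^ (-ℓ))).mul_left (K : ℂ)⁻¹).sub (hP.mul_left c)
  refine h1.norm_le_of_bounded (hu.mul_left C) fun n => ?_
  have e : (K : ℂ)⁻¹ * ∑ j ∈ Finset.range K, voc4_e K j ^ (-ℓ) * (b n * ee (γ n * voc4_e K j)) -
      c * (b n * hp ℓ (γ n)) = b n * ((K : ℂ)⁻¹ * ∑ j ∈ Finset.range K,
        voc4_e K j ^ (-ℓ) * ee (γ n * voc4_e K j) - c * hp ℓ (γ n)) := by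
    simp only [mul_left_comm _ (b n), ← Finset.mul_sum, mul_sub]
  rw [e, norm_mul]
  calc _ ≤ ‖b n‖ * (C * ‖γ n‖ ^ L) := mul_le_mul_of_nonneg_left (hc _) (norm_nonneg _)
    _ = C * (‖b n‖ * ‖γ n‖ ^ L) := by ring
    _ ≤ C * u n := mul_le_mul_of_nonneg_left (hb n) hC

theorem voc4_side {ℓ : ℤ} {K : ℕ} {c : ℂ} {C : ℝ} (hC : 0 ≤ C)
    (hc : ∀ α : ℂ, ‖(K : ℂ)⁻¹ * ∑ j ∈ Finset.range K, voc4_e K j ^ (-ℓ) * ee (α * voc4_e K j) -
      c * hp ℓ α‖ ≤ C * ‖α‖ ^ (ℓ.natAbs + 1)) {M : O} (hM : M ≠ 0) {F : X → ℂ} {a : O → ℂ}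
    (e : HasExp F M a) (ha : PolyBd a) {δ : ℝ} (hδ : 0 < δ) : ∃ U : ℝ, ∀ r t : ℝ, 0 ≤ r → δ ≤ t →
      ‖(K : ℂ)⁻¹ * ∑ j ∈ Finset.range K, voc4_e K j ^ (-ℓ) * F (pt (r * voc4_e K j) t) -
        c * (((r ^ ℓ.natAbs * t ^ (2 / 3 : ℝ) : ℝ) : ℂ) * Phi ℓ M a t)‖ ≤
          r ^ (ℓ.natAbs + 1) * t ^ (2 / 3 : ℝ) * U ∧
      ‖(K : ℂ)⁻¹ * ∑ j ∈ Finset.range K, voc4_e K j ^ (-ℓ) * F (pt (-conj (r * voc4_e K j)) t) -
        c * (((r ^ ℓ.natAbs * t ^ (2 / 3 : ℝ) : ℝ) : ℂ) * Phi (-ℓ) M a t)‖ ≤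
          r ^ (ℓ.natAbs + 1) * t ^ (2 / 3 : ℝ) * U := by
  obtain ⟨u, hu, h⟩ := summable_dom hM ha (ℓ.natAbs + 1) hδ
  refine ⟨C * ∑' n, u n, fun r t hr ht => ?_⟩
  have ht0 : 0 < t := hδ.trans_le ht
  have hb : ∀ (n : O) (γ : ℂ), ‖γ‖ = ‖toC n / toC M‖ →
      ‖a n * ((t ^ (2 / 3 : ℝ) * Vr (‖toC n / toC M‖ * t) : ℝ) : ℂ)‖ * ‖r * γ‖ ^ (ℓ.natAbs + 1) ≤
        r ^ (ℓ.natAbs + 1) * t ^ (2 / 3 : ℝ) * u n := fun n γ hγ => by
    have h0 := core_Vr_pos (‖toC n / toC M‖ * t)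
    rw [norm_mul, norm_mul, hγ, Complex.norm_real, Complex.norm_real, Real.norm_eq_abs,
      Real.norm_eq_abs, abs_of_nonneg hr, abs_of_nonneg (by positivity), mul_pow]
    refine le_trans (le_of_eq (by ring)) (mul_le_mul_of_nonneg_left (h n t ht) (by positivity))
  rw [mul_left_comm (r ^ (ℓ.natAbs + 1) * t ^ (2 / 3 : ℝ)) C]
  constructor
  · refine voc4_avg_sum hC hc (γ := fun n => r * (toC n / toC M)) (fun j => ?_) ?_
      (hu.hasSum.mul_left _) fun n => hb n _ rfl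
    · refine (e (r * voc4_e K j) t ht0).congr_fun ?_
      intro n
      congr 2
      ring
    · refine ((voc4_hasSum_Phi ℓ hM ha ht0).mul_left _).congr_fun ?_
      intro n
      rw [hp_real_mul]
      push_cast
      ring
  · refine voc4_avg_sum hC hc (γ := fun n => r * conj (toC n / toC M)) (fun j => ?_) ?_
      (hu.hasSum.mul_left _) fun n => hb n _ (Complex.norm_conj _)
    · refine (e (-conj (r * voc4_e K j)) t ht0).congr_fun ?_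
      intro n
      rw [← ee_neg_conj]
      congr 2
      simp only [map_mul, Complex.conj_conj]
      ring
    · refine ((voc4_hasSum_Phi (-ℓ) hM ha ht0).mul_left _).congr_fun ?_
      intro n
      rw [hp_real_mul, hp_conj]
      push_cast
      ring

theorem voc4_act (ρ : ℝ) {w : ℝ} (hw : 0 < w) {u : ℂ} (hu : ‖u‖ = 1) :
    act SS (pt (ρ * u) w) = pt (-conj (((ρ / (ρ ^ 2 + w ^ 2) : ℝ) : ℂ) * u)) (w / (ρ ^ 2 + w ^ 2)) := by
  rw [act_pt _ _ hw]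
  simp only [SS, zero_mul, one_mul, add_zero, zero_add, norm_one, one_pow, norm_mul, hu, mul_one,
    Complex.norm_real, Real.norm_eq_abs, sq_abs, map_mul, Complex.conj_ofReal]
  congr 1
  push_cast
  ring

/-- **Inversion formula.**  Fix `v > 0`.  For `ζ = ρη^j`, `Δ = ρ² + v²`, `act_pt` gives
`S (ζ, v) = (-conj ζ/Δ, v/Δ)`, and `ee(β · (-conj ζ/Δ)) = ee((ρ conj β/Δ) η^j)` (`ee_neg_conj`).
Average the two expansions against `η^{-jℓ}` (`avg_ee`, `hp_real_mul`, `hp_conj`), divide by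
`c ρ^L`: `v^{2/3} Phi ℓ M₁ a₁ v + O(ρ) = (v/Δ)^{2/3} Δ^{-L} Phi (-ℓ) M₂ a₂ (v/Δ) + O(ρ)` (errors by
`summable_dom` with `i = L+1`, `v/Δ ≥ v/(1+v²)` for `ρ ≤ 1`).  Let `ρ → 0⁺` (`continuousOn_Phi`):
`v^{2/3} Phi₁(v) = v^{-2/3-2L} Phi₂(1/v)`; replace `v` by `1/v`. -/
theorem phi_fe (ℓ : ℤ) {M1 M2 : O} (h1 : M1 ≠ 0) (h2 : M2 ≠ 0) {F1 F2 : X → ℂ} {a1 a2 : O → ℂ}
    (e1 : HasExp F1 M1 a1) (e2 : HasExp F2 M2 a2) (b1 : PolyBd a1) (b2 : PolyBd a2)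
    (hS : ∀ w, F1 w = F2 (act SS w)) {v : ℝ} (hv : 0 < v) :
    Phi ℓ M1 a1 (1 / v) = ((v ^ (2 * (ℓ.natAbs : ℝ) + 4 / 3) : ℝ) : ℂ) * Phi (-ℓ) M2 a2 v := by
  obtain ⟨c, C, hc0, hC, hc⟩ := avg_ee ℓ
  obtain ⟨w, hw⟩ : ∃ w, w = 1 / v := ⟨_, rfl⟩
  have hw0 : 0 < w := by rw [hw]; positivity
  obtain ⟨U1, hU1⟩ := voc4_side hC hc h1 e1 b1 hw0
  obtain ⟨U2, hU2⟩ := voc4_side hC hc h2 e2 b2 (δ := w / (1 + w ^ 2)) (by positivity)
  have key : ∀ ρ : ℝ, 0 < ρ → ρ ≤ 1 →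
      ‖c * (((w ^ (2 / 3 : ℝ) : ℝ) : ℂ) * Phi ℓ M1 a1 w -
        ((((ρ ^ 2 + w ^ 2)⁻¹ ^ ℓ.natAbs * (w / (ρ ^ 2 + w ^ 2)) ^ (2 / 3 : ℝ) : ℝ) : ℂ) *
          Phi (-ℓ) M2 a2 (w / (ρ ^ 2 + w ^ 2))))‖ ≤
      ρ * (w ^ (2 / 3 : ℝ) * U1 + (ρ ^ 2 + w ^ 2)⁻¹ ^ (ℓ.natAbs + 1) *
        (w / (ρ ^ 2 + w ^ 2)) ^ (2 / 3 : ℝ) * U2) := fun ρ hρ hρ1 => by
    have a1' := (hU1 ρ w hρ.le le_rfl).1
    have a2' := (hU2 (ρ / (ρ ^ 2 + w ^ 2)) (w / (ρ ^ 2 + w ^ 2)) (by positivity)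
      (div_le_div_of_nonneg_left hw0.le (by positivity) (by nlinarith))).2
    simp only [hS, voc4_act ρ hw0 (voc4_norm_e _ _)] at a1'
    have a3 := (norm_sub_le_norm_sub_add_norm_sub _ _ _).trans
      (add_le_add ((norm_sub_rev _ _).trans_le a1') a2')
    refine le_of_mul_le_mul_left ?_ (pow_pos hρ ℓ.natAbs)
    refine le_trans (le_of_eq ?_) (a3.trans (le_of_eq ?_))
    · have e0 : ∀ z : ℂ, ρ ^ ℓ.natAbs * ‖z‖ = ‖((ρ ^ ℓ.natAbs : ℝ) : ℂ) * z‖ := fun z => by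
        rw [norm_mul, Complex.norm_real, Real.norm_eq_abs, abs_of_pos (pow_pos hρ _)]
      rw [e0, div_eq_mul_inv ρ, mul_pow]
      congr 1
      push_cast
      ring
    · rw [div_eq_mul_inv ρ, mul_pow]
      ring
  have hΔ : Tendsto (fun ρ : ℝ => ρ ^ 2 + w ^ 2) (𝓝 0) (𝓝 (w ^ 2)) :=
    Continuous.tendsto' (by fun_prop) _ _ (by simp)
  have hw2 : w ^ 2 ≠ 0 := by positivity
  have ht : Tendsto (fun ρ : ℝ => w / (ρ ^ 2 + w ^ 2)) (𝓝 0) (𝓝 v) := by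
    have := (tendsto_const_nhds (x := w)).div hΔ hw2
    rwa [show w / w ^ 2 = v by rw [hw]; field_simp] at this
  have hi : Tendsto (fun ρ : ℝ => (ρ ^ 2 + w ^ 2)⁻¹) (𝓝 0) (𝓝 (v ^ 2)) := by
    have := hΔ.inv₀ hw2
    rwa [show (w ^ 2)⁻¹ = v ^ 2 by rw [hw]; field_simp] at this
  have hr := ht.rpow_const (p := 2 / 3) (Or.inl hv.ne')
  have hP := ((continuousOn_Phi (-ℓ) h2 b2).continuousAt (Ioi_mem_nhds hv)).tendsto.comp ht
  have hL := (((tendsto_const_nhds (x := ((w ^ (2 / 3 : ℝ) : ℝ) : ℂ) * Phi ℓ M1 a1 w)).sub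
    ((Complex.continuous_ofReal.tendsto _).comp ((hi.pow ℓ.natAbs).mul hr) |>.mul hP)).const_mul
      c).norm
  have hR := (tendsto_id (x := 𝓝 (0 : ℝ))).mul ((tendsto_const_nhds (x := w ^ (2 / 3 : ℝ) * U1)).add
    (((hi.pow (ℓ.natAbs + 1)).mul hr).mul_const U2))
  have hle := le_of_tendsto_of_tendsto (hL.mono_left (nhdsWithin_le_nhds (s := Set.Ioi 0)))
    (hR.mono_left nhdsWithin_le_nhds) (by
      filter_upwards [Ioc_mem_nhdsGT one_pos] with ρ hρ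
      exact key ρ hρ.1 hρ.2)
  rw [zero_mul, norm_le_zero_iff, mul_eq_zero, or_iff_right hc0, sub_eq_zero] at hle
  have e3 : v ^ (2 / 3 : ℝ) * w ^ (2 / 3 : ℝ) = 1 := by
    rw [← Real.mul_rpow hv.le hw0.le, hw, mul_one_div_cancel hv.ne', Real.one_rpow]
  have e4 : v ^ (2 * (ℓ.natAbs : ℝ) + 4 / 3) =
      v ^ (2 / 3 : ℝ) * ((v ^ 2) ^ ℓ.natAbs * v ^ (2 / 3 : ℝ)) := by
    rw [← pow_mul, ← Real.rpow_natCast, ← Real.rpow_add hv, ← Real.rpow_add hv]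
    congr 1
    push_cast
    ring
  rw [← hw, e4, Complex.ofReal_mul, mul_assoc, ← hle, ← mul_assoc, ← Complex.ofReal_mul, e3,
    Complex.ofReal_one, one_mul]

end Crest.Agent.R17.Vor
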