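import Crest.Agent.R17.Local_Rect
import Crest.Agent.R17.LCont

/-!
# R17 / Local_Conv : Dirichlet convolution, the von Mangoldt function of `O`, `-L'/L`
-/

set_option autoImplicit false

noncomputable section

open scoped Classical ComplexConjugate

namespace Crest.Agent.R17

theorem loc_hasSum_conv {E : Type} [NormedAddCommGroup E] [CompleteSpace E] {F : O → O → E} {S : E}
    (h : HasSum (fun x : O × O => if Prim x.1 ∧ Prim x.2 then F x.1 x.2 else 0) S) :
    HasSum (fun n => if Prim n then ∑ e ∈ pdiv n, F e (n / e) else 0) S := by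
  have := h.tsum_fiberwise (fun x => x.1 * x.2)
  refine this.congr_fun fun c => ?_
  rw [tsum_subtype ((fun x : O × O => x.1 * x.2) ⁻¹' {c})
    (fun x : O × O => if Prim x.1 ∧ Prim x.2 then F x.1 x.2 else 0)]
  by_cases hc : Prim c
  · rw [if_pos hc, tsum_eq_sum (s := (pdiv c).image fun e => (e, c / e)),
      Finset.sum_image (fun e _ e' _ h => congrArg Prod.fst h)]
    · refine Finset.sum_congr rfl fun e he => ?_
      rw [mem_pdiv hc.ne_zero] at he
      rw [Set.indicator_of_mem (by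
        simp only [Set.mem_preimage, Set.mem_singleton_iff]
        exact EuclideanDomain.mul_div_cancel' he.1.ne_zero he.2), if_pos ⟨he.1, hc.div he.1 he.2⟩]
    · intro x hx
      rw [Set.indicator_apply]
      split_ifs with h1 h2
      · exfalso
        apply hx
        simp only [Set.mem_preimage, Set.mem_singleton_iff] at h1
        refine Finset.mem_image.2 ⟨x.1, (mem_pdiv hc.ne_zero).2 ⟨h2.1, ⟨_, h1.symm⟩⟩, ?_⟩
        rw [← h1, mul_div_cancel_left₀ _ h2.1.ne_zero]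
      · rfl
      · rfl
  · rw [if_neg hc]
    symm
    refine (tsum_congr fun x => ?_).trans tsum_zero
    rw [Set.indicator_apply]
    split_ifs with h1 h2
    · exact absurd (h1 ▸ h2.1.mul h2.2) hc
    · rfl
    · rfl

/-- von Mangoldt function on primary prime powers -/
def vm (n : O) : ℝ :=
  if h : ∃ p : O, Prime p ∧ Prim p ∧ ∃ j : ℕ, n = p ^ (j + 1) then Real.log (N h.choose) else 0

theorem loc_prime_eq {p q : O} (hp : Prime p) (hp' : Prim p) (hq : Prime q) (hq' : Prim q)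
    (h : q ∣ p) : q = p :=
  hq'.eq_of_associated hp' (hq.associated_of_dvd hp h)

theorem vm_pow {p : O} (hp : Prime p) (hp' : Prim p) (j : ℕ) :
    vm (p ^ (j + 1)) = Real.log (N p) := by
  have h : ∃ q : O, Prime q ∧ Prim q ∧ ∃ i : ℕ, p ^ (j + 1) = q ^ (i + 1) := ⟨p, hp, hp', j, rfl⟩
  unfold vm
  rw [dif_pos h]
  obtain ⟨h1, h2, i, h3⟩ := h.choose_spec
  rw [loc_prime_eq hp hp' h1 h2 (h1.dvd_of_dvd_pow (h3 ▸ dvd_pow_self _ (Nat.succ_ne_zero i)))]

theorem vm_prime {p : O} (hp : Prime p) (hp' : Prim p) : vm p = Real.log (N p) := by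
  have := vm_pow hp hp' 0
  rwa [zero_add, pow_one] at this

theorem vm_ne_zero {n : O} (h : vm n ≠ 0) : ∃ p j, Prime p ∧ Prim p ∧ n = p ^ (j + 1) := by
  unfold vm at h
  split_ifs at h with h1
  · obtain ⟨p, hp, hp', j, e⟩ := h1
    exact ⟨p, j, hp, hp', e⟩
  · exact absurd rfl h

theorem loc_log_N_nonneg (n : O) : 0 ≤ Real.log (N n) := by
  by_cases hn : n = 0
  · simp [hn, N]
  · exact Real.log_nonneg (one_le_N hn)

theorem vm_nonneg (n : O) : 0 ≤ vm n := by
  unfold vm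
  split_ifs
  · exact loc_log_N_nonneg _
  · exact le_rfl

theorem vm_le_log (n : O) : vm n ≤ Real.log (N n) := by
  by_cases h : vm n = 0
  · rw [h]; exact loc_log_N_nonneg n
  · obtain ⟨p, j, hp, hp', rfl⟩ := vm_ne_zero h
    rw [vm_pow hp hp', N_pow, Real.log_pow]
    have := loc_log_N_nonneg p
    push_cast
    nlinarith [(Nat.cast_nonneg j : (0 : ℝ) ≤ j)]

theorem vm_le_rpow (n : O) {δ : ℝ} (hδ : 0 < δ) : vm n ≤ N n ^ δ / δ :=
  (vm_le_log n).trans (Real.log_le_rpow_div (N_nonneg n) hδ)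

theorem sum_vm {n : O} (hn : Prim n) : ∑ e ∈ pdiv n, vm e = Real.log (N n) := by
  refine Prim.induction (P := fun n => ∑ e ∈ pdiv n, vm e = Real.log (N n)) ?_ ?_ hn
  · have : N 1 = 1 := by simp [N]
    rw [this, Real.log_one]
    refine Finset.sum_eq_zero fun e he => ?_
    by_contra hc
    obtain ⟨p, j, hp, -, rfl⟩ := vm_ne_zero hc
    exact hp.not_dvd_one ((dvd_pow_self p (Nat.succ_ne_zero j)).trans
      ((mem_pdiv one_ne_zero).1 he).2)
  · intro p a hp hp' ha ih
    have hpa := (hp'.mul ha).ne_zero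
    have hsub : pdiv a ⊆ pdiv (p * a) := fun e he => by
      rw [mem_pdiv ha.ne_zero] at he
      exact (mem_pdiv hpa).2 ⟨he.1, he.2.mul_left p⟩
    have hf : FiniteMultiplicity p a := FiniteMultiplicity.of_prime_left hp ha.ne_zero
    rw [← Finset.sum_sdiff hsub, ih, N_mul, Real.log_mul (N_pos hp.ne_zero).ne'
      (N_pos ha.ne_zero).ne', Finset.sum_eq_single (p ^ (multiplicity p a + 1)), vm_pow hp hp']
    · intro e he hne
      by_contra hc
      obtain ⟨q, j, hq, hq', rfl⟩ := vm_ne_zero hc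
      rw [Finset.mem_sdiff, mem_pdiv hpa, mem_pdiv ha.ne_zero] at he
      have h2 : ¬ q ^ (j + 1) ∣ a := fun h => he.2 ⟨he.1.1, h⟩
      by_cases hqp : q ∣ p
      · have := loc_prime_eq hp hp' hq hq' hqp
        subst this
        have h3 : q ^ j ∣ a := by
          have := he.1.2
          rw [pow_succ'] at this
          exact (mul_dvd_mul_iff_left hq.ne_zero).1 this
        exact hne (by rw [multiplicity_eq_of_dvd_of_not_dvd h3 h2])
      · exact h2 (((hq.coprime_iff_not_dvd.2 hqp).pow_left).dvd_of_dvd_mul_left he.1.2)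
    · intro h
      exfalso
      apply h
      rw [Finset.mem_sdiff, mem_pdiv hpa, mem_pdiv ha.ne_zero]
      refine ⟨⟨hp'.pow _, ?_⟩, fun h => hf.not_pow_dvd_of_multiplicity_lt (Nat.lt_succ_self _) h.2⟩
      rw [pow_succ']
      exact mul_dvd_mul_left p (pow_multiplicity_dvd p a)

theorem summable_vm2 {δ : ℝ} (hδ : 0 < δ) :
    Summable (fun n : O => if Prime n then 0 else vm n * N n ^ (-(1 / 2 + δ))) := by
  set r : ℝ := (2 : ℝ) ^ (-(1 / 2 : ℝ)) with hr
  have hr0 : 0 ≤ r := by positivity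
  have hr1 : r < 1 := Real.rpow_lt_one_of_one_lt_of_neg (by norm_num) (by norm_num)
  have hg : Summable fun x : O × ℕ => (N x.1 ^ (-(1 + δ)) / δ) * r ^ x.2 :=
    Summable.mul_of_nonneg ((summable_N_rpow (by linarith)).div_const δ)
      (summable_geometric_of_lt_one hr0 hr1)
      (fun p => div_nonneg (Real.rpow_nonneg (N_nonneg p) _) hδ.le) (fun j => pow_nonneg hr0 j)
  have hex : ∀ n : O, ¬ Prime n ∧ vm n ≠ 0 →
      ∃ x : O × ℕ, Prime x.1 ∧ Prim x.1 ∧ n = x.1 ^ (x.2 + 2) := fun n hn => by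
    obtain ⟨p, j, hp, hp', e⟩ := vm_ne_zero hn.2
    cases j with
    | zero => exact absurd (by simpa [e] using hp) hn.1
    | succ j => exact ⟨(p, j), hp, hp', e⟩
  choose! φ hφ using hex
  have hnn : ∀ n : O, 0 ≤ (if Prime n then 0 else vm n * N n ^ (-(1 / 2 + δ))) := fun n => by
    split_ifs
    · exact le_rfl
    · exact mul_nonneg (vm_nonneg n) (Real.rpow_nonneg (N_nonneg n) _)
  refine summable_of_sum_le (c := ∑' x : O × ℕ, (N x.1 ^ (-(1 + δ)) / δ) * r ^ x.2) hnn fun S => ?_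
  rw [← Finset.sum_filter_of_ne (p := fun n => ¬ Prime n ∧ vm n ≠ 0) (fun n _ hn => by
    by_contra hc
    apply hn
    split_ifs with h
    · rfl
    · have : vm n = 0 := by by_contra h'; exact hc ⟨h, h'⟩
      rw [this, zero_mul])]
  refine le_trans ?_ (hg.sum_le_tsum ((S.filter fun n => ¬ Prime n ∧ vm n ≠ 0).image φ)
    fun x _ => mul_nonneg (div_nonneg (Real.rpow_nonneg (N_nonneg _) _) hδ.le) (pow_nonneg hr0 _))
  rw [Finset.sum_image (fun n hn m hm e => by
    rw [(hφ n (Finset.mem_filter.1 hn).2).2.2, (hφ m (Finset.mem_filter.1 hm).2).2.2, e])]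
  refine Finset.sum_le_sum fun n hn => ?_
  have hn' := (Finset.mem_filter.1 hn).2
  obtain ⟨hp, hp', e⟩ := hφ n hn'
  rw [if_neg hn'.1]
  generalize φ n = x at hp hp' e
  obtain ⟨p, j⟩ := x
  simp only at hp hp' e ⊢
  have h2 := Prime.two_le_N hp
  have hN : 0 < N p := by linarith
  rw [e, show j + 2 = (j + 1) + 1 by ring, vm_pow hp hp', N_pow, ← Real.rpow_natCast,
    ← Real.rpow_mul hN.le]
  have a1 : Real.log (N p) ≤ N p ^ δ / δ := Real.log_le_rpow_div hN.le hδ
  have a2 : N p ^ (((j + 1 + 1 : ℕ) : ℝ) * -(1 / 2 + δ)) ≤ N p ^ (-(1 + 2 * δ)) * r ^ j := by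
    have : ((j + 1 + 1 : ℕ) : ℝ) * -(1 / 2 + δ) = -(1 + 2 * δ) + -(1 / 2 + δ) * j := by
      push_cast; ring
    rw [this, Real.rpow_add hN, Real.rpow_mul hN.le, Real.rpow_natCast]
    refine mul_le_mul_of_nonneg_left (pow_le_pow_left₀ (by positivity) ?_ j) (by positivity)
    exact (Real.rpow_le_rpow_of_exponent_le (by linarith) (by linarith)).trans
      (Real.rpow_le_rpow_of_nonpos (by norm_num) h2 (by norm_num))
  calc _ ≤ (N p ^ δ / δ) * (N p ^ (-(1 + 2 * δ)) * r ^ j) :=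
        mul_le_mul a1 a2 (by positivity) (by positivity)
    _ = _ := by
        rw [show -(1 + δ) = δ + -(1 + 2 * δ) by ring, Real.rpow_add hN]
        ring

theorem loc_summable_bdd {a : O → ℂ} (hb : ∀ n, ‖a n‖ ≤ 1) {σ : ℝ} (hσ : 1 < σ) :
    Summable (fun n => ‖a n‖ * N n ^ (-σ)) :=
  Summable.of_nonneg_of_le (fun n => mul_nonneg (norm_nonneg _) (Real.rpow_nonneg (N_nonneg n) _))
    (fun n => mul_le_of_le_one_left (Real.rpow_nonneg (N_nonneg n) _) (hb n)) (summable_N_rpow hσ)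

theorem loc_norm_prim_le {a : O → ℂ} (hb : ∀ n, ‖a n‖ ≤ 1) (n : O) : ‖prim a n‖ ≤ 1 := by
  unfold prim
  split_ifs
  · exact hb n
  · simp

theorem loc_norm_vm_le {ψ : O → ℂ} (hb : ∀ n, ‖ψ n‖ ≤ 1) (n : O) :
    ‖prim (fun n => (vm n : ℂ) * ψ n) n‖ ≤ vm n := by
  unfold prim
  split_ifs
  · rw [norm_mul, Complex.norm_real, Real.norm_of_nonneg (vm_nonneg n)]
    exact mul_le_of_le_one_right (vm_nonneg n) (hb n)
  · simpa using vm_nonneg n

theorem loc_vm_two (n : O) : vm n * N n ^ (-(2 : ℝ)) ≤ 2 * N n ^ (-(3 / 2 : ℝ)) := by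
  by_cases hn : n = 0
  · simp [hn, N]
  · have hN := N_pos hn
    calc _ ≤ N n ^ (1 / 2 : ℝ) / (1 / 2) * N n ^ (-(2 : ℝ)) :=
          mul_le_mul_of_nonneg_right (vm_le_rpow n (by norm_num)) (by positivity)
      _ = _ := by
          rw [show (-(3 / 2) : ℝ) = 1 / 2 + -2 by norm_num, Real.rpow_add hN]; ring

theorem loc_summable_vm {ψ : O → ℂ} (hb : ∀ n, ‖ψ n‖ ≤ 1) :
    Summable (fun n => ‖prim (fun n => (vm n : ℂ) * ψ n) n‖ * N n ^ (-(2 : ℝ))) :=
  Summable.of_nonneg_of_le (fun n => mul_nonneg (norm_nonneg _) (Real.rpow_nonneg (N_nonneg n) _))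
    (fun n => (mul_le_mul_of_nonneg_right (loc_norm_vm_le hb n)
      (Real.rpow_nonneg (N_nonneg n) _)).trans (loc_vm_two n))
    ((summable_N_rpow (σ := 3 / 2) (by norm_num)).mul_left 2)

theorem loc_norm_dser_le {a : O → ℂ} {s : ℂ} {g : O → ℝ} (hg : Summable g)
    (h : ∀ n, ‖a n‖ * N n ^ (-s.re) ≤ g n) : ‖dser a s‖ ≤ ∑' n, g n :=
  tsum_of_norm_bounded hg.hasSum fun n => (loc_norm_term a s n).trans (h n)

/-- uniform bound for bounded coefficients on `Re s ≥ 5/4` -/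
theorem loc_dser_bdd : ∃ M : ℝ, 1 ≤ M ∧ ∀ a : O → ℂ, (∀ n, ‖a n‖ ≤ 1) → ∀ s : ℂ, 5 / 4 ≤ s.re →
    ‖dser a s‖ ≤ M := by
  refine ⟨max 1 (∑' n : O, N n ^ (-(5 / 4 : ℝ))), le_max_left _ _, fun a hb s hs => ?_⟩
  refine (loc_norm_dser_le (summable_N_rpow (σ := 5 / 4) (by norm_num)) fun n => ?_).trans
    (le_max_right _ _)
  refine (mul_le_of_le_one_left (Real.rpow_nonneg (N_nonneg n) _) (hb n)).trans ?_
  by_cases hn : n = 0
  · have : N n = 0 := by simp [hn, N]
    rw [this, Real.zero_rpow (by linarith), Real.zero_rpow (by norm_num)]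
  · exact Real.rpow_le_rpow_of_exponent_le (one_le_N hn) (by linarith)

theorem loc_dser_vm_bdd : ∃ M : ℝ, ∀ ψ : O → ℂ, (∀ n, ‖ψ n‖ ≤ 1) → ∀ s : ℂ, s.re = 2 →
    ‖dser (prim (fun n => (vm n : ℂ) * ψ n)) s‖ ≤ M := by
  refine ⟨∑' n : O, 2 * N n ^ (-(3 / 2 : ℝ)), fun ψ hb s hs => ?_⟩
  refine loc_norm_dser_le ((summable_N_rpow (σ := 3 / 2) (by norm_num)).mul_left 2) fun n => ?_
  rw [hs]
  exact (mul_le_mul_of_nonneg_right (loc_norm_vm_le hb n)
    (Real.rpow_nonneg (N_nonneg n) _)).trans (loc_vm_two n)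

theorem loc_dser_deriv {a : O → ℂ} (hb : ∀ n, ‖a n‖ ≤ 1) {s : ℂ} (hs : 1 < s.re) :
    deriv (dser a) s = - dser (fun n => a n * Real.log (N n)) s := by
  have hder : ∀ (n : O) (w : ℂ), HasDerivAt
      (fun w : ℂ => if n = 0 then 0 else a n * (N n : ℂ) ^ (-w))
      (-(if n = 0 then 0 else a n * Real.log (N n) * (N n : ℂ) ^ (-w))) w := fun n w => by
    split_ifs with hn
    · simpa using hasDerivAt_const w (0 : ℂ)
    · have h0 : (N n : ℂ) ≠ 0 := by exact_mod_cast (N_pos hn).ne'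
      have := ((hasDerivAt_neg w).const_cpow (c := (N n : ℂ)) (Or.inl h0)).const_mul (a n)
      refine this.congr_deriv ?_
      rw [Complex.ofReal_log (N_nonneg n)]
      ring
  have key := Complex.hasSum_deriv_of_summable_norm
    (F := fun (n : O) (w : ℂ) => if n = 0 then 0 else a n * (N n : ℂ) ^ (-w))
    (U := {w : ℂ | (1 + s.re) / 2 < w.re}) (z := s)
    (summable_N_rpow (σ := (1 + s.re) / 2) (by linarith))
    (fun n w _ => (hder n w).differentiableAt.differentiableWithinAt)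
    (isOpen_lt continuous_const Complex.continuous_re)
    (fun n w hw => by
      split_ifs with hn
      · rw [norm_zero]; exact Real.rpow_nonneg (N_nonneg n) _
      · refine (LM.norm_term_le hb w hn).trans ?_
        exact Real.rpow_le_rpow_of_exponent_le (one_le_N hn) (neg_le_neg (le_of_lt hw)))
    (by simp only [Set.mem_ofPred_eq]; linarith)
  simp only [(hder _ s).deriv] at key
  unfold dser
  rw [← tsum_neg]
  exact key.tsum_eq.symm

theorem loc_dser_vm {ψ : O → ℂ} (hψ : ∀ a b, ψ (a * b) = ψ a * ψ b) (hb : ∀ n, ‖ψ n‖ ≤ 1)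
    {s : ℂ} (hs : s.re = 2) :
    dser (prim (fun n => (vm n : ℂ) * ψ n)) s * dser (prim ψ) s =
      dser (fun n => prim ψ n * Real.log (N n)) s := by
  have s1 : Summable fun n : O =>
      ‖if Prim n then ((vm n : ℂ) * ψ n) * (N n : ℂ) ^ (-s) else 0‖ := by
    refine Summable.of_nonneg_of_le (fun _ => norm_nonneg _) (fun n => ?_) (loc_summable_vm hb)
    unfold prim
    split_ifs with hn
    · rw [norm_mul, loc_norm_cpow hn.ne_zero, Complex.neg_re, hs]
    · simp
  have s2 : Summable fun n : O => ‖if Prim n then ψ n * (N n : ℂ) ^ (-s) else 0‖ :=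
    (LM.summable_term hb (by rw [hs]; norm_num) Prim fun n hn => hn.ne_zero).norm
  rw [LM.dser_prim, LM.dser_prim, tsum_mul_tsum_of_summable_norm s1 s2]
  have s3 := (summable_mul_of_summable_norm s1 s2).hasSum
  have e : ∀ x : O × O, (if Prim x.1 then ((vm x.1 : ℂ) * ψ x.1) * (N x.1 : ℂ) ^ (-s) else 0) *
      (if Prim x.2 then ψ x.2 * (N x.2 : ℂ) ^ (-s) else 0) =
      if Prim x.1 ∧ Prim x.2 then
        (fun a m => (vm a : ℂ) * (ψ (a * m) * (N (a * m) : ℂ) ^ (-s))) x.1 x.2 else 0 := fun x => by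
    by_cases h1 : Prim x.1
    · by_cases h2 : Prim x.2
      · rw [if_pos h1, if_pos h2, if_pos ⟨h1, h2⟩]
        beta_reduce
        rw [hψ, LM.N_cpow_mul]
        ring
      · rw [if_neg h2, if_neg (c := Prim x.1 ∧ Prim x.2) (fun h => h2 h.2), mul_zero]
    · rw [if_neg h1, if_neg (c := Prim x.1 ∧ Prim x.2) (fun h => h1 h.1), zero_mul]
  have s4 := loc_hasSum_conv
    (F := fun a m => (vm a : ℂ) * (ψ (a * m) * (N (a * m) : ℂ) ^ (-s))) (s3.congr_fun fun x => (e x).symm)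
  rw [← s4.tsum_eq]
  unfold dser prim
  refine tsum_congr fun n => ?_
  by_cases hn : Prim n
  · rw [if_pos hn, if_neg hn.ne_zero]
    beta_reduce
    rw [if_pos hn, ← sum_vm hn]
    push_cast
    rw [Finset.mul_sum, Finset.sum_mul]
    refine Finset.sum_congr rfl fun e he => ?_
    rw [mem_pdiv hn.ne_zero] at he
    rw [EuclideanDomain.mul_div_cancel' he.1.ne_zero he.2]
    ring
  · simp [hn]

/-- uniform version of `tsum_gw_rpow` -/
theorem loc_tsum_gw (X : ℝ) : ∃ C : ℝ, 0 ≤ C ∧ ∀ x : ℝ, |x| ≤ X → ∀ y : ℝ,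
    ∑' n : O, (if n = 0 then 0 else N n ^ x * gw (Real.log (N n) - y)) ≤
      C * Real.exp ((x + 1) * y) := by
  obtain ⟨C, hC⟩ := tsum_gw_rpow 0
  refine ⟨|C| * Real.exp (X ^ 2 / 4 + X / 2), by positivity, fun x hx y => ?_⟩
  have e : ∀ n : O, (if n = 0 then 0 else N n ^ x * gw (Real.log (N n) - y)) =
      Real.exp (x * y + x ^ 2 / 4) *
        (if n = 0 then 0 else N n ^ (0 : ℝ) * gw (Real.log (N n) - (y + x / 2))) := fun n => by
    split_ifs with hn
    · simp
    · rw [Real.rpow_def_of_pos (N_pos hn), mul_comm (Real.log _) x, exp_mul_gw, Real.rpow_zero,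
        one_mul]
  simp only [e]
  rw [tsum_mul_left]
  refine (mul_le_mul_of_nonneg_left ((hC _).trans (mul_le_mul_of_nonneg_right (le_abs_self C)
    (Real.exp_pos _).le)) (Real.exp_pos _).le).trans ?_
  rw [mul_left_comm, mul_assoc, ← Real.exp_add, ← Real.exp_add]
  refine mul_le_mul_of_nonneg_left (Real.exp_le_exp.2 ?_) (abs_nonneg _)
  have := abs_le.1 hx
  nlinarith

end Crest.Agent.R17
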