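import Crest.Agent.R17.LCont
import Crest.Agent.R17.Chars

/-!
# R17 / QLS_Defs : operator norm bounds for the quadratic large sieve
-/

set_option autoImplicit false

noncomputable section

open scoped Classical ComplexConjugate

namespace Crest.Agent.R17.QL

/-- primary squarefree odd elements of norm `≤ X` -/
def PS (X : ℝ) : Finset O := (ball X).filter (fun k => Prim k ∧ Squarefree k ∧ IsCoprime k 2)

/-- squarefree elements of norm `≤ X` -/
def SQ (X : ℝ) : Finset O := (ball X).filter Squarefree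

theorem mem_PS {X : ℝ} {k : O} :
    k ∈ PS X ↔ N k ≤ X ∧ Prim k ∧ Squarefree k ∧ IsCoprime k 2 := by
  unfold PS
  rw [Finset.mem_filter, mem_ball]
  constructor
  · rintro ⟨⟨_, h⟩, h'⟩; exact ⟨h, h'⟩
  · rintro ⟨h, h'⟩; exact ⟨⟨h'.1.ne_zero, h⟩, h'⟩

theorem mem_SQ {X : ℝ} {k : O} : k ∈ SQ X ↔ N k ≤ X ∧ Squarefree k := by
  unfold SQ
  rw [Finset.mem_filter, mem_ball]
  constructor
  · rintro ⟨⟨_, h⟩, h'⟩; exact ⟨h, h'⟩
  · rintro ⟨h, h'⟩; exact ⟨⟨h'.ne_zero, h⟩, h'⟩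

theorem PS_mono {X Y : ℝ} (h : X ≤ Y) : PS X ⊆ PS Y := fun _ hk => by
  rw [mem_PS] at hk ⊢; exact ⟨hk.1.trans h, hk.2⟩

theorem SQ_mono {X Y : ℝ} (h : X ≤ Y) : SQ X ⊆ SQ Y := fun _ hk => by
  rw [mem_SQ] at hk ⊢; exact ⟨hk.1.trans h, hk.2⟩

theorem PS_sub_SQ (X : ℝ) : PS X ⊆ SQ X := fun _ hk => by
  rw [mem_PS] at hk; exact mem_SQ.2 ⟨hk.1, hk.2.2.1⟩

theorem card_PS_le {X : ℝ} (hX : 0 ≤ X) : ((PS X).card : ℝ) ≤ 18 * X :=
  le_trans (by exact_mod_cast Finset.card_filter_le _ _) (card_ball_le hX)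

/-- weighted operator bound -/
def WB (R : Finset O) (ω : O → ℝ) (S : Finset O) (k : O → O → ℂ) (D : ℝ) : Prop :=
  ∀ a : O → ℂ, ∑ b ∈ R, ω b * ‖∑ n ∈ S, a n * k b n‖ ^ 2 ≤ D * ∑ n ∈ S, ‖a n‖ ^ 2

/-- operator bound -/
def Bd (R S : Finset O) (k : O → O → ℂ) (D : ℝ) : Prop :=
  ∀ a : O → ℂ, ∑ b ∈ R, ‖∑ n ∈ S, a n * k b n‖ ^ 2 ≤ D * ∑ n ∈ S, ‖a n‖ ^ 2

/-- the kernel -/
def qk (b n : O) : ℂ := qua n b

/-- the large sieve bound with rows `SQ M`, columns `PS X` -/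
def HH (M X D : ℝ) : Prop := Bd (SQ M) (PS X) qk D

theorem sumsq_nonneg (S : Finset O) (a : O → ℂ) : 0 ≤ ∑ n ∈ S, ‖a n‖ ^ 2 :=
  Finset.sum_nonneg (fun _ _ => by positivity)

theorem Bd.mono_D {R S : Finset O} {k : O → O → ℂ} {D D' : ℝ} (h : Bd R S k D) (hD : D ≤ D') :
    Bd R S k D' := fun a =>
  (h a).trans (mul_le_mul_of_nonneg_right hD (sumsq_nonneg _ _))

theorem Bd.mono_rows {R R' S : Finset O} {k : O → O → ℂ} {D : ℝ} (h : Bd R S k D) (hR : R' ⊆ R) :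
    Bd R' S k D := fun a =>
  le_trans (Finset.sum_le_sum_of_subset_of_nonneg hR (fun _ _ _ => by positivity)) (h a)

theorem WB.mono_cols {R S S' : Finset O} {ω : O → ℝ} {k : O → O → ℂ} {D : ℝ} (h : WB R ω S k D)
    (hS : S' ⊆ S) : WB R ω S' k D := by
  intro a
  have := h (fun n => if n ∈ S' then a n else 0)
  have e1 : ∀ b, ∑ n ∈ S, (if n ∈ S' then a n else 0) * k b n = ∑ n ∈ S', a n * k b n := by
    intro b
    simp_rw [ite_mul, zero_mul]
    rw [← Finset.sum_filter, Finset.filter_mem_eq_inter, Finset.inter_eq_right.2 hS]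
  have e2 : ∑ n ∈ S, ‖if n ∈ S' then a n else 0‖ ^ 2 = ∑ n ∈ S', ‖a n‖ ^ 2 := by
    have : ∀ n, ‖if n ∈ S' then a n else 0‖ ^ 2 = if n ∈ S' then ‖a n‖ ^ 2 else 0 := by
      intro n; split_ifs <;> simp
    simp_rw [this]
    rw [← Finset.sum_filter, Finset.filter_mem_eq_inter, Finset.inter_eq_right.2 hS]
  simp_rw [e1, e2] at this
  exact this

theorem WB.mono_D {R S : Finset O} {ω : O → ℝ} {k : O → O → ℂ} {D D' : ℝ} (h : WB R ω S k D)
    (hD : D ≤ D') : WB R ω S k D' := fun a =>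
  (h a).trans (mul_le_mul_of_nonneg_right hD (sumsq_nonneg _ _))

theorem bd_iff_wb {R S : Finset O} {k : O → O → ℂ} {D : ℝ} :
    Bd R S k D ↔ WB R (fun _ => 1) S k D := by
  unfold Bd WB; simp only [one_mul]

theorem Bd.mono_cols {R S S' : Finset O} {k : O → O → ℂ} {D : ℝ} (h : Bd R S k D) (hS : S' ⊆ S) :
    Bd R S' k D := bd_iff_wb.2 ((bd_iff_wb.1 h).mono_cols hS)

theorem Bd.wb {R S : Finset O} {k : O → O → ℂ} {D W : ℝ} {ω : O → ℝ} (h : Bd R S k D)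
    (hW : 0 ≤ W) (hω : ∀ b ∈ R, ω b ≤ W) : WB R ω S k (W * D) := by
  intro a
  calc ∑ b ∈ R, ω b * ‖∑ n ∈ S, a n * k b n‖ ^ 2
      ≤ ∑ b ∈ R, W * ‖∑ n ∈ S, a n * k b n‖ ^ 2 :=
        Finset.sum_le_sum (fun b hb => mul_le_mul_of_nonneg_right (hω b hb) (by positivity))
    _ = W * ∑ b ∈ R, ‖∑ n ∈ S, a n * k b n‖ ^ 2 := by rw [Finset.mul_sum]
    _ ≤ W * (D * ∑ n ∈ S, ‖a n‖ ^ 2) := mul_le_mul_of_nonneg_left (h a) hW
    _ = _ := by ring

theorem WB.mono_w {R S : Finset O} {k : O → O → ℂ} {D W : ℝ} {ω ω' : O → ℝ} (h : WB R ω S k D)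
    (hW : 0 ≤ W) (hω : ∀ b ∈ R, ω' b ≤ W * ω b) : WB R ω' S k (W * D) := by
  intro a
  calc ∑ b ∈ R, ω' b * ‖∑ n ∈ S, a n * k b n‖ ^ 2
      ≤ ∑ b ∈ R, W * (ω b * ‖∑ n ∈ S, a n * k b n‖ ^ 2) :=
        Finset.sum_le_sum (fun b hb => by
          rw [← mul_assoc]; exact mul_le_mul_of_nonneg_right (hω b hb) (by positivity))
    _ = W * ∑ b ∈ R, ω b * ‖∑ n ∈ S, a n * k b n‖ ^ 2 := by rw [Finset.mul_sum]
    _ ≤ W * (D * ∑ n ∈ S, ‖a n‖ ^ 2) := mul_le_mul_of_nonneg_left (h a) hW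
    _ = _ := by ring

/-- duality -/
theorem Bd.transpose {R S : Finset O} {k : O → O → ℂ} {D : ℝ} (h : Bd R S k D) (hD : 0 ≤ D) :
    Bd S R (fun n b => k b n) D := by
  intro c
  set v : O → ℂ := fun n => ∑ b ∈ R, c b * k b n with hv
  set V : ℝ := ∑ n ∈ S, ‖v n‖ ^ 2 with hV
  have hV0 : 0 ≤ V := sumsq_nonneg _ _
  have h1 := h (fun n => conj (v n))
  simp only [Complex.norm_conj] at h1
  have h2 : (V : ℂ) = ∑ b ∈ R, c b * ∑ n ∈ S, conj (v n) * k b n := by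
    simp_rw [Finset.mul_sum]
    rw [Finset.sum_comm, hV]
    push_cast
    refine Finset.sum_congr rfl (fun n _ => ?_)
    rw [← Complex.conj_mul', hv]
    simp only
    rw [Finset.mul_sum]
    exact Finset.sum_congr rfl (fun b _ => by ring)
  have h3 : V ≤ ∑ b ∈ R, ‖c b‖ * ‖∑ n ∈ S, conj (v n) * k b n‖ := by
    calc V = ‖(V : ℂ)‖ := by rw [Complex.norm_real, Real.norm_of_nonneg hV0]
      _ ≤ _ := by
        rw [h2]
        exact (norm_sum_le _ _).trans (le_of_eq (Finset.sum_congr rfl (fun b _ => norm_mul _ _)))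
  have h4 := Finset.sum_mul_sq_le_sq_mul_sq R (fun b => ‖c b‖)
    (fun b => ‖∑ n ∈ S, conj (v n) * k b n‖)
  have hC := sumsq_nonneg R c
  have h5 : V ^ 2 ≤ (∑ b ∈ R, ‖c b‖ ^ 2) * (D * V) := by
    calc V ^ 2 ≤ (∑ b ∈ R, ‖c b‖ * ‖∑ n ∈ S, conj (v n) * k b n‖) ^ 2 :=
          pow_le_pow_left₀ hV0 h3 2
      _ ≤ _ := h4
      _ ≤ _ := mul_le_mul_of_nonneg_left h1 hC
  change V ≤ D * ∑ b ∈ R, ‖c b‖ ^ 2
  rcases hV0.eq_or_lt with h0 | h0
  · rw [← h0]; positivity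
  · nlinarith

/-- splitting the columns into fibres -/
theorem bd_of_fibres {R S : Finset O} {k : O → O → ℂ} {D : ℝ} {ι : Type*} [DecidableEq ι]
    (T : Finset ι) (φ : O → ι) (hφ : ∀ n ∈ S, φ n ∈ T)
    (h : ∀ t ∈ T, Bd R (S.filter (fun n => φ n = t)) k D) : Bd R S k (T.card * D) := by
  intro a
  have e1 : ∀ b, ∑ n ∈ S, a n * k b n =
      ∑ t ∈ T, ∑ n ∈ S.filter (fun n => φ n = t), a n * k b n := fun b =>
    (Finset.sum_fiberwise_of_maps_to hφ _).symm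
  have e2 : ∑ n ∈ S, ‖a n‖ ^ 2 = ∑ t ∈ T, ∑ n ∈ S.filter (fun n => φ n = t), ‖a n‖ ^ 2 :=
    (Finset.sum_fiberwise_of_maps_to hφ _).symm
  have e3 : ∀ b, ‖∑ n ∈ S, a n * k b n‖ ^ 2 ≤
      T.card * ∑ t ∈ T, ‖∑ n ∈ S.filter (fun n => φ n = t), a n * k b n‖ ^ 2 := by
    intro b
    rw [e1 b]
    calc _ ≤ (∑ t ∈ T, ‖∑ n ∈ S.filter (fun n => φ n = t), a n * k b n‖) ^ 2 :=
          pow_le_pow_left₀ (norm_nonneg _) (norm_sum_le _ _) 2
      _ ≤ _ := sq_sum_le_card_mul_sum_sq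
  calc ∑ b ∈ R, ‖∑ n ∈ S, a n * k b n‖ ^ 2
      ≤ ∑ b ∈ R, (T.card * ∑ t ∈ T, ‖∑ n ∈ S.filter (fun n => φ n = t), a n * k b n‖ ^ 2) :=
        Finset.sum_le_sum (fun b _ => e3 b)
    _ = T.card * ∑ t ∈ T, ∑ b ∈ R, ‖∑ n ∈ S.filter (fun n => φ n = t), a n * k b n‖ ^ 2 := by
        rw [← Finset.mul_sum, Finset.sum_comm]
    _ ≤ T.card * ∑ t ∈ T, D * ∑ n ∈ S.filter (fun n => φ n = t), ‖a n‖ ^ 2 :=
        mul_le_mul_of_nonneg_left (Finset.sum_le_sum (fun t ht => h t ht a)) (by positivity)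
    _ = _ := by rw [← Finset.mul_sum, e2]; ring

theorem HH.mono {M X D M' X' D' : ℝ} (h : HH M X D) (hM : M' ≤ M) (hX : X' ≤ X) (hD : D ≤ D') :
    HH M' X' D' :=
  ((Bd.mono_rows h (SQ_mono hM)).mono_cols (PS_mono hX)).mono_D hD

/-! ### the quadratic symbol -/

theorem qua_isChar {n : O} (hn : IsCoprime n 2) : IsChar n (qua n) :=
  sym_isChar (k := 2) (Or.inl rfl) (by simpa using hn)

theorem qua_mul {n : O} (hn : IsCoprime n 2) (a b : O) : qua n (a * b) = qua n a * qua n b :=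
  (qua_isChar hn).mul a b

theorem qua_sq {n : O} (hn : IsCoprime n 2) (d : O) :
    qua n d ^ 2 = if IsCoprime d n then 1 else 0 :=
  sym_pow_eq (k := 2) (Or.inl rfl) (by simpa using hn) d

theorem norm_qua_le {n : O} (hn : IsCoprime n 2) (d : O) : ‖qua n d‖ ≤ 1 :=
  norm_sym_le (k := 2) (Or.inl rfl) (by simpa using hn) d

theorem qua_mul_left {a b : O} (ha : a ≠ 0) (hb : b ≠ 0) (d : O) :
    qua (a * b) d = qua a d * qua b d := sym_mul_left 2 ha hb d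

theorem qua_one (d : O) : qua 1 d = 1 := sym_one 2 d

theorem isCoprime_two_of_dvd {a b : O} (hb : IsCoprime b 2) (h : a ∣ b) : IsCoprime a 2 :=
  hb.of_isCoprime_of_dvd_left h

theorem isCoprime_two_congr {a b : O} (hb : IsCoprime b 2) (h : (4 : O) ∣ a - b) :
    IsCoprime a 2 := by
  obtain ⟨t, ht⟩ := h
  have : a = b + 2 * (2 * t) := by linear_combination ht
  rw [this]
  exact hb.add_mul_left_left _

theorem sum_biUnion_le' {ι : Type*} (T : Finset ι) (t : ι → Finset O) (f : O → ℝ)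
    (hf : ∀ b, 0 ≤ f b) : ∑ b ∈ T.biUnion t, f b ≤ ∑ i ∈ T, ∑ b ∈ t i, f b := by
  induction T using Finset.induction_on with
  | empty => simp
  | insert i T hi ih =>
    rw [Finset.biUnion_insert, Finset.sum_insert hi]
    have := Finset.sum_union_inter (s₁ := t i) (s₂ := T.biUnion t) (f := f)
    have h2 : 0 ≤ ∑ b ∈ t i ∩ T.biUnion t, f b := Finset.sum_nonneg (fun b _ => hf b)
    linarith

theorem four_ne_zero' : (4 : O) ≠ 0 := by
  intro h; have := congrArg QuadraticAlgebra.re h; exact absurd this (by decide)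

/-- symmetry of the large sieve bound -/
theorem HH_symm : ∃ C0 : ℝ, 1 ≤ C0 ∧ ∀ X M D : ℝ, 0 ≤ D → HH X M D → HH M X (C0 * D) := by
  refine ⟨((ball 36 ×ˢ res 4).card : ℝ) + 1, by linarith [Nat.cast_nonneg (α := ℝ) (ball 36 ×ˢ res 4).card], ?_⟩
  intro X M D hD h a
  have h4 : (4 : O) ≠ 0 := by
    intro h; have := congrArg QuadraticAlgebra.re h; exact absurd this (by decide)
  have h6 : (6 : O) ≠ 0 := by
    intro h; have := congrArg QuadraticAlgebra.re h; exact absurd this (by decide)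
  -- transposed bound
  have ht : Bd (PS M) (PS X) (fun b n => qua b n) D :=
    (Bd.transpose h hD).mono_cols (PS_sub_SQ X)
  -- decomposition of the rows
  have hdec : ∀ b ∈ SQ M, ∃ p : O × O, p ∈ ball 36 ×ˢ res 4 ∧ ∃ b1 ∈ PS M,
      (4 : O) ∣ b1 - p.2 ∧ b = p.1 * b1 := by
    intro b hb
    rw [mem_SQ] at hb
    obtain ⟨b0, b1, j, hb0, hb1, hc, rfl⟩ :=
      exists_split h6 (show (3 : O) ∣ 6 from ⟨2, by norm_num⟩) hb.2.ne_zero
    have hs0 : Squarefree b0 := hb.2.squarefree_of_dvd (dvd_mul_right _ _)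
    have hs1 : Squarefree b1 := hb.2.squarefree_of_dvd (dvd_mul_left _ _)
    have hd : b0 ∣ 6 := by
      rcases Nat.eq_zero_or_pos j with rfl | hj
      · exact hb0.trans (by simp)
      · exact (hs0.dvd_pow_iff_dvd hj.ne').1 hb0
    obtain ⟨r, hr, hr'⟩ := exists_res h4 b1
    refine ⟨(b0, r), Finset.mem_product.2 ⟨mem_ball.2 ⟨hs0.ne_zero, ?_⟩, hr⟩, b1, ?_, hr', rfl⟩
    · have := N_le_of_dvd h6 hd
      have h36 : N 6 = 36 := by
        have := nm_natCast 6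
        unfold N
        rw [show ((6 : ℕ) : O) = 6 from rfl] at this
        rw [this]; norm_num
      linarith
    · refine mem_PS.2 ⟨?_, hb1, hs1, hc.of_isCoprime_of_dvd_right ⟨3, by norm_num⟩⟩
      exact (N_le_of_dvd hb.2.ne_zero (dvd_mul_left _ _)).trans hb.1
  set f : O → ℝ := fun b => ‖∑ n ∈ PS X, a n * qk b n‖ ^ 2 with hf
  have hf0 : ∀ b, 0 ≤ f b := fun b => by positivity
  have hS := sumsq_nonneg (PS X) a
  have key : ∀ p ∈ ball 36 ×ˢ res 4,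
      ∑ b1 ∈ (PS M).filter (fun b1 => (4 : O) ∣ b1 - p.2), f (p.1 * b1) ≤
        D * ∑ n ∈ PS X, ‖a n‖ ^ 2 := by
    intro p _
    by_cases hp : IsCoprime p.2 2
    · have h1 := ht (fun n => a n * qua n p.1 * sg p.2 n)
      calc ∑ b1 ∈ (PS M).filter (fun b1 => (4 : O) ∣ b1 - p.2), f (p.1 * b1)
          = ∑ b1 ∈ (PS M).filter (fun b1 => (4 : O) ∣ b1 - p.2),
              ‖∑ n ∈ PS X, a n * qua n p.1 * sg p.2 n * qua b1 n‖ ^ 2 := by
            refine Finset.sum_congr rfl (fun b1 hb1 => ?_)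
            rw [Finset.mem_filter, mem_PS] at hb1
            simp only [hf]
            congr 2
            refine Finset.sum_congr rfl (fun n hn => ?_)
            rw [mem_PS] at hn
            unfold qk
            rw [qua_mul hn.2.2.2, qua_rec hn.2.2.2 hb1.1.2.2.2, sg_comm n b1,
              (sg_per n).congr hb1.2]
            ring
        _ ≤ ∑ b1 ∈ PS M, ‖∑ n ∈ PS X, a n * qua n p.1 * sg p.2 n * qua b1 n‖ ^ 2 :=
            Finset.sum_le_sum_of_subset_of_nonneg (Finset.filter_subset _ _)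
              (fun _ _ _ => by positivity)
        _ ≤ D * ∑ n ∈ PS X, ‖a n * qua n p.1 * sg p.2 n‖ ^ 2 := h1
        _ ≤ D * ∑ n ∈ PS X, ‖a n‖ ^ 2 := by
            refine mul_le_mul_of_nonneg_left (Finset.sum_le_sum (fun n hn => ?_)) hD
            rw [mem_PS] at hn
            refine pow_le_pow_left₀ (norm_nonneg _) ?_ 2
            rw [norm_mul, norm_mul, norm_sg hp hn.2.2.2, mul_one]
            exact mul_le_of_le_one_right (norm_nonneg _) (norm_qua_le hn.2.2.2 _)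
    · have : (PS M).filter (fun b1 => (4 : O) ∣ b1 - p.2) = ∅ := by
        refine Finset.filter_eq_empty_iff.2 (fun b1 hb1 hd => hp ?_)
        rw [mem_PS] at hb1
        exact isCoprime_two_congr hb1.2.2.2 (by simpa using hd.neg_right)
      rw [this, Finset.sum_empty]; positivity
  have hsub : SQ M ⊆ (ball 36 ×ˢ res 4).biUnion (fun p =>
      ((PS M).filter (fun b1 => (4 : O) ∣ b1 - p.2)).image (fun b1 => p.1 * b1)) := by
    intro b hb
    obtain ⟨p, hp, b1, hb1, h4', rfl⟩ := hdec b hb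
    exact Finset.mem_biUnion.2 ⟨p, hp, Finset.mem_image.2 ⟨b1, Finset.mem_filter.2 ⟨hb1, h4'⟩, rfl⟩⟩
  calc ∑ b ∈ SQ M, f b
      ≤ ∑ b ∈ (ball 36 ×ˢ res 4).biUnion (fun p =>
        ((PS M).filter (fun b1 => (4 : O) ∣ b1 - p.2)).image (fun b1 => p.1 * b1)), f b :=
        Finset.sum_le_sum_of_subset_of_nonneg hsub (fun b _ _ => hf0 b)
    _ ≤ ∑ p ∈ ball 36 ×ˢ res 4, ∑ b ∈ ((PS M).filter (fun b1 => (4 : O) ∣ b1 - p.2)).image
          (fun b1 => p.1 * b1), f b := by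
        exact sum_biUnion_le' _ _ _ hf0
    _ ≤ ∑ p ∈ ball 36 ×ˢ res 4, D * ∑ n ∈ PS X, ‖a n‖ ^ 2 := by
        refine Finset.sum_le_sum (fun p hp => le_trans ?_ (key p hp))
        exact Finset.sum_image_le_of_nonneg (fun b _ => hf0 b)
    _ ≤ _ := by
        rw [Finset.sum_const, nsmul_eq_mul]
        nlinarith [mul_nonneg hD hS]

end Crest.Agent.R17.QL
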