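import Crest.Agent.R17.Poisson
import Crest.Agent.R17.Chars

/-!
# R17 / TLS : the trivial large sieve, gcd decomposition of second moments
-/

set_option autoImplicit false

noncomputable section

open scoped Classical ComplexConjugate

namespace Crest.Agent.R17

namespace TL

theorem summ_norm {α : O → ℂ} (h : Rapid α) : Summable (fun n => ‖α n‖) := by simpa using h 0

theorem summ_Om {X : ℝ} (hX : 0 < X) : Summable (fun k : O => Om (N k / X)) := by
  simpa using summable_Om hX 0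

theorem summ_Om_norm {X : ℝ} (hX : 0 < X) : Summable (fun k : O => ‖(Om (N k / X) : ℂ)‖) := by
  refine (summ_Om hX).congr fun k => ?_
  rw [Complex.norm_real, Real.norm_eq_abs, abs_of_pos (Om_pos _)]

theorem norm_Om (x : ℝ) : ‖(Om x : ℂ)‖ = Om x := by
  rw [Complex.norm_real, Real.norm_eq_abs, abs_of_pos (Om_pos _)]

theorem normSq_tsum {ι : Type*} {u : ι → ℂ} (hu : Summable (fun n => ‖u n‖)) :
    ((‖∑' n, u n‖ ^ 2 : ℝ) : ℂ) = ∑' p : ι × ι, u p.1 * conj (u p.2) := by
  have h2 : Summable (fun n => ‖conj (u n)‖) := by simpa using hu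
  rw [← tsum_mul_tsum_of_summable_norm hu h2, ← Complex.conj_tsum, Complex.mul_conj,
    Complex.normSq_eq_norm_sq]

theorem fub {ι : Type*} {w : O → ℂ} (hw : Summable (fun d => ‖w d‖)) {F : ι → O → ℂ} {b : ι → ℝ}
    (hb : Summable b) (hF : ∀ i d, ‖F i d‖ ≤ b i) :
    ∑' d, w d * ∑' i, F i d = ∑' i, ∑' d, w d * F i d := by
  have hb0 : ∀ i, 0 ≤ b i := fun i => le_trans (norm_nonneg _) (hF i 0)
  have hs : Summable (Function.uncurry fun (i : ι) (d : O) => w d * F i d) := by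
    refine Summable.of_norm_bounded (g := fun p : ι × O => b p.1 * ‖w p.2‖)
      (hb.mul_of_nonneg hw hb0 (fun _ => norm_nonneg _)) ?_
    rintro ⟨i, d⟩
    simp only [Function.uncurry_apply_pair, norm_mul]
    rw [mul_comm]
    exact mul_le_mul_of_nonneg_right (hF i d) (norm_nonneg _)
  simp_rw [← tsum_mul_left]
  exact hs.tsum_comm

theorem chi_isChar {n : O} (hn : IsCoprime n 6) : IsChar n (chi n) :=
  sym_isChar (k := 6) (by simp) (by simpa using hn)

theorem norm_chi_le {n : O} (hn : IsCoprime n 6) (d : O) : ‖chi n d‖ ≤ 1 :=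
  norm_sym_le (k := 6) (by simp) (by simpa using hn) d

theorem chi_six {n : O} (hn : IsCoprime n 6) (d : O) :
    chi n d ^ 6 = if IsCoprime d n then 1 else 0 :=
  sym_pow_eq (k := 6) (by simp) (by simpa using hn) d

theorem chi_mul {a b : O} (ha : a ≠ 0) (hb : b ≠ 0) (d : O) :
    chi (a * b) d = chi a d * chi b d := sym_mul_left 6 ha hb d

theorem cop6 {n : O} (h1 : Prim n) (h2 : IsCoprime n 2) : IsCoprime n 6 := by
  have h := h2.mul_right h1.isCoprime_three
  norm_num at h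
  exact h

theorem poisson_bound : ∃ C, 0 ≤ C ∧ ∀ (q : O) (ψ : O → ℂ) (R K : ℝ), q ≠ 0 → Per q ψ →
    gs q ψ 0 = 0 → (∀ k, ‖gs q ψ k‖ ≤ R) → 0 < K →
    ‖∑' m, ψ m * (Om (N m / K) : ℂ)‖ ≤ C * R := by
  obtain ⟨C, hC⟩ := tsum_Om_le
  refine ⟨max C 0, le_max_right _ _, fun q ψ R K hq hψ h0 hR hK => ?_⟩
  have hN := N_pos hq
  have hR0 : 0 ≤ R := le_trans (norm_nonneg _) (hR 0)
  have hX : 0 < N q / K := div_pos hN hK
  have hs : Summable (fun k : O => if k = 0 then 0 else Om (N k / (N q / K))) := by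
    refine Summable.of_nonneg_of_le (fun k => ?_) (fun k => ?_) (summ_Om hX)
    · split_ifs
      · exact le_rfl
      · exact (Om_pos _).le
    · split_ifs
      · exact (Om_pos _).le
      · exact le_rfl
  have h1 : ‖∑' d : O, gs q ψ d * (Om (K * N d / N q) : ℂ)‖ ≤
      R * ∑' k : O, if k = 0 then 0 else Om (N k / (N q / K)) := by
    refine tsum_of_norm_bounded (hs.hasSum.mul_left R) fun d => ?_
    by_cases hd : d = 0
    · simp [hd, h0]
    · rw [if_neg hd, norm_mul, norm_Om]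
      have e : K * N d / N q = N d / (N q / K) := by field_simp
      rw [e]
      exact mul_le_mul_of_nonneg_right (hR d) (Om_pos _).le
  rw [poisson_per hq hψ hK, norm_mul, Complex.norm_real, Real.norm_eq_abs,
    abs_of_pos (div_pos hK hN)]
  have h2 : ∑' k : O, (if k = 0 then 0 else Om (N k / (N q / K))) ≤ max C 0 * (N q / K) :=
    le_trans (hC _ hX) (mul_le_mul_of_nonneg_right (le_max_left _ _) hX.le)
  calc _ ≤ K / N q * (R * (max C 0 * (N q / K))) :=
        mul_le_mul_of_nonneg_left (le_trans h1 (mul_le_mul_of_nonneg_left h2 hR0))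
          (div_pos hK hN).le
    _ = _ := by field_simp

theorem norm_gs_chi_le {n : O} (hn : IsCoprime n 6) (hs : Squarefree n) {j : ℕ} (hj : ¬ 6 ∣ j)
    (k : O) : ‖gs n (fun x => chi n x ^ j) k‖ ≤ Real.sqrt (N n) := by
  rw [gs_chi_pow hn hs hj, norm_mul, norm_gs_chi_pow hn hs hj, Complex.norm_conj, norm_pow]
  exact mul_le_of_le_one_left (Real.sqrt_nonneg _)
    (pow_le_one₀ (norm_nonneg _) (norm_chi_le hn k))

theorem gs_chi_zero {n : O} (hn : IsCoprime n 6) (hs : Squarefree n) {j : ℕ} (hj : ¬ 6 ∣ j)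
    (hp : Prim n) (h1 : n ≠ 1) : gs n (fun x => chi n x ^ j) 0 = 0 := by
  have hj0 : j ≠ 0 := by
    rintro rfl
    exact hj (dvd_zero _)
  have h0 : chi n 0 = 0 := ((chi_isChar hn).zero_iff 0).mpr fun h =>
    h1 (hp.eq_one_of_isUnit (isCoprime_zero_left.mp h))
  rw [gs_chi_pow hn hs hj, h0, zero_pow hj0, map_zero, zero_mul]

theorem kernel_bound : ∃ C, 0 ≤ C ∧ ∀ j : ℕ, ¬ 6 ∣ j → ∀ n1 n2 : O,
    (Prim n1 ∧ Squarefree n1 ∧ IsCoprime n1 2) → (Prim n2 ∧ Squarefree n2 ∧ IsCoprime n2 2) →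
    n1 ≠ n2 → ∀ D : ℝ, 0 < D →
    ‖∑' d : O, (Om (N d / D) : ℂ) * (chi n1 d ^ j * conj (chi n2 d ^ j))‖ ≤
      C * (Real.sqrt (N n1) * Real.sqrt (N n2)) := by
  obtain ⟨C, hC0, hC⟩ := poisson_bound
  refine ⟨C, hC0, fun j hj n1 n2 h1 h2 hne D hD => ?_⟩
  obtain ⟨g, a, b, hg, ha, hb, rfl, rfl, hab⟩ := exists_prim_gcd h1.1 h2.1
  have h16 := cop6 h1.1 h1.2.2
  have h26 := cop6 h2.1 h2.2.2
  have hg6 : IsCoprime g 6 := h16.of_mul_left_left
  have ha6 : IsCoprime a 6 := h16.of_mul_left_right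
  have hb6 : IsCoprime b 6 := h26.of_mul_left_right
  have has : Squarefree a := h1.2.1.of_mul_right
  have hbs : Squarefree b := h2.2.1.of_mul_right
  have hj0 : j ≠ 0 := by
    rintro rfl
    exact hj (dvd_zero _)
  have hj5 : ¬ 6 ∣ 5 * j := fun h => hj ((Nat.Coprime.dvd_mul_left (by norm_num)).mp h)
  have hc1 := (chi_isChar ha6).pow_char hj0
  have hc2 := (chi_isChar hb6).pow_char (j := 5 * j) (by omega)
  have hψ := hc1.mul_moduli hc2
  set ψ : O → ℂ := fun n => chi a n ^ j * chi b n ^ (5 * j) with hψdef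
  have hq : a * b ≠ 0 := mul_ne_zero ha.ne_zero hb.ne_zero
  have hgs := gs_mul ha.ne_zero hb.ne_zero hab hc1 hc2
  have hgs0 : gs (a * b) ψ 0 = 0 := by
    rw [hgs 0]
    by_cases ha1 : a = 1
    · have hb1 : b ≠ 1 := by
        rintro rfl
        exact hne (by rw [ha1])
      rw [gs_chi_zero hb6 hbs hj5 hb hb1, mul_zero]
    · rw [gs_chi_zero ha6 has hj ha ha1, mul_zero, zero_mul]
  have hgsle : ∀ k, ‖gs (a * b) ψ k‖ ≤ Real.sqrt (N a) * Real.sqrt (N b) := by
    intro k
    rw [hgs k, norm_mul, norm_mul, norm_mul]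
    have e1 := hc1.norm_le ha.ne_zero b
    have e2 := hc2.norm_le hb.ne_zero a
    have e3 := norm_gs_chi_le ha6 has hj k
    have e4 := norm_gs_chi_le hb6 hbs hj5 k
    calc _ ≤ 1 * 1 * Real.sqrt (N a) * Real.sqrt (N b) := by gcongr
      _ = _ := by ring
  have hker : ∀ d, (Om (N d / D) : ℂ) * (chi (g * a) d ^ j * conj (chi (g * b) d ^ j)) =
      ∑ e ∈ pdiv g, if e ∣ d then mu e * (ψ d * (Om (N d / D) : ℂ)) else 0 := by
    intro d
    rw [← Finset.sum_filter, ← Finset.sum_mul, sum_mu_coprime hg, chi_mul hg.ne_zero ha.ne_zero,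
      chi_mul hg.ne_zero hb.ne_zero, map_pow, map_mul, conj_chi hg6, conj_chi hb6]
    have e : (if IsCoprime d g then (1 : ℂ) else 0) = (chi g d ^ 6) ^ j := by
      rw [chi_six hg6]
      split_ifs
      · rw [one_pow]
      · rw [zero_pow hj0]
    rw [e]
    simp only [hψdef]
    ring
  have hsum : ∀ e ∈ pdiv g,
      Summable (fun d => if e ∣ d then mu e * (ψ d * (Om (N d / D) : ℂ)) else 0) := by
    intro e _
    refine Summable.of_norm_bounded (summ_Om hD) fun d => ?_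
    split_ifs
    · rw [norm_mul, norm_mul, norm_Om]
      have e1 := norm_mu_le e
      have e2 := hψ.norm_le hq d
      have e3 := (Om_pos (N d / D)).le
      calc _ ≤ 1 * (1 * Om (N d / D)) := by gcongr
        _ = _ := by ring
    · rw [norm_zero]
      exact (Om_pos _).le
  simp_rw [hker]
  rw [Summable.tsum_finsetSum hsum]
  refine le_trans (norm_sum_le _ _) ?_
  refine le_trans (Finset.sum_le_card_nsmul _ _ (C * (Real.sqrt (N a) * Real.sqrt (N b)))
    fun e he => ?_) ?_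
  · have he0 : e ≠ 0 := ((mem_pdiv hg.ne_zero).mp he).1.ne_zero
    have hNe := N_pos he0
    rw [tsum_dvd he0 (fun d => mu e * (ψ d * (Om (N d / D) : ℂ)))]
    have e1 : ∀ m, mu e * (ψ (e * m) * (Om (N (e * m) / D) : ℂ)) =
        (mu e * ψ e) * (ψ m * (Om (N m / (D / N e)) : ℂ)) := by
      intro m
      have e2 : N (e * m) / D = N m / (D / N e) := by
        rw [N_mul]
        field_simp
      rw [hψ.mul, e2]
      ring
    simp_rw [e1]
    rw [tsum_mul_left, norm_mul, norm_mul]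
    have e3 := hC (a * b) ψ _ (D / N e) hq hψ.per hgs0 hgsle (div_pos hD hNe)
    have e4 := norm_mu_le e
    have e5 := hψ.norm_le hq e
    calc _ ≤ 1 * 1 * (C * (Real.sqrt (N a) * Real.sqrt (N b))) := by gcongr
      _ = _ := by ring
  · rw [nsmul_eq_mul, N_mul, N_mul, Real.sqrt_mul (N_nonneg g), Real.sqrt_mul (N_nonneg g)]
    have e1 := card_pdiv_le_N hg.ne_zero
    have e2 : Real.sqrt (N g) * Real.sqrt (N g) = N g := Real.mul_self_sqrt (N_nonneg g)
    calc _ ≤ N g * (C * (Real.sqrt (N a) * Real.sqrt (N b))) := by gcongr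
      _ = (Real.sqrt (N g) * Real.sqrt (N g)) * (C * (Real.sqrt (N a) * Real.sqrt (N b))) := by
        rw [e2]
      _ = _ := by ring

theorem tsum_Om_le' : ∃ C, 0 ≤ C ∧ ∀ X : ℝ, 0 < X → ∑' k : O, Om (N k / X) ≤ 1 + C * X := by
  obtain ⟨C, hC⟩ := tsum_Om_le
  refine ⟨max C 0, le_max_right _ _, fun X hX => ?_⟩
  rw [(summ_Om hX).tsum_eq_add_tsum_ite 0]
  have h1 : Om (N 0 / X) = 1 := by simp [Om]
  rw [h1]
  have h2 := le_trans (hC X hX) (mul_le_mul_of_nonneg_right (le_max_left C 0) hX.le)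
  linarith

theorem sqrt_N_le (n : O) : Real.sqrt (N n) ≤ N n := by
  rw [Real.sqrt_le_iff]
  refine ⟨N_nonneg n, ?_⟩
  by_cases hn : n = 0
  · simp [hn]
  · nlinarith [one_le_N hn]

theorem summ_sq {α : O → ℂ} (h : Summable (fun n => ‖α n‖)) : Summable (fun n => ‖α n‖ ^ 2) := by
  refine Summable.of_nonneg_of_le (fun n => by positivity) (fun n => ?_)
    (h.mul_left (∑' n, ‖α n‖))
  rw [sq]
  exact mul_le_mul_of_nonneg_right (h.le_tsum n fun _ _ => norm_nonneg _) (norm_nonneg _)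

theorem hasSum_diag {f : O → ℝ} (hf : Summable f) :
    HasSum (fun p : O × O => if p.1 = p.2 then f p.1 else 0) (∑' n, f n) := by
  have hi : Function.Injective (fun n : O => (n, n)) := fun a b h => (Prod.ext_iff.mp h).1
  refine (hi.hasSum_iff ?_).mp ?_
  · rintro ⟨a, b⟩ h
    rw [if_neg]
    intro hab
    exact h ⟨a, Prod.ext rfl hab⟩
  · simpa [Function.comp_def] using hf.hasSum

theorem norm_term_le {α : O → ℂ} (h6 : ∀ n, α n ≠ 0 → IsCoprime n 6) (j : ℕ) (n d : O) :
    ‖α n * chi n d ^ j‖ ≤ ‖α n‖ := by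
  by_cases h : α n = 0
  · simp [h]
  · rw [norm_mul, norm_pow]
    exact mul_le_of_le_one_right (norm_nonneg _)
      (pow_le_one₀ (norm_nonneg _) (norm_chi_le (h6 n h) d))

end TL

open TL

/-- **Trivial large sieve.**  Expand the square (Fubini).  `n₁ = n₂` contributes
`≤ (1 + C D) ∑|α|²`.  For `n₁ ≠ n₂` write `n_i = g n_i'` (`exists_prim_gcd`), `q = n₁'n₂' ≠ 1`;
`ψ = χ_{n₁'}^j conj χ_{n₂'}^j` has `|gs q ψ k| ≤ √N q` and `gs q ψ 0 = 0` (`gs_mul`, `gs_chi_pow`,
`conj χ^j = χ^{5j}`); `1_{(d,g)=1} = ∑_{e ∣ g, e ∣ d} μ(e)`; `poisson_per` with `K = D/N e` and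
`tsum_Om_le` give `≤ C √N q` for each `e`, and `τ(g) √N q ≤ √(N n₁ N n₂)` (`card_pdiv_le_N`). -/
theorem tls : ∃ C, ∀ j : ℕ, ¬ 6 ∣ j → ∀ α : O → ℂ,
    (∀ n, α n ≠ 0 → Prim n ∧ Squarefree n ∧ IsCoprime n 2) → Rapid α → ∀ D : ℝ, 0 < D →
    ∑' d : O, Om (N d / D) * ‖∑' n, α n * chi n d ^ j‖ ^ 2 ≤
      C * ((1 + D) * ∑' n, ‖α n‖ ^ 2 + (∑' n, ‖α n‖ * Real.sqrt (N n)) ^ 2) := by
  obtain ⟨C1, hC10, hC1⟩ := tsum_Om_le'
  obtain ⟨C2, hC20, hC2⟩ := kernel_bound
  refine ⟨1 + C1 + C2, fun j hj α hs hα D hD => ?_⟩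
  have h6 : ∀ n, α n ≠ 0 → IsCoprime n 6 := fun n hn => cop6 (hs n hn).1 (hs n hn).2.2
  have hA := summ_norm hα
  have hB : Summable (fun n => ‖α n‖ * Real.sqrt (N n)) := by
    refine Summable.of_nonneg_of_le (fun n => by positivity) (fun n => ?_) (hα 1)
    rw [pow_one]
    exact mul_le_mul_of_nonneg_left (sqrt_N_le n) (norm_nonneg _)
  have hu : ∀ d, Summable (fun n => ‖α n * chi n d ^ j‖) := fun d =>
    Summable.of_nonneg_of_le (fun _ => norm_nonneg _) (fun n => norm_term_le h6 j n d) hA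
  set X := ∑' d : O, Om (N d / D) * ‖∑' n, α n * chi n d ^ j‖ ^ 2 with hX
  have e1 : (X : ℂ) = ∑' p : O × O, ∑' d : O, (Om (N d / D) : ℂ) *
      (α p.1 * chi p.1 d ^ j * conj (α p.2 * chi p.2 d ^ j)) := by
    rw [hX, Complex.ofReal_tsum, ← fub (summ_Om_norm hD) (b := fun p : O × O => ‖α p.1‖ * ‖α p.2‖)
      (hA.mul_of_nonneg hA (fun _ => norm_nonneg _) (fun _ => norm_nonneg _))]
    · refine tsum_congr fun d => ?_
      rw [Complex.ofReal_mul, normSq_tsum (hu d)]
    · intro p d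
      rw [norm_mul, Complex.norm_conj]
      exact mul_le_mul (norm_term_le h6 j _ d) (norm_term_le h6 j _ d) (norm_nonneg _)
        (norm_nonneg _)
  have hS := ((hasSum_diag (summ_sq hA)).mul_left (1 + C1 * D)).add
    ((hB.hasSum.mul hB.hasSum
      (hB.mul_of_nonneg hB (fun n => by positivity) (fun n => by positivity))).mul_left C2)
  have e2 : ‖(X : ℂ)‖ ≤ (1 + C1 * D) * ∑' n, ‖α n‖ ^ 2 +
      C2 * ((∑' n, ‖α n‖ * Real.sqrt (N n)) * ∑' n, ‖α n‖ * Real.sqrt (N n)) := by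
    rw [e1]
    refine tsum_of_norm_bounded hS ?_
    rintro ⟨n1, n2⟩
    simp only
    have hD1 : 0 ≤ 1 + C1 * D := by positivity
    by_cases hn : n1 = n2
    · subst hn
      rw [if_pos rfl]
      refine le_trans ?_ (le_add_of_nonneg_right (by positivity))
      refine le_trans (tsum_of_norm_bounded ((summ_Om hD).hasSum.mul_right (‖α n1‖ ^ 2))
        fun d => ?_) (mul_le_mul_of_nonneg_right (hC1 D hD) (by positivity))
      rw [norm_mul, norm_Om, norm_mul, Complex.norm_conj, sq]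
      refine mul_le_mul_of_nonneg_left ?_ (Om_pos _).le
      exact mul_le_mul (norm_term_le h6 j _ d) (norm_term_le h6 j _ d) (norm_nonneg _)
        (norm_nonneg _)
    · rw [if_neg hn, mul_zero, zero_add]
      by_cases h1 : α n1 = 0
      · simp [h1]
      by_cases h2 : α n2 = 0
      · simp [h2]
      have e3 : ∀ d : O, (Om (N d / D) : ℂ) * (α n1 * chi n1 d ^ j * conj (α n2 * chi n2 d ^ j)) =
          (α n1 * conj (α n2)) * ((Om (N d / D) : ℂ) * (chi n1 d ^ j * conj (chi n2 d ^ j))) := by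
        intro d
        rw [map_mul]
        ring
      simp_rw [e3]
      rw [tsum_mul_left, norm_mul, norm_mul, Complex.norm_conj]
      have e4 := hC2 j hj n1 n2 (hs n1 h1) (hs n2 h2) hn D hD
      calc _ ≤ ‖α n1‖ * ‖α n2‖ * (C2 * (Real.sqrt (N n1) * Real.sqrt (N n2))) := by gcongr
        _ = _ := by ring
  rw [Complex.norm_real, Real.norm_eq_abs] at e2
  refine le_trans (le_abs_self _) (le_trans e2 ?_)
  have p1 : 0 ≤ ∑' n, ‖α n‖ ^ 2 := tsum_nonneg fun n => by positivity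
  set P := ∑' n, ‖α n‖ ^ 2
  set R := ∑' n, ‖α n‖ * Real.sqrt (N n)
  have p2 : 0 ≤ R * R := mul_self_nonneg R
  have p3 : 0 ≤ D * P := mul_nonneg hD.le p1
  have p4 := mul_nonneg hC10 p1
  have p5 := mul_nonneg hC20 p1
  have p6 := mul_nonneg hC20 p3
  have p7 := mul_nonneg hC10 p2
  nlinarith

theorem summable_moment {α : O → ℂ} (hα : Rapid α) (h6 : ∀ n, α n ≠ 0 → IsCoprime n 6) (j : ℕ)
    {D : ℝ} (hD : 0 < D) :
    Summable (fun d : O => Om (N d / D) * ‖∑' n, α n * chi n d ^ j‖ ^ 2) := by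
  have hA := summ_norm hα
  refine Summable.of_nonneg_of_le (fun d => mul_nonneg (Om_pos _).le (by positivity)) (fun d => ?_)
    ((summ_Om hD).mul_right ((∑' n, ‖α n‖) ^ 2))
  refine mul_le_mul_of_nonneg_left (pow_le_pow_left₀ (norm_nonneg _) ?_ 2) (Om_pos _).le
  exact tsum_of_norm_bounded hA.hasSum fun n => norm_term_le h6 j n d

/-- finite version of `tls` over a ball -/
theorem tls_ball : ∃ C, ∀ j : ℕ, ¬ 6 ∣ j → ∀ (S : Finset O) (α : O → ℂ),
    (∀ n ∈ S, Prim n ∧ Squarefree n ∧ IsCoprime n 2) → ∀ D : ℝ, 0 < D →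
    ∑ d ∈ ball D, ‖∑ n ∈ S, α n * chi n d ^ j‖ ^ 2 ≤
      C * ((1 + D) * ∑ n ∈ S, ‖α n‖ ^ 2 + (∑ n ∈ S, ‖α n‖ * Real.sqrt (N n)) ^ 2) := by
  obtain ⟨C, hC⟩ := tls
  refine ⟨Real.exp c0 * C, fun j hj S α hS D hD => ?_⟩
  set β : O → ℂ := fun n => if n ∈ S then α n else 0 with hβ
  have hs : ∀ n, β n ≠ 0 → Prim n ∧ Squarefree n ∧ IsCoprime n 2 := by
    intro n hn
    refine hS n ?_
    by_contra h
    exact hn (if_neg h)
  have hr : Rapid β := fun i => summable_of_ne_finset_zero (s := S) fun n hn => by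
    simp [hβ, hn]
  have h1 := hC j hj β hs hr D hD
  have h2 := sum_ball_le_tsum hD (f := fun d => ‖∑' n, β n * chi n d ^ j‖ ^ 2)
    (fun d => by positivity)
    (summable_moment hr (fun n hn => cop6 (hs n hn).1 (hs n hn).2.2) j hD)
  have e1 : ∀ d, ∑' n, β n * chi n d ^ j = ∑ n ∈ S, α n * chi n d ^ j := by
    intro d
    rw [tsum_eq_sum (s := S) fun n hn => by simp [hβ, hn]]
    exact Finset.sum_congr rfl fun n hn => by simp [hβ, hn]
  have e2 : ∑' n, ‖β n‖ ^ 2 = ∑ n ∈ S, ‖α n‖ ^ 2 := by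
    rw [tsum_eq_sum (s := S) fun n hn => by simp [hβ, hn]]
    exact Finset.sum_congr rfl fun n hn => by simp [hβ, hn]
  have e3 : ∑' n, ‖β n‖ * Real.sqrt (N n) = ∑ n ∈ S, ‖α n‖ * Real.sqrt (N n) := by
    rw [tsum_eq_sum (s := S) fun n hn => by simp [hβ, hn]]
    exact Finset.sum_congr rfl fun n hn => by simp [hβ, hn]
  rw [e2, e3] at h1
  simp only [e1] at h1 h2
  rw [mul_assoc]
  exact le_trans h2 (mul_le_mul_of_nonneg_left h1 (Real.exp_pos _).le)

theorem SuppSq.dilate {Q : Lev} {α : O → ℂ} (h : SuppSq Q 1 α) {g : O} (hg : Prim g) :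
    SuppSq Q 1 (fun m => α (g * m)) := by
  intro m hm
  obtain ⟨h1, h2, -⟩ := h _ hm
  exact ⟨⟨h1.1.of_mul_left hg, h1.2.of_mul_left_right⟩, h2.of_mul_right, isCoprime_one_right⟩
theorem Rapid.dilate {α : O → ℂ} (h : Rapid α) {g : O} (hg : g ≠ 0) :
    Rapid (fun m => α (g * m)) := by
  intro j
  have h1 := (h j).comp_injective (mul_right_injective₀ hg)
  refine Summable.of_nonneg_of_le (fun n => mul_nonneg (norm_nonneg _) (pow_nonneg (N_nonneg _) _))
    (fun n => ?_) h1
  simp only [Function.comp_apply]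
  refine mul_le_mul_of_nonneg_left (pow_le_pow_left₀ (N_nonneg _) ?_ _) (norm_nonneg _)
  rw [N_mul]
  exact le_mul_of_one_le_left (N_nonneg _) (one_le_N hg)

namespace TL

theorem card_pdiv_le0 (n : O) : ((pdiv n).card : ℝ) ≤ N n := by
  by_cases hn : n = 0
  · subst hn
    have h : pdiv 0 = ∅ := by
      unfold pdiv
      rw [ball_eq_empty (by simp), Finset.filter_empty]
    simp [h]
  · exact card_pdiv_le_N hn

theorem pdiv_one : pdiv 1 = {1} := by
  ext e
  rw [mem_pdiv one_ne_zero, Finset.mem_singleton]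
  constructor
  · rintro ⟨h1, h2⟩
    exact h1.eq_one_of_isUnit (isUnit_of_dvd_one h2)
  · rintro rfl
    exact ⟨Prim.one, dvd_rfl⟩

theorem summable_fib {ι : Type*} (S : ι → Finset O) {b c : ι → ℝ} (hb0 : ∀ i, 0 ≤ b i)
    (hc : Summable c) (h : ∀ i, (S i).card * b i ≤ c i) :
    Summable (fun p : ι × O => if p.2 ∈ S p.1 then b p.1 else 0) := by
  have h0 : ∀ (i : ι) (r : O), 0 ≤ (if r ∈ S i then b i else 0) := by
    intro i r
    split_ifs
    · exact hb0 i
    · exact le_rfl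
  refine (summable_prod_of_nonneg fun p => h0 p.1 p.2).mpr ⟨fun i => ?_, ?_⟩
  · exact summable_of_ne_finset_zero (s := S i) fun r hr => if_neg hr
  · refine Summable.of_nonneg_of_le (fun i => tsum_nonneg fun r => h0 i r) (fun i => ?_) hc
    rw [tsum_eq_sum (s := S i) fun r hr => if_neg hr]
    refine le_trans (le_of_eq ?_) (h i)
    rw [Finset.sum_congr rfl fun r hr => if_pos hr]
    dsimp only
    rw [Finset.sum_const, nsmul_eq_mul]

theorem conv_sum {E : Type*} [NormedAddCommGroup E] [CompleteSpace E] (f : O → O → E) {b : O → ℝ}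
    (hb : Summable (fun G => N G * b G)) (hf : ∀ r G, ‖f r G‖ ≤ b G) :
    Summable (fun p : O × O => if Prim p.1 ∧ Prim p.2 then f p.1 (p.1 * p.2) else 0) ∧
    Summable (fun G => if Prim G then ∑ r ∈ pdiv G, f r G else 0) ∧
    ∑' p : O × O, (if Prim p.1 ∧ Prim p.2 then f p.1 (p.1 * p.2) else 0) =
      ∑' G, if Prim G then ∑ r ∈ pdiv G, f r G else 0 := by
  have hb0 : ∀ G, 0 ≤ b G := fun G => le_trans (norm_nonneg _) (hf 0 G)
  set F : O × O → E := fun x => if Prim x.1 ∧ x.2 ∈ pdiv x.1 then f x.2 x.1 else 0 with hF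
  have hFs : Summable F := by
    refine Summable.of_norm_bounded (summable_fib pdiv hb0 hb fun G =>
      mul_le_mul_of_nonneg_right (card_pdiv_le0 G) (hb0 G)) ?_
    rintro ⟨G, r⟩
    simp only [hF]
    by_cases h : Prim G ∧ r ∈ pdiv G
    · rw [if_pos h, if_pos h.2]
      exact hf r G
    · rw [if_neg h, norm_zero]
      split_ifs
      · exact hb0 G
      · exact le_rfl
  set e : O × O → O × O := fun p => (if p.1 = 0 then p.2 else p.1 * p.2, p.1) with he
  have hei : Function.Injective e := by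
    rintro ⟨r, g⟩ ⟨r', g'⟩ h
    simp only [he, Prod.mk.injEq] at h
    obtain ⟨h1, rfl⟩ := h
    by_cases hr : r = 0
    · simp only [hr, if_true] at h1
      rw [h1]
    · simp only [hr, if_false] at h1
      rw [mul_left_cancel₀ hr h1]
  have hFe : ∀ p : O × O,
      F (e p) = if Prim p.1 ∧ Prim p.2 then f p.1 (p.1 * p.2) else 0 := by
    rintro ⟨r, g⟩
    simp only [hF, he]
    by_cases h : Prim r ∧ Prim g
    · have h1 := h.1.mul h.2
      rw [if_pos h, if_neg h.1.ne_zero,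
        if_pos ⟨h1, (mem_pdiv h1.ne_zero).mpr ⟨h.1, dvd_mul_right _ _⟩⟩]
    · rw [if_neg h, if_neg]
      rintro ⟨h1, h2⟩
      have h3 := ((mem_pdiv h1.ne_zero).mp h2).1
      rw [if_neg h3.ne_zero] at h1
      exact h ⟨h3, h1.of_mul_left h3⟩
  have hsupp : Function.support F ⊆ Set.range e := by
    rintro ⟨G, r⟩ h
    have h1 : Prim G ∧ r ∈ pdiv G := by
      by_contra h2
      exact h (if_neg h2)
    obtain ⟨h2, g, rfl⟩ := (mem_pdiv h1.1.ne_zero).mp h1.2
    exact ⟨(r, g), by simp only [he, if_neg h2.ne_zero]⟩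
  have hin : ∀ G, ∑' r, F (G, r) = if Prim G then ∑ r ∈ pdiv G, f r G else 0 := by
    intro G
    rw [tsum_eq_sum (s := pdiv G) fun r hr => if_neg fun h => hr h.2]
    by_cases h : Prim G
    · rw [if_pos h]
      exact Finset.sum_congr rfl fun r hr => if_pos ⟨h, hr⟩
    · rw [if_neg h]
      exact Finset.sum_eq_zero fun r _ => if_neg fun h' => h h'.1
  refine ⟨(hFs.comp_injective hei).congr hFe, hFs.prod.congr hin, ?_⟩
  rw [← tsum_congr hFe, hei.tsum_eq hsupp, hFs.tsum_prod]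
  exact tsum_congr hin

/-- Möbius expansion of the coprimality condition -/
theorem cop_expand {u : O → ℂ} (hp : ∀ m, u m ≠ 0 → Prim m)
    (hu : Summable (fun m => ‖u m‖ * N m)) :
    ∑' m1, ∑' m2, (if IsCoprime m1 m2 then u m1 * conj (u m2) else 0) =
      ∑' r, if Prim r then mu r * ((‖∑' k, u (r * k)‖ ^ 2 : ℝ) : ℂ) else 0 := by
  have hu0 : Summable (fun m => ‖u m‖) := by
    refine Summable.of_nonneg_of_le (fun _ => norm_nonneg _) (fun m => ?_) hu
    by_cases h : u m = 0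
    · simp [h]
    · exact le_mul_of_one_le_right (norm_nonneg _) (one_le_N (hp m h).ne_zero)
  set C : O × O → O → ℂ := fun p r =>
    if Prim r ∧ r ∣ p.1 ∧ r ∣ p.2 then mu r * (u p.1 * conj (u p.2)) else 0 with hC
  have hCs : Summable (Function.uncurry C) := by
    refine Summable.of_norm_bounded (summable_fib (fun p : O × O => pdiv p.1)
      (b := fun p => ‖u p.1‖ * ‖u p.2‖) (fun p => by positivity)
      (hu.mul_of_nonneg hu0 (fun m => mul_nonneg (norm_nonneg _) (N_nonneg _))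
        (fun _ => norm_nonneg _)) fun p => ?_) ?_
    · have h1 := card_pdiv_le0 p.1
      calc _ ≤ N p.1 * (‖u p.1‖ * ‖u p.2‖) := by gcongr
        _ = _ := by ring
    · rintro ⟨⟨m1, m2⟩, r⟩
      simp only [Function.uncurry_apply_pair, hC]
      by_cases h0 : u m1 = 0
      · simp [h0]
      by_cases h : Prim r ∧ r ∣ m1 ∧ r ∣ m2
      · rw [if_pos h, if_pos ((mem_pdiv (hp m1 h0).ne_zero).mpr ⟨h.1, h.2.1⟩), norm_mul, norm_mul,
          Complex.norm_conj]
        exact mul_le_of_le_one_left (by positivity) (norm_mu_le r)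
      · rw [if_neg h, norm_zero]
        split_ifs
        · positivity
        · exact le_rfl
  have h1 : ∀ p : O × O,
      ∑' r, C p r = if IsCoprime p.1 p.2 then u p.1 * conj (u p.2) else 0 := by
    rintro ⟨m1, m2⟩
    simp only [hC]
    by_cases h0 : u m1 = 0
    · simp [h0]
    have hm := hp m1 h0
    rw [tsum_eq_sum (s := (pdiv m1).filter (fun e => e ∣ m2)) fun r hr => if_neg fun h => hr
      (Finset.mem_filter.mpr ⟨(mem_pdiv hm.ne_zero).mpr ⟨h.1, h.2.1⟩, h.2.2⟩)]
    rw [Finset.sum_congr rfl fun r hr => if_pos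
      ⟨((mem_pdiv hm.ne_zero).mp (Finset.mem_filter.mp hr).1).1,
        ((mem_pdiv hm.ne_zero).mp (Finset.mem_filter.mp hr).1).2, (Finset.mem_filter.mp hr).2⟩,
      ← Finset.sum_mul, sum_mu_coprime hm]
    by_cases hc : IsCoprime m1 m2
    · rw [if_pos hc, if_pos hc.symm, one_mul]
    · rw [if_neg hc, if_neg (fun h => hc h.symm), zero_mul]
  have h2 : ∀ r, ∑' p : O × O, C p r =
      if Prim r then mu r * ((‖∑' k, u (r * k)‖ ^ 2 : ℝ) : ℂ) else 0 := by
    intro r
    by_cases hr : Prim r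
    · have hv : Summable (fun m => ‖if r ∣ m then u m else 0‖) := by
        refine Summable.of_nonneg_of_le (fun _ => norm_nonneg _) (fun m => ?_) hu0
        split_ifs
        · exact le_rfl
        · simp
      rw [if_pos hr, ← tsum_dvd hr.ne_zero u, normSq_tsum hv, ← tsum_mul_left]
      refine tsum_congr fun p => ?_
      simp only [hC]
      by_cases a1 : r ∣ p.1 <;> by_cases a2 : r ∣ p.2 <;> simp [hr, a1, a2]
    · rw [if_neg hr]
      simp [hC, hr]
  have h3 : Summable (fun p : O × O => if IsCoprime p.1 p.2 then u p.1 * conj (u p.2) else 0) :=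
    hCs.prod.congr h1
  rw [← h3.tsum_prod, ← tsum_congr h1, ← hCs.tsum_comm]
  exact tsum_congr h2

theorem exists_pdiv_filter {G : O} (hG : Prim G) (d : O) :
    ∃ k, Prim k ∧ (pdiv G).filter (fun r => IsCoprime d r) = pdiv k := by
  by_cases hd : d = 0
  · refine ⟨1, Prim.one, ?_⟩
    ext r
    rw [Finset.mem_filter, mem_pdiv hG.ne_zero, mem_pdiv one_ne_zero, hd, isCoprime_zero_left]
    constructor
    · rintro ⟨h1, h2⟩
      exact ⟨h1.1, h2.dvd⟩
    · rintro ⟨h1, h2⟩
      exact ⟨⟨h1, h2.trans (one_dvd _)⟩, isUnit_of_dvd_one h2⟩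
  · have h3 : (3 : O) ≠ 0 := by
      intro h
      have h1 := nm_natCast 3
      rw [Nat.cast_ofNat, h, nm_zero] at h1
      norm_num at h1
    obtain ⟨n0, n1, j, h1, h2, h4, rfl⟩ :=
      exists_split (q := 3 * d) (mul_ne_zero h3 hd) (dvd_mul_right _ _) hG.ne_zero
    refine ⟨n1, h2, ?_⟩
    ext r
    rw [Finset.mem_filter, mem_pdiv hG.ne_zero, mem_pdiv h2.ne_zero]
    constructor
    · rintro ⟨⟨a1, a2⟩, a3⟩
      refine ⟨a1, IsCoprime.dvd_of_dvd_mul_left ?_ a2⟩
      exact ((a1.isCoprime_three.mul_right a3.symm).pow_right (n := j)).of_isCoprime_of_dvd_right h1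
    · rintro ⟨a1, a2⟩
      exact ⟨⟨a1, a2.mul_left _⟩, (h4.of_mul_right_right.of_isCoprime_of_dvd_left a2).symm⟩

/-- the Möbius coefficient -/
def cf (r d : O) : ℂ := mu r * (if IsCoprime d r then 1 else 0)

theorem norm_cf_le (r d : O) : ‖cf r d‖ ≤ 1 := by
  unfold cf
  split_ifs
  · rw [mul_one]
    exact norm_mu_le r
  · simp

theorem sum_cf {G : O} (hG : Prim G) (d : O) :
    ∃ x : ℝ, 0 ≤ x ∧ ∑ r ∈ pdiv G, cf r d = x := by
  obtain ⟨k, hk, h⟩ := exists_pdiv_filter hG d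
  have h1 : ∑ r ∈ pdiv G, cf r d = ∑ r ∈ pdiv k, mu r := by
    rw [← h, Finset.sum_filter]
    refine Finset.sum_congr rfl fun r _ => ?_
    unfold cf
    split_ifs <;> simp
  rw [h1, sum_mu_pdiv hk]
  split_ifs
  · exact ⟨1, zero_le_one, by simp⟩
  · exact ⟨0, le_rfl, by simp⟩

variable {Q : Lev} {α : O → ℂ}

theorem zero_of_supp (hs : SuppSq Q 1 α) : α 0 = 0 := by
  by_contra h
  exact (hs 0 h).1.1.ne_zero rfl

theorem six_of_supp (hs : SuppSq Q 1 α) {G k : O} (h : α (G * k) ≠ 0) : IsCoprime k 6 :=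
  (hs _ h).1.isCoprime_six.of_mul_left_right

/-- `∑ |α(G m)|` -/
def sA (α : O → ℂ) (G : O) : ℝ := ∑' m, ‖α (G * m)‖

theorem sA_nonneg (α : O → ℂ) (G : O) : 0 ≤ sA α G := tsum_nonneg fun _ => norm_nonneg _

theorem summ_dil (hs : SuppSq Q 1 α) (hα : Rapid α) (G : O) :
    Summable (fun m => ‖α (G * m)‖) := by
  by_cases hG : G = 0
  · simp [hG, zero_of_supp hs, summable_zero]
  · exact summ_norm (hα.dilate hG)

theorem sA_le (hs : SuppSq Q 1 α) (hα : Rapid α) {G : O} (hG : G ≠ 0) (j : ℕ) :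
    sA α G * N G ^ j ≤ mom α j := by
  have hi : Function.Injective (fun m : O => G * m) := mul_right_injective₀ hG
  have h1 := tsum_comp_le_tsum_of_inj (hα j)
    (fun n => mul_nonneg (norm_nonneg _) (pow_nonneg (N_nonneg _) _)) hi
  refine le_trans ?_ h1
  unfold sA
  rw [← tsum_mul_right]
  refine Summable.tsum_le_tsum (fun m => ?_) ((summ_dil hs hα G).mul_right _)
    ((hα j).comp_injective hi)
  simp only [Function.comp_apply]
  by_cases hm : m = 0
  · simp [hm, zero_of_supp hs]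
  · refine mul_le_mul_of_nonneg_left (pow_le_pow_left₀ (N_nonneg _) ?_ _) (norm_nonneg _)
    rw [N_mul]
    exact le_mul_of_one_le_right (N_nonneg _) (one_le_N hm)

theorem summable_sA (hs : SuppSq Q 1 α) (hα : Rapid α) :
    Summable (fun G => N G * sA α G ^ 2) := by
  have hm : ∀ j, 0 ≤ mom α j := fun j =>
    tsum_nonneg fun n => mul_nonneg (norm_nonneg _) (pow_nonneg (N_nonneg _) _)
  refine Summable.of_nonneg_of_le (fun G => mul_nonneg (N_nonneg _) (by positivity)) (fun G => ?_)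
    ((summable_N_rpow (σ := 2) (by norm_num)).mul_left (mom α 0 * mom α 3))
  by_cases hG : G = 0
  · rw [hG, N_zero, zero_mul]
    exact mul_nonneg (mul_nonneg (hm 0) (hm 3)) (Real.rpow_nonneg le_rfl _)
  · have h0 := sA_le hs hα hG 0
    have h3 := sA_le hs hα hG 3
    have hN := N_pos hG
    rw [pow_zero, mul_one] at h0
    rw [Real.rpow_neg hN.le, Real.rpow_two, ← div_eq_mul_inv, le_div_iff₀ (by positivity)]
    have h4 := sA_nonneg α G
    calc _ = sA α G * (sA α G * N G ^ 3) := by ring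
      _ ≤ _ := mul_le_mul h0 h3 (by positivity) (hm 0)

/-- `|∑ α(G m) χ_m(d)|²` -/
def PP (α : O → ℂ) (G d : O) : ℝ := ‖∑' m, α (G * m) * chi m d‖ ^ 2

theorem PP_nonneg (α : O → ℂ) (G d : O) : 0 ≤ PP α G d := sq_nonneg _

theorem norm_dil_le (hs : SuppSq Q 1 α) (G m d : O) : ‖α (G * m) * chi m d‖ ≤ ‖α (G * m)‖ := by
  simpa using norm_term_le (α := fun m => α (G * m)) (fun n hn => six_of_supp hs hn) 1 m d

theorem PP_le (hs : SuppSq Q 1 α) (hα : Rapid α) (G d : O) : PP α G d ≤ sA α G ^ 2 :=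
  pow_le_pow_left₀ (norm_nonneg _)
    (tsum_of_norm_bounded (summ_dil hs hα G).hasSum fun m => norm_dil_le hs G m d) 2

theorem inner_eq (hs : SuppSq Q 1 α) (hα : Rapid α) {g : O} (hg : Prim g) (d : O) :
    (∑' m1 : O, ∑' m2 : O, if IsCoprime m1 m2 then
      α (g * m1) * conj (α (g * m2)) * chi m1 d * conj (chi m2 d) else 0) =
      ∑' r, if Prim r then cf r d * (PP α (g * r) d : ℂ) else 0 := by
  have h := cop_expand (u := fun m => α (g * m) * chi m d)
    (fun m hm => (hs.dilate hg m (left_ne_zero_of_mul hm)).1.1) ?_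
  · refine Eq.trans ?_ (h.trans ?_)
    · refine tsum_congr fun m1 => tsum_congr fun m2 => ?_
      split_ifs
      · rw [map_mul]
        ring
      · rfl
    · refine tsum_congr fun r => ?_
      by_cases hr : Prim r
      · rw [if_pos hr, if_pos hr, cf, mul_assoc]
        congr 1
        have e1 : ∑' k, α (g * (r * k)) * chi (r * k) d =
            chi r d * ∑' k, α (g * r * k) * chi k d := by
          rw [← tsum_mul_left]
          refine tsum_congr fun k => ?_
          by_cases hk : k = 0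
          · simp [hk, zero_of_supp hs]
          · rw [chi_mul hr.ne_zero hk, mul_assoc g]
            ring
        rw [e1, norm_mul, mul_pow, Complex.ofReal_mul]
        by_cases h6 : IsCoprime r 6
        · unfold PP
          congr 1
          split_ifs with hc
          · rw [(chi_isChar h6).norm_eq_one hr.ne_zero hc]
            simp
          · rw [((chi_isChar h6).zero_iff d).mpr hc]
            simp
        · have e2 : ∀ k, α (g * r * k) = 0 := by
            intro k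
            by_contra hk
            exact h6 (hs _ hk).1.isCoprime_six.of_mul_left_left.of_mul_left_right
          simp [PP, e2]
      · rw [if_neg hr, if_neg hr]
  · refine Summable.of_nonneg_of_le (fun m => mul_nonneg (norm_nonneg _) (N_nonneg _))
      (fun m => ?_) (hα.dilate hg.ne_zero 1)
    rw [pow_one]
    exact mul_le_mul_of_nonneg_right (norm_dil_le hs g m d) (N_nonneg _)

/-- second moment of the dilate -/
def MM (α : O → ℂ) (D : ℝ) (G : O) : ℝ := ∑' d : O, Om (N d / D) * PP α G d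

/-- the Möbius-weighted second moment -/
def YY (α : O → ℂ) (D : ℝ) (r G : O) : ℂ :=
  ∑' d : O, (Om (N d / D) : ℂ) * (cf r d * (PP α G d : ℂ))

variable {D : ℝ}

theorem summ_MM (hs : SuppSq Q 1 α) (hα : Rapid α) (hD : 0 < D) (G : O) :
    Summable (fun d : O => Om (N d / D) * PP α G d) :=
  Summable.of_nonneg_of_le (fun _ => mul_nonneg (Om_pos _).le (PP_nonneg _ _ _))
    (fun d => mul_le_mul_of_nonneg_left (PP_le hs hα G d) (Om_pos _).le)
    ((summ_Om hD).mul_right _)

theorem MM_nonneg (α : O → ℂ) (D : ℝ) (G : O) : 0 ≤ MM α D G :=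
  tsum_nonneg fun _ => mul_nonneg (Om_pos _).le (PP_nonneg _ _ _)

theorem summable_MM (hs : SuppSq Q 1 α) (hα : Rapid α) (hD : 0 < D) :
    Summable (fun G => N G * MM α D G) := by
  refine Summable.of_nonneg_of_le (fun G => mul_nonneg (N_nonneg _) (MM_nonneg _ _ _))
    (fun G => ?_) ((summable_sA hs hα).mul_left (∑' d : O, Om (N d / D)))
  rw [mul_left_comm]
  refine mul_le_mul_of_nonneg_left ?_ (N_nonneg _)
  rw [← tsum_mul_right]
  exact Summable.tsum_le_tsum (fun d => mul_le_mul_of_nonneg_left (PP_le hs hα G d) (Om_pos _).le)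
    (summ_MM hs hα hD G) ((summ_Om hD).mul_right _)

theorem norm_YY_term (α : O → ℂ) (D : ℝ) (r G d : O) :
    ‖(Om (N d / D) : ℂ) * (cf r d * (PP α G d : ℂ))‖ ≤ Om (N d / D) * PP α G d := by
  rw [norm_mul, norm_Om, norm_mul, Complex.norm_real, Real.norm_eq_abs,
    abs_of_nonneg (PP_nonneg _ _ _)]
  exact mul_le_mul_of_nonneg_left (mul_le_of_le_one_left (PP_nonneg _ _ _) (norm_cf_le r d))
    (Om_pos _).le

theorem norm_YY_le (hs : SuppSq Q 1 α) (hα : Rapid α) (hD : 0 < D) (r G : O) :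
    ‖YY α D r G‖ ≤ MM α D G :=
  tsum_of_norm_bounded (summ_MM hs hα hD G).hasSum fun d => norm_YY_term α D r G d

theorem summ_fibre {b : O → ℝ} (hb0 : ∀ G, 0 ≤ b G) (hb : Summable (fun G => N G * b G)) :
    Summable (fun p : O × O => if Prim p.1 ∧ Prim p.2 then b (p.1 * p.2) else 0) :=
  (conv_sum (fun _ G => b G) hb fun _ G => by rw [Real.norm_eq_abs, abs_of_nonneg (hb0 G)]).1

theorem Qform_eq (hs : SuppSq Q 1 α) (hα : Rapid α) (hD : 0 < D) {g : O} (hg : Prim g) :
    Qform (fun m => α (g * m)) 1 D = ∑' r, if Prim r then YY α D r (g * r) else 0 := by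
  have hb := (summ_fibre (fun G => sq_nonneg (sA α G)) (summable_sA hs hα)).prod_factor g
  simp only [hg, true_and] at hb
  unfold Qform
  simp only [isCoprime_one_right, if_true, inner_eq hs hα hg]
  rw [fub (summ_Om_norm hD) hb]
  · refine tsum_congr fun r => ?_
    split_ifs
    · rfl
    · simp
  · intro r d
    split_ifs
    · rw [norm_mul, Complex.norm_real, Real.norm_eq_abs, abs_of_nonneg (PP_nonneg _ _ _)]
      exact le_trans (mul_le_of_le_one_left (PP_nonneg _ _ _) (norm_cf_le r d)) (PP_le hs hα _ d)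
    · simp

theorem norm_Qform_le (hs : SuppSq Q 1 α) (hα : Rapid α) (hD : 0 < D) {g : O} (hg : Prim g) :
    ‖Qform (fun m => α (g * m)) 1 D‖ ≤ ∑' r, if Prim g ∧ Prim r then MM α D (g * r) else 0 := by
  have hb := (summ_fibre (MM_nonneg α D) (summable_MM hs hα hD)).prod_factor g
  rw [Qform_eq hs hα hD hg]
  refine tsum_of_norm_bounded hb.hasSum fun r => ?_
  by_cases hr : Prim r
  · rw [if_pos hr, if_pos ⟨hg, hr⟩]
    exact norm_YY_le hs hα hD r _
  · rw [if_neg hr, if_neg fun h => hr h.2, norm_zero]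

theorem summable_Qform (hs : SuppSq Q 1 α) (hα : Rapid α) (hD : 0 < D) :
    Summable (fun g : O => if Prim g then ‖Qform (fun m => α (g * m)) 1 D‖ else 0) := by
  refine Summable.of_nonneg_of_le (fun g => ?_) (fun g => ?_)
    (summ_fibre (MM_nonneg α D) (summable_MM hs hα hD)).prod
  · split_ifs
    · exact norm_nonneg _
    · exact le_rfl
  · by_cases hg : Prim g
    · rw [if_pos hg]
      exact norm_Qform_le hs hα hD hg
    · simp [hg]

theorem sum_YY (hs : SuppSq Q 1 α) (hα : Rapid α) (hD : 0 < D) (G : O) :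
    ∑ r ∈ pdiv G, YY α D r G =
      ∑' d : O, (Om (N d / D) : ℂ) * ((∑ r ∈ pdiv G, cf r d) * (PP α G d : ℂ)) := by
  unfold YY
  rw [← Summable.tsum_finsetSum fun r _ =>
    Summable.of_norm_bounded (summ_MM hs hα hD G) fun d => norm_YY_term α D r G d]
  refine tsum_congr fun d => ?_
  rw [Finset.sum_mul, Finset.mul_sum]

theorem re_sum_YY_nonneg (hs : SuppSq Q 1 α) (hα : Rapid α) (hD : 0 < D) {G : O} (hG : Prim G) :
    0 ≤ (∑ r ∈ pdiv G, YY α D r G).re := by
  choose x hx0 hx using sum_cf hG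
  have h : ∑ r ∈ pdiv G, YY α D r G = ((∑' d : O, Om (N d / D) * (x d * PP α G d) : ℝ) : ℂ) := by
    rw [sum_YY hs hα hD, Complex.ofReal_tsum]
    refine tsum_congr fun d => ?_
    rw [hx]
    push_cast
    rfl
  rw [h, Complex.ofReal_re]
  exact tsum_nonneg fun d => mul_nonneg (Om_pos _).le (mul_nonneg (hx0 d) (PP_nonneg _ _ _))

theorem re_sum_YY_one (α : O → ℂ) (D : ℝ) :
    (∑ r ∈ pdiv 1, YY α D r 1).re = ∑' d : O, Om (N d / D) * ‖∑' n, α n * chi n d‖ ^ 2 := by
  have h : ∑ r ∈ pdiv 1, YY α D r 1 =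
      ((∑' d : O, Om (N d / D) * ‖∑' n, α n * chi n d‖ ^ 2 : ℝ) : ℂ) := by
    rw [pdiv_one, Finset.sum_singleton, YY, Complex.ofReal_tsum]
    refine tsum_congr fun d => ?_
    simp [cf, PP, mu_one, isCoprime_one_right]
  rw [h, Complex.ofReal_re]

end TL

/-- Decomposition of a second moment according to `g = gcd(n₁,n₂)`, `n_i = g m_i`.  The kernel
`χ_{m₁}(d) conj χ_{m₂}(d)` dominates `χ_{n₁}(d) conj χ_{n₂}(d)` as a quadratic form:
`∑_{n₁,n₂} α(n₁) conj α(n₂) χ_{m₁}(d) conj χ_{m₂}(d) = ∑_{h ∣ d, h primary} |∑_{h ∣ n} α(n) χ_{n/h}(d)|²`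
(for given `n₁, n₂` exactly one `h ∣ g` contributes, the product of the primes of `g` dividing `d`),
and `h = 1` is the original term.  (`Qform α 1 D` has no coprimality condition on `d`.) -/
theorem gcd_split (Q : Lev) {α : O → ℂ} (hs : SuppSq Q 1 α) (hα : Rapid α) {D : ℝ} (hD : 0 < D) :
    Summable (fun g : O => if Prim g then ‖Qform (fun m => α (g * m)) 1 D‖ else 0) ∧
    ∑' d : O, Om (N d / D) * ‖∑' n, α n * chi n d‖ ^ 2 ≤
      ∑' g : O, if Prim g then ‖Qform (fun m => α (g * m)) 1 D‖ else 0 := by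
  have hQ := summable_Qform hs hα hD
  refine ⟨hQ, ?_⟩
  obtain ⟨h1, h2, h3⟩ := conv_sum (YY α D) (summable_MM hs hα hD) (norm_YY_le hs hα hD)
  have h4 : ∑' g : O, (if Prim g then Qform (fun m => α (g * m)) 1 D else 0) =
      ∑' G, if Prim G then ∑ r ∈ pdiv G, YY α D r G else 0 := by
    rw [← h3, h1.tsum_prod, ← Summable.tsum_comm (f := fun r g : O =>
      if Prim r ∧ Prim g then YY α D r (r * g) else 0) h1]
    refine tsum_congr fun g => ?_
    by_cases hg : Prim g
    · rw [if_pos hg, Qform_eq hs hα hD hg]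
      refine tsum_congr fun r => ?_
      simp only [hg, and_true, mul_comm]
    · simp [hg]
  have h5 : ‖∑' g : O, (if Prim g then Qform (fun m => α (g * m)) 1 D else 0)‖ ≤
      ∑' g : O, if Prim g then ‖Qform (fun m => α (g * m)) 1 D‖ else 0 := by
    refine tsum_of_norm_bounded hQ.hasSum fun g => ?_
    split_ifs
    · exact le_rfl
    · simp
  refine le_trans ?_ (le_trans (Complex.re_le_norm _) h5)
  rw [h4, Complex.re_tsum h2, ← re_sum_YY_one α D]
  have h6 := (Complex.hasSum_re h2.hasSum).summable.le_tsum 1 fun G _ => by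
    split_ifs with hG
    · exact re_sum_YY_nonneg hs hα hD hG
    · simp
  rwa [if_pos Prim.one] at h6

/-- the large `g` are estimated on the `d`-side: `1_{(m₁,m₂)=1} = ∑_{r ∣ m₁, r ∣ m₂} μ(r)`,
`G = g r`, `|χ_r(d)| ≤ 1` -/
theorem gcd_large (Q : Lev) {α : O → ℂ} (hs : SuppSq Q 1 α) (hα : Rapid α) {D : ℝ} (hD : 0 < D)
    (G0 : ℝ) :
    ∑' g : O, (if Prim g ∧ G0 < N g then ‖Qform (fun m => α (g * m)) 1 D‖ else 0) ≤
      ∑' G : O, if Prim G ∧ G0 < N G then ((pdiv G).card : ℝ) *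
        ∑' d : O, Om (N d / D) * ‖∑' m, α (G * m) * chi m d‖ ^ 2 else 0 := by
  have hM := summable_MM hs hα hD
  obtain ⟨h1, h2, h3⟩ := conv_sum (fun g G => if G0 < N g then MM α D G else 0) hM
    (fun g G => by
      split_ifs
      · rw [Real.norm_eq_abs, abs_of_nonneg (MM_nonneg _ _ _)]
      · simpa using MM_nonneg α D G)
  have hQ : Summable (fun g : O =>
      if Prim g ∧ G0 < N g then ‖Qform (fun m => α (g * m)) 1 D‖ else 0) := by
    refine Summable.of_nonneg_of_le (fun g => ?_) (fun g => ?_) (summable_Qform hs hα hD)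
    · split_ifs
      · exact norm_nonneg _
      · exact le_rfl
    · by_cases h : Prim g ∧ G0 < N g
      · rw [if_pos h, if_pos h.1]
      · rw [if_neg h]
        split_ifs
        · exact norm_nonneg _
        · exact le_rfl
  have hR : Summable (fun G : O =>
      if Prim G ∧ G0 < N G then ((pdiv G).card : ℝ) * MM α D G else 0) := by
    refine Summable.of_nonneg_of_le (fun G => ?_) (fun G => ?_) hM
    · split_ifs
      · exact mul_nonneg (Nat.cast_nonneg _) (MM_nonneg _ _ _)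
      · exact le_rfl
    · split_ifs
      · exact mul_le_mul_of_nonneg_right (card_pdiv_le0 G) (MM_nonneg _ _ _)
      · exact mul_nonneg (N_nonneg _) (MM_nonneg _ _ _)
  refine le_trans (Summable.tsum_le_tsum (fun g => ?_) hQ h1.prod) ?_
  · by_cases h : Prim g ∧ G0 < N g
    · rw [if_pos h]
      simp only [h.2, if_true]
      exact norm_Qform_le hs hα hD h.1
    · rw [if_neg h]
      refine tsum_nonneg fun r => ?_
      dsimp only
      split_ifs
      · exact MM_nonneg _ _ _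
      · exact le_rfl
      · exact le_rfl
  · rw [← h1.tsum_prod, h3]
    refine Summable.tsum_le_tsum (fun G => ?_) h2 hR
    by_cases hG : Prim G
    · rw [if_pos hG]
      by_cases h0 : G0 < N G
      · rw [if_pos ⟨hG, h0⟩, ← nsmul_eq_mul]
        refine Finset.sum_le_card_nsmul _ _ _ fun g _ => ?_
        split_ifs
        · exact le_rfl
        · exact MM_nonneg _ _ _
      · rw [if_neg fun h => h0 h.2]
        refine le_of_eq (Finset.sum_eq_zero fun g hg => if_neg fun h => h0 ?_)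
        exact lt_of_lt_of_le h (N_le_of_dvd hG.ne_zero ((mem_pdiv hG.ne_zero).mp hg).2)
    · rw [if_neg hG, if_neg fun h => hG h.1]

end Crest.Agent.R17
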