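import Crest.Agent.R17.Block

/-!
# R17 / Local_Rect : a block is bounded by truncating and shifting its Mellin integral
-/

set_option autoImplicit false

noncomputable section

open scoped Classical ComplexConjugate
open MeasureTheory

namespace Crest.Agent.R17

theorem loc_norm_cpow {n : O} (hn : n ≠ 0) (s : ℂ) : ‖(N n : ℂ) ^ s‖ = N n ^ s.re :=
  Complex.norm_cpow_eq_rpow_re_of_pos (N_pos hn) s

theorem loc_norm_term (a : O → ℂ) (s : ℂ) (n : O) :
    ‖if n = 0 then 0 else a n * (N n : ℂ) ^ (-s)‖ ≤ ‖a n‖ * N n ^ (-s.re) := by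
  split_ifs with hn
  · rw [norm_zero]; exact mul_nonneg (norm_nonneg _) (Real.rpow_nonneg (N_nonneg _) _)
  · rw [norm_mul, loc_norm_cpow hn, Complex.neg_re]

theorem loc_cont_line {a : O → ℂ} (ha : Summable (fun n => ‖a n‖ * N n ^ (-(2 : ℝ)))) (t : ℝ) :
    Continuous fun τ : ℝ => dser a (2 + (t + τ) * Complex.I) := by
  unfold dser
  refine continuous_tsum (fun n => ?_) ha (fun n τ => ?_)
  · split_ifs with hn
    · exact continuous_const
    · refine continuous_const.mul (Continuous.const_cpow (by fun_prop) (Or.inl ?_))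
      exact_mod_cast (N_pos hn).ne'
  · refine (loc_norm_term a _ n).trans (le_of_eq ?_)
    simp

theorem loc_norm_ker {x τ y : ℝ} (hx : |x| ≤ 5) :
    ‖(Real.sqrt Real.pi : ℂ) * Complex.exp ((x + τ * Complex.I) ^ 2 / 4 + (x + τ * Complex.I) * y)‖
      ≤ 2 * Real.exp 7 * Real.exp (x * y - τ ^ 2 / 4) := by
  rw [norm_mul, Complex.norm_real, Real.norm_of_nonneg (Real.sqrt_nonneg _), Complex.norm_exp,
    mul_assoc, ← Real.exp_add]
  refine mul_le_mul ?_ (Real.exp_le_exp.2 ?_) (Real.exp_pos _).le (by norm_num)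
  · rw [Real.sqrt_le_iff]
    exact ⟨by norm_num, by linarith [Real.pi_le_four]⟩
  · have e : (((x : ℂ) + τ * Complex.I) ^ 2 / 4 + (x + τ * Complex.I) * y).re =
        (x ^ 2 - τ ^ 2) / 4 + x * y := by
      have : ((x : ℂ) + τ * Complex.I) ^ 2 / 4 + (x + τ * Complex.I) * y =
          (((x ^ 2 - τ ^ 2) / 4 + x * y : ℝ) : ℂ) + ((x * τ / 2 + τ * y : ℝ) : ℂ) * Complex.I := by
        push_cast
        linear_combination (τ : ℂ) ^ 2 / 4 * Complex.I_sq
      rw [this]
      simp only [Complex.add_re, Complex.ofReal_re, Complex.mul_re, Complex.I_re, Complex.ofReal_im,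
        Complex.I_im, mul_zero, zero_mul, sub_zero, add_zero]
    rw [e]
    have := abs_le.1 hx
    nlinarith

theorem blks_le_rect : ∃ C : ℝ, 0 ≤ C ∧ ∀ (a : O → ℂ) (F : ℂ → ℂ) (σ' u t H M y : ℝ),
    Summable (fun n => ‖a n‖ * N n ^ (-(2 : ℝ))) → 0 ≤ σ' → σ' ≤ 2 → |u| ≤ 3 → 0 ≤ H → 0 ≤ y →
    DifferentiableOn ℂ F {s | σ' ≤ s.re ∧ s.re ≤ 2 ∧ |s.im - t| ≤ H} →
    (∀ s : ℂ, s.re = 2 → |s.im - t| ≤ H → F s = dser a s) →
    (∀ s : ℂ, σ' ≤ s.re → s.re ≤ 2 → |s.im - t| ≤ H → ‖F s‖ ≤ M) →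
    (∀ s : ℂ, s.re = 2 → ‖dser a s‖ ≤ M) →
    ‖blks a y (u + t * Complex.I)‖ ≤
      C * M * (Real.exp ((σ' - u) * y) + Real.exp ((2 - u) * y - H ^ 2 / 8)) := by
  have hg : Integrable fun τ : ℝ => Real.exp (-(1 / 8) * τ ^ 2) :=
    integrable_exp_neg_mul_sq (by norm_num)
  set J := ∫ τ : ℝ, Real.exp (-(1 / 8) * τ ^ 2) with hJ
  have hJ0 : 0 ≤ J := integral_nonneg fun _ => (Real.exp_pos _).le
  set E := 2 * Real.exp 7 with hE
  have hE0 : 0 ≤ E := by positivity
  refine ⟨E * (J + 4), by positivity, ?_⟩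
  intro a F σ' u t H M y hs h0 h2 hu hH hy hF hFd hFM hM
  have hM0 : 0 ≤ M := (norm_nonneg _).trans (hM 2 (by simp))
  have hu' := abs_le.1 hu
  set K : ℂ → ℂ := fun w => (Real.sqrt Real.pi : ℂ) * Complex.exp (w ^ 2 / 4 + w * y) with hK
  have hb5 : |2 - u| ≤ 5 := abs_le.2 ⟨by linarith, by linarith⟩
  have key := blks_mellin (a := a) y (2 - u) (u + t * Complex.I) (by
    have : ((u : ℂ) + t * Complex.I).re + (2 - u) = 2 := by simp
    rw [this]; exact hs)
  set Φ : ℝ → ℂ := fun τ => dser a (u + t * Complex.I + (((2 - u : ℝ) : ℂ) + τ * Complex.I)) *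
    K (((2 - u : ℝ) : ℂ) + τ * Complex.I) with hΦ
  have hΦb : ∀ τ, ‖Φ τ‖ ≤ M * (E * Real.exp ((2 - u) * y - τ ^ 2 / 4)) := fun τ => by
    simp only [hΦ, hK]
    rw [norm_mul]
    exact mul_le_mul (hM _ (by simp)) (loc_norm_ker hb5) (norm_nonneg _) hM0
  have hΦc : Continuous Φ := by
    refine Continuous.mul ?_ (by simp only [hK]; fun_prop)
    refine (loc_cont_line hs t).congr fun τ => ?_
    congr 1
    push_cast; ring
  have hΦi : Integrable Φ := by
    refine (hg.const_mul (M * (E * Real.exp ((2 - u) * y)))).mono' hΦc.aestronglyMeasurable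
      (Filter.Eventually.of_forall fun τ => (hΦb τ).trans ?_)
    rw [mul_assoc M, mul_assoc E, ← Real.exp_add]
    gcongr
    nlinarith [sq_nonneg τ]
  have hsplit := integral_add_compl (s := Set.Ioc (-H) H) measurableSet_Ioc hΦi
  -- tails
  have htail : ‖∫ τ in (Set.Ioc (-H) H)ᶜ, Φ τ‖ ≤
      M * (E * Real.exp ((2 - u) * y - H ^ 2 / 8)) * J := by
    refine (norm_integral_le_of_norm_le
      ((hg.const_mul (M * (E * Real.exp ((2 - u) * y - H ^ 2 / 8)))).integrableOn) ?_).trans ?_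
    · rw [ae_restrict_iff' measurableSet_Ioc.compl]
      refine Filter.Eventually.of_forall fun τ hτ => (hΦb τ).trans ?_
      rw [mul_assoc M, mul_assoc E, ← Real.exp_add]
      have : H ^ 2 ≤ τ ^ 2 := by
        simp only [Set.mem_compl_iff, Set.mem_Ioc, not_and_or, not_lt, not_le] at hτ
        rcases hτ with h | h <;> nlinarith
      gcongr
      linarith
    · rw [hJ, ← integral_const_mul]
      exact setIntegral_le_integral (hg.const_mul _)
        (Filter.Eventually.of_forall fun τ => by positivity)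
  -- rectangle
  set G : ℂ → ℂ := fun w => F (u + t * Complex.I + w) * K w with hG
  have hab : σ' - u ≤ 2 - u := by linarith
  have hHH : -H ≤ H := by linarith
  have hGb : ∀ x τ : ℝ, σ' - u ≤ x → x ≤ 2 - u → |τ| ≤ H →
      ‖G (x + τ * Complex.I)‖ ≤ M * (E * Real.exp (x * y - τ ^ 2 / 4)) := fun x τ h1 h2 h3 => by
    simp only [hG, hK]
    rw [norm_mul]
    refine mul_le_mul (hFM _ ?_ ?_ ?_) (loc_norm_ker (abs_le.2 ⟨by linarith, by linarith⟩))
      (norm_nonneg _) hM0
    · simp; linarith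
    · simp; linarith
    · simpa using h3
  have hrect := Complex.integral_boundary_rect_eq_zero_of_differentiableOn G
    ⟨σ' - u, -H⟩ ⟨2 - u, H⟩ (by
      refine DifferentiableOn.mul (hF.comp (by fun_prop) fun w hw => ?_)
        (by simp only [hK]; fun_prop)
      rw [Complex.mem_reProdIm, Set.uIcc_of_le hab, Set.uIcc_of_le hHH] at hw
      refine ⟨?_, ?_, ?_⟩
      · simp; linarith [hw.1.1]
      · simp; linarith [hw.1.2]
      · simpa using abs_le.2 hw.2)
  simp only [] at hrect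
  have hhor : ∀ τ : ℝ, |τ| = H → ‖∫ x in (σ' - u)..(2 - u), G (x + τ * Complex.I)‖ ≤
      M * (E * Real.exp ((2 - u) * y - H ^ 2 / 8)) * 2 := fun τ hτ => by
    refine (intervalIntegral.norm_integral_le_of_norm_le_const
      (C := M * (E * Real.exp ((2 - u) * y - H ^ 2 / 8))) fun x hx => ?_).trans ?_
    · rw [Set.uIoc_of_le hab] at hx
      refine (hGb x τ hx.1.le hx.2 hτ.le).trans ?_
      have : τ ^ 2 = H ^ 2 := by rw [← hτ, sq_abs]
      gcongr ?_ * (?_ * Real.exp ?_)
      nlinarith [hx.2, sq_nonneg H]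
    · refine mul_le_mul_of_nonneg_left ?_ (by positivity)
      rw [abs_le]; constructor <;> linarith
  have hleft : ‖∫ τ in (-H)..H, G (((σ' - u : ℝ) : ℂ) + τ * Complex.I)‖ ≤
      M * (E * Real.exp ((σ' - u) * y)) * J := by
    rw [intervalIntegral.integral_of_le hHH]
    refine (norm_integral_le_of_norm_le
      ((hg.const_mul (M * (E * Real.exp ((σ' - u) * y)))).integrableOn) ?_).trans ?_
    · rw [ae_restrict_iff' measurableSet_Ioc]
      refine Filter.Eventually.of_forall fun τ hτ =>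
        (hGb _ τ le_rfl hab (abs_le.2 ⟨hτ.1.le, hτ.2⟩)).trans ?_
      rw [mul_assoc M, mul_assoc E, ← Real.exp_add]
      gcongr
      nlinarith [sq_nonneg τ]
    · rw [hJ, ← integral_const_mul]
      exact setIntegral_le_integral (hg.const_mul _)
        (Filter.Eventually.of_forall fun τ => by positivity)
  have hmid : ∫ τ in Set.Ioc (-H) H, Φ τ =
      ∫ τ in (-H)..H, G (((2 - u : ℝ) : ℂ) + τ * Complex.I) := by
    rw [intervalIntegral.integral_of_le hHH]
    refine setIntegral_congr_fun measurableSet_Ioc fun τ hτ => ?_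
    simp only [hΦ, hG]
    rw [hFd _ (by simp) (by simpa using abs_le.2 ⟨hτ.1.le, hτ.2⟩)]
  have hright : ‖∫ τ in (-H)..H, G (((2 - u : ℝ) : ℂ) + τ * Complex.I)‖ ≤
      M * (E * Real.exp ((σ' - u) * y)) * J +
        M * (E * Real.exp ((2 - u) * y - H ^ 2 / 8)) * 4 := by
    have e : Complex.I • ∫ τ in (-H)..H, G (((2 - u : ℝ) : ℂ) + τ * Complex.I) =
        Complex.I • (∫ τ in (-H)..H, G (((σ' - u : ℝ) : ℂ) + τ * Complex.I)) +
        ((∫ x in (σ' - u)..(2 - u), G (x + (H : ℝ) * Complex.I)) -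
          ∫ x in (σ' - u)..(2 - u), G (x + ((-H : ℝ) : ℂ) * Complex.I)) := by
      linear_combination hrect
    have e' := congrArg norm e
    rw [norm_smul, Complex.norm_I, one_mul] at e'
    rw [e']
    refine (norm_add_le _ _).trans (add_le_add ?_ ((norm_sub_le _ _).trans ?_))
    · rwa [norm_smul, Complex.norm_I, one_mul]
    · linarith [hhor H (abs_of_nonneg hH), hhor (-H) (by rw [abs_neg, abs_of_nonneg hH])]
  have htot : ‖∫ τ, Φ τ‖ ≤ E * (J + 4) * M *
      (Real.exp ((σ' - u) * y) + Real.exp ((2 - u) * y - H ^ 2 / 8)) := by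
    rw [← hsplit, hmid]
    refine (norm_add_le _ _).trans ((add_le_add hright htail).trans ?_)
    have : 0 ≤ M * (E * Real.exp ((σ' - u) * y)) := by positivity
    nlinarith
  rw [key, norm_mul]
  refine (mul_le_mul ?_ htot (norm_nonneg _) zero_le_one).trans (le_of_eq (one_mul _))
  rw [norm_div, norm_one, norm_mul, Complex.norm_real, Real.norm_of_nonneg Real.pi_pos.le,
    Complex.norm_ofNat, div_le_one (by positivity)]
  linarith [Real.pi_gt_three]

end Crest.Agent.R17
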