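import Crest.Agent.R17.Sym1

/-!
# R17 / Sym : power residue symbols and Gauss sums (no reciprocity here)

Throughout `k ∈ {2,3,6}` (hypothesis `hk : k = 2 ∨ k = 3 ∨ k = 6`).  For a prime `p ∤ k` the ring
`F = O ⧸ span {p}` is a field with `nm p` elements (`card_res`, or `absNorm_span`), `k ∣ nm p - 1`
(`nm_prime_mod_three/two`), the `k`-th roots of unity of `O` (the `u ∈ units6` with `u^k = 1`, there
are exactly `k` of them) are pairwise distinct mod `p` (their differences have norm `1, 3, 4`; norm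
`3` only occurs if `3 ∣ k`, norm `4` only if `2 ∣ k`), hence they are all the roots of `X^k - 1` in
`F`, and `d^((nm p -1)/k)` is congruent to exactly one of them when `p ∤ d` and to none when `p ∣ d`.
For Gauss sums at a prime, transfer to Mathlib's `gaussSum` / `jacobiSum` on the finite field `F`
(`MulChar F ℂ` from `IsChar`, `AddChar F ℂ` from `ad p`, primitive by `sum_ad`).
-/

set_option autoImplicit false

noncomputable section

open scoped Classical ComplexConjugate

namespace Crest.Agent.R17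

variable {k : ℕ}

/-! ### general characters -/
theorem IsChar.norm_eq_one {q : O} (hq : q ≠ 0) {ψ : O → ℂ} (h : IsChar q ψ) {n : O}
    (hn : IsCoprime n q) : ‖ψ n‖ = 1 := by
  have hper : Per q (fun x => ((‖ψ x‖ : ℝ) : ℂ)) := fun x t => by
    show ((‖ψ (x + q * t)‖ : ℝ) : ℂ) = _
    rw [h.per x t]
  have h1 := sum_res_affine hq hper hn 0
  simp only [add_zero, h.mul, norm_mul] at h1
  have h2 : ‖ψ n‖ * ∑ x ∈ res q, ‖ψ x‖ = ∑ x ∈ res q, ‖ψ x‖ := by
    rw [Finset.mul_sum]
    exact_mod_cast h1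
  obtain ⟨r, hr, hr1⟩ := exists_res hq 1
  have h3 : ‖ψ r‖ ≤ ∑ x ∈ res q, ‖ψ x‖ :=
    Finset.single_le_sum (f := fun x => ‖ψ x‖) (fun _ _ => norm_nonneg _) hr
  rw [← h.per.congr hr1, h.one, norm_one] at h3
  exact mul_right_cancel₀ (by linarith) (h2.trans (one_mul _).symm)
theorem IsChar.norm_le {q : O} (hq : q ≠ 0) {ψ : O → ℂ} (h : IsChar q ψ) (n : O) : ‖ψ n‖ ≤ 1 := by
  by_cases hn : IsCoprime n q
  · exact (h.norm_eq_one hq hn).le
  · rw [(h.zero_iff n).2 hn, norm_zero]
    exact zero_le_one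
theorem IsChar.conj {q : O} {ψ : O → ℂ} (h : IsChar q ψ) : IsChar q (fun n => conj (ψ n)) :=
  { one := by rw [h.one, map_one]
    mul := fun a b => by rw [h.mul, map_mul]
    per := fun x t => by
      show (starRingEnd ℂ) (ψ (x + q * t)) = _
      rw [h.per x t]
    zero_iff := fun n => by rw [map_eq_zero, h.zero_iff] }
theorem IsChar.mul_char {q : O} {ψ φ : O → ℂ} (h : IsChar q ψ) (h' : IsChar q φ) :
    IsChar q (fun n => ψ n * φ n) :=
  { one := by rw [h.one, h'.one, one_mul]
    mul := fun a b => by rw [h.mul, h'.mul]; ring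
    per := h.per.mul h'.per
    zero_iff := fun n => by rw [mul_eq_zero, h.zero_iff, h'.zero_iff, or_self] }
theorem IsChar.pow_char {q : O} {ψ : O → ℂ} (h : IsChar q ψ) {j : ℕ} (hj : j ≠ 0) :
    IsChar q (fun n => ψ n ^ j) :=
  { one := by rw [h.one, one_pow]
    mul := fun a b => by rw [h.mul, mul_pow]
    per := fun x t => by
      show ψ (x + q * t) ^ j = _
      rw [h.per x t]
    zero_iff := fun n => by rw [pow_eq_zero_iff hj, h.zero_iff] }
theorem IsChar.mul_moduli {q1 q2 : O} {ψ φ : O → ℂ} (h : IsChar q1 ψ) (h' : IsChar q2 φ) :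
    IsChar (q1 * q2) (fun n => ψ n * φ n) :=
  { one := by rw [h.one, h'.one, one_mul]
    mul := fun a b => by rw [h.mul, h'.mul]; ring
    per := (h.per.of_dvd (dvd_mul_right _ _)).mul (h'.per.of_dvd (dvd_mul_left _ _))
    zero_iff := fun n => by
      rw [mul_eq_zero, h.zero_iff, h'.zero_iff, IsCoprime.mul_right_iff, not_and_or] }
theorem sym2_factor {q1 q2 a b : O} (hab : a * q1 + b * q2 = 1) {ψ : O → ℂ}
    (h : IsChar (q1 * q2) ψ) : IsChar q1 (fun n => ψ (n * (b * q2) + a * q1)) :=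
  { one := by rw [one_mul, add_comm, hab, h.one]
    mul := fun m n => by
      rw [← h.mul]
      refine h.per.congr ⟨a * b * (m * n + 1 - m - n), ?_⟩
      linear_combination (-(m * n * (b * q2) + a * q1)) * hab
    per := fun x t => by
      refine h.per.congr ⟨t * b, ?_⟩
      ring
    zero_iff := fun n => by
      have e1 : n * (b * q2) + a * q1 = n + q1 * (a - n * a) := by linear_combination n * hab
      have e2 : n * (b * q2) + a * q1 = 1 + q2 * (n * b - b) := by linear_combination hab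
      have h2 : IsCoprime (n * (b * q2) + a * q1) q2 := by
        rw [e2, IsCoprime.add_mul_left_left_iff]
        exact isCoprime_one_left
      have h1 : IsCoprime (n * (b * q2) + a * q1) q1 ↔ IsCoprime n q1 := by
        rw [e1, IsCoprime.add_mul_left_left_iff]
      rw [h.zero_iff, IsCoprime.mul_right_iff, h1, and_iff_left h2] }

/-- CRT decomposition of a character -/
theorem IsChar.exists_factor {q1 q2 : O} (hc : IsCoprime q1 q2) {ψ : O → ℂ}
    (h : IsChar (q1 * q2) ψ) :
    ∃ ψ1 ψ2, IsChar q1 ψ1 ∧ IsChar q2 ψ2 ∧ ∀ n, ψ n = ψ1 n * ψ2 n := by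
  obtain ⟨a, b, hab⟩ := hc
  refine ⟨_, _, sym2_factor hab h,
    sym2_factor (q1 := q2) (q2 := q1) (a := b) (b := a) (by rw [add_comm, hab]) (mul_comm q1 q2 ▸ h),
    fun n => ?_⟩
  rw [← h.mul]
  refine h.per.congr ⟨a * b * (2 * n - 1 - n ^ 2), ?_⟩
  linear_combination (-n * (1 + a * q1 + b * q2)) * hab
theorem IsChar.sum_eq_zero {q : O} (hq : q ≠ 0) {ψ : O → ℂ} (h : IsChar q ψ) (hn : NonPrinc q ψ) :
    ∑ x ∈ res q, ψ x = 0 := by
  obtain ⟨n, hn, h1⟩ := hn
  have h2 := sum_res_affine hq h.per hn 0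
  simp only [add_zero, h.mul] at h2
  rw [← Finset.mul_sum] at h2
  have h3 : (ψ n - 1) * ∑ x ∈ res q, ψ x = 0 := by rw [sub_mul, h2, one_mul, sub_self]
  exact (mul_eq_zero.1 h3).resolve_left (sub_ne_zero.2 h1)

end Crest.Agent.R17
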