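import Crest.Agent.R17.Sym2

/-!
# R17 / Sym : power residue symbols and Gauss sums (no reciprocity here)

Throughout `k ∈ {2,3,6}` (hypothesis `hk : k = 2 ∨ k = 3 ∨ k = 6`).  For a prime `p ∤ k` the ring
`F = O ⧸ span {p}` is a field with `nm p` elements (`card_res`, or `absNorm_span`), `k ∣ nm p - 1`
(`nm_prime_mod_three/two`), the `k`-th roots of unity of `O` (the `u ∈ units6` with `u^k = 1`, there
are exactly `k` of them) are pairwise distinct mod `p` (their differences have norm `1, 3, 4`; norm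
`3` only occurs if `3 ∣ k`, norm `4` only if `2 ∣ k`), hence they are all the roots of `X^k - 1` in
`F`, and `d^((nm p -1)/k)` is congruent to exactly one of them when `p ∤ d` and to none when `p ∣ d`.
For Gauss sums at a prime, transfer to Mathlib's `gaussSum` / `jacobiSum` on the finite field `F`
(`MulChar F ℂ` from `IsChar`, `AddChar F ℂ` from `ad p`, primitive by `sum_ad`).
-/

set_option autoImplicit false

noncomputable section

open scoped Classical ComplexConjugate

namespace Crest.Agent.R17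

/-! ### Gauss sums -/
theorem gs_per (q : O) (ψ : O → ℂ) : Per q (gs q ψ) := by
  intro k t
  refine Finset.sum_congr rfl fun x _ => ?_
  rw [add_mul, ad_add, ad_of_dvd (x := q * t * x) ⟨t * x, mul_assoc _ _ _⟩, mul_one]

theorem norm_gs_le {q : O} (hq : q ≠ 0) {ψ : O → ℂ} (h : ∀ n, ‖ψ n‖ ≤ 1) (k : O) :
    ‖gs q ψ k‖ ≤ N q := by
  refine (norm_sum_le _ _).trans ((Finset.sum_le_card_nsmul _ _ 1 fun x _ => ?_).trans ?_)
  · rw [norm_mul, norm_ad, mul_one]
    exact h x
  · rw [card_res hq, nsmul_one, N]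

theorem conj_gs {q : O} (hq : q ≠ 0) (ψ : O → ℂ) (k : O) :
    conj (gs q ψ k) = gs q (fun n => conj (ψ n)) (-k) := by
  have _ := hq
  simp only [gs, map_sum, map_mul, neg_mul, ad_neg]

/-- homogeneity -/
theorem gs_mul_unit {q : O} (hq : q ≠ 0) {ψ : O → ℂ} (h : IsChar q ψ) {c : O}
    (hc : IsCoprime c q) (k : O) : gs q ψ (c * k) = conj (ψ c) * gs q ψ k := by
  have h1 := sum_res_affine hq (h.per.mul (ad_per q k)) hc 0
  rw [gs, gs, ← h1, Finset.mul_sum]
  refine Finset.sum_congr rfl fun x _ => ?_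
  rw [add_zero, h.mul, ← mul_assoc, ← mul_assoc, Complex.conj_mul', h.norm_eq_one hq hc,
    mul_left_comm k, mul_assoc c]
  simp

/-- twisted multiplicativity -/
theorem gs_mul {q1 q2 : O} (h1 : q1 ≠ 0) (h2 : q2 ≠ 0) (hc : IsCoprime q1 q2) {ψ1 ψ2 : O → ℂ}
    (hψ1 : IsChar q1 ψ1) (hψ2 : IsChar q2 ψ2) (k : O) :
    gs (q1 * q2) (fun n => ψ1 n * ψ2 n) k = ψ1 q2 * ψ2 q1 * gs q1 ψ1 k * gs q2 ψ2 k := by
  rw [gs, sum_res_crt h1 h2 hc ((hψ1.mul_moduli hψ2).per.mul (ad_per _ k)), gs, gs, mul_assoc,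
    Finset.sum_mul_sum, Finset.mul_sum]
  refine Finset.sum_congr rfl fun x _ => ?_
  rw [Finset.mul_sum]
  refine Finset.sum_congr rfl fun y _ => ?_
  have e1 : ψ1 (x * q2 + y * q1) = ψ1 x * ψ1 q2 := by rw [mul_comm y, hψ1.per, hψ1.mul]
  have e2 : ψ2 (x * q2 + y * q1) = ψ2 y * ψ2 q1 := by
    rw [add_comm, mul_comm x, hψ2.per, hψ2.mul]
  have e3 : ad (q1 * q2) (k * (x * q2 + y * q1)) = ad q1 (k * x) * ad q2 (k * y) := by
    rw [show k * (x * q2 + y * q1) = q2 * (k * x) + q1 * (k * y) by ring, ad_add, ad_mul_cancel h1,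
      mul_comm q1, ad_mul_cancel h2]
  rw [e1, e2, e3]
  ring

/-- a function periodic mod `q1` seen modulo `q1 q2` -/
theorem gs_lift {q1 q2 : O} (h1 : q1 ≠ 0) (h2 : q2 ≠ 0) {f : O → ℂ} (hf : Per q1 f) (k : O) :
    gs (q1 * q2) f k = if q2 ∣ k then (N q2 : ℂ) * gs q1 f (k / q2) else 0 := by
  rw [gs, sum_res_tower h1 h2 ((hf.of_dvd (dvd_mul_right _ _)).mul (ad_per _ k))]
  have e : ∀ x, ∑ y ∈ res q2, f (x + q1 * y) * ad (q1 * q2) (k * (x + q1 * y)) =
      f x * ad (q1 * q2) (k * x) * if q2 ∣ k then (N q2 : ℂ) else 0 := fun x => by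
    rw [← sum_ad h2, Finset.mul_sum]
    refine Finset.sum_congr rfl fun y _ => ?_
    rw [hf, mul_add, ad_add, mul_left_comm k, ad_mul_cancel h1, mul_assoc]
  simp only [e]
  split_ifs with hk
  · obtain ⟨k, rfl⟩ := hk
    rw [mul_div_cancel_left₀ _ h2, gs, Finset.mul_sum]
    refine Finset.sum_congr rfl fun x _ => ?_
    rw [mul_comm q1, mul_assoc q2, ad_mul_cancel h2, mul_comm]
  · simp

theorem gs_prime_nonprinc {p : O} (hp : Prime p) {ψ : O → ℂ} (h : IsChar p ψ) (hn : NonPrinc p ψ)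
    (k : O) : gs p ψ k = conj (ψ k) * gs p ψ 1 := by
  by_cases hk : IsCoprime k p
  · simpa using gs_mul_unit hp.ne_zero h hk 1
  · have hpk : p ∣ k := by
      by_contra h'
      exact hk ((hp.irreducible.coprime_iff_not_dvd.2 h').symm)
    rw [(h.zero_iff k).2 hk, map_zero, zero_mul, ← h.sum_eq_zero hp.ne_zero hn]
    exact Finset.sum_congr rfl fun x _ => by rw [ad_of_dvd (hpk.mul_right x), mul_one]

/-- primitive characters have Gauss sums of absolute value `√N` (Fourier inversion at `1`) -/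
theorem s3_norm {q : O} (hq : q ≠ 0) {ψ : O → ℂ} (h : IsChar q ψ)
    (hp : ∀ k, gs q ψ k = conj (ψ k) * gs q ψ 1) : ‖gs q ψ 1‖ = Real.sqrt (N q) := by
  have h1 := fourier_inv hq h.per 1
  have h2 : ∑ k ∈ res q, gs q ψ k * ad q (-(k * 1)) = gs q ψ 1 * conj (gs q ψ 1) := by
    conv_rhs => rw [mul_comm]; enter [1]; rw [gs, map_sum]
    rw [Finset.sum_mul]
    refine Finset.sum_congr rfl fun k _ => ?_
    rw [hp k, map_mul, ad_neg, mul_one, one_mul]
    ring
  have hN : (N q : ℂ) ≠ 0 := by exact_mod_cast (N_pos hq).ne'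
  rw [h.one, h2, Complex.mul_conj', eq_inv_mul_iff_mul_eq₀ hN, mul_one] at h1
  rw [show N q = ‖gs q ψ 1‖ ^ 2 by exact_mod_cast h1, Real.sqrt_sq (norm_nonneg _)]

theorem norm_gs_prime {p : O} (hp : Prime p) {ψ : O → ℂ} (h : IsChar p ψ) (hn : NonPrinc p ψ) :
    ‖gs p ψ 1‖ = Real.sqrt (N p) := by
  exact s3_norm hp.ne_zero h (gs_prime_nonprinc hp h hn)

theorem gs_prime_princ {p : O} (hp : Prime p) {ψ : O → ℂ} (h : IsChar p ψ) (hn : ¬ NonPrinc p ψ)
    (k : O) : gs p ψ k = if p ∣ k then (N p : ℂ) - 1 else -1 := by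
  obtain ⟨r, hr, hr'⟩ := exists_res hp.ne_zero 0
  rw [zero_sub, dvd_neg] at hr'
  have e : ∀ x ∈ res p, ψ x * ad p (k * x) = ad p (k * x) - if x = r then 1 else 0 := by
    intro x hx
    split_ifs with hxr
    · rw [hxr, (h.zero_iff r).2 fun hc => hp.not_isUnit (hc.isUnit_of_dvd' hr' dvd_rfl),
        ad_of_dvd (hr'.mul_left k), zero_mul, sub_self]
    · have h1 : IsCoprime x p := (hp.irreducible.coprime_iff_not_dvd.2 fun hd =>
        hxr (res_inj hp.ne_zero hx hr (dvd_sub hd hr'))).symm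
      rw [not_not.1 fun h2 => hn ⟨x, h1, h2⟩, one_mul, sub_zero]
  rw [gs, Finset.sum_congr rfl e, Finset.sum_sub_distrib, sum_ad hp.ne_zero, Finset.sum_ite_eq',
    if_pos hr]
  split_ifs <;> simp

theorem s3_unit {u : O} (hu : IsUnit u) {ψ : O → ℂ} (h : IsChar u ψ) (k : O) :
    ψ k = 1 ∧ gs u ψ k = 1 := by
  have h1 : ∀ x, ψ x = 1 := fun x => (h.per.congr hu.dvd).trans h.one
  refine ⟨h1 k, ?_⟩
  simp [gs, h1, ad_of_dvd hu.dvd, card_res hu.ne_zero, isUnit_iff_nm.1 hu]

theorem s3_sqfree {p a : O} (hp : Prime p) (h : Squarefree (p * a)) : IsCoprime p a :=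
  hp.irreducible.coprime_iff_not_dvd.2 fun hd => hp.not_isUnit (h p (mul_dvd_mul_left p hd))

theorem s3_sym {k j : ℕ} (hk : k = 2 ∨ k = 3 ∨ k = 6) {u : O} (hu : u ^ k = 1) (hj : u ^ j ≠ 1)
    {n : O} (hn : IsCoprime n (k : O)) (hs : Squarefree n) (m : O) :
    gs n (fun x => sym k n x ^ j) m = conj (sym k n m ^ j) * gs n (fun x => sym k n x ^ j) 1 := by
  have hj0 : j ≠ 0 := by rintro rfl; exact hj (pow_zero u)
  induction n using UniqueFactorizationMonoid.induction_on_prime with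
  | h₁ => exact absurd hs not_squarefree_zero
  | h₂ n hu =>
    have h := (sym_isChar hk hn).pow_char hj0
    rw [(s3_unit hu h m).1, (s3_unit hu h m).2, (s3_unit hu h 1).2, map_one, mul_one]
  | h₃ a p ha hp ih =>
    have h1 := (sym_isChar hk hn.of_mul_left_left).pow_char hj0
    have h2 := (sym_isChar hk hn.of_mul_left_right).pow_char hj0
    have hnp : NonPrinc p fun x => sym k p x ^ j := by
      obtain ⟨d, hd⟩ := symP_surj hk hp
        (hp.irreducible.coprime_iff_not_dvd.1 hn.of_mul_left_left) hu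
      rw [← sym_prime k hp] at hd
      refine ⟨d, not_not.1 fun hc => ?_, fun hc => hj (toC_injective ?_)⟩
      · have h0 := ((sym_isChar hk hn.of_mul_left_left).zero_iff d).2 hc
        rw [hd, map_eq_zero_iff _ toC_injective] at h0
        rw [h0, zero_pow (by omega)] at hu
        exact zero_ne_one hu
      · rw [map_pow, ← hd, map_one]
        exact hc
    simp only [sym_mul_left k hp.ne_zero ha, mul_pow]
    rw [gs_mul hp.ne_zero ha (s3_sqfree hp hs) h1 h2, gs_mul hp.ne_zero ha (s3_sqfree hp hs) h1 h2,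
      gs_prime_nonprinc hp h1 hnp m, ih hn.of_mul_left_right hs.of_mul_right, map_mul]
    ring

/-- powers `χ_n^j`, `6 ∤ j`, are primitive for squarefree `n` -/
theorem gs_chi_pow {n : O} (hn : IsCoprime n 6) (hs : Squarefree n) {j : ℕ} (hj : ¬ 6 ∣ j) (k : O) :
    gs n (fun x => chi n x ^ j) k = conj (chi n k ^ j) * gs n (fun x => chi n x ^ j) 1 := by
  refine s3_sym (k := 6) (by simp) (u := -om) (by decide) ?_ hn hs k
  rw [← Nat.div_add_mod j 6, pow_add, pow_mul, show (-om) ^ 6 = 1 by decide, one_pow, one_mul]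
  have h1 : j % 6 = 1 ∨ j % 6 = 2 ∨ j % 6 = 3 ∨ j % 6 = 4 ∨ j % 6 = 5 := by omega
  rcases h1 with h | h | h | h | h <;> rw [h] <;> decide

theorem norm_gs_chi_pow {n : O} (hn : IsCoprime n 6) (hs : Squarefree n) {j : ℕ} (hj : ¬ 6 ∣ j) :
    ‖gs n (fun x => chi n x ^ j) 1‖ = Real.sqrt (N n) := by
  exact s3_norm hs.ne_zero ((sym_isChar (k := 6) (by simp) hn).pow_char
    (by rintro rfl; exact hj (dvd_zero _))) (gs_chi_pow hn hs hj)

theorem norm_gt {n : O} (hn : IsCoprime n 6) (hs : Squarefree n) : ‖gt n‖ = 1 := by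
  have h := norm_gs_chi_pow hn hs (j := 1) (by decide)
  simp only [pow_one] at h
  rw [gt, norm_div, h, Complex.norm_real, Real.norm_of_nonneg (Real.sqrt_nonneg _),
    div_self (Real.sqrt_pos.2 (N_pos hs.ne_zero)).ne']

theorem gs_cub {n : O} (hn : IsCoprime n 3) (hs : Squarefree n) (k : O) :
    gs n (cub n) k = conj (cub n k) * gs n (cub n) 1 := by
  have h := s3_sym (k := 3) (j := 1) (by simp) om_cube (by decide) hn hs k
  simp only [pow_one] at h
  exact h

theorem norm_g3 {n : O} (hn : IsCoprime n 3) (hs : Squarefree n) : ‖g3 n‖ = 1 := by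
  rw [g3, norm_div,
    s3_norm (ψ := cub n) hs.ne_zero (sym_isChar (k := 3) (by simp) hn) (gs_cub hn hs),
    Complex.norm_real, Real.norm_of_nonneg (Real.sqrt_nonneg _),
    div_self (Real.sqrt_pos.2 (N_pos hs.ne_zero)).ne']

theorem s3_princ (e : O) : IsChar e fun x => if IsCoprime x e then 1 else 0 where
  one := if_pos isCoprime_one_left
  mul a b := by
    by_cases ha : IsCoprime a e <;> by_cases hb : IsCoprime b e <;>
      simp [ha, hb, IsCoprime.mul_left_iff]
  per x t := by simp only [IsCoprime.add_mul_left_left_iff]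
  zero_iff n := by simp

/-- Ramanujan expansion of a divisibility condition: `1_{l ∣ m} = N(l)⁻¹ ∑_{e ∣ l} c_e(m)` for
squarefree primary `l`, with `c_e = gs e 1_{(·,e)=1}` -/
theorem dvd_eq_sum_ramanujan {l : O} (hl : Prim l) (hs : Squarefree l) (m : O) :
    (if l ∣ m then (1 : ℂ) else 0) =
      (N l : ℂ)⁻¹ * ∑ e ∈ pdiv l, gs e (fun x => if IsCoprime x e then 1 else 0) m := by
  have h1 : pdiv 1 = {1} := by
    ext e
    rw [mem_pdiv one_ne_zero, Finset.mem_singleton]
    exact ⟨fun h => h.1.eq_one_of_isUnit (isUnit_of_dvd_one h.2),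
      fun h => by rw [h]; exact ⟨Prim.one, dvd_rfl⟩⟩
  revert hs
  refine Prim.induction (P := fun l => Squarefree l → (if l ∣ m then (1 : ℂ) else 0) =
    (N l : ℂ)⁻¹ * ∑ e ∈ pdiv l, gs e (fun x => if IsCoprime x e then 1 else 0) m) (fun _ => ?_)
    (fun p a hp hp' ha ih hs => ?_) hl
  · rw [h1, Finset.sum_singleton, (s3_unit isUnit_one (s3_princ 1) m).2]
    simp
  · have hc := s3_sqfree hp hs
    have h2 : pdiv p = {1, p} := by
      ext e
      rw [mem_pdiv hp.ne_zero, Finset.mem_insert, Finset.mem_singleton]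
      refine ⟨fun h => (hp.irreducible.dvd_iff.1 h.2).imp h.1.eq_one_of_isUnit
        fun h' => (hp'.eq_of_associated h.1 h').symm, ?_⟩
      rintro (rfl | rfl)
      exacts [⟨Prim.one, one_dvd _⟩, ⟨hp', dvd_rfl⟩]
    have h3 : ∀ e1 ∈ pdiv p, ∀ e2 ∈ pdiv a,
        gs (e1 * e2) (fun x => if IsCoprime x (e1 * e2) then 1 else 0) m =
          gs e1 (fun x => if IsCoprime x e1 then 1 else 0) m *
            gs e2 (fun x => if IsCoprime x e2 then 1 else 0) m := fun e1 h1 e2 h2 => by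
      rw [mem_pdiv hp.ne_zero] at h1
      rw [mem_pdiv ha.ne_zero] at h2
      have hc' := (hc.of_isCoprime_of_dvd_left h1.2).of_isCoprime_of_dvd_right h2.2
      have := gs_mul h1.1.ne_zero h2.1.ne_zero hc' (s3_princ e1) (s3_princ e2) m
      rw [if_pos hc', if_pos hc'.symm, one_mul, one_mul] at this
      rw [← this]
      simp only [IsCoprime.mul_right_iff, ite_and, mul_ite, mul_one, mul_zero]
      congr 1
      funext x
      split_ifs <;> rfl
    have hN : (N p : ℂ) ≠ 0 := by exact_mod_cast (N_pos hp.ne_zero).ne'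
    rw [sum_pdiv_mul hp.ne_zero ha.ne_zero hc, Finset.sum_congr rfl fun e1 h1 =>
      Finset.sum_congr rfl (h3 e1 h1), ← Finset.sum_mul_sum, N_mul, Complex.ofReal_mul, mul_inv,
      mul_mul_mul_comm, ← ih hs.of_mul_right, h2, Finset.sum_pair hp.ne_one.symm,
      (s3_unit isUnit_one (s3_princ 1) m).2,
      gs_prime_princ hp (s3_princ p) (by rintro ⟨n, h, h'⟩; exact h' (if_pos h))]
    by_cases hpm : p ∣ m
    · by_cases ham : a ∣ m
      · simp [hpm, ham, hc.mul_dvd hpm ham, hN]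
      · simp [ham, mt dvd_of_mul_left_dvd ham]
    · simp [hpm, mt dvd_of_mul_right_dvd hpm]

/-- General Gauss sum bound for a character modulo `q₀ ρ`, `ρ` squarefree and coprime to `q₀`:
`|G(k)| ≤ N(q₀) √N(ρ) √N(g)` where `g = gcd(k, ρ)`.  (Induction on the primes of `ρ` via
`IsChar.exists_factor`, `gs_mul`; at a prime: `≤ √N p` if `p ∤ k`, `≤ N p` always.) -/
theorem norm_gs_le_sqfree {q0 ρ : O} (hq : q0 ≠ 0) (hρ : Squarefree ρ) (hc : IsCoprime q0 ρ)
    {ψ : O → ℂ} (h : IsChar (q0 * ρ) ψ) (k : O) :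
    ‖gs (q0 * ρ) ψ k‖ ≤ N q0 * Real.sqrt (N ρ) * Real.sqrt (N (EuclideanDomain.gcd k ρ)) := by
  induction ρ using UniqueFactorizationMonoid.induction_on_prime generalizing ψ with
  | h₁ => exact absurd hρ not_squarefree_zero
  | h₂ u hu =>
    have h1 : ∀ v : O, IsUnit v → N v = 1 := fun v hv => by rw [N, isUnit_iff_nm.1 hv, Nat.cast_one]
    have h0 := mul_ne_zero hq hu.ne_zero
    rw [h1 _ (isUnit_of_dvd_unit (EuclideanDomain.gcd_dvd_right k u) hu), Real.sqrt_one, mul_one]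
    refine (norm_gs_le h0 (h.norm_le h0) k).trans ?_
    rw [N_mul, h1 u hu, Real.sqrt_one]
  | h₃ a p ha hp ih =>
    have hpa := s3_sqfree hp hρ
    have hc' : IsCoprime p (q0 * a) := hc.of_mul_right_left.symm.mul_right hpa
    have h0 := mul_ne_zero hq ha
    rw [mul_left_comm] at h ⊢
    obtain ⟨ψ1, ψ2, h1, h2, e⟩ := h.exists_factor hc'
    have hg : EuclideanDomain.gcd k (p * a) ≠ 0 := fun h =>
      hρ.ne_zero (EuclideanDomain.gcd_eq_zero_iff.1 h).2
    have key : ‖gs p ψ1 k‖ * Real.sqrt (N (EuclideanDomain.gcd k a)) ≤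
        Real.sqrt (N p) * Real.sqrt (N (EuclideanDomain.gcd k (p * a))) := by
      by_cases hk : p ∣ k
      · have h3 := N_le_of_dvd hg (EuclideanDomain.dvd_gcd
          ((hpa.of_isCoprime_of_dvd_right (EuclideanDomain.gcd_dvd_right k a)).mul_dvd hk
            (EuclideanDomain.gcd_dvd_left k a))
          (mul_dvd_mul_left p (EuclideanDomain.gcd_dvd_right k a)))
        have h4 := Real.sqrt_le_sqrt h3
        rw [N_mul, Real.sqrt_mul (N_nonneg _)] at h4
        refine le_trans ?_ (mul_le_mul_of_nonneg_left h4 (Real.sqrt_nonneg _))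
        rw [← mul_assoc, Real.mul_self_sqrt (N_nonneg _)]
        exact mul_le_mul_of_nonneg_right (norm_gs_le hp.ne_zero (h1.norm_le hp.ne_zero) k)
          (Real.sqrt_nonneg _)
      · refine mul_le_mul ?_ (Real.sqrt_le_sqrt (N_le_of_dvd hg (EuclideanDomain.dvd_gcd
          (EuclideanDomain.gcd_dvd_left k a) ((EuclideanDomain.gcd_dvd_right k a).mul_left p))))
          (Real.sqrt_nonneg _) (Real.sqrt_nonneg _)
        by_cases hn : NonPrinc p ψ1
        · rw [gs_prime_nonprinc hp h1 hn, norm_mul, norm_gs_prime hp h1 hn, Complex.norm_conj]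
          exact mul_le_of_le_one_left (Real.sqrt_nonneg _) (h1.norm_le hp.ne_zero k)
        · rw [gs_prime_princ hp h1 hn, if_neg hk, norm_neg, norm_one]
          exact Real.one_le_sqrt.2 (one_le_N hp.ne_zero)
    have h3 := ih hρ.of_mul_right hc.of_mul_right_right h2
    rw [funext e, gs_mul hp.ne_zero h0 hc' h1 h2, norm_mul, norm_mul, norm_mul,
      h1.norm_eq_one hp.ne_zero hc'.symm, h2.norm_eq_one h0 hc', one_mul, one_mul, N_mul,
      Real.sqrt_mul (N_nonneg _)]
    have h4 := mul_le_mul_of_nonneg_left key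
      (mul_nonneg (N_nonneg q0) (Real.sqrt_nonneg (N a)))
    linarith [mul_le_mul_of_nonneg_left h3 (norm_nonneg (gs p ψ1 k))]

end Crest.Agent.R17
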