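import Crest.Agent.R17.Block
import Crest.Agent.R17.Sym

/-!
# R17 / LCont : contour shifting, continuation and growth of `dser φ` for periodic `φ`

`θ_φ(t) = ∑ φ(k) Om(t N k)` satisfies `θ_φ(t) = (t N q)⁻¹ θ_{φ̂}(1/(t N q))` (`poisson_per`,
`φ̂ = gs q φ`), so (Mathlib `WeakFEPair`, or directly by splitting the Mellin integral at
`t = (N q)^{-1/2}`) `Λ_φ(s) = Γ(s) c0^{-s} dser φ s` continues, `s(s-1)Λ_φ(s)` is entire and bounded by
a polynomial on vertical strips, `Λ_φ(s) = (N q)^{-s} Λ_{φ̂}(1-s)`.  `1/Γ` is entire with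
`|1/Γ(s)| ≤ C e^{π|t|}` on strips (reflection formula + recursion), which is enough to shift Gaussian
contour integrals.  Polynomial growth: on `Re s = 1/2 - j` one has exactly
`|Γ(1-s)/Γ(s)| = ∏_{i<2j} |1/2 - j + i + it| ≤ (j + |t|)^{2j}`; apply the maximum principle /
Phragmén–Lindelöf (`PhragmenLindelof.vertical_strip`) or the three lines theorem to
`Ef φ s · exp((s - it₀)²)` on the strip `1/2 - j ≤ Re s ≤ 2`.
-/

set_option autoImplicit false

noncomputable section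

open scoped Classical ComplexConjugate
open MeasureTheory

namespace Crest.Agent.R17


open Filter Topology in
theorem ct_core {F : ℂ → ℂ} {a b : ℝ} (hab : a ≤ b)
    (hF : DifferentiableOn ℂ F {s | a ≤ s.re ∧ s.re ≤ b})
    (ia : Integrable fun τ : ℝ => F (a + τ * Complex.I))
    (ib : Integrable fun τ : ℝ => F (b + τ * Complex.I))
    {g : ℝ → ℝ} (hg0 : Tendsto g (cocompact ℝ) (𝓝 0))
    (hb : ∀ᶠ τ : ℝ in cocompact ℝ, ∀ σ : ℝ, a ≤ σ → σ ≤ b → ‖F (σ + τ * Complex.I)‖ ≤ g τ) :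
    ∫ τ : ℝ, F (a + τ * Complex.I) = ∫ τ : ℝ, F (b + τ * Complex.I) := by
  have hz : Tendsto (fun τ : ℝ => ∫ x in a..b, F (x + τ * Complex.I)) (cocompact ℝ) (𝓝 0) := by
    refine squeeze_zero_norm' (a := fun τ => g τ * |b - a|) (hb.mono fun τ hτ => ?_)
      (by simpa using hg0.mul_const |b - a|)
    refine intervalIntegral.norm_integral_le_of_norm_le_const fun x hx => ?_
    rw [Set.uIoc_of_le hab] at hx
    exact hτ x hx.1.le hx.2
  have h1 : Tendsto (fun T : ℝ => T) atTop (cocompact ℝ) := atTop_le_cocompact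
  have h2 : Tendsto (fun T : ℝ => -T) atTop (cocompact ℝ) :=
    tendsto_neg_atTop_atBot.mono_right atBot_le_cocompact
  have h3 := (((hz.comp h2).sub (hz.comp h1)).add
    ((intervalIntegral_tendsto_integral ib tendsto_neg_atTop_atBot tendsto_id).const_smul
      Complex.I)).sub
    ((intervalIntegral_tendsto_integral ia tendsto_neg_atTop_atBot tendsto_id).const_smul Complex.I)
  have h4 := tendsto_nhds_unique h3 (tendsto_const_nhds (x := 0) |>.congr fun T => by
    have := Complex.integral_boundary_rect_eq_zero_of_differentiableOn F ⟨a, -T⟩ ⟨b, T⟩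
      (hF.mono fun s hs => by
        have h := hs.1
        simp only [Set.uIcc_of_le hab, Set.mem_preimage] at h
        exact h)
    exact this.symm)
  rw [sub_zero, zero_add, ← smul_sub, smul_eq_zero, sub_eq_zero] at h4
  exact (h4.resolve_left Complex.I_ne_zero).symm

theorem ct_int {F : ℂ → ℂ} {a b σ : ℝ} (h1 : a ≤ σ) (h2 : σ ≤ b)
    (hF : ContinuousOn F {s | a ≤ s.re ∧ s.re ≤ b}) {g : ℝ → ℝ} (hg : Integrable g)
    (hb : ∀ τ : ℝ, ‖F (σ + τ * Complex.I)‖ ≤ g τ) :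
    Integrable fun τ : ℝ => F (σ + τ * Complex.I) :=
  hg.mono' (hF.comp_continuous (by fun_prop) fun τ => by simp [h1, h2]).aestronglyMeasurable
    (Filter.Eventually.of_forall hb)

theorem ct_lor {p : ℝ} (hp : 0 < p) :
    Integrable (fun u : ℝ => p / (p ^ 2 + u ^ 2)) ∧ ∫ u : ℝ, p / (p ^ 2 + u ^ 2) = Real.pi := by
  have e : (fun u : ℝ => p / (p ^ 2 + u ^ 2)) =
      fun u => p⁻¹ * (fun x : ℝ => (1 + x ^ 2)⁻¹) (u / p) := by
    funext u
    field_simp
  rw [e]
  refine ⟨(integrable_inv_one_add_sq.comp_div hp.ne').const_mul _, ?_⟩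
  rw [integral_const_mul, Measure.integral_comp_div (fun x : ℝ => (1 + x ^ 2)⁻¹),
    integral_univ_inv_one_add_sq, abs_of_pos hp, smul_eq_mul, inv_mul_cancel_left₀ hp.ne']

theorem ct_ne {p : ℝ} (hp : p ≠ 0) (u : ℝ) : (p : ℂ) + u * Complex.I ≠ 0 := fun h =>
  hp (by simpa using congrArg Complex.re h)

theorem ct_ker {p p' : ℝ} (hp : p ≠ 0) (h : |p| ≤ p') :
    Integrable (fun u : ℝ => 1 / ((p : ℂ) + u * Complex.I) - 1 / (p' + u * Complex.I)) ∧
    ∫ u : ℝ, (1 / ((p : ℂ) + u * Complex.I) - 1 / (p' + u * Complex.I)) =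
      ((∫ u : ℝ, p / (p ^ 2 + u ^ 2) : ℝ) : ℂ) - Real.pi := by
  have h0 : 0 < |p| := abs_pos.2 hp
  have hp' : 0 < p' := h0.trans_le h
  have i0 : Integrable fun u : ℝ => p / (p ^ 2 + u ^ 2) := by
    refine (ct_lor h0).1.mono' (Measurable.aestronglyMeasurable (by fun_prop))
      (Filter.Eventually.of_forall fun u => ?_)
    rw [Real.norm_eq_abs, abs_div, sq_abs, abs_of_nonneg (by positivity : 0 ≤ p ^ 2 + u ^ 2)]
  have i1 : Integrable fun u : ℝ => 1 / ((p : ℂ) + u * Complex.I) - 1 / (p' + u * Complex.I) := by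
    refine (((ct_lor h0).1).const_mul (‖(p' : ℂ) - p‖ / |p|)).mono'
      (Measurable.aestronglyMeasurable (by fun_prop)) (Filter.Eventually.of_forall fun u => ?_)
    have a1 : ‖(p : ℂ) + u * Complex.I‖ ^ 2 = p ^ 2 + u ^ 2 := by
      rw [Complex.sq_norm, Complex.normSq_add_mul_I]
    have a2 : ‖(p : ℂ) + u * Complex.I‖ ≤ ‖(p' : ℂ) + u * Complex.I‖ := by
      refine (sq_le_sq₀ (norm_nonneg _) (norm_nonneg _)).1 ?_
      rw [a1, Complex.sq_norm, Complex.normSq_add_mul_I, ← sq_abs p]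
      gcongr
    have a3 := norm_pos_iff.2 (ct_ne hp u)
    rw [div_sub_div _ _ (ct_ne hp u) (ct_ne hp'.ne' u), norm_div, norm_mul, div_mul_div_comm,
      mul_comm ‖(p' : ℂ) - p‖, mul_div_mul_left _ _ h0.ne', sq_abs, ← a1,
      show (1 : ℂ) * (p' + u * Complex.I) - (p + u * Complex.I) * 1 = p' - p by ring, sq]
    gcongr
  refine ⟨i1, ?_⟩
  have h1 := integral_neg_eq_self
    (fun u : ℝ => 1 / ((p : ℂ) + u * Complex.I) - 1 / (p' + u * Complex.I)) volume
  have h2 := integral_add i1 i1.comp_neg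
  rw [h1] at h2
  have h3 : ∀ q : ℝ, q ≠ 0 → ∀ u : ℝ, 1 / ((q : ℂ) + u * Complex.I) +
      1 / ((q : ℂ) + (-u : ℝ) * Complex.I) = 2 * ((q / (q ^ 2 + u ^ 2) : ℝ) : ℂ) := by
    intro q hq u
    have e : ((q : ℂ) + u * Complex.I) * ((q : ℂ) + (-u : ℝ) * Complex.I) = q ^ 2 + u ^ 2 := by
      push_cast
      linear_combination (-(u : ℂ) ^ 2) * Complex.I_mul_I
    rw [div_add_div _ _ (ct_ne hq u) (ct_ne hq (-u)), e]
    push_cast
    ring
  have h4 : ∀ u : ℝ, (1 / ((p : ℂ) + u * Complex.I) - 1 / (p' + u * Complex.I)) +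
      (1 / ((p : ℂ) + (-u : ℝ) * Complex.I) - 1 / (p' + (-u : ℝ) * Complex.I)) =
      2 * ((p / (p ^ 2 + u ^ 2) - p' / (p' ^ 2 + u ^ 2) : ℝ) : ℂ) := fun u => by
    rw [Complex.ofReal_sub, mul_sub, ← h3 p hp, ← h3 p' hp'.ne']
    ring
  simp only [h4] at h2
  rw [integral_const_mul, integral_complex_ofReal, integral_sub i0 (ct_lor hp').1, (ct_lor hp').2,
    ← two_mul, Complex.ofReal_sub] at h2
  exact (mul_left_cancel₀ two_ne_zero h2).symm

/-- shifting a vertical contour (rectangle Cauchy theorem + limit) -/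
theorem shift_line {F : ℂ → ℂ} {a b : ℝ} (hab : a ≤ b)
    (hF : DifferentiableOn ℂ F {s | a ≤ s.re ∧ s.re ≤ b})
    {g : ℝ → ℝ} (hg : Integrable g) (hg0 : Filter.Tendsto g (Filter.cocompact ℝ) (nhds 0))
    (hb : ∀ σ τ : ℝ, a ≤ σ → σ ≤ b → ‖F (σ + τ * Complex.I)‖ ≤ g τ) :
    ∫ τ : ℝ, F (a + τ * Complex.I) = ∫ τ : ℝ, F (b + τ * Complex.I) :=
  ct_core hab hF (ct_int le_rfl hab hF.continuousOn hg fun τ => hb a τ le_rfl hab)
    (ct_int hab le_rfl hF.continuousOn hg fun τ => hb b τ hab le_rfl) hg0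
    (Filter.Eventually.of_forall fun τ σ => hb σ τ)

/-- shifting across one simple pole `s₀` of `G(s)/(s - s₀)`:
write `G(s) = G(s₀) e^{(s-s₀)²} + (s - s₀) H(s)` and use the explicit jump of
`∫ e^{w²}/w` (both sides are computed from the Gaussian Fourier transform, or use Cauchy's formula on
a rectangle). -/
theorem shift_line_pole {G : ℂ → ℂ} {a b : ℝ} {s0 : ℂ} (ha : a < s0.re) (hb : s0.re < b)
    (hG : DifferentiableOn ℂ G {s | a - 1 < s.re ∧ s.re < b + 1})
    {g : ℝ → ℝ} (hg : Integrable g) (hg0 : Filter.Tendsto g (Filter.cocompact ℝ) (nhds 0))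
    (hbd : ∀ σ τ : ℝ, a ≤ σ → σ ≤ b → ‖G (σ + τ * Complex.I)‖ ≤ g τ) :
    ∫ τ : ℝ, G (b + τ * Complex.I) / (b + τ * Complex.I - s0) =
      2 * Real.pi * G s0 + ∫ τ : ℝ, G (a + τ * Complex.I) / (a + τ * Complex.I - s0) := by
  have hab : a ≤ b := (ha.trans hb).le
  set α := s0.re - a with hα
  have hα0 : 0 < α := sub_pos.2 ha
  have hsub : {s : ℂ | a ≤ s.re ∧ s.re ≤ b} ⊆ {s | a - 1 < s.re ∧ s.re < b + 1} := fun s hs =>
    ⟨by linarith [hs.1], by linarith [hs.2]⟩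
  have hop : {s : ℂ | a - 1 < s.re ∧ s.re < b + 1} ∈ nhds s0 :=
    ((isOpen_lt continuous_const Complex.continuous_re).inter
      (isOpen_lt Complex.continuous_re continuous_const)).mem_nhds ⟨by
        change a - 1 < s0.re; linarith, by change s0.re < b + 1; linarith⟩
  set H : ℂ → ℂ := fun s => dslope G s0 s + G s0 / (s - s0 + 2 * α) with hH
  have hHd : DifferentiableOn ℂ H {s | a ≤ s.re ∧ s.re ≤ b} := by
    refine (((Complex.differentiableOn_dslope hop).2 hG).mono hsub).add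
      ((differentiableOn_const _).div (by fun_prop) fun s hs h => ?_)
    have := congrArg Complex.re h
    simp at this
    linarith [hs.1]
  have e0 : ∀ σ τ : ℝ, (σ : ℂ) + τ * Complex.I - s0 =
      (σ - s0.re : ℝ) + (τ - s0.im : ℝ) * Complex.I := fun σ τ => by
    conv_lhs => rw [← Complex.re_add_im s0]
    push_cast
    ring
  have e1 : ∀ σ τ : ℝ, (σ : ℂ) + τ * Complex.I - s0 ≠ 0 → H (σ + τ * Complex.I) =
      G (σ + τ * Complex.I) / (σ + τ * Complex.I - s0) -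
        G s0 * (1 / ((σ - s0.re : ℝ) + (τ - s0.im : ℝ) * Complex.I) -
          1 / ((σ - s0.re + 2 * α : ℝ) + (τ - s0.im : ℝ) * Complex.I)) := fun σ τ h => by
    have e2 : ((σ - s0.re + 2 * α : ℝ) : ℂ) + (τ - s0.im : ℝ) * Complex.I =
        σ + τ * Complex.I - s0 + 2 * α := by
      rw [e0]
      push_cast
      ring
    rw [e2, ← e0]
    simp only [hH]
    rw [dslope_of_ne _ (sub_ne_zero.1 h), slope_def_field]
    ring
  have line : ∀ σ : ℝ, a ≤ σ → σ ≤ b → σ - s0.re ≠ 0 → |σ - s0.re| ≤ σ - s0.re + 2 * α →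
      Integrable (fun τ : ℝ => H (σ + τ * Complex.I)) ∧ ∫ τ : ℝ, H (σ + τ * Complex.I) =
        (∫ τ : ℝ, G (σ + τ * Complex.I) / (σ + τ * Complex.I - s0)) -
          G s0 * (((∫ u : ℝ, (σ - s0.re) / ((σ - s0.re) ^ 2 + u ^ 2) : ℝ) : ℂ) - Real.pi) := by
    intro σ h1 h2 h3 h4
    have hne : ∀ τ : ℝ, (σ : ℂ) + τ * Complex.I - s0 ≠ 0 := fun τ => e0 σ τ ▸ ct_ne h3 _
    obtain ⟨k1, k2⟩ := ct_ker h3 h4
    have i1 : Integrable fun τ : ℝ => G (σ + τ * Complex.I) / (σ + τ * Complex.I - s0) := by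
      refine (hg.div_const |σ - s0.re|).mono' (Continuous.aestronglyMeasurable
        (((hG.continuousOn.mono hsub).comp_continuous (by fun_prop) fun τ => by
          simp [h1, h2]).div (by fun_prop) hne)) (Filter.Eventually.of_forall fun τ => ?_)
      rw [norm_div]
      refine div_le_div₀ ((norm_nonneg _).trans (hbd σ τ h1 h2)) (hbd σ τ h1 h2) (abs_pos.2 h3) ?_
      simpa using Complex.abs_re_le_norm ((σ : ℂ) + τ * Complex.I - s0)
    have i2 := (k1.comp_sub_right s0.im).const_mul (G s0)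
    simp only [fun τ => e1 σ τ (hne τ)]
    refine ⟨i1.sub i2, ?_⟩
    rw [integral_sub i1 i2, integral_const_mul, ← k2, integral_sub_right_eq_self
      (fun u : ℝ => 1 / (((σ - s0.re : ℝ) : ℂ) + u * Complex.I) -
        1 / ((σ - s0.re + 2 * α : ℝ) + u * Complex.I))]
  obtain ⟨ia, ja⟩ := line a le_rfl hab (by linarith) (abs_le.2 ⟨by linarith, by linarith⟩)
  obtain ⟨ib, jb⟩ := line b hab le_rfl (by linarith) (abs_le.2 ⟨by linarith, by linarith⟩)
  have hT : Filter.Tendsto (fun τ : ℝ => |τ - s0.im|) (Filter.cocompact ℝ) Filter.atTop :=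
    (tendsto_norm_cocompact_atTop (E := ℝ)).comp
      (Homeomorph.subRight s0.im).isClosedEmbedding.tendsto_cocompact
  have key := ct_core hab hHd ia ib (g := fun τ => g τ + ‖G s0‖ * (2 * |τ - s0.im|⁻¹))
    (by simpa using hg0.add ((hT.inv_tendsto_atTop.const_mul 2).const_mul ‖G s0‖))
    ((hT.eventually_ge_atTop 1).mono fun τ hτ σ h1 h2 => by
      have a1 : ∀ p : ℝ, |τ - s0.im| ≤ ‖(p : ℂ) + (τ - s0.im : ℝ) * Complex.I‖ := fun p => by
        simpa using Complex.abs_im_le_norm ((p : ℂ) + (τ - s0.im : ℝ) * Complex.I)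
      have a2 : ∀ p : ℝ, ‖1 / ((p : ℂ) + (τ - s0.im : ℝ) * Complex.I)‖ ≤ |τ - s0.im|⁻¹ :=
        fun p => by
          rw [one_div, norm_inv]
          exact inv_anti₀ (by linarith) (a1 p)
      have a3 : 1 ≤ ‖(σ : ℂ) + τ * Complex.I - s0‖ := e0 σ τ ▸ hτ.trans (a1 _)
      rw [e1 σ τ (norm_pos_iff.1 (by linarith))]
      refine norm_sub_le_of_le ?_ ?_
      · rw [norm_div]
        exact (div_le_self (norm_nonneg _) a3).trans (hbd σ τ h1 h2)
      · rw [norm_mul, two_mul |τ - s0.im|⁻¹]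
        exact mul_le_mul_of_nonneg_left (norm_sub_le_of_le (a2 _) (a2 _)) (norm_nonneg _))
  have va : ∫ u : ℝ, (a - s0.re) / ((a - s0.re) ^ 2 + u ^ 2) = -Real.pi := by
    rw [← (ct_lor hα0).2, ← integral_neg]
    refine integral_congr_ae (Filter.Eventually.of_forall fun u => ?_)
    simp only [hα]
    ring
  rw [ja, jb, va, (ct_lor (sub_pos.2 hb)).2] at key
  push_cast at key
  linear_combination -key

end Crest.Agent.R17
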