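import Crest.Agent.R17.VoC0

/-!
# R17 / VoC3 : the expansion of a twist at an arbitrary cusp
-/

set_option autoImplicit false

noncomputable section

open scoped Classical ComplexConjugate Topology
open MeasureTheory Filter

namespace Crest.Agent.R17.Vor

/-- a `Q^∞`-element is (divisor of `Q²`) × cube.  Strong induction on `nm e`: if `p³ ∣ e` for a prime
`p`, apply the hypothesis to `e/p³`; otherwise `e ∣ Q²`
(`UniqueFactorizationMonoid.dvd_iff_emultiplicity_le`: a prime `p ∣ e` divides `Q`, and its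
multiplicity in `e` is `≤ 2`). -/
theorem cube_split {Q e : O} (hQ : Q ≠ 0) {i : ℕ} (he : e ∣ Q ^ i) :
    ∃ n2 e' : O, e = n2 * e' ^ 3 ∧ n2 ∣ Q ^ 2 := by
  induction hk : nm e using Nat.strong_induction_on generalizing e with
  | _ k ih =>
    have he0 : e ≠ 0 := ne_zero_of_dvd_ne_zero (pow_ne_zero _ hQ) he
    by_cases h : ∃ p : O, Prime p ∧ p ^ 3 ∣ e
    · obtain ⟨p, hp, e1, rfl⟩ := h
      have he1 : e1 ≠ 0 := right_ne_zero_of_mul he0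
      have hlt : nm e1 < k := by
        rw [← hk, nm_mul, b1_nm_pow]
        have h1 : nm p ≠ 1 := fun h => hp.not_isUnit (isUnit_iff_nm.2 h)
        have h2 := nm_pos hp.ne_zero
        have h3 : 2 ≤ nm p := by omega
        have h4 : 2 ^ 3 ≤ nm p ^ 3 := Nat.pow_le_pow_left h3 3
        have h5 := nm_pos he1
        nlinarith
      obtain ⟨n2, e', h1, h2⟩ := ih _ hlt ((dvd_mul_left _ _).trans he) rfl
      exact ⟨n2, p * e', by rw [h1]; ring, h2⟩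
    · refine ⟨e, 1, by ring, ?_⟩
      rw [UniqueFactorizationMonoid.dvd_iff_emultiplicity_le he0]
      intro p hp
      by_cases hpe : p ∣ e
      · have hQ' : p ∣ Q := hp.dvd_of_dvd_pow (hpe.trans he)
        have h2 : ((2 : ℕ) : ℕ∞) ≤ emultiplicity p (Q ^ 2) :=
          pow_dvd_iff_le_emultiplicity.1 (pow_dvd_pow_of_dvd hQ' 2)
        have h3 : emultiplicity p e < ((3 : ℕ) : ℕ∞) :=
          emultiplicity_lt_iff_not_dvd.2 fun h' => h ⟨p, hp, h'⟩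
        refine le_trans ?_ h2
        have h4 : ((3 : ℕ) : ℕ∞) = ((2 : ℕ) : ℕ∞) + 1 := by norm_num
        rw [h4] at h3
        exact Order.le_of_lt_add_one h3
      · rw [emultiplicity_eq_zero.2 hpe]
        exact zero_le

/-- `n(-j/q) β = σ T`.  With `A = β.a`, `c = β.c`: let `g₀` be a gcd of `qA - jc` and `qc`
(`EuclideanDomain.gcd`, `exists_row`-style Bezout), `α = (qA - jc)/g₀`, `γ = qc/g₀` coprime,
`σ = (α, *; γ, *)`; then `T = (ι σ)⁻¹ n(-j/q) ι β` has `T.c = 0`, `T.a = g₀/q`.  `g₀` is coprime to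
`c` (a common prime divides `qA`, but `c` is coprime to `q` and to `A`), so `g₀ ∣ q`. -/
theorem exists_sigma {q : O} (hq : q ≠ 0) (j : O) (β : SL O) (hc : IsCoprime β.c q) :
    ∃ (σ : SL O) (T : SL ℂ) (g0 : O), g0 ∣ q ∧ T.c = 0 ∧ T.a = toC g0 / toC q ∧
      nn (-(toC j / toC q)) * ι β = ι σ * T := by
  have hA : IsCoprime β.c β.a := ⟨-β.b, β.d, by linear_combination β.det⟩
  have hcx : IsCoprime β.c (q * β.a - j * β.c) := by
    have h1 : IsCoprime β.c (q * β.a) := hc.mul_right hA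
    have h2 := h1.add_mul_left_right (-j)
    have h3 : q * β.a + β.c * -j = q * β.a - j * β.c := by ring
    rwa [h3] at h2
  obtain ⟨g0, hg0⟩ : ∃ g0, g0 = EuclideanDomain.gcd (q * β.a - j * β.c) (q * β.c) := ⟨_, rfl⟩
  have hx : g0 ∣ q * β.a - j * β.c := hg0 ▸ EuclideanDomain.gcd_dvd_left _ _
  have hy : g0 ∣ q * β.c := hg0 ▸ EuclideanDomain.gcd_dvd_right _ _
  have hgq : g0 ∣ q := (hcx.of_isCoprime_of_dvd_right hx).symm.dvd_of_dvd_mul_right hy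
  have hg : g0 ≠ 0 := ne_zero_of_dvd_ne_zero hq hgq
  obtain ⟨u, v, huv⟩ : ∃ u v : O, g0 = (q * β.a - j * β.c) * u + q * β.c * v :=
    ⟨_, _, hg0 ▸ EuclideanDomain.gcd_eq_gcd_ab _ _⟩
  obtain ⟨α, hα⟩ := hx
  obtain ⟨γ, hγ⟩ := hy
  have hdet : α * u - -v * γ = 1 := by
    apply mul_left_cancel₀ hg
    rw [hα, hγ] at huv
    linear_combination -huv
  have hq' : toC q ≠ 0 := fun h => hq (toC_injective (by rw [h, map_zero]))
  have hα' : toC q * toC β.a - toC j * toC β.c = toC g0 * toC α := by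
    rw [← map_mul, ← map_mul, ← map_mul, ← map_sub, hα]
  have hγ' : toC q * toC β.c = toC g0 * toC γ := by rw [← map_mul, ← map_mul, hγ]
  have hdet' : toC α * toC u + toC v * toC γ = 1 := by
    rw [← map_mul, ← map_mul, ← map_add, ← map_one toC, ← hdet]
    congr 1
    ring
  refine ⟨⟨α, -v, γ, u, hdet⟩, (ι ⟨α, -v, γ, u, hdet⟩)⁻¹ * (nn (-(toC j / toC q)) * ι β), g0, hgq,
    ?_, ?_, by rw [mul_inv_cancel_left]⟩
  · simp only [SL.mul_a, SL.mul_c, SL.inv_c, SL.inv_d, ι_a, ι_c, nn]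
    field_simp
    linear_combination (-toC γ) * hα' + toC α * hγ'
  · simp only [SL.mul_a, SL.mul_c, SL.inv_a, SL.inv_b, ι_a, ι_b, ι_c, ι_d, nn, map_neg]
    field_simp
    linear_combination toC u * hα' + toC v * hγ' + toC g0 * hdet'

/-- One term: if `a` satisfies the bound of `theta_exp`, `g₀ ∣ 3Q₀` and `n = g₀² n₁ ≠ 0` with
`a n₁ ≠ 0`, then `n` has cube shape.  Write `n₁ = uλ^i m` (`exists_eq_unit_lam_prim`), `tau m ≠ 0`,
`m = m₀c³` (`tau_ne_zero`, `‖tau m‖ = √N c`), `m₀ = m₁m₀'` with `m₁ ∣ Q₀^k`, `m₀'` primary coprime to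
`Q₀` (`exists_split`), `g₀²uλ^i m₁ = n₂e³` (`cube_split`; `g₀ ∣ Q₀²`, `λ ∣ Q₀`), `c' = ec`.  Then
`‖a n₁‖ N(n)^{1/6} ≤ C √N c (N(g₀)² 3^i)^{1/6}` and `N(g₀)² 3^i ≤ N(n₂) N(e)³ ≤ N(Q₀)² N(e)³`. -/
theorem shape_term {Q0 g0 n1 : O} (hQ : Q0 ≠ 0) (h3 : (3 : O) ∣ Q0) (hg : g0 ∣ 3 * Q0)
    (hn : n1 ≠ 0) {a : O → ℂ} {C : ℝ}
    (ha : ∀ (u : O) (j : ℕ) (m : O), IsUnit u → Prim m →
      ‖a (u * lam ^ j * m)‖ ≤ C * ‖tau m‖ * N m ^ (-(1 / 6 : ℝ))) (h0 : a n1 ≠ 0) :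
    ∃ c, CubeShape Q0 (g0 ^ 2 * n1) c ∧
      ‖a n1‖ * N (g0 ^ 2 * n1) ^ (1 / 6 : ℝ) ≤ C * N Q0 * Real.sqrt (N c) := by
  obtain ⟨u, i, m, hu, hm, rfl⟩ := exists_eq_unit_lam_prim hn
  have hb := ha u i m hu hm
  have hpos : 0 < ‖a (u * lam ^ i * m)‖ := norm_pos_iff.2 h0
  have htau : tau m ≠ 0 := by
    intro h
    rw [h, norm_zero, mul_zero, zero_mul] at hb
    linarith
  obtain ⟨m0, c, hm0, hs, hc, rfl⟩ := tau_ne_zero hm htau
  rw [rkey_norm_tau hm0 hs hc] at hb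
  obtain ⟨m1, m2, k, hm1, hm2, hcop, rfl⟩ := exists_split hQ h3 hm0.ne_zero
  have hg0 : g0 ≠ 0 := ne_zero_of_dvd_ne_zero (mul_ne_zero (by decide) hQ) hg
  have hg2 : g0 ∣ Q0 ^ 2 := hg.trans (by rw [sq]; exact mul_dvd_mul_right h3 Q0)
  have he : g0 ^ 2 * u * lam ^ i * m1 ∣ Q0 ^ (4 + i + k) := by
    rw [pow_add, pow_add]
    refine mul_dvd_mul (mul_dvd_mul ?_ (pow_dvd_pow_of_dvd (b1_lam_dvd_three.trans h3) i)) hm1
    rw [hu.mul_right_dvd, show 4 = 2 * 2 from rfl, pow_mul]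
    exact pow_dvd_pow_of_dvd hg2 2
  obtain ⟨n2, e, hne, hn2⟩ := cube_split hQ he
  have he0 : g0 ^ 2 * u * lam ^ i * m1 ≠ 0 := ne_zero_of_dvd_ne_zero (pow_ne_zero _ hQ) he
  refine ⟨e * c, ⟨n2, m2, by linear_combination m2 * c ^ 3 * hne, hn2, hm2,
    hs.of_mul_right, hcop⟩, ?_⟩
  have hNm : 0 < N (m1 * m2 * c ^ 3) := N_pos hm.ne_zero
  have hC : 0 ≤ C := by
    by_contra hC
    have h1 : 0 ≤ Real.sqrt (N c) * N (m1 * m2 * c ^ 3) ^ (-(1 / 6 : ℝ)) :=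
      mul_nonneg (Real.sqrt_nonneg _) (Real.rpow_nonneg hNm.le _)
    have h2 := mul_nonpos_of_nonpos_of_nonneg (not_le.1 hC).le h1
    rw [← mul_assoc] at h2
    linarith
  have hX : N (g0 ^ 2 * u * lam ^ i) ≤ (N Q0 * Real.sqrt (N e)) ^ 6 := by
    have h1 : N (g0 ^ 2 * u * lam ^ i) ≤ N (g0 ^ 2 * u * lam ^ i * m1) :=
      N_le_of_dvd he0 (dvd_mul_right _ _)
    have h2 : N n2 ≤ N Q0 ^ 2 := by rw [← N_pow]; exact N_le_of_dvd (pow_ne_zero _ hQ) hn2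
    have h3 : N Q0 ^ 2 ≤ N Q0 ^ 6 := pow_le_pow_right₀ (one_le_N hQ) (by norm_num)
    have h4 : Real.sqrt (N e) ^ 6 = N e ^ 3 := by
      rw [show 6 = 2 * 3 from rfl, pow_mul, Real.sq_sqrt (N_nonneg _)]
    rw [hne, N_mul n2, N_pow] at h1
    rw [mul_pow, h4]
    exact h1.trans (mul_le_mul_of_nonneg_right (h2.trans h3) (pow_nonneg (N_nonneg _) _))
  have hY : 0 ≤ N Q0 * Real.sqrt (N e) := mul_nonneg (N_nonneg _) (Real.sqrt_nonneg _)
  have hX' : N (g0 ^ 2 * u * lam ^ i) ^ (1 / 6 : ℝ) ≤ N Q0 * Real.sqrt (N e) := by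
    refine (Real.rpow_le_rpow (N_nonneg _) hX (by norm_num)).trans_eq ?_
    rw [← Real.rpow_natCast, ← Real.rpow_mul hY]
    norm_num
  have hsplit : N (g0 ^ 2 * (u * lam ^ i * (m1 * m2 * c ^ 3))) ^ (1 / 6 : ℝ) =
      N (g0 ^ 2 * u * lam ^ i) ^ (1 / 6 : ℝ) * N (m1 * m2 * c ^ 3) ^ (1 / 6 : ℝ) := by
    rw [← Real.mul_rpow (N_nonneg _) (N_nonneg _), ← N_mul]
    congr 2
    ring
  have hinv : N (m1 * m2 * c ^ 3) ^ (-(1 / 6 : ℝ)) * N (m1 * m2 * c ^ 3) ^ (1 / 6 : ℝ) = 1 := by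
    rw [← Real.rpow_add hNm]
    simp
  rw [hsplit, N_mul e c, Real.sqrt_mul (N_nonneg _)]
  calc _ ≤ C * Real.sqrt (N c) * N (m1 * m2 * c ^ 3) ^ (-(1 / 6 : ℝ)) *
        (N Q0 * Real.sqrt (N e) * N (m1 * m2 * c ^ 3) ^ (1 / 6 : ℝ)) :=
        mul_le_mul hb (mul_le_mul_of_nonneg_right hX' (Real.rpow_nonneg hNm.le _))
          (mul_nonneg (Real.rpow_nonneg (N_nonneg _) _) (Real.rpow_nonneg hNm.le _))
          (hpos.le.trans hb)
    _ = C * N Q0 * (Real.sqrt (N e) * Real.sqrt (N c)) := by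
        linear_combination C * N Q0 * Real.sqrt (N e) * Real.sqrt (N c) * hinv

/-- **Expansion at a cusp.**  `q = 3Q₀`, `Q' = 81Q₀² = 9q²`.  For each `j ∈ res (3q)` use
`exists_sigma`, `theta_exp` for `σ_j` (`M = 9`) and `HasExp.upperTri` with `k = g₀²`, `M' = 9q²`
(`(g₀/q)²/9 = g₀²/(9q²)`, `‖T.a‖ ≤ 1`); then `HasExp.sum`, `HasExp.smul`.  `‖gs (3q) f j‖ ≤ N(3q)`
(`norm_gs_le`), so `‖g n‖ ≤ ∑_j ‖term_j n‖ ≤ N(9Q₀) max_j`; take `c` from the maximal term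
(`Finset.exists_max_image`, `shape_term`). -/
theorem cusp_exp : ∃ C : ℝ, 0 ≤ C ∧ ∀ Q0 : O, Q0 ≠ 0 → (3 : O) ∣ Q0 → ∀ f : O → ℂ,
    (∀ n, ‖f n‖ ≤ 1) → ∀ β : SL O, IsCoprime β.c Q0 → ∃ g : O → ℂ,
      HasExp (fun w => twist (3 * Q0) f (act (ι β) w)) (81 * Q0 ^ 2) g ∧ ‖g 0‖ ≤ C * N Q0 ∧
      ∀ n, n ≠ 0 → g n ≠ 0 → ∃ c, CubeShape Q0 n c ∧
        ‖g n‖ * N n ^ (1 / 6 : ℝ) ≤ C * N Q0 ^ 2 * Real.sqrt (N c) := by
  obtain ⟨C, hC⟩ := theta_exp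
  choose a ha ha0 hab using hC
  have hC0 : 0 ≤ C := (norm_nonneg _).trans (ha0 1)
  refine ⟨81 * C, by positivity, fun Q0 hQ h3 f hf β hc => ?_⟩
  have h30 : (3 : O) ≠ 0 := by decide
  have hq : 3 * Q0 ≠ 0 := mul_ne_zero h30 hQ
  have hqq : 3 * (3 * Q0) ≠ 0 := mul_ne_zero h30 hq
  have hc' : IsCoprime β.c (3 * Q0) := (hc.of_isCoprime_of_dvd_right h3).mul_right hc
  choose σ T g0 hg hTc hTa hT using fun j => exists_sigma hq j β hc'
  have hg0 : ∀ j, g0 j ≠ 0 := fun j => ne_zero_of_dvd_ne_zero hq (hg j)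
  have hQ' : toC Q0 ≠ 0 := fun h => hQ (toC_injective (by rw [h, map_zero]))
  have hM : ∀ j, (T j).a ^ 2 / toC 9 = toC (g0 j ^ 2) / toC (81 * Q0 ^ 2) := by
    intro j
    rw [hTa j]
    simp only [map_mul, map_pow, map_ofNat]
    field_simp
    ring
  obtain ⟨b, hb⟩ : ∃ b : O → O → ℂ, b = fun j n => if g0 j ^ 2 ∣ n then
      a (σ j) (n / g0 j ^ 2) * ((‖(T j).a‖ ^ (4 / 3 : ℝ) : ℝ) : ℂ) *
        ee (toC (n / g0 j ^ 2) * ((T j).a * (T j).b) / toC 9) else 0 := ⟨_, rfl⟩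
  have hexp : ∀ j, HasExp
      (fun w => theta (act (nn (-(toC j / toC (3 * Q0)))) (act (ι β) w))) (81 * Q0 ^ 2) (b j) := by
    intro j
    refine ((ha (σ j)).upperTri (T j) (hTc j) (pow_ne_zero 2 (hg0 j)) (hM j)).congr (fun w => ?_)
      (fun n => by rw [hb])
    rw [← act_mul, ← act_mul, hT j]
  have hT1 : ∀ j, ‖(T j).a‖ ^ (4 / 3 : ℝ) ≤ 1 := by
    intro j
    refine Real.rpow_le_one (norm_nonneg _) ?_ (by norm_num)
    rw [hTa j, norm_div, norm_toC, norm_toC]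
    exact div_le_one_of_le₀ (Real.sqrt_le_sqrt (N_le_of_dvd hq (hg j))) (Real.sqrt_nonneg _)
  have hbn : ∀ j n1, ‖b j (g0 j ^ 2 * n1)‖ ≤ ‖a (σ j) n1‖ := by
    intro j n1
    rw [hb]
    simp only [dvd_mul_right, if_true]
    rw [mul_div_cancel_left₀ _ (pow_ne_zero 2 (hg0 j)), norm_mul, norm_mul, norm_ee, mul_one,
      Complex.norm_real, Real.norm_of_nonneg (Real.rpow_nonneg (norm_nonneg _) _)]
    exact mul_le_of_le_one_right (norm_nonneg _) (hT1 j)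
  have hN : N (3 * (3 * Q0)) = 81 * N Q0 := by
    have : N 3 = 9 := by
      unfold N
      rw [show nm (3 : O) = 9 by decide]
      norm_num
    rw [N_mul, N_mul, this]
    ring
  have hNpos : 0 < N (3 * (3 * Q0)) := N_pos hqq
  have hsum : ∀ (n : O) (B : ℝ), (∀ j ∈ res (3 * (3 * Q0)), ‖b j n‖ ≤ B) →
      ‖(N (3 * (3 * Q0)) : ℂ)⁻¹ * ∑ j ∈ res (3 * (3 * Q0)), gs (3 * (3 * Q0)) f j * b j n‖ ≤
        81 * N Q0 * B := by
    intro n B hB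
    have h1 : ‖∑ j ∈ res (3 * (3 * Q0)), gs (3 * (3 * Q0)) f j * b j n‖ ≤
        N (3 * (3 * Q0)) * (N (3 * (3 * Q0)) * B) := by
      refine (norm_sum_le _ _).trans ((Finset.sum_le_card_nsmul _ _ (N (3 * (3 * Q0)) * B)
        fun j hj => ?_).trans_eq ?_)
      · rw [norm_mul]
        exact mul_le_mul (norm_gs_le hqq hf j) (hB j hj) (norm_nonneg _) hNpos.le
      · rw [card_res hqq, nsmul_eq_mul]
        rfl
    rw [norm_mul, norm_inv, Complex.norm_real, Real.norm_of_nonneg hNpos.le, ← hN,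
      inv_mul_le_iff₀ hNpos]
    exact h1
  refine ⟨fun n => (N (3 * (3 * Q0)) : ℂ)⁻¹ *
    ∑ j ∈ res (3 * (3 * Q0)), gs (3 * (3 * Q0)) f j * b j n, ?_, ?_, fun n hn hgn => ?_⟩
  · exact (HasExp.sum _ fun j _ => (hexp j).smul (gs (3 * (3 * Q0)) f j)).smul _
  · refine (hsum 0 C fun j _ => ?_).trans_eq (by ring)
    have := hbn j 0
    rw [mul_zero] at this
    exact this.trans (ha0 _)
  · have hne : (res (3 * (3 * Q0))).Nonempty := by
      rw [← Finset.card_pos, card_res hqq]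
      exact nm_pos hqq
    obtain ⟨j, -, hj⟩ := Finset.exists_max_image (res (3 * (3 * Q0))) (fun j => ‖b j n‖) hne
    have h1 := hsum n _ hj
    have hbj : b j n ≠ 0 := by
      intro h
      rw [h, norm_zero, mul_zero] at h1
      exact hgn (norm_le_zero_iff.1 h1)
    have hdvd : g0 j ^ 2 ∣ n := by
      by_contra h
      apply hbj
      rw [hb]
      exact if_neg h
    obtain ⟨n1, rfl⟩ := hdvd
    have h2 := hbn j n1
    have ha1 : a (σ j) n1 ≠ 0 := by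
      intro h
      rw [h, norm_zero] at h2
      exact hbj (norm_le_zero_iff.1 h2)
    obtain ⟨c, hshape, hle⟩ := shape_term hQ h3 (hg j) (right_ne_zero_of_mul hn) (hab (σ j)) ha1
    refine ⟨c, hshape, ?_⟩
    have h81 : 0 ≤ 81 * N Q0 := mul_nonneg (by norm_num) (N_nonneg _)
    have hr : 0 ≤ N (g0 j ^ 2 * n1) ^ (1 / 6 : ℝ) := Real.rpow_nonneg (N_nonneg _) _
    calc _ ≤ 81 * N Q0 * ‖a (σ j) n1‖ * N (g0 j ^ 2 * n1) ^ (1 / 6 : ℝ) :=
          mul_le_mul_of_nonneg_right (h1.trans (mul_le_mul_of_nonneg_left h2 h81)) hr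
      _ = 81 * N Q0 * (‖a (σ j) n1‖ * N (g0 j ^ 2 * n1) ^ (1 / 6 : ℝ)) := by ring
      _ ≤ 81 * N Q0 * (C * N Q0 * Real.sqrt (N c)) := mul_le_mul_of_nonneg_left hle h81
      _ = _ := by ring

end Crest.Agent.R17.Vor
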