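import Crest.Agent.R17.VoC2
import Crest.Agent.R17.VoC3
import Crest.Agent.R17.VoC5

/-!
# R17 / VoC6 : the master functional equation for twisted cubic theta coefficients

`Q' = 81 Q₀²`, `R₁ = -3Q'`, `R₂ = Q'²`.
-/

set_option autoImplicit false

noncomputable section

open scoped Classical ComplexConjugate Topology
open MeasureTheory Filter

namespace Crest.Agent.R17.Vor

/-- `HasFE` is homogeneous -/
theorem HasFE.smul {ℓ : ℤ} {a b : O → ℂ} {ρ : ℝ} {R : ℂ} (h : HasFE ℓ a b ρ R) (c : ℂ) :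
    HasFE ℓ (fun n => c * a n) (fun n => c * b n) ρ (c * R) := by
  obtain ⟨E, hE, hG, ⟨σ0, h0⟩, σ1, h1⟩ := h
  refine ⟨fun s => c * E s, hE.const_mul c, fun a b => ?_, ⟨σ0, fun s hs => ?_⟩, σ1, fun s hs => ?_⟩
  · obtain ⟨C, hC⟩ := hG a b
    refine ⟨(‖c‖ + 1) * |C|, fun s ha hb => ?_⟩
    have h2 : C ≤ (‖c‖ + 1) * |C| := (le_abs_self C).trans
      (le_mul_of_one_le_left (abs_nonneg C) (by linarith [norm_nonneg c]))
    rw [norm_mul, mul_assoc]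
    refine mul_le_mul (by linarith) ((hC s ha hb).trans ?_) (norm_nonneg _) (by positivity)
    gcongr
    exact le_abs_self C
  · rw [vh1_mul, ← h0 s hs]
    ring
  · rw [vh1_mul, mul_left_comm, ← h1 s hs]
    ring

/-- `HasFE` only sees the values at `n ≠ 0` -/
theorem HasFE.congr {ℓ : ℤ} {a b a' b' : O → ℂ} {ρ : ℝ} {R : ℂ} (h : HasFE ℓ a b ρ R)
    (ha : ∀ n, n ≠ 0 → a n = a' n) (hb : ∀ n, n ≠ 0 → b n = b' n) : HasFE ℓ a' b' ρ R := by
  obtain ⟨E, hE, hG, ⟨σ0, h0⟩, σ1, h1⟩ := h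
  exact ⟨E, hE, hG, ⟨σ0, fun s hs => (h0 s hs).trans (vh1_congr ha s)⟩, σ1, fun s hs => by
    rw [h1 s hs, vh1_congr hb]⟩

theorem vc6_iff {c u s : O} (h : c ∣ u * s - 1) (y : O) : c ∣ u * y - 1 ↔ c ∣ y - s := by
  refine ⟨fun h1 => ?_, fun h1 => ?_⟩
  · rw [show y - s = s * (u * y - 1) - y * (u * s - 1) by ring]
    exact dvd_sub (h1.mul_left s) (h.mul_left y)
  · rw [show u * y - 1 = u * (y - s) + (u * s - 1) by ring]
    exact dvd_add (h1.mul_left u) h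

/-- re-indexing a Gauss sum by inverses: `x ↦ i x` permutes the invertible residues.
Proof: both sides equal `∑_{x, y ∈ res c} [c ∣ R x y - 1] ψ y · ad c (n y)` (for fixed `x` coprime
to `c` exactly `y ≡ i x` contributes and `ψ (i x) = conj ψ(R x)`; for fixed `y` coprime to `c` exactly
one `x` contributes; the other terms vanish); `rkey_ind`, `exists_res`, `res_inj`. -/
theorem sum_inv_gs {c R : O} (hc : c ≠ 0) (hR : IsCoprime R c) {ψ : O → ℂ} (hψ : IsChar c ψ)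
    {i : O → O} (hi : ∀ x, IsCoprime x c → c ∣ R * x * i x - 1) (n : O) :
    ∑ x ∈ res c, conj (ψ (R * x)) * ad c (n * i x) = gs c ψ n := by
  have hnc : ∀ x y, c ∣ R * x * y - 1 → IsCoprime x c ∧ IsCoprime y c := fun x y ⟨t, ht⟩ =>
    ⟨⟨R * y, -t, by linear_combination ht⟩, ⟨R * x, -t, by linear_combination ht⟩⟩
  calc _ = ∑ x ∈ res c, ∑ y ∈ res c, if c ∣ R * x * y - 1 then ψ y * ad c (n * y) else 0 := by
        refine Finset.sum_congr rfl fun x _ => ?_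
        by_cases hx : IsCoprime x c
        · simp only [vc6_iff (hi x hx)]
          rw [rkey_ind hc (hψ.per.mul (ad_per c n))]
          have h1 : ψ (R * x) * ψ (i x) = 1 := by rw [← hψ.mul, hψ.per.congr (hi x hx), hψ.one]
          have h2 := rkey_mul_conj (hψ.norm_eq_one hc (hR.mul_left hx))
          linear_combination ad c (n * i x) * (ψ (i x) * h2 - conj (ψ (R * x)) * h1)
        · rw [hψ.mul, (hψ.zero_iff x).2 hx, mul_zero, map_zero, zero_mul]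
          exact (Finset.sum_eq_zero fun y _ => if_neg fun h => hx (hnc x y h).1).symm
    _ = _ := by
        rw [Finset.sum_comm]
        refine Finset.sum_congr rfl fun y _ => ?_
        by_cases hy : IsCoprime y c
        · obtain ⟨u, v, huv⟩ := hR.mul_left hy
          have h1 : c ∣ R * y * u - 1 := ⟨-v, by linear_combination huv⟩
          simp only [mul_right_comm R _ y, vc6_iff h1]
          exact rkey_ind hc (g := fun _ => ψ y * ad c (n * y)) (fun _ _ => rfl) u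
        · rw [(hψ.zero_iff y).2 hy, zero_mul]
          exact Finset.sum_eq_zero fun x _ => ite_self _

/-- the geometric identity `n(A/c) = β · diag-translate · S`:
for `β = (A b; c D) ∈ SL₂(ℂ)`, `c ≠ 0`: `n(A/c) = β * T * S⁻¹...`; concretely
`act (nn (A/c)) w = act β (act T (act SS w))` with `T = (1/c, -D; 0, c)`, since
`β T S = (A/c, b c - A D; 1, 0)(0 -1; 1 0) = (-1, -A/c; 0, -1) = - n(A/c)` and `act (-g) = act g`. -/
theorem act_beta (β : SL ℂ) (hc : β.c ≠ 0) : ∃ T : SL ℂ, T.c = 0 ∧ T.a = β.c⁻¹ ∧ T.b = -β.d ∧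
    ∀ w, act (nn (β.a / β.c)) w = act β (act T (act SS w)) := by
  refine ⟨⟨β.c⁻¹, -β.d, 0, β.c, by rw [inv_mul_cancel₀ hc]; ring⟩, rfl, rfl, rfl, fun w => ?_⟩
  rw [← act_mul, ← act_mul, ← pt_zc_vc w, act_nn _ _ (vc_pos w), act_upper _ ?_ _ (vc_pos w)]
  · simp only [SL.mul_a, SL.mul_b, SS]
    rw [show (β.a * β.c⁻¹ + β.b * 0) * 0 + (β.a * -β.d + β.b * β.c) * 1 = -1 by
      linear_combination -β.det]
    congr 1
    · ring
    · simp
  · simp only [SL.mul_c, SL.mul_d, SS]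
    ring

theorem vc6_beta {Q c x : O} (h : IsCoprime Q c) (hx : IsCoprime x c) :
    ∃ (a : O) (β : SL O), β.a = Q * a ∧ β.c = c ∧ β.d = -(Q * x) := by
  obtain ⟨u, v, huv⟩ := h.mul_left (h.mul_left hx)
  exact ⟨-u, ⟨Q * -u, -v, c, -(Q * x), by linear_combination huv⟩, rfl, rfl, rfl⟩

theorem vc6_co {c Q0 : O} (hc : Prim c) (h : IsCoprime c Q0) : IsCoprime (81 * Q0 ^ 2) c := by
  rw [show (81 : O) = 3 ^ 4 by norm_num]
  exact (hc.isCoprime_three.pow_right.mul_right h.pow_right).symm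

/-- the twisting function -/
def vc6_f (φ : O → ℂ) (n : O) : ℂ := if Prim n then φ n * conj (cub n lam) else 0

theorem vc6_f_le {φ : O → ℂ} (h : ∀ m, ‖φ m‖ ≤ 1) (n : O) : ‖vc6_f φ n‖ ≤ 1 := by
  unfold vc6_f
  split_ifs with hn
  · rw [norm_mul]
    exact mul_le_one₀ (h n) (norm_nonneg _) ((va2_isChar hn).conj.norm_le hn.ne_zero _)
  · simp

theorem vc6_f_per {Q0 : O} {φ : O → ℂ} (h : Per Q0 φ) : Per (3 * (3 * Q0)) (vc6_f φ) := by
  intro x t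
  have h1 : Prim (x + 3 * (3 * Q0) * t) ↔ Prim x := voar_prim_congr ⟨3 * Q0 * t, by ring⟩
  unfold vc6_f
  by_cases hx : Prim x
  · rw [if_pos hx, if_pos (h1.2 hx), cub_lam_congr (h1.2 hx) hx ⟨Q0 * t, by ring⟩,
      h.congr (y := x) ⟨9 * t, by ring⟩]
  · rw [if_neg hx, if_neg (mt h1.1 hx)]

theorem vc6_poly {a b : O → ℂ} (ha : PolyBd a) {K : ℝ} (hb : ∀ n, ‖b n‖ ≤ K) :
    PolyBd fun n => a n * b n := by
  obtain ⟨C, j, h⟩ := ha
  refine ⟨C * K, j, fun n hn => ?_⟩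
  rw [norm_mul, mul_right_comm]
  exact mul_le_mul (h n hn) (hb n) (norm_nonneg _) ((norm_nonneg _).trans (h n hn))

theorem vc6_pair {Q0 c : O} (hQ : Q0 ≠ 0) {f g ψ : O → ℂ} (hf : Per (3 * (3 * Q0)) f) {β : SL O}
    (ha : 81 * Q0 ^ 2 ∣ β.a) (hd : 81 * Q0 ^ 2 ∣ β.d) (hβ : Prim β.c)
    (hg : HasExp (fun w => twist (3 * Q0) f (act (ι β) w)) (81 * Q0 ^ 2) g) (hc : Prim c)
    (hco : IsCoprime c Q0) (hcc : 81 * Q0 ^ 2 ∣ c - β.c) (hψ : IsChar c ψ) :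
    ∃ F1 F2 : X → ℂ, HasExp F1 3 (fun n => f n * ath n * gs c ψ n) ∧
      HasExp F2 (81 * Q0 ^ 2 * c ^ 2) (fun n => g n * (cub β.c β.d *
        ((N c ^ (-(2 / 3 : ℝ)) : ℝ) : ℂ) * conj (ψ (-(3 * (81 * Q0 ^ 2)))) *
        cub c ((81 * Q0 ^ 2) ^ 2)) * gs c (fun x => conj (ψ x) * conj (cub c x)) n) ∧
      ∀ w, F1 w = F2 (act SS w) := by
  have hq : 3 * Q0 ≠ 0 := mul_ne_zero (by decide) hQ
  have hc0 := b4_toC_ne_zero hc.ne_zero
  have hQ0 := b4_toC_ne_zero (mul_ne_zero (by decide : (81 : O) ≠ 0) (pow_ne_zero 2 hQ))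
  have e9 : 9 * (3 * Q0) ^ 2 = 81 * Q0 ^ 2 := by ring
  have hQc := vc6_co hc hco
  have hχ := va2_isChar hc
  have hx : ∀ x : O, ∃ (a : O) (T : SL ℂ), T.c = 0 ∧ T.a = (toC c)⁻¹ ∧
      T.b = toC (81 * Q0 ^ 2 * x) ∧ (IsCoprime x c →
        c ∣ -(3 * (81 * Q0 ^ 2)) * x * (27 * Q0 ^ 2 * a) - 1 ∧
        ∀ w, twist (3 * Q0) f (act (nn (toC (81 * Q0 ^ 2 * a) / toC c)) w) =
          conj (cub c (-(81 * Q0 ^ 2 * x))) * cub β.c β.d *
            twist (3 * Q0) f (act (ι β) (act T (act SS w)))) := fun x => by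
    by_cases h : IsCoprime x c
    · obtain ⟨a, γ, h1, rfl, h2⟩ := vc6_beta hQc h
      obtain ⟨T, t1, t2, t3, t4⟩ := act_beta (ι γ) hc0
      refine ⟨a, T, t1, t2, by rw [t3, ι_d, h2, map_neg, neg_neg], fun _ => ⟨⟨γ.b, ?_⟩, fun w => ?_⟩⟩
      · have := γ.det
        rw [h1, h2] at this
        linear_combination this
      · rw [← h1, ← h2, ← twist_beta hq f (e9 ▸ h1 ▸ dvd_mul_right _ _)
          (e9 ▸ h2 ▸ (dvd_mul_right _ _).neg_right) hc (e9 ▸ ha) (e9 ▸ hd) hβ (e9 ▸ hcc), ← t4]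
        rfl
    · exact ⟨0, ⟨(toC c)⁻¹, _, 0, toC c, by rw [inv_mul_cancel₀ hc0]; ring⟩, rfl, rfl, rfl,
        fun h' => absurd h' h⟩
  choose a T t1 t2 t3 t4 using hx
  refine ⟨_, _, (HasExp.sum (res c) fun x _ => ((twist_exp hq hf).transl
      (toC (81 * Q0 ^ 2 * a x) / toC c)).smul (conj (ψ (-(3 * (81 * Q0 ^ 2)) * x)))).congr
      (fun _ => rfl) fun n => ?_,
    (HasExp.sum (res c) fun x _ => (hg.upperTri (M' := 81 * Q0 ^ 2 * c ^ 2) (T x) (t1 x) one_ne_zero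
      ?_).smul (conj (ψ (-(3 * (81 * Q0 ^ 2)) * x)) *
        (conj (cub c (-(81 * Q0 ^ 2 * x))) * cub β.c β.d))).congr (fun _ => rfl) fun n => ?_,
    fun w => Finset.sum_congr rfl fun x _ => ?_⟩
  · rw [← sum_inv_gs hc.ne_zero (hc.isCoprime_three.symm.mul_left hQc).neg_left hψ
      (fun x h => (t4 x h).1) n, Finset.mul_sum]
    refine Finset.sum_congr rfl fun x _ => ?_
    rw [ad, show toC n * (toC (81 * Q0 ^ 2 * a x) / toC c) / toC 3 =
      toC (n * (27 * Q0 ^ 2 * a x)) / toC c by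
        simp only [map_mul, map_ofNat]
        ring]
    ring
  · rw [t2, map_one, map_mul toC _ (c ^ 2), map_pow toC c]
    field_simp
  · rw [gs, Finset.mul_sum]
    refine Finset.sum_congr rfl fun x _ => ?_
    have h1 : ‖(toC c)⁻¹‖ ^ (4 / 3 : ℝ) = N c ^ (-(2 / 3 : ℝ)) := by
      rw [norm_inv, norm_toC, Real.sqrt_eq_rpow, ← Real.rpow_neg (N_nonneg c),
        ← Real.rpow_mul (N_nonneg c)]
      norm_num
    have h2 : ee (toC n * ((toC c)⁻¹ * toC (81 * Q0 ^ 2 * x)) / toC (81 * Q0 ^ 2)) =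
        ad c (n * x) := by
      rw [ad, map_mul toC _ x, map_mul toC n]
      congr 1
      field_simp
    rw [if_pos (one_dvd n), EuclideanDomain.div_one, t2, t3, h1, h2, hψ.mul, voar_cub_neg hc, hχ.mul,
      rkub_pow hc, ← conj_cub hc.isCoprime_three, map_mul, map_mul]
    ring
  · by_cases h : IsCoprime x c
    · rw [(t4 x h).2, mul_assoc (conj (ψ _))]
    · rw [hψ.mul, (hψ.zero_iff x).2 h, mul_zero, map_zero, zero_mul, zero_mul, zero_mul]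

/-- **Master functional equation.**  `q = 3Q₀`, `f n = [Prim n] φ n conj(cub n λ)` (periodic mod
`9Q₀`: `cub_lam_congr`), `Θ = twist q f`.  If no primary `c*` coprime to `Q₀` with `Q' ∣ c* - cs`
exists take `τ' = 0, τ0 = 0`.  Otherwise fix `β* = (Q'a*, b*; c*, Q'D*)` (Bezout for `Q'²` and `c*`,
`D* = 1`), `g` from `cusp_exp`, `G = cub c* (β*.d) · g`,
`τ' n = G n · N(n)^{1/6} ang(n)^{-ℓ} ang(Q')^ℓ (N Q'/9)^{1/3}/(kth xth)` (`n ≠ 0`),
`τ0 = [ℓ = 0] cres 9^{-2/3} G 0/(kth xth)`.  Given `c₁, ψ`: for `x` coprime to `c₁` choose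
`β_x = (Q'a_x, b_x; c₁, -Q'x)`.  `F₁ = ∑_{x ∈ res c₁} conj ψ(R₁x) Θ(n(Q'a_x/c₁) ·)` has the expansion
(`M₁ = 3`) `f n · ath n · gs c₁ ψ n` (`twist_exp`, `HasExp.transl`, `sum_inv_gs` with
`i x = 27Q₀² a_x`), and by `act_beta`, `twist_beta`, `F₁ = F₂ ∘ S` with
`F₂ = ∑_x conj ψ(R₁x) conj(cub c₁ (-Q'x)) cub c* β*.d · Θ(β* T_x ·)`, which has the expansion
(`HasExp.upperTri` with `k = 1`, `M₂ = Q'c₁²`, `T.a T.b/Q' = x/c₁`)
`G n · N(c₁)^{-2/3} conj ψ(R₁) cub c₁ R₂ · gs c₁ (conj ψ conj cub c₁) n`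
(`conj (cub c₁ Q') = cub c₁ (Q'²)`).  Apply `fe_abstract`, `ath_prim`, `HasFE.smul` with
`(kth xth)⁻¹`.  Constants are absorbed in `N Q₀ ^ B` since `N Q₀ ≥ 9`. -/
theorem vor_fe : ∃ B : ℕ, ∀ ℓ : ℤ, ∀ Q0 : O, Q0 ≠ 0 → (3 : O) ∣ Q0 →
    ∀ φ : O → ℂ, Per Q0 φ → (∀ m, ‖φ m‖ ≤ 1) → ∀ cs : O, ∃ (τ' : O → ℂ) (τ0 : ℂ),
      τ' 0 = 0 ∧
      (∀ n, τ' n ≠ 0 → ∃ c, CubeShape Q0 n c ∧ ‖τ' n‖ ≤ N Q0 ^ B * Real.sqrt (N c)) ∧
      ‖τ0‖ ≤ N Q0 ^ B ∧ (ℓ ≠ 0 → τ0 = 0) ∧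
      ∀ c1 : O, Prim c1 → IsCoprime c1 Q0 → 81 * Q0 ^ 2 ∣ c1 - cs → ∀ ψ : O → ℂ, IsChar c1 ψ →
        HasFE ℓ (prim (fun m => tau m * ang m ^ ℓ * φ m * gs c1 ψ m))
          (fun n => conj (ψ (-(3 * (81 * Q0 ^ 2)))) * cub c1 ((81 * Q0 ^ 2) ^ 2) *
            ang c1 ^ (2 * ℓ) * (τ' n * gs c1 (fun x => conj (ψ x) * conj (cub c1 x)) n))
          (N c1 ^ 2 * (9 * N (81 * Q0 ^ 2) / c0 ^ 4))
          (conj (ψ (-(3 * (81 * Q0 ^ 2)))) * cub c1 ((81 * Q0 ^ 2) ^ 2) *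
            ((N c1 ^ (-(2 / 3 : ℝ)) : ℝ) : ℂ) *
            (τ0 * gs c1 (fun x => conj (ψ x) * conj (cub c1 x)) 0)) := by
  obtain ⟨C, hC, H⟩ := cusp_exp
  have hκ : kth * xth ≠ 0 := mul_ne_zero kth_ne xth_ne
  have h9 : N 3 = 9 := by
    rw [N, show nm 3 = 9 by decide]
    norm_num
  obtain ⟨B, hB⟩ := pow_unbounded_of_one_lt
    (‖(kth * xth)⁻¹‖ * C * (N 81 + |cres * N 3 ^ (-(2 / 3 : ℝ))|)) (show (1 : ℝ) < 9 by norm_num)
  refine ⟨B + 4, fun ℓ Q0 hQ h3 φ hφ hφ1 cs => ?_⟩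
  have hN : 9 ≤ N Q0 := h9 ▸ N_le_of_dvd hQ h3
  have h81 := N_nonneg 81
  have hB' : ‖(kth * xth)⁻¹‖ * C * (N 81 + |cres * N 3 ^ (-(2 / 3 : ℝ))|) ≤ N Q0 ^ B :=
    hB.le.trans (by gcongr)
  by_cases hex : ∃ c, Prim c ∧ IsCoprime c Q0 ∧ 81 * Q0 ^ 2 ∣ c - cs
  swap
  · exact ⟨0, 0, rfl, fun n h => absurd rfl h, by rw [norm_zero]; positivity, fun _ => rfl,
      fun c h1 h2 h3 => absurd ⟨c, h1, h2, h3⟩ hex⟩
  obtain ⟨c, hc, hcQ, hcs⟩ := hex
  obtain ⟨a, β, ha, rfl, hd⟩ := vc6_beta (vc6_co hc hcQ) isCoprime_one_left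
  obtain ⟨g, hg, hg0, hg1⟩ := H Q0 hQ h3 (vc6_f φ) (vc6_f_le hφ1) β hcQ
  have hQ' : 81 * Q0 ^ 2 ≠ 0 := mul_ne_zero (by decide) (pow_ne_zero 2 hQ)
  have hK := (va2_isChar hc).norm_le hc.ne_zero β.d
  refine ⟨fun n => (kth * xth)⁻¹ * ang (3 * (81 * Q0 ^ 2)) ^ ℓ *
      (((N (81 * Q0 ^ 2) / N 3) ^ (1 / 3 : ℝ) : ℝ) : ℂ) * cub β.c β.d *
      (g n * ((N n ^ (1 / 6 : ℝ) : ℝ) : ℂ)) * ang n ^ (-ℓ),
    if ℓ = 0 then (kth * xth)⁻¹ * ((cres * N 3 ^ (-(2 / 3 : ℝ)) : ℝ) : ℂ) * cub β.c β.d * g 0 else 0,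
    by simp, fun n hn => ?_, ?_, fun h => if_neg h, fun c1 hc1 hco hcc ψ hψ => ?_⟩
  · have hn0 : n ≠ 0 := by
      rintro rfl
      exact hn (by simp)
    obtain ⟨e, he, h⟩ := hg1 n hn0 fun h => hn (by simp only [h, zero_mul, mul_zero])
    refine ⟨e, he, ?_⟩
    have h1 : (N (81 * Q0 ^ 2) / N 3) ^ (1 / 3 : ℝ) ≤ N 81 * N Q0 ^ 2 := by
      rw [← N_pow, ← N_mul, h9]
      have h2 := one_le_N hQ'
      exact (Real.rpow_le_rpow (by positivity) (div_le_self (by linarith) (by norm_num))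
        (by norm_num)).trans (Real.rpow_le_self_of_one_le h2 (by norm_num))
    have h2 := Real.rpow_nonneg (div_nonneg (N_nonneg (81 * Q0 ^ 2)) (N_nonneg 3)) (1 / 3)
    simp only [norm_mul, norm_zpow, norm_ang hn0,
      norm_ang (mul_ne_zero (by decide : (3 : O) ≠ 0) hQ'), one_zpow,
      mul_one, Complex.norm_real, Real.norm_of_nonneg h2,
      Real.norm_of_nonneg (Real.rpow_nonneg (N_nonneg n) _)]
    calc _ ≤ ‖(kth * xth)⁻¹‖ * (N 81 * N Q0 ^ 2) * 1 * (C * N Q0 ^ 2 * Real.sqrt (N e)) := by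
          have := Real.rpow_nonneg (N_nonneg n) (1 / 6)
          gcongr
      _ = ‖(kth * xth)⁻¹‖ * C * N 81 * N Q0 ^ 4 * Real.sqrt (N e) := by ring
      _ ≤ _ := by
          rw [pow_add]
          gcongr
          refine le_trans ?_ hB'
          gcongr
          exact le_add_of_nonneg_right (abs_nonneg _)
  · split_ifs
    · simp only [norm_mul, Complex.norm_real, Real.norm_eq_abs, ← abs_mul]
      calc _ ≤ ‖(kth * xth)⁻¹‖ * |cres * N 3 ^ (-(2 / 3 : ℝ))| * 1 * (C * N Q0) := by gcongr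
        _ = ‖(kth * xth)⁻¹‖ * C * |cres * N 3 ^ (-(2 / 3 : ℝ))| * N Q0 := by ring
        _ ≤ _ := by
            rw [pow_add]
            refine mul_le_mul (le_trans ?_ hB') (le_self_pow₀ (by linarith) (by norm_num))
              (by linarith) (by positivity)
            gcongr
            exact le_add_of_nonneg_left h81
    · rw [norm_zero]
      positivity
  have hc0 := hc1.ne_zero
  obtain ⟨F1, F2, e1, e2, hS⟩ := vc6_pair hQ (vc6_f_per hφ) (ha ▸ dvd_mul_right _ _)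
    (hd ▸ (dvd_mul_right _ _).neg_right) hc hg hc1 hco (by simpa using dvd_sub hcc hcs) hψ
  have b1 : PolyBd fun n => vc6_f φ n * ath n * gs c1 ψ n := by
    refine vc6_poly ⟨‖kth * xth‖, 0, fun n hn => ?_⟩ fun n => norm_gs_le hc0 (hψ.norm_le hc0) n
    rw [pow_zero, mul_one]
    by_cases hn' : Prim n
    · have h1 := congrArg norm (ath_prim hn')
      have h2 := Real.rpow_pos_of_pos (N_pos hn) (1 / 6)
      rw [norm_mul, norm_mul, norm_mul, Complex.norm_real, Real.norm_of_nonneg h2.le] at h1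
      rw [norm_mul]
      refine (mul_le_of_le_one_left (norm_nonneg _) (vc6_f_le hφ1 n)).trans
        (le_of_mul_le_mul_right (h1.trans_le ?_) h2)
      exact mul_le_mul (mul_le_of_le_one_right (norm_nonneg _)
        ((va2_isChar hn').norm_le hn _)) (norm_tau_le hn') (norm_nonneg _) (norm_nonneg _)
    · simp only [vc6_f, if_neg hn', zero_mul, norm_zero, norm_nonneg]
  have b2 : PolyBd g := by
    refine ⟨C * N Q0 ^ 2, 1, fun n hn => ?_⟩
    have h1 := one_le_N hn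
    by_cases h0 : g n = 0
    · rw [h0, norm_zero]
      positivity
    obtain ⟨e, ⟨n2, m0, he, -⟩, h⟩ := hg1 n hn h0
    have h2 : N e ≤ N n := N_le_of_dvd hn ⟨n2 * m0 * e ^ 2, by rw [he]; ring⟩
    refine (le_mul_of_one_le_right (norm_nonneg _) (Real.one_le_rpow h1 (by norm_num))).trans
      (h.trans (mul_le_mul_of_nonneg_left ?_ (by positivity)))
    rw [pow_one, Real.sqrt_le_left (by linarith)]
    nlinarith
  have hψ' := hψ.conj.norm_le hc0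
  have hχ' := (va2_isChar hc1).conj.norm_le hc0
  have key := ((fe_abstract ℓ (by decide) (mul_ne_zero hQ' (pow_ne_zero 2 hc0)) e1 e2 b1
    (vc6_poly (vc6_poly b2 fun _ => le_rfl) fun n => norm_gs_le hc0 (fun x => by
      rw [norm_mul]
      exact mul_le_one₀ (hψ' x) (norm_nonneg _) (hχ' x)) n) hS).smul (kth * xth)⁻¹)
  have h1 : (N (81 * Q0 ^ 2 * c1 ^ 2) / N 3) ^ (1 / 3 : ℝ) * N c1 ^ (-(2 / 3 : ℝ)) =
      (N (81 * Q0 ^ 2) / N 3) ^ (1 / 3 : ℝ) := by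
    have h2 := N_pos hc0
    rw [N_mul, N_pow, mul_div_right_comm, Real.mul_rpow (div_nonneg (N_nonneg _) (N_nonneg _))
      (by positivity), ← Real.rpow_natCast (N c1), ← Real.rpow_mul h2.le, mul_assoc,
      ← Real.rpow_add h2]
    norm_num
  convert key.congr (fun n hn => ?_) (fun n hn => ?_) using 1
  · rw [N_mul (81 * Q0 ^ 2), N_pow, h9]
    ring
  · split_ifs <;> ring
  · rw [prim, vc6_f]
    split_ifs with h
    · have h2 := rkey_mul_conj ((va2_isChar h).norm_eq_one hn h.isCoprime_lam.symm)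
      rw [inv_mul_eq_iff_eq_mul₀ hκ]
      linear_combination (φ n * conj (cub n lam) * gs c1 ψ n * ang n ^ ℓ) * ath_prim h +
        (kth * xth * tau n * φ n * gs c1 ψ n * ang n ^ ℓ) * h2
    · simp
  · have h2 : ang (c1 ^ 2) = ang c1 ^ 2 := by rw [sq, sq, ang_mul]
    beta_reduce
    rw [← mul_assoc 3, ang_mul _ (c1 ^ 2), h2, mul_zpow, zpow_mul, ← h1, zpow_ofNat,
      Complex.ofReal_mul]
    ring

end Crest.Agent.R17.Vor
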