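import Crest.Agent.R17.BackAux

/-!
# R17 / Back : the backward Poisson step and sixth power amplification
-/

set_option autoImplicit false

noncomputable section

open scoped Classical ComplexConjugate
open MeasureTheory

namespace Crest.Agent.R17

namespace Bk

/-- the conjugated coefficients -/
def al (β : O → ℂ) : O → ℂ := fun m => conj (β m * gt m)

theorem norm_al {Q : Lev} {β : O → ℂ} (hs : SuppSq Q 1 β) (m : O) : ‖al β m‖ = ‖β m‖ := by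
  by_cases h : β m = 0
  · simp [al, h]
  · obtain ⟨h1, h2, -⟩ := hs _ h
    rw [al, Complex.norm_conj, norm_mul, norm_gt h1.isCoprime_six h2, mul_one]

theorem supp_al {Q : Lev} {β : O → ℂ} (hs : SuppSq Q 1 β) : SuppSq Q 1 (al β) := fun n hn =>
  hs n (by rwa [← norm_ne_zero_iff, norm_al hs, norm_ne_zero_iff] at hn)

theorem rapid_al {Q : Lev} {β : O → ℂ} (hs : SuppSq Q 1 β) (hr : Rapid β) : Rapid (al β) :=
  fun j => by simpa only [norm_al hs] using hr j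

theorem norm_tsum_al (β : O → ℂ) (k : O) :
    ‖∑' m, β m * gt m * conj (chi m k)‖ = ‖∑' m, al β m * chi m k‖ := by
  rw [← Complex.norm_conj, Complex.conj_tsum]
  congr 1
  refine tsum_congr fun m => ?_
  rw [map_mul, Complex.conj_conj]
  rfl

theorem conj_N_cpow (n : O) (σ τ : ℝ) :
    conj ((N n : ℂ) ^ (-(1 / 2 : ℂ) + σ + (-τ : ℝ) * Complex.I)) =
      (N n : ℂ) ^ (-(1 / 2 : ℂ) + σ + τ * Complex.I) := by
  have h : (N n : ℂ).arg ≠ Real.pi := by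
    rw [Complex.arg_ofReal_of_nonneg (N_nonneg n)]
    exact Real.pi_pos.ne
  have h1 := Complex.cpow_conj (N n : ℂ) (-(1 / 2 : ℂ) + σ + (-τ : ℝ) * Complex.I) h
  rw [Complex.conj_ofReal] at h1
  rw [← h1]
  congr 1
  have h2 : conj (2 : ℂ) = 2 := Complex.conj_ofNat 2
  simp [h2]

theorem norm_Tsum {Q : Lev} {β : O → ℂ} (hs : SuppSq Q 1 β) {g r : O} (hg : Prim g) (hr : Prim r)
    (hP : P0 Q (g * r)) (hsq : Squarefree (g * r)) {ν0 : O → ℂ}
    (hν0 : ∀ n, P0 Q n → ν0 n = sg n (g * r)) (ν : O → ℂ) (d : O) (σ τ : ℝ) :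
    ‖Tsum (fun m => al β (g * m)) ν r 1 d σ τ‖ =
      ‖Bsum β (fun n => conj (ν n) * ν0 n) g r (d * g ^ 2) σ (-τ)‖ := by
  have h1 : Tsum (fun m => al β (g * m)) ν r 1 d σ τ =
      conj (gt (g * r)) * conj (Bsum β (fun n => conj (ν n) * ν0 n) g r (d * g ^ 2) σ (-τ)) := by
    rw [Tsum, Bsum, Complex.conj_tsum, ← tsum_mul_left]
    refine tsum_congr fun m => ?_
    rw [← mul_assoc g r m]
    by_cases hm : β (g * r * m) = 0
    · simp [al, hm]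
    obtain ⟨-, h2, -, h3, h4⟩ := supp hs (hg.mul hr) hm
    have h5 := rkey_chi h2.isCoprime_six
    have e1 : gt m * conj (gt m) = 1 := rkey_mul_conj (norm_gt h2.isCoprime_six h3)
    have e2 : chi m r * conj (chi m r) = 1 :=
      rkey_mul_conj (h5.norm_eq_one h2.1.ne_zero h4.of_mul_left_right)
    rw [al, gt_mul hP.1 h2.1 hP.isCoprime_two h2.isCoprime_two h4, one_mul]
    simp only [map_mul, map_pow, conj_N_cpow, Complex.conj_conj, h5.mul, ChA.IsChar_pow h5,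
      hν0 m h2, sg_comm m (g * r)]
    linear_combination (conj (β (g * r * m)) * conj (gt (g * r)) * conj (sg (g * r) m) *
      (N (r * m) : ℂ) ^ (-(1 / 2 : ℂ) + σ + τ * Complex.I) * ν m * conj (chi m d) *
      conj (chi m g) ^ 2) * ((chi m r * conj (chi m r)) ^ 2 * e1 +
        (chi m r * conj (chi m r) + 1) * e2)
  rw [h1, norm_mul, Complex.norm_conj, Complex.norm_conj, norm_gt hP.isCoprime_six hsq, one_mul]

theorem Gm_nonneg (σ τ : ℝ) : 0 ≤ Gm σ τ := norm_nonneg _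

theorem int_nonneg (σ : ℝ) {K : ℝ} (hK : 0 < K) (T : Finset O) (f : O → ℝ → ℂ) :
    0 ≤ ∫ τ : ℝ, Gm σ τ * ∑ d ∈ T, (K * N d) ^ (-σ) * ‖f d τ‖ ^ 2 :=
  integral_nonneg fun τ => mul_nonneg (Gm_nonneg σ τ) (Finset.sum_nonneg fun d _ =>
    mul_nonneg (Real.rpow_nonneg (mul_nonneg hK.le (N_nonneg d)) _) (sq_nonneg _))

theorem T_le_B {Q : Lev} {β : O → ℂ} (hs : SuppSq Q 1 β) {g r : O} (hg : Prim g) (hr : Prim r)
    (σ : ℝ) {K : ℝ} (hK : 0 < K) (T : Finset O) :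
    ∑ ν ∈ hchars Q.q, ∫ τ : ℝ, Gm σ τ * ∑ d ∈ T,
        (K * N d) ^ (-σ) * ‖Tsum (fun m => al β (g * m)) ν r 1 d σ τ‖ ^ 2 ≤
      ∑ ν ∈ hchars Q.q, ∫ τ : ℝ, Gm σ τ * ∑ d ∈ T,
        (K * N d) ^ (-σ) * ‖Bsum β ν g r (d * g ^ 2) σ τ‖ ^ 2 := by
  have hnn : ∀ ν, 0 ≤ ∫ τ : ℝ, Gm σ τ * ∑ d ∈ T,
      (K * N d) ^ (-σ) * ‖Bsum β ν g r (d * g ^ 2) σ τ‖ ^ 2 := fun ν =>
    int_nonneg σ hK T fun d τ => Bsum β ν g r (d * g ^ 2) σ τ
  by_cases h0 : ∀ m, β (g * r * m) = 0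
  · refine le_trans (le_of_eq ?_) (Finset.sum_nonneg fun ν _ => hnn ν)
    simp [Tsum, al, ← mul_assoc, h0]
  push Not at h0
  obtain ⟨m0, hm0⟩ := h0
  obtain ⟨hP, -, hsq, -, -⟩ := supp hs (hg.mul hr) hm0
  obtain ⟨ν0, hν0, hν0'⟩ := exists_hchar_sg Q hP.isCoprime_two
  have hinj : Set.InjOn (fun (ν : O → ℂ) (n : O) => conj (ν n) * ν0 n) (hchars Q.q) := by
    intro ν hν ν' hν' h
    funext n
    by_cases hn : IsCoprime n Q.q
    · have h1 : ν0 n ≠ 0 := fun h2 => ((((mem_hchars Q.ne).1 hν0).1.zero_iff n).1 h2) hn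
      exact star_injective (mul_right_cancel₀ h1 (congrFun h n))
    · rw [(((mem_hchars Q.ne).1 hν).1.zero_iff n).2 hn, (((mem_hchars Q.ne).1 hν').1.zero_iff n).2 hn]
  refine le_trans (le_of_eq ?_) (Finset.sum_le_sum_of_subset_of_nonneg
    (s := (hchars Q.q).image fun (ν : O → ℂ) (n : O) => conj (ν n) * ν0 n) (fun ν hν => ?_)
    fun ν _ _ => hnn ν)
  · rw [Finset.sum_image hinj]
    refine Finset.sum_congr rfl fun ν _ => ?_
    rw [← integral_neg_eq_self]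
    simp only [norm_Tsum hs hg hr hP hsq hν0', Gm_neg, neg_neg]
  · obtain ⟨ν', h1, rfl⟩ := Finset.mem_image.1 hν
    exact mul_mem_hchars Q (conj_mem_hchars Q h1) hν0

theorem tsum_dilate_le {β : O → ℂ} (hr : Rapid β) {a : O} (ha : a ≠ 0) (j : ℕ) :
    Summable (fun m => ‖β (a * m)‖ * N (a * m) ^ j) ∧
      ∑' m, ‖β (a * m)‖ * N (a * m) ^ j ≤ mom β j :=
  ⟨(hr j).comp_injective (mul_right_injective₀ ha),
    tsum_comp_le_tsum_of_inj (hr j) (fun n => mul_nonneg (norm_nonneg _) (pow_nonneg (N_nonneg n) j))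
      (mul_right_injective₀ ha)⟩

theorem norm_Bsum_le {Q : Lev} {β : O → ℂ} (hs : SuppSq Q 1 β) (hβ : Rapid β) {g r : O}
    (hg : Prim g) (hr : Prim r) {ν : O → ℂ} (hν : ν ∈ hchars Q.q) (d : O) {σ : ℝ} (hσ : σ ≤ 1)
    (τ : ℝ) : ‖Bsum β ν g r d σ τ‖ ≤ (N r)⁻¹ * mom β 2 := by
  obtain ⟨h1, h2⟩ := tsum_dilate_le hβ (hg.mul hr).ne_zero 2
  have hr0 := N_pos hr.ne_zero
  refine le_trans ?_ (mul_le_mul_of_nonneg_left h2 (inv_nonneg.2 hr0.le))
  rw [← tsum_mul_left]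
  refine tsum_of_norm_bounded (h1.mul_left _).hasSum fun m => ?_
  by_cases hm : β (g * r * m) = 0
  · simp [hm]
  obtain ⟨-, h3, -, -, -⟩ := supp hs (hg.mul hr) hm
  have p1 := one_le_N hg.ne_zero
  have p2 := one_le_N hr.ne_zero
  have p3 := one_le_N h3.1.ne_zero
  have p4 := one_le_N (hr.mul h3.1).ne_zero
  have e1 : ‖(N (r * m) : ℂ) ^ (-(1 / 2 : ℂ) + σ + τ * Complex.I)‖ ≤ N (r * m) := by
    rw [Complex.norm_cpow_eq_rpow_re_of_pos (by linarith)]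
    conv_rhs => rw [← Real.rpow_one (N (r * m))]
    refine Real.rpow_le_rpow_of_exponent_le p4 ?_
    simp
    linarith
  have e2 : N (r * m) ≤ (N r)⁻¹ * N (g * r * m) ^ 2 := by
    rw [← div_eq_inv_mul, le_div_iff₀ hr0, N_mul, N_mul, N_mul]
    have a1 : N r * N m ≤ N g * N r * N m := by nlinarith [mul_pos hr0 (zero_lt_one.trans_le p3)]
    have a2 : N r ≤ N g * N r * N m := by nlinarith
    rw [sq]
    exact mul_le_mul a1 a2 hr0.le (by positivity)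
  rw [norm_mul, norm_mul, norm_mul]
  calc ‖β (g * r * m)‖ * ‖(N (r * m) : ℂ) ^ (-(1 / 2 : ℂ) + σ + τ * Complex.I)‖ * ‖ν m‖ * ‖chi m d‖
      ≤ ‖β (g * r * m)‖ * ((N r)⁻¹ * N (g * r * m) ^ 2) * 1 * 1 := by
        gcongr
        · exact e1.trans e2
        · exact norm_hchar_le Q hν m
        · exact norm_chi_le h3.isCoprime_six d
    _ = _ := by ring

/-- the general term of the double series -/
def Bx (Q : Lev) (β : O → ℂ) (σ K U : ℝ) (x : O × O) : ℝ :=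
  if Prim x.1 ∧ Prim x.2 then
    ∑ ν ∈ hchars Q.q, ∫ τ : ℝ, Gm σ τ *
      ∑ d ∈ ball (U / N x.1 ^ 2), (K * N d) ^ (-σ) *
        ‖Bsum β ν x.1 x.2 (d * x.1 ^ 2) σ τ‖ ^ 2 else 0

theorem Bx_nonneg (Q : Lev) (β : O → ℂ) (σ : ℝ) {K : ℝ} (hK : 0 < K) (U : ℝ) (x : O × O) :
    0 ≤ Bx Q β σ K U x := by
  unfold Bx
  split_ifs
  · exact Finset.sum_nonneg fun ν _ =>
      int_nonneg σ hK _ fun d τ => Bsum β ν x.1 x.2 (d * x.1 ^ 2) σ τ
  · exact le_rfl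

theorem summable_inv_sq : Summable fun n : O => (N n ^ 2)⁻¹ := by
  refine (summable_N_rpow (σ := 2) one_lt_two).congr fun n => ?_
  rw [Real.rpow_neg (N_nonneg n), Real.rpow_two]

theorem summable_Bx {Q : Lev} {β : O → ℂ} (hs : SuppSq Q 1 β) (hβ : Rapid β) {σ : ℝ} (hσ : 0 < σ)
    (hσ1 : σ ≤ 1) {K U : ℝ} (hK : 0 < K) (hU : 0 < U) : Summable (Bx Q β σ K U) := by
  have hI : Integrable (Gm σ) := by simpa using integrable_Gm hσ 0
  have hI0 : 0 ≤ ∫ τ, Gm σ τ := integral_nonneg (Gm_nonneg σ)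
  have hw : ∀ d, 0 ≤ (K * N d) ^ (-σ) := fun d =>
    Real.rpow_nonneg (mul_nonneg hK.le (N_nonneg d)) _
  obtain ⟨W, hW⟩ : ∃ W : ℝ, W = (∑ d ∈ ball U, (K * N d) ^ (-σ)) * mom β 2 ^ 2 := ⟨_, rfl⟩
  have hW0 : 0 ≤ W := hW ▸ mul_nonneg (Finset.sum_nonneg fun d _ => hw d) (sq_nonneg _)
  have h1 : Summable fun g : O => if g ∈ ball U then (1 : ℝ) else 0 :=
    summable_of_ne_finset_zero (s := ball U) fun g hg => if_neg hg
  have h2 : Summable fun r : O => ((hchars Q.q).card * ((∫ τ, Gm σ τ) * W)) * (N r ^ 2)⁻¹ :=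
    summable_inv_sq.mul_left _
  have h3 : ∀ r : O, 0 ≤ ((hchars Q.q).card * ((∫ τ, Gm σ τ) * W)) * (N r ^ 2)⁻¹ := fun r => by
    positivity
  refine Summable.of_nonneg_of_le (Bx_nonneg Q β σ hK U) (fun x => ?_)
    (h1.mul_of_nonneg h2 (fun g => by dsimp only; split_ifs <;> simp) h3)
  obtain ⟨g, r⟩ := x
  unfold Bx
  dsimp only
  split_ifs with h4 h5 h5
  · have p1 := one_le_N h4.1.ne_zero
    rw [one_mul, mul_assoc, ← nsmul_eq_mul]
    refine Finset.sum_le_card_nsmul _ _ _ fun ν hν => ?_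
    rw [mul_assoc, ← integral_mul_const]
    refine integral_mono_of_nonneg (Filter.Eventually.of_forall fun τ => ?_) (hI.mul_const _)
      (Filter.Eventually.of_forall fun τ => ?_)
    · exact mul_nonneg (Gm_nonneg σ τ) (Finset.sum_nonneg fun d _ =>
        mul_nonneg (hw d) (sq_nonneg _))
    · refine mul_le_mul_of_nonneg_left ?_ (Gm_nonneg σ τ)
      rw [hW, mul_assoc, Finset.sum_mul]
      refine le_trans (Finset.sum_le_sum fun d _ => mul_le_mul_of_nonneg_left ?_ (hw d))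
        (Finset.sum_le_sum_of_subset_of_nonneg
          (ball_mono (div_le_self hU.le (one_le_pow₀ p1)))
          fun d _ _ => mul_nonneg (hw d) (by positivity))
      refine (pow_le_pow_left₀ (norm_nonneg _)
        (norm_Bsum_le hs hβ h4.1 h4.2 hν _ hσ1 τ) 2).trans (le_of_eq ?_)
      rw [mul_pow, inv_pow, mul_comm]
  · have p1 := one_le_N h4.1.ne_zero
    have p2 : U < N g := by
      by_contra h
      exact h5 (mem_ball.2 ⟨h4.1.ne_zero, not_lt.1 h⟩)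
    have p3 : U / N g ^ 2 < 1 := by
      rw [div_lt_one (by positivity)]
      nlinarith
    simp [ball_eq_empty p3]
  · simpa using h3 r
  · simp

theorem mom_dilate {Q : Lev} {β : O → ℂ} (hs : SuppSq Q 1 β) (hβ : Rapid β) {g : O} (hg : g ≠ 0)
    (j : ℕ) : N g ^ j * mom (fun m => al β (g * m)) j ≤ mom β (j + 1) := by
  refine le_trans ?_ (tsum_dilate_le hβ hg (j + 1)).2
  have h1 : N g ^ j * mom (fun m => al β (g * m)) j = ∑' m, ‖β (g * m)‖ * N (g * m) ^ j := by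
    rw [mom, ← tsum_mul_left]
    refine tsum_congr fun m => ?_
    rw [norm_al hs, N_mul, mul_pow]
    ring
  rw [h1]
  refine Summable.tsum_le_tsum (fun m => ?_) (tsum_dilate_le hβ hg j).1
    (tsum_dilate_le hβ hg (j + 1)).1
  by_cases hm : β (g * m) = 0
  · simp [hm]
  · exact mul_le_mul_of_nonneg_left
      (pow_le_pow_right₀ (one_le_N (hs _ hm).1.1.ne_zero) (Nat.le_succ j)) (norm_nonneg _)

theorem mom_nonneg (β : O → ℂ) (j : ℕ) : 0 ≤ mom β j :=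
  tsum_nonneg fun n => mul_nonneg (norm_nonneg _) (pow_nonneg (N_nonneg n) j)

theorem tail_le {Q : Lev} {β : O → ℂ} (hs : SuppSq Q 1 β) (hβ : Rapid β) {g : O} (hg : g ≠ 0)
    (j : ℕ) {K U : ℝ} (hK : 0 < K) (hU : 0 < U) :
    K * (U / N g ^ 2) * ((K * (U / N g ^ 2)) ^ j)⁻¹ * mom (fun m => al β (g * m)) j ^ 2 ≤
      K * U * ((K * U) ^ j)⁻¹ * mom β (j + 1) ^ 2 * (N g ^ 2)⁻¹ := by
  have p := N_pos hg
  have h1 := pow_le_pow_left₀ (mul_nonneg (pow_nonneg p.le j) (mom_nonneg _ j))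
    (mom_dilate hs hβ hg j) 2
  calc K * (U / N g ^ 2) * ((K * (U / N g ^ 2)) ^ j)⁻¹ * mom (fun m => al β (g * m)) j ^ 2
      = K * U * ((K * U) ^ j)⁻¹ * (N g ^ j * mom (fun m => al β (g * m)) j) ^ 2 * (N g ^ 2)⁻¹ := by
        rw [← mul_div_assoc, div_pow, ← pow_mul, mul_comm 2 j, pow_mul]
        field_simp
    _ ≤ _ := by gcongr

end Bk

/-- **Backward step.**  Conjugate: `α' = conj(β gt)`; `sum_ball_le_tsum`, `gcd_split`, and `pstep`
for each `g` with `D = K`, `U_g = U/N(g)²`.  By `gt_mul (g r) m` and `|gt m| = 1`,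
`Tsum α'(g·) ν r 1 d σ τ` is a unimodular multiple of `conj (Bsum β ν' g r (d g²) σ (-τ))`
(`conj χ_m(g² r²) χ_m(r²) = conj χ_m(g²)` for `m` coprime to `g r`).  The tails add up to the
last term because `∑_g (∑_m |β(gm)| N(gm)^{A0})² ≤ (∑_n |β n| N n^{A0} τ(n))²`. -/
theorem back (Q : Lev) {σ : ℝ} (hσ : 0 < σ) (hσ1 : σ ≤ 1) {A0 : ℕ} (hA0 : 2 ≤ A0) :
    ∃ C, ∀ β : O → ℂ, SuppSq Q 1 β → Rapid β → ∀ K U : ℝ, 0 < K → 0 < U →
    ∑ k ∈ ball K, ‖∑' m, β m * gt m * conj (chi m k)‖ ^ 2 ≤ C * K * ∑' m, ‖β m‖ ^ 2 +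
      C * K * ∑' x : O × O, (if Prim x.1 ∧ Prim x.2 then
        ∑ ν ∈ hchars Q.q, ∫ τ : ℝ, Gm σ τ *
          ∑ d ∈ ball (U / N x.1 ^ 2), (K * N d) ^ (-σ) *
            ‖Bsum β ν x.1 x.2 (d * x.1 ^ 2) σ τ‖ ^ 2 else 0) +
      C * (K * U) * ((K * U) ^ A0)⁻¹ * mom β (A0 + 1) ^ 2 := by
  obtain ⟨C, hC⟩ := pstep Q hσ hσ1 hA0
  obtain ⟨c, hc⟩ : ∃ c : ℝ, c = ∑' n : O, (N n ^ 2)⁻¹ := ⟨_, rfl⟩
  have hc0 : 0 ≤ c := hc ▸ tsum_nonneg fun n => by positivity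
  refine ⟨Real.exp c0 * (|C| * (1 + c)), fun β hs hβ K U hK hU => ?_⟩
  have hs' := Bk.supp_al hs
  have hβ' := Bk.rapid_al hs hβ
  have hB := Bk.summable_Bx hs hβ hσ hσ1 hK hU
  have hB0 := Bk.Bx_nonneg Q β σ hK U
  have hsq : Summable fun m => ‖β m‖ ^ 2 := by
    refine Summable.of_nonneg_of_le (fun m => sq_nonneg _) (fun m => ?_)
      ((Bk.summable_norm hβ).mul_left (∑' m, ‖β m‖))
    rw [sq]
    exact mul_le_mul_of_nonneg_right
      ((Bk.summable_norm hβ).le_tsum m fun _ _ => norm_nonneg _) (norm_nonneg _)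
  obtain ⟨W, hW⟩ : ∃ W : ℝ, W = K * U * ((K * U) ^ A0)⁻¹ * mom β (A0 + 1) ^ 2 := ⟨_, rfl⟩
  have hW0 : 0 ≤ W := hW ▸ by positivity
  obtain ⟨h1, h2⟩ := gcd_split Q hs' hβ' hK
  have h3 := sum_ball_le_tsum hK (f := fun d => ‖∑' n, Bk.al β n * chi n d‖ ^ 2)
    (fun d => sq_nonneg _)
    (by simpa only [pow_one] using summable_moment hβ' (fun n hn => (hs' n hn).1.isCoprime_six) 1 hK)
  have h4 : ∀ g : O, (if Prim g then ‖Qform (fun m => Bk.al β (g * m)) 1 K‖ else 0) ≤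
      |C| * K * ‖β g‖ ^ 2 + |C| * K * ∑' r, Bk.Bx Q β σ K U (g, r) + |C| * W * (N g ^ 2)⁻¹ := by
    intro g
    have e0 : 0 ≤ ∑' r, Bk.Bx Q β σ K U (g, r) := tsum_nonneg fun r => hB0 _
    split_ifs with hg
    · have p := N_pos hg.ne_zero
      refine (hC _ (hs'.dilate hg) (hβ'.dilate hg.ne_zero) K (U / N g ^ 2) hK
        (by positivity)).trans (add_le_add (add_le_add ?_ ?_) ?_)
      · rw [mul_one, Bk.norm_al hs]
        gcongr
        exact le_abs_self C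
      · have e1 : ∀ r : O, 0 ≤ (if Prim r then ∑ ν ∈ hchars Q.q, ∫ τ : ℝ, Gm σ τ *
            ∑ k ∈ ball (U / N g ^ 2), (K * N k) ^ (-σ) *
              ‖Tsum (fun m => Bk.al β (g * m)) ν r 1 k σ τ‖ ^ 2 else 0) := by
          intro r
          split_ifs
          · exact Finset.sum_nonneg fun ν _ => Bk.int_nonneg σ hK _
              fun k τ => Tsum (fun m => Bk.al β (g * m)) ν r 1 k σ τ
          · exact le_rfl
        have e2 : ∀ r : O, (if Prim r then ∑ ν ∈ hchars Q.q, ∫ τ : ℝ, Gm σ τ *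
            ∑ k ∈ ball (U / N g ^ 2), (K * N k) ^ (-σ) *
              ‖Tsum (fun m => Bk.al β (g * m)) ν r 1 k σ τ‖ ^ 2 else 0) ≤
            Bk.Bx Q β σ K U (g, r) := by
          intro r
          split_ifs with hr
          · rw [Bk.Bx, if_pos ⟨hg, hr⟩]
            exact Bk.T_le_B hs hg hr σ hK _
          · exact hB0 _
        have e3 := Summable.tsum_le_tsum e2
          (Summable.of_nonneg_of_le e1 e2 (hB.prod_factor g)) (hB.prod_factor g)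
        exact mul_le_mul (mul_le_mul_of_nonneg_right (le_abs_self C) hK.le) e3
          (tsum_nonneg e1) (by positivity)
      · have e1 := Bk.tail_le hs hβ hg.ne_zero A0 hK hU
        rw [← hW] at e1
        rw [mul_assoc, mul_assoc, mul_assoc |C|, ← mul_assoc (K * _)]
        exact mul_le_mul (le_abs_self C) e1 (by positivity) (abs_nonneg C)
    · positivity
  have s1 := hsq.mul_left (|C| * K)
  have s2 := hB.prod.mul_left (|C| * K)
  have s3 := Bk.summable_inv_sq.mul_left (|C| * W)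
  have h5 := Summable.tsum_le_tsum h4 h1 ((s1.add s2).add s3)
  rw [(s1.add s2).tsum_add s3, s1.tsum_add s2, tsum_mul_left, tsum_mul_left, tsum_mul_left,
    ← hB.tsum_prod, ← hc] at h5
  have h6 := h3.trans (mul_le_mul_of_nonneg_left (h2.trans h5) (Real.exp_pos c0).le)
  simp only [Bk.norm_tsum_al]
  refine h6.trans ?_
  change _ ≤ _ + _ * ∑' x, Bk.Bx Q β σ K U x + _
  rw [mul_assoc _ (K * U), mul_assoc _ (K * U * _), ← hW]
  have t1 : 0 ≤ ∑' m, ‖β m‖ ^ 2 := tsum_nonneg fun m => sq_nonneg _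
  have t2 : 0 ≤ ∑' x, Bk.Bx Q β σ K U x := tsum_nonneg hB0
  have t3 : 0 ≤ Real.exp c0 * |C| *
      (c * K * ∑' m, ‖β m‖ ^ 2 + c * K * ∑' x, Bk.Bx Q β σ K U x + W) := by positivity
  linarith

/-- **Amplification of dual rows** `k ↦ k a⁶`.  For `a ∈ 𝒫₀`, `N a ≤ A`, split squarefree `m = e m'`,
`e = gcd(m,a)`; `conj χ_{m'}(k) 1_{(m',a)=1} = conj χ_{m'}(k a⁶)`; `gt_mul e m'`; Cauchy–Schwarz over
`e ∣ a`; average over the `≥ cA` elements `a` (`card_P0_ge`); the map `(k,a) ↦ k a⁶` has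
multiplicity `≤ C Z^ε` (`card_pdiv_le`). -/
theorem amplify (Q : Lev) (A' : ℝ) {ε : ℝ} (hε : 0 < ε) : ∃ C, ∀ Z : ℝ, 3 ≤ Z → ∀ β : O → ℂ,
    SuppSq Q 1 β → Rapid β → ∀ K A : ℝ, 1 ≤ A → K * A ^ 6 ≤ Z ^ A' → A ≤ Z ^ A' →
    ∑ k ∈ ball K, ‖∑' m, β m * gt m * conj (chi m k)‖ ^ 2 ≤
      C * Z ^ ε / A * ∑ e ∈ (ball A).filter (fun e => P0 Q e), ∑ ν ∈ hchars Q.q,
        ∑ k ∈ ball (K * A ^ 6),
          ‖∑' m, (β (e * m) * ν m * chi m (e ^ 2)) * gt m * conj (chi m k)‖ ^ 2 := by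
  obtain ⟨C, hC⟩ := Bk.amplify' Q A' hε
  refine ⟨C, fun Z hZ β hs hr K A hA h1 h2 => (hC Z hZ β hs hr K A hA h1 h2).trans (le_of_eq ?_)⟩
  congr 1
  unfold Bk.G
  rw [Finset.sum_comm]
  exact Finset.sum_congr rfl fun e _ => Finset.sum_comm

end Crest.Agent.R17
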