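import Crest.Agent.R17.PStep

/-!
# R17 / BackAux : helper lemmas for `Back.lean`
-/

set_option autoImplicit false

noncomputable section

open scoped Classical ComplexConjugate
open MeasureTheory

namespace Crest.Agent.R17

namespace Bk

theorem supp {Q : Lev} {β : O → ℂ} (hs : SuppSq Q 1 β) {a m : O} (ha : Prim a)
    (h : β (a * m) ≠ 0) :
    P0 Q a ∧ P0 Q m ∧ Squarefree a ∧ Squarefree m ∧ IsCoprime a m := by
  obtain ⟨h1, h2, -⟩ := hs _ h
  exact ⟨h1.of_dvd ha (dvd_mul_right _ _), h1.of_dvd (h1.1.of_mul_left ha) (dvd_mul_left _ _),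
    h2.of_mul_left, h2.of_mul_right, (IsRelPrime.of_squarefree_mul h2).isCoprime⟩

theorem norm_chi_le {n : O} (hn : IsCoprime n 6) (d : O) : ‖chi n d‖ ≤ 1 :=
  (rkey_chi hn).norm_le (rkey_ne (rkey_two hn)) d

theorem summable_norm {β : O → ℂ} (h : Rapid β) : Summable fun n => ‖β n‖ := by
  simpa using h 0

theorem norm_term_le {Q : Lev} {β : O → ℂ} (hs : SuppSq Q 1 β) (k m : O) :
    ‖β m * gt m * conj (chi m k)‖ ≤ ‖β m‖ := by
  by_cases h : β m = 0
  · simp [h]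
  · obtain ⟨h1, h2, -⟩ := hs _ h
    rw [norm_mul, norm_mul, norm_gt h1.isCoprime_six h2, mul_one, Complex.norm_conj]
    exact mul_le_of_le_one_right (norm_nonneg _) (norm_chi_le h1.isCoprime_six k)

/-- exactly one primary divisor `e` of `a` divides `m` with `m / e` coprime to `a` -/
theorem sum_split {a m : O} (ha : Prim a) (hm : Prim m) (hsq : Squarefree m) (z : ℂ) :
    ∑ e ∈ pdiv a, (if e ∣ m then (if IsCoprime (m / e) a then z else 0) else 0) = z := by
  obtain ⟨g, m', a', hg, -, -, h1, h2, h3⟩ := exists_prim_gcd hm ha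
  have hgm : IsCoprime g m' := (IsRelPrime.of_squarefree_mul (h1 ▸ hsq)).isCoprime
  have hdiv : m / g = m' := by rw [h1, mul_div_cancel_left₀ _ hg.ne_zero]
  have hc : IsCoprime m' a := by
    rw [h2]
    exact hgm.symm.mul_right h3
  have hga : g ∣ a := ⟨a', h2⟩
  have hgm' : g ∣ m := ⟨m', h1⟩
  rw [Finset.sum_eq_single g]
  · rw [if_pos hgm', hdiv, if_pos hc]
  · intro e he hne
    obtain ⟨he1, he2⟩ := (mem_pdiv ha.ne_zero).1 he
    by_cases h4 : e ∣ m
    · rw [if_pos h4, if_neg]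
      intro h5
      obtain ⟨m'', rfl⟩ := h4
      rw [mul_div_cancel_left₀ _ he1.ne_zero] at h5
      refine hne (he1.eq_of_associated hg (associated_of_dvd_dvd ?_ ?_))
      · have : e ∣ g * m' := h1 ▸ dvd_mul_right e m''
        exact (hc.of_isCoprime_of_dvd_right he2).symm.dvd_of_dvd_mul_right this
      · exact (h5.of_isCoprime_of_dvd_right hga).symm.dvd_of_dvd_mul_right hgm'
    · rw [if_neg h4]
  · intro h
    exact absurd ((mem_pdiv ha.ne_zero).2 ⟨hg, hga⟩) h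

theorem tsum_split {a : O} (ha : Prim a) {F : O → ℂ} (hF : Summable F)
    (h : ∀ m, F m ≠ 0 → Prim m ∧ Squarefree m) :
    ∑' m, F m = ∑ e ∈ pdiv a, ∑' m, if IsCoprime m a then F (e * m) else 0 := by
  have h1 : ∀ m, F m =
      ∑ e ∈ pdiv a, (if e ∣ m then (if IsCoprime (m / e) a then F m else 0) else 0) := by
    intro m
    by_cases hm : F m = 0
    · simp [hm]
    · exact (sum_split ha (h m hm).1 (h m hm).2 _).symm
  rw [tsum_congr h1, Summable.tsum_finsetSum]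
  · refine Finset.sum_congr rfl fun e he => ?_
    have he0 := ((mem_pdiv ha.ne_zero).1 he).1.ne_zero
    rw [tsum_dvd he0 fun m => if IsCoprime (m / e) a then F m else 0]
    refine tsum_congr fun m => ?_
    rw [mul_div_cancel_left₀ _ he0]
  · intro e _
    refine Summable.of_norm_bounded hF.norm fun m => ?_
    split_ifs <;> simp

/-- the amplified sums -/
def S (β : O → ℂ) (e : O) (ν : O → ℂ) (k : O) : ℂ :=
  ∑' m, (β (e * m) * ν m * chi m (e ^ 2)) * gt m * conj (chi m k)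

theorem inner_le {Q : Lev} {β : O → ℂ} (hs : SuppSq Q 1 β) {a e : O} (he : P0 Q e) (k : O) :
    ‖∑' m, if IsCoprime m a then β (e * m) * gt (e * m) * conj (chi (e * m) k) else 0‖ ^ 2 ≤
      ∑ ν ∈ hchars Q.q, ‖S β e ν (k * a ^ 6)‖ ^ 2 := by
  by_cases h0 : ∀ m, β (e * m) = 0
  · simp only [h0, zero_mul, ite_self, tsum_zero, norm_zero]
    rw [zero_pow two_ne_zero]
    positivity
  push Not at h0
  obtain ⟨m0, hm0⟩ := h0
  have hsq := (supp hs he.1 hm0).2.2.1
  obtain ⟨ν, hν, hν'⟩ := exists_hchar_sg Q he.isCoprime_two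
  have h1 : ∀ m, (if IsCoprime m a then β (e * m) * gt (e * m) * conj (chi (e * m) k) else 0) =
      gt e * conj (chi e k) *
        ((β (e * m) * ν m * chi m (e ^ 2)) * gt m * conj (chi m (k * a ^ 6))) := by
    intro m
    by_cases hm : β (e * m) = 0
    · simp [hm]
    obtain ⟨-, h2, -, -, h3⟩ := supp hs he.1 hm
    have h4 := rkey_chi h2.isCoprime_six
    have h5 : chi (e * m) k = chi e k * chi m k := sym_mul_left 6 he.1.ne_zero h2.1.ne_zero k
    rw [h4.mul, ChA.chi_pow_six h2.isCoprime_six, ChA.IsChar_pow h4, hν' m h2, sg_comm m e, h5,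
      gt_mul he.1 h2.1 he.isCoprime_two h2.isCoprime_two h3]
    split_ifs
    · simp only [map_mul, mul_one]
      ring
    · simp
  rw [tsum_congr h1, tsum_mul_left, norm_mul, norm_mul, norm_gt he.isCoprime_six hsq, one_mul,
    Complex.norm_conj]
  refine le_trans ?_ (Finset.single_le_sum (f := fun ν => ‖S β e ν (k * a ^ 6)‖ ^ 2)
    (fun _ _ => by positivity) hν)
  exact pow_le_pow_left₀ (by positivity)
    (mul_le_of_le_one_left (norm_nonneg _) (norm_chi_le he.isCoprime_six k)) 2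

/-- the amplified second moment of one row -/
def G (Q : Lev) (β : O → ℂ) (A : ℝ) (k : O) : ℝ :=
  ∑ e ∈ (ball A).filter (fun e => P0 Q e), ∑ ν ∈ hchars Q.q, ‖S β e ν k‖ ^ 2

theorem G_nonneg (Q : Lev) (β : O → ℂ) (A : ℝ) (k : O) : 0 ≤ G Q β A k :=
  Finset.sum_nonneg fun _ _ => Finset.sum_nonneg fun _ _ => by positivity

theorem row_le {Q : Lev} {β : O → ℂ} (hs : SuppSq Q 1 β) (hr : Rapid β) {A : ℝ} {a : O}
    (ha : P0 Q a) (hA : N a ≤ A) (k : O) :
    ‖∑' m, β m * gt m * conj (chi m k)‖ ^ 2 ≤ (pdiv a).card * G Q β A (k * a ^ 6) := by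
  rw [tsum_split ha.1 (Summable.of_norm_bounded (summable_norm hr) (norm_term_le hs k))
    fun m hm => ⟨(hs m (left_ne_zero_of_mul (left_ne_zero_of_mul hm))).1.1,
      (hs m (left_ne_zero_of_mul (left_ne_zero_of_mul hm))).2.1⟩]
  refine (pow_le_pow_left₀ (norm_nonneg _) (norm_sum_le _ _) 2).trans
    (sq_sum_le_card_mul_sum_sq.trans (mul_le_mul_of_nonneg_left ?_ (Nat.cast_nonneg _)))
  have hP : ∀ e ∈ pdiv a, P0 Q e ∧ e ∣ a := fun e he =>
    have h := (mem_pdiv ha.1.ne_zero).1 he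
    ⟨ha.of_dvd h.1 h.2, h.2⟩
  refine (Finset.sum_le_sum fun e he => inner_le hs (hP e he).1 k).trans ?_
  refine Finset.sum_le_sum_of_subset_of_nonneg (fun e he => ?_)
    fun _ _ _ => Finset.sum_nonneg fun _ _ => by positivity
  obtain ⟨h1, h2⟩ := hP e he
  exact Finset.mem_filter.2 ⟨mem_ball.2 ⟨h1.1.ne_zero, (N_le_of_dvd ha.1.ne_zero h2).trans hA⟩, h1⟩

theorem sum_dilate_le {f : O → ℝ} (hf : ∀ k, 0 ≤ f k) {K A : ℝ} {a : O} (ha : a ≠ 0)
    (hA : N a ≤ A) :
    ∑ k ∈ ball K, f (k * a ^ 6) ≤ ∑ k ∈ ball (K * A ^ 6), if a ∣ k then f k else 0 := by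
  rw [← Finset.sum_filter, ← Finset.sum_image (s := ball K) (g := fun k => k * a ^ 6) (f := f)
    fun x _ y _ h => mul_right_cancel₀ (pow_ne_zero 6 ha) h]
  refine Finset.sum_le_sum_of_subset_of_nonneg (fun x hx => ?_) fun _ _ _ => hf _
  obtain ⟨k, hk, rfl⟩ := Finset.mem_image.1 hx
  obtain ⟨h1, h2⟩ := mem_ball.1 hk
  refine Finset.mem_filter.2 ⟨mem_ball.2 ⟨mul_ne_zero h1 (pow_ne_zero 6 ha), ?_⟩,
    Dvd.dvd.mul_left (dvd_pow_self a (by norm_num)) k⟩
  rw [N_mul, N_pow]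
  exact mul_le_mul h2 (pow_le_pow_left₀ (N_nonneg a) hA 6) (pow_nonneg (N_nonneg a) 6)
    ((N_nonneg k).trans h2)

theorem amp {Q : Lev} {β : O → ℂ} (hs : SuppSq Q 1 β) (hr : Rapid β) {K A T : ℝ} (hT : 0 ≤ T)
    (h1 : ∀ a ∈ ball A, ((pdiv a).card : ℝ) ≤ T)
    (h2 : ∀ k ∈ ball (K * A ^ 6), ((pdiv k).card : ℝ) ≤ T) :
    (((ball A).filter fun a => P0 Q a).card : ℝ) *
        ∑ k ∈ ball K, ‖∑' m, β m * gt m * conj (chi m k)‖ ^ 2 ≤
      T * T * ∑ k ∈ ball (K * A ^ 6), G Q β A k := by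
  rw [← nsmul_eq_mul, ← Finset.sum_const]
  calc ∑ _a ∈ (ball A).filter fun a => P0 Q a,
        ∑ k ∈ ball K, ‖∑' m, β m * gt m * conj (chi m k)‖ ^ 2
      ≤ ∑ a ∈ (ball A).filter fun a => P0 Q a,
          T * ∑ k ∈ ball (K * A ^ 6), if a ∣ k then G Q β A k else 0 := by
        refine Finset.sum_le_sum fun a ha => ?_
        obtain ⟨ha1, ha2⟩ := Finset.mem_filter.1 ha
        have ha3 := mem_ball.1 ha1
        refine le_trans ?_ (mul_le_mul_of_nonneg_left
          (sum_dilate_le (G_nonneg Q β A) ha3.1 ha3.2) hT)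
        rw [Finset.mul_sum]
        exact Finset.sum_le_sum fun k _ => (row_le hs hr ha2 ha3.2 k).trans
          (mul_le_mul_of_nonneg_right (h1 a ha1) (G_nonneg Q β A _))
    _ = T * ∑ k ∈ ball (K * A ^ 6), ∑ a ∈ (ball A).filter fun a => P0 Q a,
          if a ∣ k then G Q β A k else 0 := by
        rw [← Finset.mul_sum, Finset.sum_comm]
    _ ≤ T * ∑ k ∈ ball (K * A ^ 6), T * G Q β A k := by
        refine mul_le_mul_of_nonneg_left (Finset.sum_le_sum fun k hk => ?_) hT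
        rw [← Finset.sum_filter, Finset.sum_const, nsmul_eq_mul]
        refine mul_le_mul_of_nonneg_right (le_trans ?_ (h2 k hk)) (G_nonneg Q β A _)
        refine Nat.cast_le.2 (Finset.card_le_card fun a ha => ?_)
        obtain ⟨ha1, ha2⟩ := Finset.mem_filter.1 ha
        exact (mem_pdiv (mem_ball.1 hk).1).2 ⟨(Finset.mem_filter.1 ha1).2.1, ha2⟩
    _ = T * T * ∑ k ∈ ball (K * A ^ 6), G Q β A k := by
        rw [← Finset.mul_sum, mul_assoc]

theorem amplify' (Q : Lev) (A' : ℝ) {ε : ℝ} (hε : 0 < ε) : ∃ C, ∀ Z : ℝ, 3 ≤ Z → ∀ β : O → ℂ,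
    SuppSq Q 1 β → Rapid β → ∀ K A : ℝ, 1 ≤ A → K * A ^ 6 ≤ Z ^ A' → A ≤ Z ^ A' →
    ∑ k ∈ ball K, ‖∑' m, β m * gt m * conj (chi m k)‖ ^ 2 ≤
      C * Z ^ ε / A * ∑ k ∈ ball (K * A ^ 6), G Q β A k := by
  obtain ⟨c, hc, hc'⟩ := card_P0_ge Q
  have hA' : 0 < |A'| + 1 := by positivity
  obtain ⟨C1, hC1⟩ := card_pdiv_le (ε := ε / (2 * (|A'| + 1))) (by positivity)
  have hC0 : 0 ≤ C1 := by
    have := hC1 1 one_ne_zero
    rw [N_one, Real.one_rpow, mul_one] at this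
    exact (Nat.cast_nonneg _).trans this
  refine ⟨C1 * C1 / c, fun Z hZ β hs hr K A hA h1 h2 => ?_⟩
  have hZ0 : 0 < Z := by linarith
  have key : ∀ X, X ≤ Z ^ A' → ∀ a ∈ ball X, ((pdiv a).card : ℝ) ≤ C1 * Z ^ (ε / 2) := by
    intro X hX a ha
    obtain ⟨h3, h4⟩ := mem_ball.1 ha
    refine (hC1 a h3).trans (mul_le_mul_of_nonneg_left ?_ hC0)
    refine (Real.rpow_le_rpow (N_nonneg a) (h4.trans hX) (by positivity)).trans ?_
    rw [← Real.rpow_mul hZ0.le]
    refine Real.rpow_le_rpow_of_exponent_le (by linarith) ?_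
    rw [mul_div_assoc', div_le_div_iff₀ (by positivity) (by positivity)]
    nlinarith [le_abs_self A']
  have h3 := amp hs hr (K := K) (by positivity) (key A h2) (key _ h1)
  have h4 : C1 * Z ^ (ε / 2) * (C1 * Z ^ (ε / 2)) = C1 * C1 * Z ^ ε := by
    have : Z ^ ε = Z ^ (ε / 2) * Z ^ (ε / 2) := by rw [← Real.rpow_add hZ0, add_halves]
    rw [this]
    ring
  rw [h4] at h3
  have h5 := (mul_le_mul_of_nonneg_right (hc' A hA)
    (Finset.sum_nonneg fun k (_ : k ∈ ball K) =>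
      sq_nonneg ‖∑' m, β m * gt m * conj (chi m k)‖)).trans h3
  have hcA : 0 < c * A := by positivity
  rw [← le_div_iff₀' hcA] at h5
  refine h5.trans (le_of_eq ?_)
  field_simp

end Bk

end Crest.Agent.R17
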