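import Crest.Agent.R17.Basic1

/-!
# R17 / Basic : elementary API for `O` (units, primary elements, balls, divisors, Möbius)
-/

set_option autoImplicit false

noncomputable section

open scoped Classical ComplexConjugate

namespace Crest.Agent.R17

/-! ### balls and counting -/
theorem b2_N (d : O) : N d = (d.re : ℝ) ^ 2 - d.re * d.im + d.im ^ 2 := by
  unfold N; exact_mod_cast nm_int d

theorem b2_sq_le (d : O) : 3 * (d.re : ℝ) ^ 2 ≤ 4 * N d ∧ 3 * (d.im : ℝ) ^ 2 ≤ 4 * N d := by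
  rw [b2_N]
  constructor
  · nlinarith [sq_nonneg (2 * (d.im : ℝ) - d.re)]
  · nlinarith [sq_nonneg (2 * (d.re : ℝ) - d.im)]

theorem mem_ball {X : ℝ} {d : O} : d ∈ ball X ↔ d ≠ 0 ∧ N d ≤ X := by
  unfold ball
  rw [Finset.mem_filter]
  refine ⟨fun h => h.2, fun h => ⟨?_, h⟩⟩
  have h1 : ∀ a : ℤ, 3 * (a : ℝ) ^ 2 ≤ 4 * N d →
      a ∈ Finset.Icc (-(2 * (⌈X⌉₊ : ℤ))) (2 * (⌈X⌉₊ : ℤ)) := fun a ha => by
    have h2 : 3 * (a : ℝ) ^ 2 ≤ 4 * (⌈X⌉₊ : ℝ) := by linarith [h.2, Nat.le_ceil X]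
    have h3 : 3 * a ^ 2 ≤ 4 * (⌈X⌉₊ : ℤ) := by exact_mod_cast h2
    rw [Finset.mem_Icc]
    constructor <;> nlinarith [sq_nonneg (a + 1), sq_nonneg (a - 1), Int.le_self_sq a,
      Int.le_self_sq (-a)]
  exact Finset.mem_image.2 ⟨(d.re, d.im),
    Finset.mem_product.2 ⟨h1 _ (b2_sq_le d).1, h1 _ (b2_sq_le d).2⟩, rfl⟩
theorem ball_mono {X Y : ℝ} (h : X ≤ Y) : ball X ⊆ ball Y := by
  intro d hd
  rw [mem_ball] at hd ⊢
  exact ⟨hd.1, hd.2.trans h⟩
theorem ball_eq_empty {X : ℝ} (h : X < 1) : ball X = ∅ := by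
  refine Finset.eq_empty_of_forall_notMem fun d hd => ?_
  rw [mem_ball] at hd
  linarith [one_le_N hd.1, hd.2]
/-- `#{0 < N d ≤ X} ≤ 18 X` (crude; `|a|,|b| ≤ √(4X/3)`) -/
theorem card_ball_le {X : ℝ} (hX : 0 ≤ X) : ((ball X).card : ℝ) ≤ 18 * X := by
  rcases lt_or_ge X 1 with h1 | h1
  · rw [ball_eq_empty h1]; simpa using hX
  obtain ⟨M, hM⟩ : ∃ M : ℕ, M = ⌊√(2 * X)⌋₊ := ⟨_, rfl⟩
  have hM2 : (M : ℝ) ^ 2 ≤ 2 * X := by
    rw [← Real.le_sqrt (by positivity) (by positivity), hM]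
    exact Nat.floor_le (Real.sqrt_nonneg _)
  have hsub : ball X ⊆ ((Finset.Icc (-(M : ℤ)) M) ×ˢ (Finset.Icc (-(M : ℤ)) M)).image
      (fun p : ℤ × ℤ => (⟨p.1, p.2⟩ : O)) := by
    intro d hd
    rw [mem_ball] at hd
    have h2 : ∀ a : ℤ, 3 * (a : ℝ) ^ 2 ≤ 4 * N d → a ∈ Finset.Icc (-(M : ℤ)) M := fun a ha => by
      have h3 : |(a : ℝ)| ≤ √(2 * X) := Real.abs_le_sqrt (by linarith [hd.2])
      have h4 : a.natAbs ≤ M := by
        rw [hM]
        refine Nat.le_floor ?_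
        rwa [Nat.cast_natAbs, Int.cast_abs]
      rw [Finset.mem_Icc]
      omega
    exact Finset.mem_image.2 ⟨(d.re, d.im),
      Finset.mem_product.2 ⟨h2 _ (b2_sq_le d).1, h2 _ (b2_sq_le d).2⟩, rfl⟩
  have h5 := (Finset.card_le_card hsub).trans Finset.card_image_le
  rw [Finset.card_product, Int.card_Icc] at h5
  have h6 : ((M : ℤ) + 1 - -(M : ℤ)).toNat = 2 * M + 1 := by omega
  rw [h6] at h5
  have h7 : ((ball X).card : ℝ) ≤ (2 * M + 1) * (2 * M + 1) := by exact_mod_cast h5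
  nlinarith [sq_nonneg (2 * (M : ℝ) - 1)]
theorem b2_N_add (x y : O) : N (x + y) ≤ 2 * N x + 2 * N y := by
  have h := N_nonneg (x - y)
  simp only [b2_N, QuadraticAlgebra.re_add, QuadraticAlgebra.im_add, QuadraticAlgebra.re_sub,
    QuadraticAlgebra.im_sub] at h ⊢
  push_cast at h ⊢
  nlinarith

/-- lower bound for the number of elements of `𝒫₀` (they contain the class `1 mod q`) -/
theorem card_P0_ge (Q : Lev) : ∃ c > 0, ∀ X : ℝ, 1 ≤ X →
    c * X ≤ (((ball X).filter (fun a => P0 Q a)).card : ℝ) := by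
  have hq := one_le_N Q.ne
  refine ⟨1 / (8 * N Q.q), by positivity, fun X hX => ?_⟩
  obtain ⟨M, hM⟩ : ∃ M : ℕ, M = ⌊√(X / (8 * N Q.q))⌋₊ := ⟨_, rfl⟩
  have hM2 : (M : ℝ) ^ 2 ≤ X / (8 * N Q.q) := by
    rw [← Real.le_sqrt (by positivity) (by positivity), hM]
    exact Nat.floor_le (Real.sqrt_nonneg _)
  have hM3 : X / (8 * N Q.q) ≤ ((M : ℝ) + 1) ^ 2 := by
    rw [← Real.sqrt_le_left (by positivity), hM]
    exact (Nat.lt_floor_add_one _).le
  rw [le_div_iff₀ (by positivity)] at hM2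
  have h1 : ((Finset.range (M + 1)) ×ˢ (Finset.range (M + 1))).card ≤
      ((ball X).filter (fun a => P0 Q a)).card := by
    refine Finset.card_le_card_of_injOn (fun p => 1 + Q.q * ⟨p.1, p.2⟩) ?_ ?_
    · intro p hp
      rw [Finset.mem_coe, Finset.mem_product, Finset.mem_range, Finset.mem_range] at hp
      have hP : Prim (1 + Q.q * ⟨p.1, p.2⟩) := by
        unfold Prim
        rw [add_sub_cancel_left]
        exact (Dvd.dvd.trans ⟨24, by norm_num⟩ Q.dvd).mul_right _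
      rw [Finset.mem_coe, Finset.mem_filter, mem_ball]
      refine ⟨⟨hP.ne_zero, ?_⟩, hP, isCoprime_one_left.add_mul_left_left _⟩
      by_cases h0 : (⟨p.1, p.2⟩ : O) = 0
      · simp only [h0, mul_zero, add_zero, N_one]; exact hX
      have h2 := one_le_N h0
      have h3 : N (⟨p.1, p.2⟩ : O) ≤ 2 * (M : ℝ) ^ 2 := by
        rw [b2_N]
        have a1 : (p.1 : ℝ) ≤ M := by exact_mod_cast Nat.lt_succ_iff.1 hp.1
        have a2 : (p.2 : ℝ) ≤ M := by exact_mod_cast Nat.lt_succ_iff.1 hp.2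
        have a3 : (0 : ℝ) ≤ p.1 := by positivity
        have a4 : (0 : ℝ) ≤ p.2 := by positivity
        push_cast
        nlinarith [mul_nonneg a3 a4]
      refine (b2_N_add _ _).trans ?_
      rw [N_one, N_mul]
      nlinarith [mul_le_mul_of_nonneg_left h3 (N_nonneg Q.q),
        mul_le_mul_of_nonneg_left h2 (N_nonneg Q.q)]
    · intro p _ p' _ h
      have h2 := mul_left_cancel₀ Q.ne (add_left_cancel h)
      have h3 := congrArg QuadraticAlgebra.re h2
      have h4 := congrArg QuadraticAlgebra.im h2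
      exact Prod.ext (Nat.cast_injective (R := ℤ) h3) (Nat.cast_injective (R := ℤ) h4)
  rw [Finset.card_product, Finset.card_range] at h1
  have h2 : ((M : ℝ) + 1) * (M + 1) ≤ ((ball X).filter (fun a => P0 Q a)).card := by
    exact_mod_cast h1
  rw [one_div_mul_eq_div]
  nlinarith
theorem b2_shell {Y b : ℝ} (hY : 0 < Y) (hb : 0 ≤ b) (f : O → ℝ)
    (h : ∀ n, Y < N n → N n ≤ 2 * Y → f n ≤ b) :
    ∑ n ∈ ball (2 * Y), f n ≤ ∑ n ∈ ball Y, f n + 36 * Y * b := by
  have hsub : ball Y ⊆ ball (2 * Y) := ball_mono (by linarith)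
  rw [← Finset.sum_sdiff hsub, add_comm]
  refine add_le_add le_rfl ((Finset.sum_le_card_nsmul _ _ b fun n hn => ?_).trans ?_)
  · rw [Finset.mem_sdiff, mem_ball, mem_ball] at hn
    exact h n (not_le.1 fun h1 => hn.2 ⟨hn.1.1, h1⟩) hn.1.2
  · rw [nsmul_eq_mul]
    refine mul_le_mul_of_nonneg_right ?_ hb
    have h1 : ((ball (2 * Y) \ ball Y).card : ℝ) ≤ (ball (2 * Y)).card := by
      exact_mod_cast Finset.card_le_card Finset.sdiff_subset
    linarith [card_ball_le (X := 2 * Y) (by linarith)]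

theorem b2_tail {σ : ℝ} (hσ : 1 < σ) : ∃ C, 0 ≤ C ∧ ∀ X : ℝ, 0 < X → ∀ s : Finset O,
    ∑ n ∈ s, (if X < N n then N n ^ (-σ) else 0) ≤ C * X ^ (1 - σ) := by
  have hr : (2 : ℝ) ^ (1 - σ) < 1 := Real.rpow_lt_one_of_one_lt_of_neg (by norm_num) (by linarith)
  have hC : 0 ≤ 36 / (1 - (2 : ℝ) ^ (1 - σ)) := div_nonneg (by norm_num) (by linarith)
  refine ⟨36 / (1 - 2 ^ (1 - σ)), hC, fun X hX s => ?_⟩
  have h0 : ∀ n, 0 ≤ (if X < N n then N n ^ (-σ) else 0) := fun n => by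
    split_ifs
    · exact Real.rpow_nonneg (N_nonneg n) _
    · exact le_rfl
  have key : ∀ J : ℕ, ∑ n ∈ ball (2 ^ J * X), (if X < N n then N n ^ (-σ) else 0) ≤
      36 / (1 - 2 ^ (1 - σ)) * (X ^ (1 - σ) - (2 ^ J * X) ^ (1 - σ)) := by
    intro J
    induction J with
    | zero =>
      rw [pow_zero, one_mul, sub_self, mul_zero]
      exact (Finset.sum_eq_zero fun n hn => if_neg (not_lt.2 (mem_ball.1 hn).2)).le
    | succ J ih =>
      have hY : 0 < 2 ^ J * X := by positivity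
      rw [pow_succ', mul_assoc]
      generalize 2 ^ J * X = Y at ih hY
      refine (b2_shell hY (Real.rpow_nonneg hY.le (-σ)) _ fun n h1 _ => ?_).trans ?_
      · split_ifs
        · exact Real.rpow_le_rpow_of_nonpos hY h1.le (by linarith)
        · exact Real.rpow_nonneg hY.le _
      · rw [Real.mul_rpow (by norm_num) hY.le]
        have e1 : Y ^ (1 - σ) = Y * Y ^ (-σ) := by
          rw [sub_eq_add_neg, Real.rpow_add hY, Real.rpow_one]
        have e2 : 36 * Y * Y ^ (-σ) =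
            36 / (1 - 2 ^ (1 - σ)) * (Y ^ (1 - σ) - 2 ^ (1 - σ) * Y ^ (1 - σ)) := by
          have : 1 - (2 : ℝ) ^ (1 - σ) ≠ 0 := by linarith
          rw [e1]; field_simp
        rw [e2]
        linarith
  obtain ⟨J, hJ⟩ := pow_unbounded_of_one_lt ((∑ n ∈ s, N n) / X) (one_lt_two (α := ℝ))
  rw [div_lt_iff₀ hX] at hJ
  have h1 : ∑ n ∈ s, (if X < N n then N n ^ (-σ) else 0) ≤
      ∑ n ∈ ball (2 ^ J * X), (if X < N n then N n ^ (-σ) else 0) := by
    rw [← Finset.sum_filter_ne_zero s]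
    refine Finset.sum_le_sum_of_subset_of_nonneg (fun n hn => ?_) fun n _ _ => h0 n
    obtain ⟨hn, h2⟩ := Finset.mem_filter.1 hn
    refine mem_ball.2 ⟨?_, ?_⟩
    · rintro rfl
      exact h2 (if_neg (by rw [N_zero]; exact not_lt.2 hX.le))
    · exact (Finset.single_le_sum (fun n _ => N_nonneg n) hn).trans hJ.le
  refine h1.trans ((key J).trans (mul_le_mul_of_nonneg_left ?_ hC))
  have : 0 ≤ (2 ^ J * X) ^ (1 - σ) := by positivity
  linarith

theorem summable_N_rpow {σ : ℝ} (hσ : 1 < σ) : Summable (fun n : O => N n ^ (-σ)) := by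
  obtain ⟨C, -, hC⟩ := b2_tail hσ
  refine summable_of_sum_le (c := C * (1 / 2) ^ (1 - σ))
    (fun n => Real.rpow_nonneg (N_nonneg n) _) fun s => ?_
  refine le_of_eq_of_le (Finset.sum_congr rfl fun n _ => ?_) (hC (1 / 2) (by norm_num) s)
  by_cases h : n = 0
  · rw [h, N_zero, if_neg (by norm_num), Real.zero_rpow (by linarith)]
  · rw [if_pos (by linarith [one_le_N h])]
/-- tail bound; note `N 0 ^ (-σ) = 0` -/
theorem tsum_tail_N_rpow {σ : ℝ} (hσ : 1 < σ) : ∃ C, ∀ X : ℝ, 0 < X →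
    ∑' n : O, (if X < N n then N n ^ (-σ) else 0) ≤ C * X ^ (1 - σ) := by
  obtain ⟨C, hC0, hC⟩ := b2_tail hσ
  exact ⟨C, fun X hX => tsum_le_of_sum_le' (by positivity) (hC X hX)⟩
theorem sum_ball_rpow {σ : ℝ} (hσ : σ < 1) : ∃ C, ∀ X : ℝ, 1 ≤ X →
    ∑ n ∈ ball X, N n ^ (-σ) ≤ C * X ^ (1 - σ) := by
  have hr : (2 : ℝ) ^ (σ - 1) < 1 := Real.rpow_lt_one_of_one_lt_of_neg (by norm_num) (by linarith)
  have hC : 0 ≤ 18 * (1 + 2 ^ σ) / (1 - (2 : ℝ) ^ (σ - 1)) := div_nonneg (by positivity) (by linarith)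
  refine ⟨18 * (1 + 2 ^ σ) / (1 - 2 ^ (σ - 1)), fun X hX => ?_⟩
  have key : ∀ (J : ℕ) (X : ℝ), 0 < X → X < 2 ^ J → ∑ n ∈ ball X, N n ^ (-σ) ≤
      18 * (1 + 2 ^ σ) / (1 - 2 ^ (σ - 1)) * X ^ (1 - σ) := by
    intro J
    induction J with
    | zero =>
      intro X hX h1
      rw [ball_eq_empty (by simpa using h1), Finset.sum_empty]
      positivity
    | succ J ih =>
      intro X hX h1
      have h2 := ih (X / 2) (by positivity) (by rw [pow_succ] at h1; linarith)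
      have h3 := b2_shell (Y := X / 2) (b := (1 + 2 ^ σ) * X ^ (-σ)) (by positivity) (by positivity)
        (fun n => N n ^ (-σ)) fun n h4 h5 => by
          have a1 : 0 ≤ X ^ (-σ) := by positivity
          have a2 : (0 : ℝ) ≤ 2 ^ σ := by positivity
          rcases le_total 0 σ with h6 | h6
          · have := Real.rpow_le_rpow_of_nonpos (by positivity) h4.le (neg_nonpos.2 h6)
            rw [Real.div_rpow hX.le (by norm_num), Real.rpow_neg (x := 2) (by norm_num),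
              div_inv_eq_mul] at this
            nlinarith
          · have := Real.rpow_le_rpow (N_nonneg n) (show N n ≤ X by linarith) (neg_nonneg.2 h6)
            nlinarith [mul_nonneg a1 a2]
      rw [mul_div_cancel₀ X two_ne_zero] at h3
      have e1 : X ^ (1 - σ) = X * X ^ (-σ) := by
        rw [sub_eq_add_neg, Real.rpow_add hX, Real.rpow_one]
      have e2 : (X / 2) ^ (1 - σ) = 2 ^ (σ - 1) * X ^ (1 - σ) := by
        rw [Real.div_rpow hX.le (by norm_num), ← neg_sub σ 1, Real.rpow_neg (x := 2) (by norm_num),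
          div_inv_eq_mul, mul_comm]
      have e3 : 36 * (X / 2) * ((1 + 2 ^ σ) * X ^ (-σ)) = 18 * (1 + 2 ^ σ) / (1 - 2 ^ (σ - 1)) *
          (X ^ (1 - σ) - 2 ^ (σ - 1) * X ^ (1 - σ)) := by
        have : 1 - (2 : ℝ) ^ (σ - 1) ≠ 0 := by linarith
        rw [e1]; field_simp; ring
      rw [e2] at h2
      rw [e3] at h3
      linarith
  obtain ⟨J, hJ⟩ := pow_unbounded_of_one_lt X (one_lt_two (α := ℝ))
  exact key J X (by linarith) hJ
theorem sum_ball_inv : ∃ C, ∀ X : ℝ, 1 ≤ X → ∑ n ∈ ball X, (N n)⁻¹ ≤ C * (1 + Real.log X) := by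
  have hl1 := Real.log_two_gt_d9
  have hl2 := Real.log_two_lt_d9
  have key : ∀ (J : ℕ) (X : ℝ), 1 / 2 ≤ X → X < 2 ^ J → ∑ n ∈ ball X, (N n)⁻¹ ≤
      72 * (1 + Real.log X) := by
    have h0 : ∀ X : ℝ, 1 / 2 ≤ X → X < 1 → ∑ n ∈ ball X, (N n)⁻¹ ≤ 72 * (1 + Real.log X) := by
      intro X hX h1
      rw [ball_eq_empty h1, Finset.sum_empty]
      have := Real.log_le_log (by norm_num) hX
      rw [one_div, Real.log_inv] at this
      linarith
    intro J
    induction J with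
    | zero => exact fun X hX h1 => h0 X hX (by simpa using h1)
    | succ J ih =>
      intro X hX h1
      rcases lt_or_ge X 1 with h6 | h6
      · exact h0 X hX h6
      have h2 := ih (X / 2) (by linarith) (by rw [pow_succ] at h1; linarith)
      have h3 := b2_shell (Y := X / 2) (b := (X / 2)⁻¹) (by positivity) (by positivity)
        (fun n => (N n)⁻¹) fun n h4 _ => inv_anti₀ (by positivity) h4.le
      rw [mul_div_cancel₀ X two_ne_zero, mul_assoc, mul_inv_cancel₀ (by positivity)] at h3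
      rw [Real.log_div (by positivity) two_ne_zero] at h2
      linarith
  refine ⟨72, fun X hX => ?_⟩
  obtain ⟨J, hJ⟩ := pow_unbounded_of_one_lt X (one_lt_two (α := ℝ))
  exact key J X (by linarith) hJ

end Crest.Agent.R17
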