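import Crest.Agent.R17.Basic2

/-!
# R17 / Basic : elementary API for `O` (units, primary elements, balls, divisors, Möbius)
-/

set_option autoImplicit false

noncomputable section

open scoped Classical ComplexConjugate

namespace Crest.Agent.R17

/-! ### divisors and Möbius -/
theorem mem_pdiv {n e : O} (hn : n ≠ 0) : e ∈ pdiv n ↔ Prim e ∧ e ∣ n := by
  rw [pdiv, Finset.mem_filter, mem_ball]
  exact ⟨fun h => h.2, fun h => ⟨⟨h.1.ne_zero, N_le_of_dvd hn h.2⟩, h⟩⟩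
theorem one_mem_pdiv {n : O} (hn : n ≠ 0) : 1 ∈ pdiv n := (mem_pdiv hn).2 ⟨Prim.one, one_dvd _⟩

/-- a primary divisor of a product splits into primary divisors -/
theorem Prim.b3_mul_of_dvd {e a b : O} (he : Prim e) (h : e ∣ a * b) :
    ∃ e1 e2, Prim e1 ∧ Prim e2 ∧ e1 ∣ a ∧ e2 ∣ b ∧ e = e1 * e2 := by
  obtain ⟨e1, e2, h1, h2, rfl⟩ := exists_dvd_and_dvd_of_dvd_mul h
  obtain ⟨u, hu, hp⟩ := exists_unit_mul_prim he.isCoprime_three.of_mul_left_left
  obtain ⟨u, rfl⟩ := hu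
  have h3 : e1 * e2 = (u * e1) * (↑u⁻¹ * e2) := by
    rw [mul_mul_mul_comm, Units.mul_inv, one_mul]
  exact ⟨u * e1, ↑u⁻¹ * e2, hp, Prim.of_mul_left (h3 ▸ he) hp, (Units.mul_left_dvd).2 h1,
    (Units.mul_left_dvd).2 h2, h3⟩

/-- a prime coprime to `3` has a primary prime associate -/
theorem b3_prim_prime {p : O} (hp : Prime p) (h : IsCoprime p 3) :
    ∃ p', Prime p' ∧ Prim p' ∧ Associated p p' := by
  obtain ⟨u, hu, h1⟩ := exists_unit_mul_prim h
  have h2 : Associated p (u * p) := (associated_unit_mul_left p u hu).symm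
  exact ⟨u * p, h2.prime hp, h1, h2⟩

theorem Prim.b3_prim_prime {n p : O} (hn : Prim n) (hp : Prime p) (h : p ∣ n) :
    ∃ p', Prime p' ∧ Prim p' ∧ Associated p p' :=
  R17.b3_prim_prime hp (hn.isCoprime_three.of_isCoprime_of_dvd_left h)

/-- distinct primary primes are coprime -/
theorem Prim.b3_isCoprime_of_ne {p q : O} (hp : Prime p) (hp' : Prim p) (hq : Prime q) (hq' : Prim q)
    (h : p ≠ q) : IsCoprime p q :=
  hp.coprime_iff_not_dvd.2 fun hd => h (hp'.eq_of_associated hq' (hp.associated_of_dvd hq hd))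

theorem b3_pdiv_of_isUnit {u : O} (hu : IsUnit u) : pdiv u = {1} := by
  ext e
  rw [mem_pdiv hu.ne_zero, Finset.mem_singleton]
  exact ⟨fun h => h.1.eq_one_of_isUnit (isUnit_of_dvd_unit h.2 hu),
    fun h => h ▸ ⟨Prim.one, one_dvd _⟩⟩

private theorem b3_card_mul {a b : O} (ha : a ≠ 0) (hb : b ≠ 0) :
    (pdiv (a * b)).card ≤ (pdiv a).card * (pdiv b).card := by
  refine le_trans (Finset.card_le_card fun e he => ?_) (Finset.card_image₂_le (· * ·) _ _)
  obtain ⟨h1, h2⟩ := (mem_pdiv (mul_ne_zero ha hb)).1 he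
  obtain ⟨e1, e2, p1, p2, d1, d2, rfl⟩ := h1.b3_mul_of_dvd h2
  exact Finset.mem_image₂_of_mem ((mem_pdiv ha).2 ⟨p1, d1⟩) ((mem_pdiv hb).2 ⟨p2, d2⟩)

private theorem b3_card_prime {p : O} (hp : Prime p) : (pdiv p).card ≤ 2 := by
  rw [← Finset.insert_erase (one_mem_pdiv hp.ne_zero)]
  refine (Finset.card_insert_le _ _).trans (Nat.succ_le_succ (Finset.card_le_one.2 ?_))
  have h : ∀ e ∈ (pdiv p).erase 1, Prim e ∧ Associated p e := fun e he => by
    obtain ⟨h1, h2⟩ := Finset.mem_erase.1 he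
    obtain ⟨h3, h4⟩ := (mem_pdiv hp.ne_zero).1 h2
    exact ⟨h3, (hp.irreducible.dvd_iff.1 h4).resolve_left fun h => h1 (h3.eq_one_of_isUnit h)⟩
  exact fun a ha b hb => (h a ha).1.eq_of_associated (h b hb).1 ((h a ha).2.symm.trans (h b hb).2)

theorem card_pdiv_le_N {n : O} (hn : n ≠ 0) : ((pdiv n).card : ℝ) ≤ N n := by
  induction n using UniqueFactorizationMonoid.induction_on_prime with
  | h₁ => exact absurd rfl hn
  | h₂ u hu => rw [b3_pdiv_of_isUnit hu, Finset.card_singleton, Nat.cast_one]; exact one_le_N hn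
  | h₃ a p ha hp ih =>
    have h1 : ((pdiv (p * a)).card : ℝ) ≤ 2 * (pdiv a).card := by
      exact_mod_cast (b3_card_mul hp.ne_zero ha).trans (Nat.mul_le_mul_right _ (b3_card_prime hp))
    rw [N_mul]
    exact h1.trans (mul_le_mul (Prime.two_le_N hp) (ih ha) (Nat.cast_nonneg _) (N_nonneg _))

private theorem b3_pow_card (K : ℝ) {ε : ℝ} (hε : 0 < ε) : ∃ C, ∀ n : O, n ≠ 0 →
    K ^ ((pdiv n).filter Prime).card ≤ C * N n ^ ε := by
  obtain ⟨K', hK1, hK⟩ : ∃ K' : ℝ, 1 ≤ K' ∧ |K| ≤ K' := ⟨max 1 |K|, le_max_left _ _, le_max_right _ _⟩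
  refine ⟨K' ^ (ball (K' ^ ε⁻¹)).card, fun n hn => ?_⟩
  set P := (pdiv n).filter Prime with hP
  have hmem : ∀ p ∈ P, Prime p ∧ Prim p ∧ p ∣ n := fun p hp =>
    ⟨(Finset.mem_filter.1 hp).2, (mem_pdiv hn).1 (Finset.mem_filter.1 hp).1⟩
  have h1 : ∏ p ∈ P, p ∣ n := Finset.prod_dvd_of_coprime
    (fun p hp q hq h => Prim.b3_isCoprime_of_ne (hmem p hp).1 (hmem p hp).2.1 (hmem q hq).1
      (hmem q hq).2.1 h) fun p hp => (hmem p hp).2.2
  have h2 : ∏ p ∈ P, N p ^ ε ≤ N n ^ ε := by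
    rw [Real.finsetProd_rpow _ _ fun p _ => N_nonneg p, ← N_prod]
    exact Real.rpow_le_rpow (N_nonneg _) (N_le_of_dvd hn h1) hε.le
  have h3 : ∏ p ∈ P, (if p ∈ ball (K' ^ ε⁻¹) then K' else 1) ≤ K' ^ (ball (K' ^ ε⁻¹)).card := by
    rw [Finset.prod_ite, Finset.prod_const_one, mul_one, Finset.prod_const]
    exact pow_le_pow_right₀ hK1 (Finset.card_le_card fun p hp => (Finset.mem_filter.1 hp).2)
  calc K ^ P.card ≤ K' ^ P.card :=
        (le_abs_self _).trans ((abs_pow _ _).le.trans (pow_le_pow_left₀ (abs_nonneg _) hK _))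
    _ = ∏ _p ∈ P, K' := (Finset.prod_const _).symm
    _ ≤ ∏ p ∈ P, (if p ∈ ball (K' ^ ε⁻¹) then K' else 1) * N p ^ ε := by
        refine Finset.prod_le_prod (fun _ _ => by linarith) fun p hp => ?_
        have h0 := (hmem p hp).1.ne_zero
        split_ifs with h
        · exact le_mul_of_one_le_right (by linarith) (Real.one_le_rpow (one_le_N h0) hε.le)
        · rw [mem_ball, not_and, not_le] at h
          rw [one_mul]
          exact (Real.rpow_inv_le_iff_of_pos (by linarith) (N_nonneg _) hε).1 (h h0).le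
    _ ≤ _ := by
        rw [Finset.prod_mul_distrib]
        exact mul_le_mul h3 h2 (Finset.prod_nonneg fun p _ => Real.rpow_nonneg (N_nonneg _) _)
          (by positivity)

private theorem b3_smooth {σ : ℝ} (hσ : 0 < σ) (T : Finset O) (hT : ∀ p ∈ T, Prime p)
    (S : Finset O) (hS : ∀ f ∈ S, f ≠ 0 ∧ ∀ q, Prime q → q ∣ f → ∃ p ∈ T, Associated q p) :
    ∑ f ∈ S, N f ^ (-σ) ≤ 6 * (1 - (2 : ℝ) ^ (-σ))⁻¹ ^ T.card := by
  have hr0 : 0 ≤ (2 : ℝ) ^ (-σ) := by positivity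
  have hr1 : (2 : ℝ) ^ (-σ) < 1 := Real.rpow_lt_one_of_one_lt_of_neg one_lt_two (by linarith)
  induction T using Finset.induction_on generalizing S with
  | empty =>
    have h1 : ∀ f ∈ S, IsUnit f := fun f hf => by
      by_contra h
      obtain ⟨q, hq, hd⟩ := WfDvdMonoid.exists_irreducible_factor h (hS f hf).1
      simpa using (hS f hf).2 q hq.prime hd
    have h2 : S.card ≤ 6 :=
      (Finset.card_le_card fun f hf => isUnit_iff_mem_units6.1 (h1 f hf)).trans card_units6.le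
    rw [Finset.sum_congr rfl fun f hf => by
      rw [N, isUnit_iff_nm.1 (h1 f hf), Nat.cast_one, Real.one_rpow]]
    simpa using (by exact_mod_cast h2 : (S.card : ℝ) ≤ 6)
  | insert p T hp ih =>
    have hp' := hT p (Finset.mem_insert_self _ _)
    have h1 : ∀ f : O, ∃ x : ℕ × O, f ≠ 0 → ¬ p ∣ x.2 ∧ f = p ^ x.1 * x.2 := fun f => by
      by_cases h : f = 0
      · exact ⟨(0, 0), fun h' => absurd h h'⟩
      · obtain ⟨i, a, h2⟩ := WfDvdMonoid.max_power_factor h hp'.irreducible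
        exact ⟨(i, a), fun _ => h2⟩
    choose g hg using h1
    have h2 := ih (fun q hq => hT q (Finset.mem_insert_of_mem hq)) (S.image fun f => (g f).2)
      fun f' hf' => by
        obtain ⟨f, hf, rfl⟩ := Finset.mem_image.1 hf'
        obtain ⟨h3, h4⟩ := hg f (hS f hf).1
        refine ⟨fun h => h3 (h ▸ dvd_zero p), fun q hq hd => ?_⟩
        obtain ⟨p', h5, h6⟩ := (hS f hf).2 q hq (hd.trans (Dvd.intro_left _ h4.symm))
        refine ⟨p', (Finset.mem_insert.1 h5).resolve_left fun h => h3 ?_, h6⟩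
        exact (h ▸ h6.symm.dvd).trans hd
    have h3 : ∑ i ∈ S.image (fun f => (g f).1), N (p ^ i) ^ (-σ) ≤ (1 - (2 : ℝ) ^ (-σ))⁻¹ := by
      rw [← tsum_geometric_of_lt_one hr0 hr1]
      refine le_trans (Finset.sum_le_sum fun i _ => ?_)
        ((summable_geometric_of_lt_one hr0 hr1).sum_le_tsum _ fun i _ => pow_nonneg hr0 i)
      rw [N_pow, ← Real.rpow_pow_comm (N_nonneg p)]
      exact pow_le_pow_left₀ (Real.rpow_nonneg (N_nonneg p) _)
        (Real.rpow_le_rpow_of_nonpos two_pos (Prime.two_le_N hp') (by linarith)) i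
    have h4 : S ⊆ (S.image (fun f => (g f).1) ×ˢ S.image fun f => (g f).2).image
        fun x => p ^ x.1 * x.2 := fun f hf =>
      Finset.mem_image.2 ⟨g f, Finset.mem_product.2 ⟨Finset.mem_image_of_mem _ hf,
        Finset.mem_image_of_mem _ hf⟩, (hg f (hS f hf).1).2.symm⟩
    refine (Finset.sum_le_sum_of_subset_of_nonneg h4 fun f _ _ =>
      Real.rpow_nonneg (N_nonneg _) _).trans ((Finset.sum_image_le_of_nonneg fun f _ =>
        Real.rpow_nonneg (N_nonneg _) _).trans ?_)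
    simp only [N_mul, Real.mul_rpow (N_nonneg _) (N_nonneg _)]
    rw [Finset.sum_product' (f := fun i f => N (p ^ i) ^ (-σ) * N f ^ (-σ)), ← Finset.sum_mul_sum,
      Finset.card_insert_of_notMem hp, pow_succ', mul_left_comm]
    exact mul_le_mul h3 h2 (Finset.sum_nonneg fun f _ => Real.rpow_nonneg (N_nonneg _) _)
      (inv_nonneg.2 (by linarith))

private theorem b3_sum_smooth {σ ε : ℝ} (hσ : 0 < σ) (hε : 0 < ε) : ∃ C, ∀ H : O, H ≠ 0 →
    ∀ S : Finset O, (∀ f ∈ S, ∃ j : ℕ, f ∣ H ^ j) → ∑ f ∈ S, N f ^ (-σ) ≤ C * N H ^ ε := by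
  have hr0 : 0 < (2 : ℝ) ^ (-σ) := by positivity
  have hr1 : (2 : ℝ) ^ (-σ) < 1 := Real.rpow_lt_one_of_one_lt_of_neg one_lt_two (by linarith)
  have hc : 1 ≤ (1 - (2 : ℝ) ^ (-σ))⁻¹ := (one_le_inv₀ (by linarith)).2 (by linarith)
  obtain ⟨C, hC⟩ := b3_pow_card (1 - (2 : ℝ) ^ (-σ))⁻¹ hε
  refine ⟨6 * ((1 - (2 : ℝ) ^ (-σ))⁻¹ * C), fun H hH S hS => ?_⟩
  refine (b3_smooth hσ (insert lam ((pdiv H).filter Prime)) (fun p hp => ?_) S fun f hf => ?_).trans ?_
  · rcases Finset.mem_insert.1 hp with rfl | h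
    · exact prime_lam
    · exact (Finset.mem_filter.1 h).2
  · obtain ⟨j, hj⟩ := hS f hf
    refine ⟨ne_zero_of_dvd_ne_zero (pow_ne_zero j hH) hj, fun q hq hd => ?_⟩
    by_cases h3 : q ∣ 3
    · refine ⟨lam, Finset.mem_insert_self _ _, hq.associated_of_dvd prime_lam
        (hq.dvd_of_dvd_pow (n := 2) ?_)⟩
      rwa [lam_sq, dvd_neg]
    · obtain ⟨p, h4, h5, h6⟩ := b3_prim_prime hq (hq.coprime_iff_not_dvd.2 h3)
      exact ⟨p, Finset.mem_insert_of_mem (Finset.mem_filter.2 ⟨(mem_pdiv hH).2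
        ⟨h5, h6.symm.dvd.trans (hq.dvd_of_dvd_pow (hd.trans hj))⟩, h4⟩), h6⟩
  · rw [mul_assoc, mul_assoc]
    refine mul_le_mul_of_nonneg_left ((pow_le_pow_right₀ hc (Finset.card_insert_le _ _)).trans ?_)
      (by norm_num)
    rw [pow_succ']
    exact mul_le_mul_of_nonneg_left (hC H hH) (by linarith)

private theorem b3_card_dvd {ε : ℝ} (hε : 0 < ε) : ∃ C, ∀ n : O, n ≠ 0 → ∀ S : Finset O,
    (∀ e ∈ S, e ∣ n) → (S.card : ℝ) ≤ C * N n ^ ε := by
  obtain ⟨C, hC⟩ := b3_sum_smooth (half_pos hε) (half_pos hε)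
  refine ⟨C, fun n hn S hS => ?_⟩
  have h1 := mul_le_mul_of_nonneg_left (hC n hn S fun e he => ⟨1, by simpa using hS e he⟩)
    (Real.rpow_nonneg (N_nonneg n) (ε / 2))
  rw [mul_left_comm, ← Real.rpow_add (N_pos hn), add_halves, Finset.mul_sum] at h1
  refine le_trans ?_ h1
  rw [Finset.card_eq_sum_ones, Nat.cast_sum, Nat.cast_one]
  refine Finset.sum_le_sum fun e he => ?_
  have h0 := N_pos (ne_zero_of_dvd_ne_zero hn (hS e he))
  rw [Real.rpow_neg h0.le, ← div_eq_mul_inv, one_le_div (Real.rpow_pos_of_pos h0 _)]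
  exact Real.rpow_le_rpow h0.le (N_le_of_dvd hn (hS e he)) (half_pos hε).le

/-- divisor bound -/
theorem card_pdiv_le {ε : ℝ} (hε : 0 < ε) : ∃ C, ∀ n : O, n ≠ 0 →
    ((pdiv n).card : ℝ) ≤ C * N n ^ ε := by
  obtain ⟨C, hC⟩ := b3_card_dvd hε
  exact ⟨C, fun n hn => hC n hn _ fun e he => ((mem_pdiv hn).1 he).2⟩
/-- divisor bound for all (not only primary) divisors -/
theorem card_dvd_le {ε : ℝ} (hε : 0 < ε) : ∃ C, ∀ n : O, n ≠ 0 → ∀ S : Finset O,
    (∀ e ∈ S, e ∣ n) → (S.card : ℝ) ≤ C * N n ^ ε := b3_card_dvd hε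
theorem card_pdiv_mul_le {a b : O} (ha : a ≠ 0) (hb : b ≠ 0) :
    (pdiv (a * b)).card ≤ (pdiv a).card * (pdiv b).card := b3_card_mul ha hb
/-- `C^{ω(n)} ≪ N(n)^ε` -/
theorem pow_card_primes_le (K : ℝ) {ε : ℝ} (hε : 0 < ε) : ∃ C, ∀ n : O, n ≠ 0 →
    K ^ ((pdiv n).filter Prime).card ≤ C * N n ^ ε := b3_pow_card K hε
/-- divisors of a coprime product -/
theorem sum_pdiv_mul {M : Type*} [AddCommMonoid M] {a b : O} (ha : a ≠ 0) (hb : b ≠ 0)
    (hab : IsCoprime a b) (f : O → M) :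
    ∑ e ∈ pdiv (a * b), f e = ∑ e1 ∈ pdiv a, ∑ e2 ∈ pdiv b, f (e1 * e2) := by
  rw [← Finset.sum_product' (f := fun e1 e2 => f (e1 * e2))]
  symm
  refine Finset.sum_nbij (fun x => x.1 * x.2) (fun x hx => ?_) (fun x hx y hy h => ?_)
    (fun e he => ?_) fun _ _ => rfl
  · obtain ⟨h1, h2⟩ := Finset.mem_product.1 hx
    rw [mem_pdiv ha] at h1
    rw [mem_pdiv hb] at h2
    exact (mem_pdiv (mul_ne_zero ha hb)).2 ⟨h1.1.mul h2.1, mul_dvd_mul h1.2 h2.2⟩
  · obtain ⟨h1, h2⟩ := Finset.mem_product.1 (Finset.mem_coe.1 hx)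
    obtain ⟨h3, h4⟩ := Finset.mem_product.1 (Finset.mem_coe.1 hy)
    rw [mem_pdiv ha] at h1 h3
    rw [mem_pdiv hb] at h2 h4
    have h5 : x.1 = y.1 := h1.1.eq_of_associated h3.1 (associated_of_dvd_dvd
      ((hab.mono h1.2 h4.2).dvd_of_dvd_mul_right (Dvd.intro _ h))
      ((hab.mono h3.2 h2.2).dvd_of_dvd_mul_right (Dvd.intro _ h.symm)))
    refine Prod.ext h5 (mul_left_cancel₀ h1.1.ne_zero ?_)
    exact h.trans (by rw [h5])
  · obtain ⟨h1, h2⟩ := (mem_pdiv (mul_ne_zero ha hb)).1 (Finset.mem_coe.1 he)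
    obtain ⟨e1, e2, p1, p2, d1, d2, rfl⟩ := h1.b3_mul_of_dvd h2
    exact ⟨(e1, e2), Finset.mem_coe.2 (Finset.mem_product.2
      ⟨(mem_pdiv ha).2 ⟨p1, d1⟩, (mem_pdiv hb).2 ⟨p2, d2⟩⟩), rfl⟩
theorem pdiv_prime_pow {p : O} (hp : Prime p) (hp' : Prim p) (j : ℕ) :
    pdiv (p ^ j) = (Finset.range (j + 1)).image (fun i => p ^ i) := by
  ext e
  rw [mem_pdiv (pow_ne_zero j hp.ne_zero), Finset.mem_image, dvd_prime_pow hp]
  constructor
  · rintro ⟨h1, i, hi, h2⟩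
    exact ⟨i, Finset.mem_range.2 (Nat.lt_succ_of_le hi), (h1.eq_of_associated (hp'.pow i) h2).symm⟩
  · rintro ⟨i, hi, rfl⟩
    exact ⟨hp'.pow i, i, Nat.le_of_lt_succ (Finset.mem_range.1 hi), Associated.refl _⟩
theorem norm_mu_le (n : O) : ‖mu n‖ ≤ 1 := by
  by_cases h : Squarefree n
  · simp [mu, h.moebius_eq]
  · simp [mu, UniqueFactorizationMonoid.moebius_of_not_squarefree h]
theorem mu_one : mu 1 = 1 := by rw [mu, UniqueFactorizationMonoid.moebius_one, Int.cast_one]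
theorem mu_prime {p : O} (hp : Prime p) : mu p = -1 := by
  rw [mu, hp.irreducible.moebius_eq, Int.cast_neg, Int.cast_one]
theorem mu_mul {a b : O} (h : IsCoprime a b) : mu (a * b) = mu a * mu b := by
  rw [mu, h.isRelPrime.moebius_mul, Int.cast_mul, mu, mu]
theorem mu_eq_zero {a : O} (h : ¬ Squarefree a) : mu a = 0 := by
  rw [mu, UniqueFactorizationMonoid.moebius_of_not_squarefree h, Int.cast_zero]
theorem mu_sq {a : O} (h : Squarefree a) : mu a * mu a = 1 := by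
  rw [mu, h.moebius_eq, ← Int.cast_mul, ← mul_pow]
  simp
theorem conj_mu (a : O) : conj (mu a) = mu a := map_intCast _ _
theorem mu_prod_primes {I : Finset O} (hI : ∀ p ∈ I, Prime p ∧ Prim p) :
    mu (∏ p ∈ I, p) = (-1) ^ I.card := by
  induction I using Finset.induction_on with
  | empty => simp [mu_one]
  | insert q I hq ih =>
    have h1 := hI q (Finset.mem_insert_self _ _)
    have h2 : ∀ p ∈ I, Prime p ∧ Prim p := fun p hp => hI p (Finset.mem_insert_of_mem hp)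
    rw [Finset.prod_insert hq, mu_mul (IsCoprime.prod_right fun p hp =>
      Prim.b3_isCoprime_of_ne h1.1 h1.2 (h2 p hp).1 (h2 p hp).2 fun h => hq (h ▸ hp)), ih h2,
      mu_prime h1.1, Finset.card_insert_of_notMem hq, pow_succ']

/-- pairing `e ↔ p e` kills a Möbius sum -/
theorem b3_sum_mu_pair {A : Finset O} {p : O} (hp : Prime p)
    (hA : ∀ e, ¬ p ∣ e → (e ∈ A ↔ p * e ∈ A)) : ∑ e ∈ A, mu e = 0 := by
  rw [← Finset.sum_filter_add_sum_filter_not A (p ∣ ·), add_eq_zero_iff_eq_neg,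
    ← Finset.sum_neg_distrib, ← Finset.sum_filter_of_ne (p := fun e => ¬ p * p ∣ e)
      fun e _ h h' => h (mu_eq_zero fun hs => hp.not_isUnit (hs p h'))]
  symm
  refine Finset.sum_nbij (fun e => p * e) (fun e he => ?_)
    (fun x _ y _ h => mul_left_cancel₀ hp.ne_zero h) (fun e he => ?_) fun e he => ?_
  · obtain ⟨h1, h2⟩ := Finset.mem_filter.1 he
    exact Finset.mem_filter.2 ⟨Finset.mem_filter.2 ⟨(hA e h2).1 h1, dvd_mul_right _ _⟩,
      fun h => h2 ((mul_dvd_mul_iff_left hp.ne_zero).1 h)⟩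
  · obtain ⟨h1, h2⟩ := Finset.mem_filter.1 (Finset.mem_coe.1 he)
    obtain ⟨h3, e', rfl⟩ := Finset.mem_filter.1 h1
    have h4 : ¬ p ∣ e' := fun h => h2 (mul_dvd_mul_left p h)
    exact ⟨e', Finset.mem_coe.2 (Finset.mem_filter.2 ⟨(hA e' h4).2 h3, h4⟩), rfl⟩
  · rw [mu_mul (hp.coprime_iff_not_dvd.2 (Finset.mem_filter.1 he).2), mu_prime hp, neg_one_mul]

private theorem b3_pair {n p e : O} (hn : n ≠ 0) (hp : Prime p) (hp' : Prim p) (hpn : p ∣ n)
    (he : ¬ p ∣ e) : e ∈ pdiv n ↔ p * e ∈ pdiv n := by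
  rw [mem_pdiv hn, mem_pdiv hn]
  exact ⟨fun h => ⟨hp'.mul h.1, (hp.coprime_iff_not_dvd.2 he).mul_dvd hpn h.2⟩,
    fun h => ⟨h.1.of_mul_left hp', (dvd_mul_left _ _).trans h.2⟩⟩

private theorem b3_common {g d : O} (hg : Prim g) (h : ¬ IsCoprime d g) :
    ∃ p, Prime p ∧ Prim p ∧ p ∣ d ∧ p ∣ g := by
  by_contra hc
  refine h (isCoprime_of_prime_dvd (fun h => hg.ne_zero h.2) fun q hq h1 h2 => ?_)
  obtain ⟨p, a1, a2, a3⟩ := hg.b3_prim_prime hq h2
  exact hc ⟨p, a1, a2, a3.symm.dvd.trans h1, a3.symm.dvd.trans h2⟩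

/-- Möbius inversion: for primary `n` -/
theorem sum_mu_pdiv {n : O} (hn : Prim n) : ∑ e ∈ pdiv n, mu e = if n = 1 then 1 else 0 := by
  split_ifs with h
  · rw [h, b3_pdiv_of_isUnit isUnit_one, Finset.sum_singleton, mu_one]
  · obtain ⟨p, h1, h2, h3⟩ := hn.exists_prime_dvd h
    exact b3_sum_mu_pair h1 fun e he => b3_pair hn.ne_zero h1 h2 h3 he
/-- coprimality detector: `g` primary, `d` arbitrary (possibly `0`) -/
theorem sum_mu_coprime {g : O} (hg : Prim g) (d : O) :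
    ∑ e ∈ (pdiv g).filter (fun e => e ∣ d), mu e = if IsCoprime d g then 1 else 0 := by
  split_ifs with h
  · rw [Finset.sum_eq_single_of_mem (s := (pdiv g).filter (fun e => e ∣ d)) 1
      (Finset.mem_filter.2 ⟨one_mem_pdiv hg.ne_zero, one_dvd _⟩), mu_one]
    intro e he h1
    obtain ⟨h2, h3⟩ := Finset.mem_filter.1 he
    rw [mem_pdiv hg.ne_zero] at h2
    exact absurd (h2.1.eq_one_of_isUnit (h.isUnit_of_dvd' h3 h2.2)) h1
  · obtain ⟨p, h1, h2, h3, h4⟩ := b3_common hg h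
    refine b3_sum_mu_pair h1 fun e he => ?_
    rw [Finset.mem_filter, Finset.mem_filter, ← b3_pair hg.ne_zero h1 h2 h4 he]
    exact and_congr_right fun _ => ⟨(h1.coprime_iff_not_dvd.2 he).mul_dvd h3,
      (dvd_mul_left _ _).trans⟩
/-- squarefree detector for primary `n` -/
theorem sum_mu_sq {n : O} (hn : Prim n) :
    ∑ h ∈ (pdiv n).filter (fun h => h ^ 2 ∣ n), mu h = if Squarefree n then 1 else 0 := by
  split_ifs with h
  · rw [Finset.sum_eq_single_of_mem 1 (Finset.mem_filter.2 ⟨one_mem_pdiv hn.ne_zero, by simp⟩),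
      mu_one]
    intro e he h1
    obtain ⟨h2, h3⟩ := Finset.mem_filter.1 he
    rw [mem_pdiv hn.ne_zero] at h2
    exact absurd (h2.1.eq_one_of_isUnit (h e (sq e ▸ h3))) h1
  · rw [squarefree_iff_irreducible_sq_not_dvd_of_ne_zero hn.ne_zero] at h
    push Not at h
    obtain ⟨q, hq, hd⟩ := h
    obtain ⟨p, h1, h2, h3⟩ := hn.b3_prim_prime hq.prime ((dvd_mul_right _ _).trans hd)
    have h4 : p ^ 2 ∣ n := sq p ▸ (mul_dvd_mul h3.symm.dvd h3.symm.dvd).trans hd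
    refine b3_sum_mu_pair h1 fun e he => ?_
    rw [Finset.mem_filter, Finset.mem_filter,
      ← b3_pair hn.ne_zero h1 h2 ((dvd_pow_self p two_ne_zero).trans h4) he, mul_pow]
    exact and_congr_right fun _ => ⟨(h1.coprime_iff_not_dvd.2 he).pow.mul_dvd h4,
      (dvd_mul_left _ _).trans⟩
/-- `μ(m) 1_{(m,H)=1} = ∑_{f ∣ m, f ∣ H^∞} μ(m/f)` -/
theorem mu_coprime_expand {m H : O} (hm : Prim m) (hH : H ≠ 0) :
    (if IsCoprime m H then mu m else 0) =
      ∑ f ∈ (pdiv m).filter (fun f => ∃ j : ℕ, f ∣ H ^ j), mu (m / f) := by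
  have _ := hH
  have h0 := hm.ne_zero
  split_ifs with h
  · rw [Finset.sum_eq_single_of_mem 1 (Finset.mem_filter.2 ⟨one_mem_pdiv h0, 0, one_dvd _⟩),
      EuclideanDomain.div_one]
    intro e he h1
    obtain ⟨h2, j, h3⟩ := Finset.mem_filter.1 he
    rw [mem_pdiv h0] at h2
    exact absurd (h2.1.eq_one_of_isUnit (h.pow_right.isUnit_of_dvd' h2.2 h3)) h1
  · obtain ⟨p, h1, h2, h3, h4⟩ := b3_common hm fun h' => h h'.symm
    symm
    refine Eq.trans ?_ (b3_sum_mu_pair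
      (A := (pdiv m).filter fun g => ∃ (f : O) (j : ℕ), m = g * f ∧ f ∣ H ^ j) h1 fun e he => ?_)
    · refine Finset.sum_nbij (fun f => m / f) (fun f hf => ?_) (fun x hx y hy hxy => ?_)
        (fun g hg => ?_) fun _ _ => rfl
      · obtain ⟨a1, j, a2⟩ := Finset.mem_filter.1 hf
        rw [mem_pdiv h0] at a1
        have a3 := EuclideanDomain.mul_div_cancel' a1.1.ne_zero a1.2
        exact Finset.mem_filter.2 ⟨(mem_pdiv h0).2 ⟨hm.div a1.1 a1.2, Dvd.intro_left _ a3⟩,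
          f, j, by rw [mul_comm, a3], a2⟩
      · have a1 := (mem_pdiv h0).1 (Finset.mem_filter.1 (Finset.mem_coe.1 hx)).1
        have a2 := (mem_pdiv h0).1 (Finset.mem_filter.1 (Finset.mem_coe.1 hy)).1
        have a3 := EuclideanDomain.mul_div_cancel' a1.1.ne_zero a1.2
        have a4 := EuclideanDomain.mul_div_cancel' a2.1.ne_zero a2.2
        refine mul_right_cancel₀ (hm.div a2.1 a2.2).ne_zero ?_
        rw [a4, ← show m / x = m / y from hxy, a3]
      · obtain ⟨a1, f, j, a2, a3⟩ := Finset.mem_filter.1 (Finset.mem_coe.1 hg)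
        rw [mem_pdiv h0] at a1
        have a4 : Prim f := Prim.of_mul_left (a2 ▸ hm) a1.1
        refine ⟨f, Finset.mem_coe.2 (Finset.mem_filter.2
          ⟨(mem_pdiv h0).2 ⟨a4, Dvd.intro_left _ a2.symm⟩, j, a3⟩), ?_⟩
        simp only [a2]
        exact mul_div_cancel_right₀ g a4.ne_zero
    · rw [Finset.mem_filter, Finset.mem_filter, ← b3_pair h0 h1 h2 h4 he]
      refine and_congr_right fun _ => ⟨?_, ?_⟩
      · rintro ⟨f, j, a1, a2⟩
        obtain ⟨f', rfl⟩ := (h1.dvd_or_dvd (a1 ▸ h4)).resolve_left he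
        exact ⟨f', j, by rw [a1]; ring, (dvd_mul_left _ _).trans a2⟩
      · rintro ⟨f, j, a1, a2⟩
        exact ⟨p * f, j + 1, by rw [a1]; ring, pow_succ' H j ▸ mul_dvd_mul h3 a2⟩
/-- Rankin: sums over `H`-smooth elements, uniformly in `H` -/
theorem sum_smooth_le {σ ε : ℝ} (hσ : 0 < σ) (hε : 0 < ε) : ∃ C, ∀ H : O, H ≠ 0 →
    ∀ S : Finset O, (∀ f ∈ S, ∃ j : ℕ, f ∣ H ^ j) → ∑ f ∈ S, N f ^ (-σ) ≤ C * N H ^ ε :=
  b3_sum_smooth hσ hε
/-- unique decomposition of a primary element as squarefree × powerful, coprime -/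
theorem exists_sqfree_powerful {n : O} (hn : Prim n) :
    ∃ s f, Prim s ∧ Prim f ∧ Squarefree s ∧ IsCoprime s f ∧ (∀ p, Prime p → p ∣ f → p ^ 2 ∣ f) ∧
      n = s * f := by
  refine Prim.induction (P := fun n => ∃ s f, Prim s ∧ Prim f ∧ Squarefree s ∧ IsCoprime s f ∧
    (∀ p, Prime p → p ∣ f → p ^ 2 ∣ f) ∧ n = s * f) ⟨1, 1, Prim.one, Prim.one, squarefree_one,
      isCoprime_one_left, fun p hp h => absurd (isUnit_of_dvd_one h) hp.not_isUnit, (mul_one 1).symm⟩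
    ?_ hn
  rintro p a hp hp' - ⟨s, f, h1, h2, h3, h4, h5, rfl⟩
  by_cases hf : p ∣ f
  · refine ⟨s, p * f, h1, hp'.mul h2, h3, (h4.of_isCoprime_of_dvd_right hf).mul_right h4,
      fun q hq hd => ?_, by ring⟩
    rcases hq.dvd_or_dvd hd with h | h
    · exact sq q ▸ mul_dvd_mul h (h.trans hf)
    · exact (h5 q hq h).trans (dvd_mul_left _ _)
  by_cases hs : p ∣ s
  · obtain ⟨s', rfl⟩ := hs
    have h6 : IsCoprime s' p :=
      (hp.coprime_iff_not_dvd.2 fun h => hp.not_isUnit (h3 p (mul_dvd_mul_left p h))).symm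
    refine ⟨s', p * p * f, h1.of_mul_left hp', (hp'.mul hp').mul h2, h3.of_mul_right,
      (h6.mul_right h6).mul_right h4.of_mul_left_right, fun q hq hd => ?_, by ring⟩
    rcases hq.dvd_or_dvd hd with h | h
    · have h7 : q ∣ p := (hq.dvd_or_dvd h).elim id id
      exact sq q ▸ (mul_dvd_mul h7 h7).trans (dvd_mul_right _ _)
    · exact (h5 q hq h).trans (dvd_mul_left _ _)
  · exact ⟨p * s, f, hp'.mul h1, h2, squarefree_mul_iff.2
      ⟨(hp.coprime_iff_not_dvd.2 hs).isRelPrime, hp.squarefree, h3⟩,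
      (hp.coprime_iff_not_dvd.2 hf).mul_left h4, h5, by ring⟩

/-- a powerful element is a square times a cube -/
theorem b3_sq_mul_cube {f : O} (h : ∀ p, Prime p → p ∣ f → p ^ 2 ∣ f) :
    ∃ a b, f = a ^ 2 * b ^ 3 := by
  induction f using UniqueFactorizationMonoid.induction_on_coprime with
  | h0 => exact ⟨0, 0, by simp⟩
  | h1 hu =>
    obtain ⟨u, rfl⟩ := hu
    exact ⟨↑u⁻¹, u, by rw [pow_succ (u : O) 2, ← mul_assoc, ← mul_pow, Units.inv_mul]; simp⟩
  | @hpr p i hp =>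
    have h1 : i ≠ 1 := by
      rintro rfl
      have := h p hp (by simp)
      exact absurd ((pow_dvd_pow_iff hp.ne_zero hp.not_isUnit).1 this) (by norm_num)
    obtain ⟨s, t, rfl⟩ : ∃ s t, i = s * 2 + t * 3 := by
      rcases Nat.even_or_odd' i with ⟨k, rfl | rfl⟩
      · exact ⟨k, 0, by omega⟩
      · exact ⟨k - 1, 1, by omega⟩
    exact ⟨p ^ s, p ^ t, by rw [pow_add, pow_mul, pow_mul]⟩
  | @hcp x y hxy ihx ihy =>
    obtain ⟨a, b, rfl⟩ := ihx fun p hp hd =>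
      (hxy.isCoprime.of_isCoprime_of_dvd_left hd).pow_left.dvd_of_dvd_mul_right
        (h p hp (hd.trans (dvd_mul_right _ _)))
    obtain ⟨c, d, rfl⟩ := ihy fun p hp hd =>
      (hxy.isCoprime.symm.of_isCoprime_of_dvd_left hd).pow_left.dvd_of_dvd_mul_left
        (h p hp (hd.trans (dvd_mul_left _ _)))
    exact ⟨a * c, b * d, by ring⟩

/-- `∑_{f powerful, N f ≤ X} N(f)^{-1/2} ≪ X^ε` -/
theorem sum_powerful_le {ε : ℝ} (hε : 0 < ε) : ∃ C, ∀ X : ℝ, 1 ≤ X → ∀ S : Finset O,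
    (∀ f ∈ S, f ≠ 0 ∧ N f ≤ X ∧ ∀ p, Prime p → p ∣ f → p ^ 2 ∣ f) →
    ∑ f ∈ S, N f ^ (-(1 / 2 : ℝ)) ≤ C * X ^ ε := by
  obtain ⟨C, hC⟩ := sum_ball_inv
  have hs := summable_N_rpow (σ := 3 / 2) (by norm_num)
  refine ⟨|C| * (1 + 1 / ε) * ∑' n : O, N n ^ (-(3 / 2 : ℝ)), fun X hX S hS => ?_⟩
  have h1 : S ⊆ (ball X ×ˢ ball X).image fun x => x.1 ^ 2 * x.2 ^ 3 := fun f hf => by
    obtain ⟨h0, h1, h2⟩ := hS f hf
    obtain ⟨a, b, h3⟩ := b3_sq_mul_cube h2
    have ha : a ∣ f := h3 ▸ (dvd_pow_self a two_ne_zero).trans (dvd_mul_right _ _)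
    have hb : b ∣ f := h3 ▸ (dvd_pow_self b three_ne_zero).trans (dvd_mul_left _ _)
    exact Finset.mem_image.2 ⟨(a, b), Finset.mem_product.2
      ⟨mem_ball.2 ⟨ne_zero_of_dvd_ne_zero h0 ha, (N_le_of_dvd h0 ha).trans h1⟩,
        mem_ball.2 ⟨ne_zero_of_dvd_ne_zero h0 hb, (N_le_of_dvd h0 hb).trans h1⟩⟩, h3.symm⟩
  have h2 : ∀ a b : O, N (a ^ 2 * b ^ 3) ^ (-(1 / 2 : ℝ)) = (N a)⁻¹ * N b ^ (-(3 / 2 : ℝ)) := by
    intro a b
    rw [N_mul, N_pow, N_pow, Real.mul_rpow (pow_nonneg (N_nonneg _) _) (pow_nonneg (N_nonneg _) _),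
      ← Real.rpow_natCast, ← Real.rpow_natCast, ← Real.rpow_mul (N_nonneg _),
      ← Real.rpow_mul (N_nonneg _), ← Real.rpow_neg_one]
    norm_num
  have h3 : 1 + Real.log X ≤ (1 + 1 / ε) * X ^ ε := by
    have a1 := Real.log_le_rpow_div (by linarith : 0 ≤ X) hε
    have a2 := Real.one_le_rpow hX hε.le
    rw [add_mul, one_mul, one_div_mul_eq_div]
    linarith
  have h4 : ∑ n ∈ ball X, (N n)⁻¹ ≤ |C| * (1 + 1 / ε) * X ^ ε := by
    rw [mul_assoc]
    exact (hC X hX).trans (mul_le_mul (le_abs_self C) h3 (by linarith [Real.log_nonneg hX])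
      (abs_nonneg C))
  refine (Finset.sum_le_sum_of_subset_of_nonneg h1 fun f _ _ =>
    Real.rpow_nonneg (N_nonneg _) _).trans ((Finset.sum_image_le_of_nonneg fun f _ =>
      Real.rpow_nonneg (N_nonneg _) _).trans ?_)
  simp only [h2]
  rw [Finset.sum_product' (f := fun a b => (N a)⁻¹ * N b ^ (-(3 / 2 : ℝ))), ← Finset.sum_mul_sum,
    mul_right_comm]
  exact mul_le_mul h4 (hs.sum_le_tsum _ fun n _ => Real.rpow_nonneg (N_nonneg _) _)
    (Finset.sum_nonneg fun n _ => Real.rpow_nonneg (N_nonneg _) _) (by positivity)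
/-- reindexing a sum over multiples of a primary `e` -/
theorem tsum_prim_dvd {e : O} (he : Prim e) (f : O → ℂ) :
    ∑' n : O, (if Prim n ∧ e ∣ n then f n else 0) = ∑' m : O, (if Prim m then f (e * m) else 0) := by
  rw [← (mul_right_injective₀ he.ne_zero).tsum_eq fun n hn => ?_]
  · refine tsum_congr fun m => if_congr ?_ rfl rfl
    exact ⟨fun h => h.1.of_mul_left he, fun h => ⟨he.mul h, dvd_mul_right _ _⟩⟩
  · by_contra h
    exact hn (if_neg fun h' => h (h'.2.imp fun m hm => hm.symm))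
theorem tsum_dvd {e : O} (he : e ≠ 0) (f : O → ℂ) :
    ∑' n : O, (if e ∣ n then f n else 0) = ∑' m : O, f (e * m) := by
  rw [← (mul_right_injective₀ he).tsum_eq fun n hn => ?_]
  · exact tsum_congr fun m => if_pos (dvd_mul_right _ _)
  · by_contra h
    exact hn (if_neg fun h' => h (h'.imp fun m hm => hm.symm))

end Crest.Agent.R17
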