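import Crest.Agent.R17.Basic2

/-!
# R17 / Basic : elementary API for `O` (units, primary elements, balls, divisors, Möbius)
-/

set_option autoImplicit false

noncomputable section

open scoped Classical ComplexConjugate

namespace Crest.Agent.R17

theorem b4_mod_def (x q : O) : x % q = x - q * odiv x q := rfl

theorem b4_odiv_add {q : O} (hq : q ≠ 0) (x t : O) : odiv (x + q * t) q = odiv x q + t := by
  have hn : (2 * (nm q : ℤ)) ≠ 0 := by have := nm_pos hq; omega
  have e : (x + q * t) * star q = x * star q + (nm q : O) * t := by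
    rw [← mul_star_self]; ring
  unfold odiv
  rw [e]
  ext
  · simp only [QuadraticAlgebra.re_add, QuadraticAlgebra.re_mul (nm q : O),
      QuadraticAlgebra.re_natCast, QuadraticAlgebra.im_natCast]
    rw [← Int.add_mul_ediv_left _ _ hn]
    congr 1; ring
  · simp only [QuadraticAlgebra.im_add, QuadraticAlgebra.im_mul (nm q : O),
      QuadraticAlgebra.re_natCast, QuadraticAlgebra.im_natCast]
    rw [← Int.add_mul_ediv_left _ _ hn]
    congr 1; ring

theorem b4_mod_congr {q : O} (hq : q ≠ 0) {x y : O} (h : q ∣ x - y) : x % q = y % q := by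
  obtain ⟨t, ht⟩ := h
  have : x = y + q * t := by linear_combination ht
  rw [this, b4_mod_def, b4_mod_def, b4_odiv_add hq]; ring

theorem b4_dvd_sub_mod (q x : O) : q ∣ x - x % q := ⟨odiv x q, by rw [b4_mod_def]; ring⟩

theorem b4_mem_res {q : O} (hq : q ≠ 0) {x : O} : x ∈ res q ↔ x % q = x := by
  unfold res
  rw [Finset.mem_filter]
  refine ⟨fun h => h.2, fun h => ⟨?_, h⟩⟩
  rw [Finset.mem_insert, mem_ball]
  by_cases hx : x = 0
  · exact Or.inl hx
  · refine Or.inr ⟨hx, ?_⟩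
    have := nm_sub_mul_odiv_lt x hq
    rw [← b4_mod_def, h] at this
    unfold N
    exact_mod_cast this.le

theorem b4_mod_mem_res {q : O} (hq : q ≠ 0) (x : O) : x % q ∈ res q :=
  (b4_mem_res hq).2 (b4_mod_congr hq (b4_dvd_sub_mod q x)).symm

/-! ### residue systems, additive characters -/
theorem exists_res {q : O} (hq : q ≠ 0) (x : O) : ∃ r ∈ res q, q ∣ x - r :=
  ⟨x % q, b4_mod_mem_res hq x, b4_dvd_sub_mod q x⟩
theorem res_inj {q : O} (hq : q ≠ 0) {x y : O} (hx : x ∈ res q) (hy : y ∈ res q)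
    (h : q ∣ x - y) : x = y := by
  rw [← (b4_mem_res hq).1 hx, ← (b4_mem_res hq).1 hy, b4_mod_congr hq h]
theorem card_res {q : O} (hq : q ≠ 0) : (res q).card = nm q := by
  rw [← absNorm_span, Ideal.absNorm_apply, Submodule.cardQuot_apply, ← Nat.card_eq_finsetCard]
  refine Nat.card_eq_of_bijective (fun x : res q => Ideal.Quotient.mk (Ideal.span {q}) x) ⟨?_, ?_⟩
  · intro x y h
    exact Subtype.ext (res_inj hq x.2 y.2 (Ideal.mem_span_singleton.1 (Ideal.Quotient.eq.1 h)))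
  · intro z
    obtain ⟨x, rfl⟩ := Ideal.Quotient.mk_surjective z
    obtain ⟨r, hr, h⟩ := exists_res hq x
    exact ⟨⟨r, hr⟩, (Ideal.Quotient.eq.2 (Ideal.mem_span_singleton.2 h)).symm⟩
theorem Per.congr {q : O} {f : O → ℂ} (hf : Per q f) {x y : O} (h : q ∣ x - y) : f x = f y := by
  obtain ⟨t, ht⟩ := h
  have : x = y + q * t := by linear_combination ht
  rw [this, hf]
theorem Per.of_dvd {q q' : O} {f : O → ℂ} (hf : Per q f) (h : q ∣ q') : Per q' f := by
  obtain ⟨c, rfl⟩ := h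
  intro x t
  rw [mul_assoc, hf]
theorem Per.mul {q : O} {f g : O → ℂ} (hf : Per q f) (hg : Per q g) :
    Per q (fun x => f x * g x) := fun x t => by simp only [hf x t, hg x t]

theorem b4_sum_res_map {ι : Type*} {q : O} (hq : q ≠ 0) {f : O → ℂ} (hf : Per q f) (T : Finset ι)
    (g : ι → O) (h1 : ∀ x, ∃ i ∈ T, q ∣ x - g i)
    (h2 : ∀ i ∈ T, ∀ j ∈ T, q ∣ g i - g j → i = j) :
    ∑ i ∈ T, f (g i) = ∑ x ∈ res q, f x := by
  refine Finset.sum_bij (fun i _ => g i % q) (fun i _ => b4_mod_mem_res hq _) ?_ ?_ ?_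
  · intro i hi j hj h
    refine h2 i hi j hj ?_
    have := dvd_sub (b4_dvd_sub_mod q (g i)) (b4_dvd_sub_mod q (g j))
    rw [h] at this
    simpa using this
  · intro x hx
    obtain ⟨i, hi, h⟩ := h1 x
    exact ⟨i, hi, (b4_mod_congr hq h).symm.trans ((b4_mem_res hq).1 hx)⟩
  · intro i _
    exact hf.congr (b4_dvd_sub_mod q _)

/-- any complete residue system gives the same sum -/
theorem sum_res_eq {q : O} (hq : q ≠ 0) {f : O → ℂ} (hf : Per q f) (S : Finset O)
    (h1 : ∀ x, ∃ r ∈ S, q ∣ x - r) (h2 : ∀ x ∈ S, ∀ y ∈ S, q ∣ x - y → x = y) :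
    ∑ x ∈ S, f x = ∑ x ∈ res q, f x :=
  b4_sum_res_map hq hf S id h1 h2
theorem sum_res_affine {q : O} (hq : q ≠ 0) {f : O → ℂ} (hf : Per q f) {a : O}
    (ha : IsCoprime a q) (b : O) : ∑ x ∈ res q, f (a * x + b) = ∑ x ∈ res q, f x := by
  refine b4_sum_res_map hq hf (res q) (fun x => a * x + b) (fun x => ?_) fun x hx y hy h => ?_
  · obtain ⟨u, v, huv⟩ := ha
    obtain ⟨r, hr, c, hc⟩ := exists_res hq (u * (x - b))
    exact ⟨r, hr, a * c + v * (x - b), by linear_combination a * hc - (x - b) * huv⟩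
  · refine res_inj hq hx hy (ha.symm.dvd_of_dvd_mul_left ?_)
    convert h using 1; ring
/-- Chinese remainder theorem for sums -/
theorem sum_res_crt {q1 q2 : O} (h1 : q1 ≠ 0) (h2 : q2 ≠ 0) (h : IsCoprime q1 q2) {f : O → ℂ}
    (hf : Per (q1 * q2) f) :
    ∑ x ∈ res (q1 * q2), f x = ∑ x1 ∈ res q1, ∑ x2 ∈ res q2, f (x1 * q2 + x2 * q1) := by
  rw [← Finset.sum_product']
  refine (b4_sum_res_map (mul_ne_zero h1 h2) hf (res q1 ×ˢ res q2)
    (fun p => p.1 * q2 + p.2 * q1) (fun x => ?_) fun x hx y hy hd => ?_).symm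
  · obtain ⟨u, v, huv⟩ := h
    obtain ⟨r1, hr1, c1, hc1⟩ := exists_res h1 (v * x)
    obtain ⟨r2, hr2, c2, hc2⟩ := exists_res h2 (u * x)
    exact ⟨(r1, r2), Finset.mem_product.2 ⟨hr1, hr2⟩, c1 + c2,
      by linear_combination q2 * hc1 + q1 * hc2 - x * huv⟩
  · rw [Finset.mem_product] at hx hy
    obtain ⟨c, hc⟩ := hd
    refine Prod.ext (res_inj h1 hx.1 hy.1 (h.dvd_of_dvd_mul_left ?_))
      (res_inj h2 hx.2 hy.2 (h.symm.dvd_of_dvd_mul_left ?_))
    · exact ⟨q2 * c - (x.2 - y.2), by linear_combination hc⟩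
    · exact ⟨q1 * c - (x.1 - y.1), by linear_combination hc⟩
/-- tower: `x = x1 + q1 x2` -/
theorem sum_res_tower {q1 q2 : O} (h1 : q1 ≠ 0) (h2 : q2 ≠ 0) {f : O → ℂ}
    (hf : Per (q1 * q2) f) :
    ∑ x ∈ res (q1 * q2), f x = ∑ x1 ∈ res q1, ∑ x2 ∈ res q2, f (x1 + q1 * x2) := by
  rw [← Finset.sum_product']
  refine (b4_sum_res_map (mul_ne_zero h1 h2) hf (res q1 ×ˢ res q2)
    (fun p => p.1 + q1 * p.2) (fun x => ?_) fun x hx y hy hd => ?_).symm
  · obtain ⟨r1, hr1, c1, hc1⟩ := exists_res h1 x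
    obtain ⟨r2, hr2, c2, hc2⟩ := exists_res h2 c1
    exact ⟨(r1, r2), Finset.mem_product.2 ⟨hr1, hr2⟩, c2, by linear_combination hc1 + q1 * hc2⟩
  · rw [Finset.mem_product] at hx hy
    obtain ⟨c, hc⟩ := hd
    have e1 : x.1 = y.1 := res_inj h1 hx.1 hy.1 ⟨q2 * c - (x.2 - y.2), by linear_combination hc⟩
    refine Prod.ext e1 (res_inj h2 hx.2 hy.2 ⟨c, mul_left_cancel₀ h1 ?_⟩)
    rw [e1] at hc
    linear_combination hc
/-- a summable sum over `O` split into residue classes -/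
theorem tsum_res {q : O} (hq : q ≠ 0) {f : O → ℂ} (hf : Summable f) :
    ∑' n, f n = ∑ x ∈ res q, ∑' t, f (x + q * t) := by
  have hb : Function.Bijective fun p : res q × O => (p.1 : O) + q * p.2 := by
    constructor
    · intro x y h
      have h' : (x.1 : O) + q * x.2 = y.1 + q * y.2 := h
      have e1 : (x.1 : O) = y.1 := res_inj hq x.1.2 y.1.2 ⟨y.2 - x.2, by linear_combination h'⟩
      refine Prod.ext (Subtype.ext e1) (mul_left_cancel₀ hq ?_)
      rw [e1] at h'
      exact add_left_cancel h'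
    · intro x
      obtain ⟨r, hr, c, hc⟩ := exists_res hq x
      exact ⟨(⟨r, hr⟩, c), by simp only; linear_combination -hc⟩
  let e := Equiv.ofBijective _ hb
  have hs : Summable fun p : res q × O => f (e p) := (e.summable_iff (f := f)).2 hf
  rw [← e.tsum_eq, hs.tsum_prod, ← Finset.tsum_subtype (res q) fun x => ∑' t, f (x + q * t)]
  rfl
theorem ee_add (z w : ℂ) : ee (z + w) = ee z * ee w := by
  unfold ee
  rw [← Complex.exp_add, Complex.add_im]; congr 1; push_cast; ring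
theorem ee_zero : ee 0 = 1 := by unfold ee; simp
theorem b4_ee_eq (z : ℂ) :
    ee z = Complex.exp (((4 * Real.pi / Real.sqrt 3 * z.im : ℝ) : ℂ) * Complex.I) := by
  unfold ee; congr 1; push_cast; ring
theorem norm_ee (z : ℂ) : ‖ee z‖ = 1 := by
  rw [b4_ee_eq, Complex.norm_exp_ofReal_mul_I]
theorem ee_neg (z : ℂ) : ee (-z) = conj (ee z) := by
  rw [b4_ee_eq, b4_ee_eq, ← Complex.exp_conj, map_mul, Complex.conj_ofReal, Complex.conj_I,
    Complex.neg_im]
  congr 1; push_cast; ring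
theorem ee_real_om (a b : ℝ) : ee (a + b * omC) = Complex.exp (2 * Real.pi * b * Complex.I) := by
  have h : Real.sqrt 3 ≠ 0 := by positivity
  have e : 4 * Real.pi / Real.sqrt 3 * (a + b * omC : ℂ).im = 2 * Real.pi * b := by
    simp [omC]; field_simp; ring
  rw [b4_ee_eq, e]; congr 1; push_cast; ring
theorem ee_toC (x : O) : ee (toC x) = 1 := by
  have := ee_real_om x.re x.im
  rw [toC_apply]
  push_cast at this
  rw [this, ← Complex.exp_int_mul_two_pi_mul_I x.im]
  congr 1; ring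
theorem ad_add (q x y : O) : ad q (x + y) = ad q x * ad q y := by
  unfold ad; rw [map_add, add_div, ee_add]
theorem ad_zero (q : O) : ad q 0 = 1 := by unfold ad; rw [map_zero, zero_div, ee_zero]
theorem norm_ad (q x : O) : ‖ad q x‖ = 1 := norm_ee _
theorem ad_neg (q x : O) : ad q (-x) = conj (ad q x) := by
  unfold ad; rw [map_neg, neg_div, ee_neg]
theorem b4_toC_ne_zero {q : O} (hq : q ≠ 0) : toC q ≠ 0 :=
  fun h => hq (toC_injective (by rw [h, map_zero]))
theorem ad_of_dvd {q x : O} (h : q ∣ x) : ad q x = 1 := by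
  obtain ⟨c, rfl⟩ := h
  unfold ad
  by_cases hq : q = 0
  · subst hq; rw [map_zero, div_zero, ee_zero]
  · rw [map_mul, mul_div_cancel_left₀ _ (b4_toC_ne_zero hq), ee_toC]
theorem ad_per (q k : O) : Per q (fun x => ad q (k * x)) := fun x t => by
  simp only
  rw [mul_add, ad_add, ad_of_dvd (q := q) (x := k * (q * t)) ⟨k * t, by ring⟩, mul_one]
theorem ad_mul_cancel {q c : O} (hc : c ≠ 0) (x : O) : ad (c * q) (c * x) = ad q x := by
  unfold ad
  rw [map_mul, map_mul, mul_div_mul_left _ _ (b4_toC_ne_zero hc)]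

theorem b4_exists_coord (z : ℂ) : ∃ a b : ℝ, z = a + b * omC := by
  have h : Real.sqrt 3 ≠ 0 := by positivity
  refine ⟨z.re + z.im / Real.sqrt 3, 2 * z.im / Real.sqrt 3, ?_⟩
  apply Complex.ext
  · simp only [omC, Complex.add_re, Complex.ofReal_re, Complex.mul_re, Complex.ofReal_im]; ring
  · simp only [omC, Complex.add_im, Complex.ofReal_re, Complex.mul_im, Complex.ofReal_im]
    field_simp; ring

theorem b4_exp_eq_one {b : ℝ} (h : Complex.exp (2 * Real.pi * b * Complex.I) = 1) :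
    ∃ n : ℤ, b = n := by
  obtain ⟨n, hn⟩ := Complex.exp_eq_one_iff.1 h
  refine ⟨n, ?_⟩
  have h1 : (b : ℂ) = n := by
    apply mul_left_cancel₀ Complex.two_pi_I_ne_zero
    linear_combination hn
  exact_mod_cast h1

theorem b4_dvd_of_ad {q k : O} (hq : q ≠ 0) (h1 : ad q (k * 1) = 1) (h2 : ad q (k * om) = 1) :
    q ∣ k := by
  have hq' := b4_toC_ne_zero hq
  unfold ad at h1 h2
  obtain ⟨a, b, hab⟩ := b4_exists_coord (toC k / toC q)
  have hom : toC om = omC := by simp [toC_apply, om]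
  have e2 : toC (k * om) / toC q = ((-b : ℝ) : ℂ) + ((a - b : ℝ) : ℂ) * omC := by
    rw [map_mul, mul_div_right_comm, hab, hom]
    push_cast
    linear_combination (b : ℂ) * omC_sq
  rw [mul_one, hab, ee_real_om] at h1
  rw [e2, ee_real_om] at h2
  obtain ⟨n, hn⟩ := b4_exp_eq_one h1
  obtain ⟨m, hm⟩ := b4_exp_eq_one h2
  refine ⟨⟨m + n, n⟩, toC_injective ?_⟩
  have ha : a = m + n := by linarith
  rw [div_eq_iff hq', ha, hn] at hab
  rw [map_mul, hab, toC_apply ⟨m + n, n⟩]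
  push_cast; ring

/-- orthogonality (primitivity of `ad q`) -/
theorem sum_ad {q : O} (hq : q ≠ 0) (k : O) :
    ∑ x ∈ res q, ad q (k * x) = if q ∣ k then (N q : ℂ) else 0 := by
  split_ifs with h
  · rw [Finset.sum_congr rfl fun x _ => ad_of_dvd (h.mul_right x), Finset.sum_const, card_res hq]
    simp [N]
  · have : ∃ y, ad q (k * y) ≠ 1 := by
      by_contra hc
      push Not at hc
      exact h (b4_dvd_of_ad hq (hc 1) (hc om))
    obtain ⟨y, hy⟩ := this
    have h1 := sum_res_affine hq (ad_per q k) isCoprime_one_left y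
    simp only [one_mul, mul_add, ad_add] at h1
    rw [← Finset.sum_mul] at h1
    have h2 : (∑ x ∈ res q, ad q (k * x)) * (ad q (k * y) - 1) = 0 := by linear_combination h1
    exact (mul_eq_zero.1 h2).resolve_right (sub_ne_zero.2 hy)
/-- Fourier inversion modulo `q` -/
theorem fourier_inv {q : O} (hq : q ≠ 0) {f : O → ℂ} (hf : Per q f) (x : O) :
    f x = (N q : ℂ)⁻¹ * ∑ k ∈ res q, gs q f k * ad q (-(k * x)) := by
  have hN : (N q : ℂ) ≠ 0 := by exact_mod_cast (N_pos hq).ne'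
  obtain ⟨r, hr, hrx⟩ := exists_res hq x
  have e : ∑ k ∈ res q, gs q f k * ad q (-(k * x)) =
      ∑ y ∈ res q, f y * ∑ k ∈ res q, ad q ((y - x) * k) := by
    unfold gs
    simp only [Finset.sum_mul, Finset.mul_sum]
    rw [Finset.sum_comm]
    refine Finset.sum_congr rfl fun y _ => Finset.sum_congr rfl fun k _ => ?_
    rw [mul_assoc, ← ad_add]; congr 2; ring
  rw [e, Finset.sum_eq_single_of_mem r hr]
  · rw [sum_ad hq, if_pos (dvd_sub_comm.1 hrx), hf.congr hrx]
    field_simp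
  · intro y hy hne
    rw [sum_ad hq, if_neg, mul_zero]
    intro hd
    refine hne (res_inj hq hy hr ?_)
    have := dvd_add hd hrx
    simpa using this

end Crest.Agent.R17
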