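import Crest.Agent.R17.Defs

/-!
# R17 / Basic : elementary API for `O` (units, primary elements, balls, divisors, Möbius)
-/

set_option autoImplicit false

noncomputable section

open scoped Classical ComplexConjugate

namespace Crest.Agent.R17

theorem b1_nm_pow (x : O) (j : ℕ) : nm (x ^ j) = nm x ^ j := by
  induction j with
  | zero => simp
  | succ j ih => rw [pow_succ, nm_mul, ih, pow_succ]

theorem b1_nm_neg (x : O) : nm (-x) = nm x := by
  have : ((nm (-x) : ℕ) : ℤ) = (nm x : ℤ) := by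
    simp only [nm_int, QuadraticAlgebra.re_neg, QuadraticAlgebra.im_neg]; ring
  exact_mod_cast this

theorem b1_nm_dvd {a b : O} (h : a ∣ b) : nm a ∣ nm b := by
  obtain ⟨c, rfl⟩ := h
  exact ⟨nm c, nm_mul a c⟩

theorem b1_three_dvd_iff {x : O} : (3 : O) ∣ x ↔ (3 : ℤ) ∣ x.re ∧ (3 : ℤ) ∣ x.im :=
  QuadraticAlgebra.algebraMap_dvd_iff (r := (3 : ℤ)) (z := x)

theorem b1_two_dvd_iff {x : O} : (2 : O) ∣ x ↔ (2 : ℤ) ∣ x.re ∧ (2 : ℤ) ∣ x.im :=
  QuadraticAlgebra.algebraMap_dvd_iff (r := (2 : ℤ)) (z := x)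

theorem b1_prim_iff {x : O} : Prim x ↔ x.re % 3 = 1 ∧ x.im % 3 = 0 := by
  unfold Prim
  rw [b1_three_dvd_iff]
  simp only [QuadraticAlgebra.re_sub, QuadraticAlgebra.im_sub, QuadraticAlgebra.re_one,
    QuadraticAlgebra.im_one]
  omega

theorem b1_lam_dvd_iff {x : O} : lam ∣ x ↔ (3 : ℤ) ∣ x.re + x.im := by
  constructor
  · rintro ⟨c, rfl⟩
    simp only [lam, QuadraticAlgebra.re_mul, QuadraticAlgebra.im_mul]
    omega
  · rintro ⟨k, hk⟩
    refine ⟨⟨x.im - k, x.im - 2 * k⟩, ?_⟩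
    ext
    · simp only [lam, QuadraticAlgebra.re_mul]; omega
    · simp only [lam, QuadraticAlgebra.im_mul]; omega

theorem b1_lam_dvd_iff_nm {x : O} : lam ∣ x ↔ 3 ∣ nm x := by
  rw [b1_lam_dvd_iff, ← Int.natCast_dvd_natCast, nm_int]
  have e : x.re ^ 2 - x.re * x.im + x.im ^ 2 = (x.re + x.im) ^ 2 - 3 * (x.re * x.im) := by ring
  rw [e]
  constructor
  · intro h
    exact dvd_sub (dvd_pow h two_ne_zero) (dvd_mul_right _ _)
  · intro h
    have h2 : (3 : ℤ) ∣ (x.re + x.im) ^ 2 := by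
      have := dvd_add h (dvd_mul_right (3 : ℤ) (x.re * x.im))
      simpa using this
    exact Int.prime_three.dvd_of_dvd_pow h2

theorem b1_two_dvd_iff_nm {x : O} : (2 : O) ∣ x ↔ 2 ∣ nm x := by
  rw [b1_two_dvd_iff, ← Int.natCast_dvd_natCast, nm_int]
  obtain ⟨a, b⟩ := x
  simp only [Nat.cast_ofNat]
  rcases Int.even_or_odd' a with ⟨s, rfl | rfl⟩ <;> rcases Int.even_or_odd' b with ⟨t, rfl | rfl⟩
  · have : (2 * s) ^ 2 - 2 * s * (2 * t) + (2 * t) ^ 2 = 2 * (2 * s ^ 2 - 2 * s * t + 2 * t ^ 2) := by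
      ring
    rw [this]; omega
  · have : (2 * s) ^ 2 - 2 * s * (2 * t + 1) + (2 * t + 1) ^ 2 =
        2 * (2 * s ^ 2 - s * (2 * t + 1) + 2 * t ^ 2 + 2 * t) + 1 := by ring
    rw [this]; omega
  · have : (2 * s + 1) ^ 2 - (2 * s + 1) * (2 * t) + (2 * t) ^ 2 =
        2 * (2 * s ^ 2 + 2 * s - (2 * s + 1) * t + 2 * t ^ 2) + 1 := by ring
    rw [this]; omega
  · have : (2 * s + 1) ^ 2 - (2 * s + 1) * (2 * t + 1) + (2 * t + 1) ^ 2 =
        2 * (2 * s ^ 2 + s - 2 * s * t + 2 * t ^ 2 + t) + 1 := by ring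
    rw [this]; omega

/-! ### norms -/
theorem N_nonneg (x : O) : 0 ≤ N x := Nat.cast_nonneg _
theorem N_mul (x y : O) : N (x * y) = N x * N y := by unfold N; rw [nm_mul, Nat.cast_mul]
theorem N_pow (x : O) (j : ℕ) : N (x ^ j) = N x ^ j := by unfold N; rw [b1_nm_pow, Nat.cast_pow]
@[simp] theorem N_one : N 1 = 1 := by unfold N; simp
theorem N_prod {ι : Type*} (s : Finset ι) (f : ι → O) : N (∏ i ∈ s, f i) = ∏ i ∈ s, N (f i) := by
  induction s using Finset.induction_on with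
  | empty => simp
  | insert a s ha ih => rw [Finset.prod_insert ha, Finset.prod_insert ha, N_mul, ih]
@[simp] theorem N_zero : N 0 = 0 := by unfold N; simp
@[simp] theorem N_neg (x : O) : N (-x) = N x := by unfold N; rw [b1_nm_neg]
theorem N_pos {x : O} (hx : x ≠ 0) : 0 < N x := by unfold N; exact_mod_cast nm_pos hx
theorem one_le_N {x : O} (hx : x ≠ 0) : 1 ≤ N x := by unfold N; exact_mod_cast nm_pos hx
theorem N_eq_normSq (x : O) : N x = Complex.normSq (toC x) := (normSq_toC x).symm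
theorem norm_toC_sq (x : O) : ‖toC x‖ ^ 2 = N x := by
  rw [N_eq_normSq, Complex.normSq_eq_norm_sq]
theorem norm_toC (x : O) : ‖toC x‖ = Real.sqrt (N x) := by
  rw [← norm_toC_sq, Real.sqrt_sq (norm_nonneg _)]
theorem toC_star (x : O) : toC (star x) = conj (toC x) := by
  rw [toC_apply, toC_apply]
  apply Complex.ext
  · simp [omC]; ring
  · simp [omC]
theorem N_le_of_dvd {a b : O} (hb : b ≠ 0) (h : a ∣ b) : N a ≤ N b := by
  unfold N
  exact_mod_cast Nat.le_of_dvd (nm_pos hb) (b1_nm_dvd h)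
theorem nm_natCast (n : ℕ) : nm (n : O) = n ^ 2 := by
  have : ((nm (n : O) : ℕ) : ℤ) = (n : ℤ) ^ 2 := by
    simp only [nm_int, QuadraticAlgebra.re_natCast, QuadraticAlgebra.im_natCast]; simp
  exact_mod_cast this
theorem nm_lam : nm lam = 3 := by decide
theorem lam_sq : lam ^ 2 = -3 := by decide
theorem om_sq_add : om ^ 2 + om + 1 = 0 := by decide
theorem om_cube : om ^ 3 = 1 := by decide

theorem isUnit_iff_nm {x : O} : IsUnit x ↔ nm x = 1 := by
  constructor
  · intro h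
    exact Nat.dvd_one.1 (by simpa using b1_nm_dvd h.dvd (b := 1))
  · intro h
    exact IsUnit.of_mul_eq_one (star x) (by rw [mul_star_self, h, Nat.cast_one])

theorem prime_lam : Prime lam := by
  refine ⟨by decide, fun h => by have := isUnit_iff_nm.1 h; rw [nm_lam] at this; omega, ?_⟩
  intro a b h
  rw [b1_lam_dvd_iff_nm, nm_mul] at h
  rw [b1_lam_dvd_iff_nm, b1_lam_dvd_iff_nm]
  exact (Nat.Prime.dvd_mul Nat.prime_three).1 h
theorem prime_two : Prime (2 : O) := by
  refine ⟨by decide, fun h => absurd (isUnit_iff_nm.1 h) (by decide), ?_⟩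
  intro a b h
  rw [b1_two_dvd_iff_nm, nm_mul] at h
  rw [b1_two_dvd_iff_nm, b1_two_dvd_iff_nm]
  exact (Nat.Prime.dvd_mul Nat.prime_two).1 h
theorem absNorm_span (x : O) : Ideal.absNorm (Ideal.span {x}) = nm x := by
  rw [Ideal.absNorm_span_singleton]
  have h : Algebra.norm ℤ x = x.re ^ 2 - x.re * x.im + x.im ^ 2 := by
    have h1 := QuadraticAlgebra.det_toLinearMap_eq_norm x
    rw [QuadraticAlgebra.norm_def] at h1
    rw [Algebra.norm_apply]
    refine Eq.trans ?_ (h1.trans (by ring))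
    congr 1
  rw [h]; rfl

/-! ### units -/
theorem isUnit_iff_mem_units6 {x : O} : IsUnit x ↔ x ∈ units6 := by
  rw [isUnit_iff_nm]
  constructor
  · intro h
    have h1 : x.re ^ 2 - x.re * x.im + x.im ^ 2 = 1 := by rw [← nm_int, h]; rfl
    obtain ⟨a, b⟩ := x
    simp only at h1
    have ha1 : a ≤ 1 := by nlinarith [sq_nonneg (a - 2 * b)]
    have ha2 : -1 ≤ a := by nlinarith [sq_nonneg (a - 2 * b)]
    have hb1 : b ≤ 1 := by nlinarith [sq_nonneg (2 * a - b)]
    have hb2 : -1 ≤ b := by nlinarith [sq_nonneg (2 * a - b)]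
    unfold units6
    simp only [Finset.mem_insert, Finset.mem_singleton]
    interval_cases a <;> interval_cases b <;> first | omega | decide
  · intro h
    unfold units6 at h
    simp only [Finset.mem_insert, Finset.mem_singleton] at h
    rcases h with rfl | rfl | rfl | rfl | rfl | rfl <;> decide
theorem card_units6 : units6.card = 6 := by decide
theorem unit_pow_six {u : O} (hu : IsUnit u) : u ^ 6 = 1 := by
  have h := isUnit_iff_mem_units6.1 hu
  unfold units6 at h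
  simp only [Finset.mem_insert, Finset.mem_singleton] at h
  rcases h with rfl | rfl | rfl | rfl | rfl | rfl <;> decide
theorem Prime.two_le_N {p : O} (hp : Prime p) : 2 ≤ N p := by
  have h1 := nm_pos hp.ne_zero
  have h2 : nm p ≠ 1 := fun h => hp.not_isUnit (isUnit_iff_nm.2 h)
  unfold N
  exact_mod_cast (by omega : 2 ≤ nm p)

theorem b1_lam_dvd_three : lam ∣ 3 := b1_lam_dvd_iff.2 (by decide)

theorem b1_nm_mod_three {x : O} (h : ¬ lam ∣ x) : nm x % 3 = 1 := by
  rw [b1_lam_dvd_iff] at h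
  have h1 := nm_int x
  have e : x.re ^ 2 - x.re * x.im + x.im ^ 2 = (x.re + x.im) ^ 2 - 3 * (x.re * x.im) := by ring
  rw [e] at h1
  generalize x.re + x.im = s at h h1
  have h2 : s ^ 2 % 3 = 1 := by
    have : s % 3 = 1 ∨ s % 3 = 2 := by omega
    rcases this with h3 | h3 <;> simp [pow_two, Int.mul_emod, h3]
  omega

/-- the norm of a prime not dividing `6` is `≡ 1 mod 6`; of a prime `∤ 3` is `≡ 1 mod 3`; of a prime
`∤ 2` is odd. -/
theorem nm_prime_mod_three {p : O} (hp : Prime p) (h : ¬ p ∣ 3) : nm p % 3 = 1 := by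
  refine b1_nm_mod_three fun h1 => h ?_
  exact ((prime_lam.associated_of_dvd hp h1).symm.dvd).trans b1_lam_dvd_three
theorem nm_prime_mod_two {p : O} (hp : Prime p) (h : ¬ p ∣ 2) : nm p % 2 = 1 := by
  have : ¬ 2 ∣ nm p := fun h1 =>
    h (prime_two.associated_of_dvd hp (b1_two_dvd_iff_nm.2 h1)).symm.dvd
  omega

/-! ### primary elements -/
theorem Prim.one : Prim 1 := by unfold Prim; simp
theorem Prim.mul {a b : O} (ha : Prim a) (hb : Prim b) : Prim (a * b) := by
  unfold Prim at *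
  have : a * b - 1 = (a - 1) * b + (b - 1) := by ring
  rw [this]
  exact dvd_add (ha.mul_right _) hb
theorem Prim.pow {a : O} (ha : Prim a) (j : ℕ) : Prim (a ^ j) := by
  induction j with
  | zero => simpa using Prim.one
  | succ j ih => rw [pow_succ]; exact ih.mul ha
theorem Prim.prod {ι : Type*} {s : Finset ι} {f : ι → O} (h : ∀ i ∈ s, Prim (f i)) :
    Prim (∏ i ∈ s, f i) :=
  Finset.prod_induction f Prim (fun _ _ => Prim.mul) Prim.one h
theorem Prim.ne_zero {a : O} (ha : Prim a) : a ≠ 0 := by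
  rintro rfl
  exact absurd (b1_prim_iff.1 ha) (by decide)
theorem Prim.isCoprime_three {a : O} (ha : Prim a) : IsCoprime a 3 := by
  obtain ⟨c, hc⟩ := ha
  exact ⟨1, -c, by linear_combination hc⟩
theorem Prim.isCoprime_lam {a : O} (ha : Prim a) : IsCoprime a lam :=
  ha.isCoprime_three.of_isCoprime_of_dvd_right b1_lam_dvd_three
theorem Prim.of_mul_left {a b : O} (hab : Prim (a * b)) (ha : Prim a) : Prim b := by
  unfold Prim at *
  have : b - 1 = (a * b - 1) - (a - 1) * b := by ring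
  rw [this]
  exact dvd_sub hab (ha.mul_right _)
theorem Prim.div {a b : O} (hb : Prim b) (ha : Prim a) (h : a ∣ b) : Prim (b / a) := by
  refine Prim.of_mul_left ?_ ha
  rw [EuclideanDomain.mul_div_cancel' ha.ne_zero h]
  exact hb
theorem Prim.eq_one_of_isUnit {a : O} (ha : Prim a) (h : IsUnit a) : a = 1 := by
  have h := isUnit_iff_mem_units6.1 h
  rw [b1_prim_iff] at ha
  unfold units6 at h
  simp only [Finset.mem_insert, Finset.mem_singleton] at h
  rcases h with rfl | rfl | rfl | rfl | rfl | rfl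
  · rfl
  all_goals exact absurd ha (by decide)
theorem Prim.eq_of_associated {a b : O} (ha : Prim a) (hb : Prim b) (h : Associated a b) :
    a = b := by
  obtain ⟨u, rfl⟩ := h
  rw [(hb.of_mul_left ha).eq_one_of_isUnit u.isUnit, mul_one]

theorem b1_exists_unit {a : O} (ha : ¬ lam ∣ a) : ∃ u, IsUnit u ∧ Prim (u * a) := by
  rw [b1_lam_dvd_iff] at ha
  obtain ⟨x, y⟩ := a
  simp only at ha
  have hu : ∀ s t : ℤ, nm ⟨s, t⟩ = 1 → (s * x - t * y) % 3 = 1 → (s * y + t * x - t * y) % 3 = 0 →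
      ∃ u, IsUnit u ∧ Prim (u * ⟨x, y⟩) := by
    intro s t h1 h2 h3
    refine ⟨⟨s, t⟩, isUnit_iff_nm.2 h1, b1_prim_iff.2 ?_⟩
    simp only [QuadraticAlgebra.re_mul, QuadraticAlgebra.im_mul]
    constructor
    · refine Eq.trans ?_ h2; congr 1; ring
    · refine Eq.trans ?_ h3; congr 1; ring
  have hx : x % 3 = 0 ∨ x % 3 = 1 ∨ x % 3 = 2 := by omega
  have hy : y % 3 = 0 ∨ y % 3 = 1 ∨ y % 3 = 2 := by omega
  rcases hx with hx | hx | hx <;> rcases hy with hy | hy | hy
  · omega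
  · exact hu (-1) (-1) (by decide) (by omega) (by omega)
  · exact hu 1 1 (by decide) (by omega) (by omega)
  · exact hu 1 0 (by decide) (by omega) (by omega)
  · exact hu 0 (-1) (by decide) (by omega) (by omega)
  · omega
  · exact hu (-1) 0 (by decide) (by omega) (by omega)
  · omega
  · exact hu 0 1 (by decide) (by omega) (by omega)

theorem b1_not_lam_dvd {a : O} (ha : IsCoprime a 3) : ¬ lam ∣ a := fun h =>
  prime_lam.not_isUnit (ha.isUnit_of_dvd' h b1_lam_dvd_three)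

/-- every element coprime to `3` has a unique primary associate -/
theorem exists_unit_mul_prim {a : O} (ha : IsCoprime a 3) : ∃ u, IsUnit u ∧ Prim (u * a) :=
  b1_exists_unit (b1_not_lam_dvd ha)
/-- every non-zero element is `unit · λ^j · primary` -/
theorem exists_eq_unit_lam_prim {a : O} (ha : a ≠ 0) :
    ∃ u j b, IsUnit u ∧ Prim b ∧ a = u * lam ^ j * b := by
  obtain ⟨j, c, hc, rfl⟩ := WfDvdMonoid.max_power_factor ha prime_lam.irreducible
  obtain ⟨u, hu, hp⟩ := b1_exists_unit hc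
  obtain ⟨v, hv⟩ := hu.exists_left_inv
  exact ⟨v, j, u * c, IsUnit.of_mul_eq_one u hv, hp, by linear_combination -(lam ^ j * c) * hv⟩
/-- a primary element `≠ 1` has a primary prime factor -/
theorem Prim.exists_prime_dvd {a : O} (ha : Prim a) (h1 : a ≠ 1) :
    ∃ p, Prime p ∧ Prim p ∧ p ∣ a := by
  obtain ⟨q, hq, hqa⟩ := WfDvdMonoid.exists_irreducible_factor
    (fun h => h1 (ha.eq_one_of_isUnit h)) ha.ne_zero
  obtain ⟨u, hu, hp⟩ := exists_unit_mul_prim (ha.isCoprime_three.of_isCoprime_of_dvd_left hqa)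
  exact ⟨u * q, (associated_unit_mul_right q u hu).prime hq.prime, hp, hu.mul_left_dvd.2 hqa⟩
/-- induction over primary elements -/
theorem Prim.induction {P : O → Prop} (h1 : P 1)
    (hp : ∀ p a, Prime p → Prim p → Prim a → P a → P (p * a)) {a : O} (ha : Prim a) : P a := by
  induction hn : nm a using Nat.strong_induction_on generalizing a with
  | _ n ih =>
    by_cases h : a = 1
    · rw [h]; exact h1
    · obtain ⟨p, hpp, hpr, b, rfl⟩ := ha.exists_prime_dvd h
      have hb := ha.of_mul_left hpr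
      refine hp p b hpp hpr hb (ih (nm b) ?_ hb rfl)
      have h2 : 2 ≤ nm p := by have := Prime.two_le_N hpp; unfold N at this; exact_mod_cast this
      have h3 := nm_pos hb.ne_zero
      rw [← hn, nm_mul]
      nlinarith
/-- primary gcd of two primary elements -/
theorem exists_prim_gcd {a b : O} (ha : Prim a) (hb : Prim b) :
    ∃ g a' b', Prim g ∧ Prim a' ∧ Prim b' ∧ a = g * a' ∧ b = g * b' ∧ IsCoprime a' b' := by
  have hga := EuclideanDomain.gcd_dvd_left a b
  have hgb := EuclideanDomain.gcd_dvd_right a b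
  have hbez := EuclideanDomain.gcd_eq_gcd_ab a b
  obtain ⟨u, hu, hp⟩ := exists_unit_mul_prim (ha.isCoprime_three.of_isCoprime_of_dvd_left hga)
  obtain ⟨a', ha'⟩ := hu.mul_left_dvd.2 hga
  obtain ⟨b', hb'⟩ := hu.mul_left_dvd.2 hgb
  refine ⟨_, a', b', hp, Prim.of_mul_left (ha' ▸ ha) hp, Prim.of_mul_left (hb' ▸ hb) hp, ha', hb',
    u * EuclideanDomain.gcdA a b, u * EuclideanDomain.gcdB a b, ?_⟩
  apply mul_left_cancel₀ hp.ne_zero
  generalize EuclideanDomain.gcdA a b = x at *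
  generalize EuclideanDomain.gcdB a b = y at *
  generalize EuclideanDomain.gcd a b = g at *
  linear_combination -u * x * ha' - u * y * hb' - u * hbez

theorem b1_unit_coprime {u : O} (hu : IsUnit u) (q : O) : IsCoprime u q := by
  obtain ⟨v, hv⟩ := hu.exists_left_inv
  exact ⟨v, 0, by rw [hv, zero_mul, add_zero]⟩

theorem b1_split {q n : O} (hn : n ≠ 0) :
    ∃ n0 n1 j, n0 ∣ q ^ j ∧ IsCoprime n1 q ∧ n = n0 * n1 := by
  induction n using UniqueFactorizationMonoid.induction_on_prime with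
  | h₁ => exact absurd rfl hn
  | h₂ x hx => exact ⟨1, x, 0, by simp, b1_unit_coprime hx q, by simp⟩
  | h₃ a p ha hp ih =>
    obtain ⟨n0, n1, j, h0, h1, rfl⟩ := ih ha
    by_cases h : p ∣ q
    · exact ⟨p * n0, n1, j + 1, by rw [pow_succ']; exact mul_dvd_mul h h0, h1, by ring⟩
    · exact ⟨n0, p * n1, j, h0, ((hp.irreducible.coprime_iff_not_dvd).2 h).mul_left h1, by ring⟩

/-- splitting off the part supported on the primes of `q`: `n = n₀ n₁`, `n₀ ∣ q^j`, `n₁` primary and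
coprime to `q` (when `3 ∣ q`) -/
theorem exists_split {q n : O} (hq : q ≠ 0) (h3 : (3 : O) ∣ q) (hn : n ≠ 0) :
    ∃ n0 n1 j, n0 ∣ q ^ j ∧ Prim n1 ∧ IsCoprime n1 q ∧ n = n0 * n1 := by
  obtain ⟨n0, n1, j, h0, h1, rfl⟩ := b1_split (q := q) hn
  obtain ⟨u, hu, hp⟩ := exists_unit_mul_prim (h1.of_isCoprime_of_dvd_right h3)
  obtain ⟨v, hv⟩ := hu.exists_left_inv
  exact ⟨v * n0, u * n1, j, (IsUnit.of_mul_eq_one u hv).mul_left_dvd.2 h0, hp,
    (b1_unit_coprime hu q).mul_left h1, by linear_combination -(n0 * n1) * hv⟩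
theorem split_unique {q a0 a1 b0 b1 : O} {i j : ℕ} (hq : q ≠ 0) (ha0 : a0 ∣ q ^ i) (hb0 : b0 ∣ q ^ j)
    (ha : Prim a1) (hb : Prim b1) (hac : IsCoprime a1 q) (hbc : IsCoprime b1 q)
    (h : a0 * a1 = b0 * b1) : a0 = b0 ∧ a1 = b1 := by
  have h1 : a1 ∣ b1 :=
    (hac.pow_right.of_isCoprime_of_dvd_right hb0).dvd_of_dvd_mul_left (h ▸ dvd_mul_left a1 a0)
  have h2 : b1 ∣ a1 :=
    (hbc.pow_right.of_isCoprime_of_dvd_right ha0).dvd_of_dvd_mul_left (h ▸ dvd_mul_left b1 b0)
  have h3 := ha.eq_of_associated hb (associated_of_dvd_dvd h1 h2)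
  subst h3
  exact ⟨mul_right_cancel₀ ha.ne_zero h, rfl⟩
theorem P0.one (Q : Lev) : P0 Q 1 := ⟨Prim.one, isCoprime_one_left⟩
theorem P0.mul {Q : Lev} {a b : O} (ha : P0 Q a) (hb : P0 Q b) : P0 Q (a * b) :=
  ⟨ha.1.mul hb.1, ha.2.mul_left hb.2⟩
theorem P0.of_dvd {Q : Lev} {a b : O} (hb : P0 Q b) (ha : Prim a) (h : a ∣ b) : P0 Q a :=
  ⟨ha, hb.2.of_isCoprime_of_dvd_left h⟩
theorem P0.isCoprime_two {Q : Lev} {a : O} (ha : P0 Q a) : IsCoprime a 2 :=
  ha.2.of_isCoprime_of_dvd_right (Dvd.dvd.trans ⟨36, by norm_num⟩ Q.dvd)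
theorem P0.isCoprime_six {Q : Lev} {a : O} (ha : P0 Q a) : IsCoprime a 6 :=
  ha.2.of_isCoprime_of_dvd_right (Dvd.dvd.trans ⟨12, by norm_num⟩ Q.dvd)

end Crest.Agent.R17
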