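import Crest.Agent.R17.Poisson

/-!
# R17 / Block : elementary properties of log-Gaussian blocks
-/

set_option autoImplicit false

noncomputable section

open scoped Classical ComplexConjugate
open MeasureTheory

namespace Crest.Agent.R17


/-- polynomially bounded sequence -/
def PolyBd (a : O → ℂ) : Prop := ∃ (C : ℝ) (j : ℕ), ∀ n, n ≠ 0 → ‖a n‖ ≤ C * N n ^ j

theorem gw_pos (u : ℝ) : 0 < gw u := Real.exp_pos _
theorem gw_le_one (u : ℝ) : gw u ≤ 1 := Real.exp_le_one_iff.2 (neg_nonpos.2 (sq_nonneg u))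
/-- `e^{xu} e^{-(u-y)²} = e^{xy + x²/4} e^{-(u - y - x/2)²}` -/
theorem exp_mul_gw (x u y : ℝ) :
    Real.exp (x * u) * gw (u - y) = Real.exp (x * y + x ^ 2 / 4) * gw (u - (y + x / 2)) := by
  unfold gw
  rw [← Real.exp_add, ← Real.exp_add]
  congr 1
  ring

theorem bl1_pt (x y w : ℝ) {n : O} (hn : n ≠ 0) :
    N n ^ x * gw (Real.log (N n) - y) ≤
      Real.exp ((x + w) * y + (x + w) ^ 2 / 4) * N n ^ (-w) := by
  have h0 := N_pos hn
  have e : N n ^ x = Real.exp ((x + w) * Real.log (N n)) * N n ^ (-w) := by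
    rw [mul_comm (x + w), ← Real.rpow_def_of_pos h0, ← Real.rpow_add h0]
    congr 1
    ring
  rw [e, mul_right_comm, exp_mul_gw]
  exact mul_le_mul_of_nonneg_right (mul_le_of_le_one_right (Real.exp_pos _).le (gw_le_one _))
    (Real.rpow_nonneg h0.le _)

theorem bl1_nonneg (x y : ℝ) (n : O) :
    0 ≤ (if n = 0 then 0 else N n ^ x * gw (Real.log (N n) - y)) := by
  split_ifs
  · exact le_rfl
  · exact mul_nonneg (Real.rpow_nonneg (N_nonneg n) _) (gw_pos _).le

theorem summable_gw_rpow (x y : ℝ) :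
    Summable (fun n : O => if n = 0 then 0 else N n ^ x * gw (Real.log (N n) - y)) := by
  refine Summable.of_nonneg_of_le (bl1_nonneg x y) (fun n => ?_)
    ((summable_N_rpow (σ := 2) (by norm_num)).mul_left (Real.exp ((x + 2) * y + (x + 2) ^ 2 / 4)))
  split_ifs with hn
  · exact mul_nonneg (Real.exp_pos _).le (Real.rpow_nonneg (N_nonneg n) _)
  · exact bl1_pt x y 2 hn
/-- the basic trivial bound, valid for every real `y` (split into shells `e^j ≤ N n < e^{j+1}` and use
`card_ball_le`) -/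
theorem tsum_gw_rpow (x : ℝ) : ∃ C, ∀ y : ℝ,
    ∑' n : O, (if n = 0 then 0 else N n ^ x * gw (Real.log (N n) - y)) ≤ C * Real.exp ((x + 1) * y) := by
  obtain ⟨C, hC⟩ := tsum_tail_N_rpow (σ := 2) (by norm_num)
  refine ⟨18 * Real.exp (x ^ 2 / 4) + C * Real.exp ((x + 2) ^ 2 / 4), fun y => ?_⟩
  have hX : 0 < Real.exp y := Real.exp_pos y
  have hs : Summable fun n : O => if Real.exp y < N n then N n ^ (-(2 : ℝ)) else 0 := by
    refine Summable.of_nonneg_of_le (fun n => ?_) (fun n => ?_)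
      (summable_N_rpow (σ := 2) (by norm_num))
    · split_ifs
      · exact Real.rpow_nonneg (N_nonneg n) _
      · exact le_rfl
    · split_ifs
      · exact le_rfl
      · exact Real.rpow_nonneg (N_nonneg n) _
  set A := Real.exp (x * y + x ^ 2 / 4) with hA
  set B := Real.exp ((x + 2) * y + (x + 2) ^ 2 / 4) with hB
  have h1 : HasSum (fun n : O => if n ∈ ball (Real.exp y) then A else 0)
      ((ball (Real.exp y)).card * A) := by
    have := hasSum_sum_of_ne_finset_zero (L := SummationFilter.unconditional O)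
      (f := fun n : O => if n ∈ ball (Real.exp y) then A else 0)
      (s := ball (Real.exp y)) (fun n hn => if_neg hn)
    rwa [Finset.sum_congr rfl fun n hn => if_pos hn, Finset.sum_const, nsmul_eq_mul] at this
  have h2 := h1.add (hs.hasSum.mul_left B)
  refine (hasSum_le (fun n => ?_) (summable_gw_rpow x y).hasSum h2).trans ?_
  · by_cases hn : n = 0
    · rw [if_pos hn]
      refine add_nonneg (by split_ifs <;> positivity) (mul_nonneg (by positivity) ?_)
      split_ifs
      · exact Real.rpow_nonneg (N_nonneg n) _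
      · exact le_rfl
    · rw [if_neg hn]
      by_cases hb : N n ≤ Real.exp y
      · rw [if_pos (mem_ball.2 ⟨hn, hb⟩), if_neg (not_lt.2 hb), mul_zero, add_zero]
        simpa using bl1_pt x y 0 hn
      · rw [if_neg fun h => hb (mem_ball.1 h).2, if_pos (not_le.1 hb), zero_add]
        exact bl1_pt x y 2 hn
  · have e1 : 18 * Real.exp y * A = 18 * Real.exp (x ^ 2 / 4) * Real.exp ((x + 1) * y) := by
      rw [hA, mul_assoc, mul_assoc, ← Real.exp_add, ← Real.exp_add]
      congr 2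
      ring
    have e2 : B * (C * Real.exp y ^ (1 - 2 : ℝ)) =
        C * Real.exp ((x + 2) ^ 2 / 4) * Real.exp ((x + 1) * y) := by
      rw [hB, ← Real.exp_mul, mul_left_comm, mul_assoc, ← Real.exp_add, ← Real.exp_add]
      congr 2
      ring
    rw [add_mul, ← e1, ← e2]
    exact add_le_add (mul_le_mul_of_nonneg_right (card_ball_le hX.le) (by positivity))
      (mul_le_mul_of_nonneg_left (hC _ hX) (by positivity))
/-- for `y ≤ 0` blocks are tiny -/
theorem tsum_gw_rpow_neg (x : ℝ) (j : ℕ) : ∃ C, ∀ y : ℝ, y ≤ 0 →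
    ∑' n : O, (if n = 0 then 0 else N n ^ x * gw (Real.log (N n) - y)) ≤ C * Real.exp (j * y) := by
  obtain ⟨C, hC⟩ := tsum_gw_rpow (max x j)
  refine ⟨max C 0, fun y hy => ?_⟩
  refine ((summable_gw_rpow x y).tsum_le_tsum (fun n => ?_) (summable_gw_rpow (max x j) y)).trans
    ((hC y).trans ?_)
  · split_ifs with hn
    · exact le_rfl
    · exact mul_le_mul_of_nonneg_right
        (Real.rpow_le_rpow_of_exponent_le (one_le_N hn) (le_max_left _ _)) (gw_pos _).le
  · refine mul_le_mul (le_max_left _ _) (Real.exp_le_exp.2 ?_) (Real.exp_pos _).le (le_max_right _ _)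
    exact mul_le_mul_of_nonpos_right (by linarith [le_max_right x (j : ℝ)]) hy

theorem bl1_norm (a : O → ℂ) (y : ℝ) (s : ℂ) {n : O} (hn : n ≠ 0) :
    ‖a n * (N n : ℂ) ^ (-s) * (gw (Real.log (N n) - y) : ℂ)‖ =
      ‖a n‖ * (N n ^ (-s.re) * gw (Real.log (N n) - y)) := by
  rw [norm_mul, norm_mul, Complex.norm_cpow_eq_rpow_re_of_pos (N_pos hn), Complex.norm_real,
    Real.norm_of_nonneg (gw_pos _).le, Complex.neg_re, mul_assoc]

theorem bl1_blk_le (a : O → ℂ) (ha : ∀ n, ‖a n‖ ≤ 1) (y t : ℝ) :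
    ‖blk a y t‖ ≤
      ∑' n : O, (if n = 0 then 0 else N n ^ (-(1 / 2) : ℝ) * gw (Real.log (N n) - y)) := by
  refine tsum_of_norm_bounded (summable_gw_rpow _ y).hasSum fun n => ?_
  split_ifs with hn
  · simp
  · have e : ((1 / 2 : ℂ) + t * Complex.I).re = 1 / 2 := by simp
    rw [bl1_norm a y _ hn, e]
    exact mul_le_of_le_one_left
      (mul_nonneg (Real.rpow_nonneg (N_nonneg n) _) (gw_pos _).le) (ha n)

theorem summable_blks {a : O → ℂ} (ha : PolyBd a) (y : ℝ) (s : ℂ) :
    Summable (fun n : O => ‖if n = 0 then 0 else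
      a n * (N n : ℂ) ^ (-s) * (gw (Real.log (N n) - y) : ℂ)‖) := by
  obtain ⟨C, j, hC⟩ := ha
  refine Summable.of_nonneg_of_le (fun _ => norm_nonneg _) (fun n => ?_)
    ((summable_gw_rpow (j - s.re) y).mul_left C)
  split_ifs with hn
  · simp
  · rw [bl1_norm a y s hn, sub_eq_add_neg (j : ℝ), Real.rpow_add (N_pos hn), Real.rpow_natCast,
      mul_assoc, ← mul_assoc C]
    exact mul_le_mul_of_nonneg_right (hC n hn)
      (mul_nonneg (Real.rpow_nonneg (N_nonneg n) _) (gw_pos _).le)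
theorem blks_shift (a : O → ℂ) (y x : ℝ) (s : ℂ) :
    blks a y (s - x) = (Real.exp (x * y + x ^ 2 / 4) : ℂ) * blks a (y + x / 2) s := by
  unfold blks
  rw [← tsum_mul_left]
  refine tsum_congr fun n => ?_
  split_ifs with hn
  · simp
  · have h0 := N_pos hn
    have e : (N n : ℂ) ^ (-(s - x)) = (N n : ℂ) ^ (-s) * (Real.exp (x * Real.log (N n)) : ℝ) := by
      rw [mul_comm x, ← Real.rpow_def_of_pos h0, Complex.ofReal_cpow h0.le,
        ← Complex.cpow_add _ _ (Complex.ofReal_ne_zero.2 h0.ne')]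
      congr 1
      ring
    have e2 := congrArg (fun r : ℝ => (r : ℂ)) (exp_mul_gw x (Real.log (N n)) y)
    simp only [Complex.ofReal_mul] at e2
    rw [e]
    linear_combination (a n * (N n : ℂ) ^ (-s)) * e2
theorem norm_blk_le : ∃ C, ∀ (a : O → ℂ), (∀ n, ‖a n‖ ≤ 1) → ∀ y t,
    ‖blk a y t‖ ≤ C * Real.exp (y / 2) := by
  obtain ⟨C, hC⟩ := tsum_gw_rpow (-(1 / 2))
  refine ⟨C, fun a ha y t => (bl1_blk_le a ha y t).trans ((hC y).trans (le_of_eq ?_))⟩
  congr 2
  ring
theorem norm_blk_le_neg (j : ℕ) : ∃ C, ∀ (a : O → ℂ), (∀ n, ‖a n‖ ≤ 1) → ∀ y t, y ≤ 0 →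
    ‖blk a y t‖ ≤ C * Real.exp (j * y) := by
  obtain ⟨C, hC⟩ := tsum_gw_rpow_neg (-(1 / 2)) j
  exact ⟨C, fun a ha y t hy => (bl1_blk_le a ha y t).trans (hC y hy)⟩
theorem blks_dvd {e : O} (he : e ≠ 0) (a : O → ℂ) (y : ℝ) (s : ℂ) :
    blks (fun n => if e ∣ n then a n else 0) y s =
      (N e : ℂ) ^ (-s) * blks (fun m => a (e * m)) (y - Real.log (N e)) s := by
  have h1 := tsum_dvd he fun n => if n = 0 then 0 else
    a n * (N n : ℂ) ^ (-s) * (gw (Real.log (N n) - y) : ℂ)
  unfold blks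
  rw [← tsum_mul_left]
  refine Eq.trans (tsum_congr fun n => ?_) (h1.trans (tsum_congr fun m => ?_))
  · by_cases h2 : e ∣ n <;> simp [h2]
  · by_cases hm : m = 0
    · simp [hm]
    · rw [if_neg (mul_ne_zero he hm), if_neg hm, N_mul, Complex.ofReal_mul,
        Complex.mul_cpow_ofReal_nonneg (N_nonneg e) (N_nonneg m),
        Real.log_mul (N_pos he).ne' (N_pos hm).ne',
        show Real.log (N e) + Real.log (N m) - y = Real.log (N m) - (y - Real.log (N e)) by ring]
      ring
theorem pb_dvd {e : O} (he : Prim e) (a : O → ℂ) (y t : ℝ) :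
    pb (fun n => if e ∣ n then a n else 0) y t =
      (N e : ℂ) ^ (-(1 / 2 + t * Complex.I)) * pb (fun m => a (e * m)) (y - Real.log (N e)) t := by
  have e1 : prim (fun n => if e ∣ n then a n else 0) = fun n => if e ∣ n then prim a n else 0 := by
    funext n
    by_cases h2 : e ∣ n <;> simp [prim, h2]
  have e2 : (fun m => prim a (e * m)) = prim fun m => a (e * m) := by
    funext m
    unfold prim
    exact if_congr ⟨fun h => h.of_mul_left he, fun h => he.mul h⟩ rfl rfl
  unfold pb blk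
  rw [e1, blks_dvd he.ne_zero, e2]

end Crest.Agent.R17
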