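import Crest.Agent.R17.Recip
import Crest.Agent.R17.Chars

/-!
# R17 / CC : the coefficient `cc d l m` of the high side (multiplicativity and local values)

`FTc l m d = ∑_{k mod lm} conj G(l;k) conj χ_m(k) ee(kd/(lm))`, `G(l;k) = gs l χ_l k`.
* `cc_mul`: CRT (`sum_res_crt`) for `q₁ = l₁m₁`, `q₂ = l₂m₂`, `k = k₁q₂ + k₂q₁`; `gs_mul`,
  `gs_mul_unit`; the cross factors are `conj(χ_{l₁}(l₂)χ_{l₂}(l₁)) χ_{l₁}(q₂) χ_{l₂}(q₁) conj χ_{m₁}(q₂)
  conj χ_{m₂}(q₁)`, and with `chi_rec`, `tau_mul`, `f1_mul`, `sg_mul_left`, `chi_sq`, `ang_mul` everything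
  cancels (checked numerically).
* local values: `G(1;k) = 1`; `∑_k conj G(l;k) ee(kd/l) = N l · conj χ_l(d)`; for `b ≥ 1` only `p ∤ k`
  matters, `G(p;k) = conj χ_p(k) G(p;1)`, `G(p^a;k) = 0` for `a ≥ 2` (`gs_lift`); then `gs_lift` again:
  `FTc 1 p^b d = gs p^b (conj χ_p^b) d`, `FTc p p^b d = conj G(p;1) gs p^{b+1} (χ_p · conj χ_p^b) d`, and
  `tt (p^b) ≠ 0` only for `b ≡ 0,1 mod 3`, `|tt (p^b)| = N(p)^{⌊b/3⌋/2}`.
  Table of `|cc| / N(p)^{(a+b)/2}` (`v = v_p(d)`, `P = N p`): `(0,b)`: `v = b-1`: `P^{⌊b/3⌋/2 - 1/2}` if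
  `6 ∤ b`, `P^{b/6-1}` if `6 ∣ b`; `v ≥ b`: `≤ P^{b/6}` if `6 ∣ b`, else `0`.  `(1,b)`: `v = b`:
  `P^{⌊b/3⌋/2 - 1/2}` if `b ≢ 1 (6)`, `P^{⌊b/3⌋/2 - 1}` if `b ≡ 1 (6)`; `v > b`: `≤ P^{⌊b/3⌋/2}` if
  `b ≡ 1 (6)`, else `0`.
-/

set_option autoImplicit false

noncomputable section

open scoped Classical ComplexConjugate

namespace Crest.Agent.R17

/-- the periodic function whose Fourier transform is `FTc` -/
def ccF (l m k : O) : ℂ := conj (gs l (chi l) k) * conj (chi m k)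

theorem ccx_FT (l m d : O) : FTc l m d = gs (l * m) (ccF l m) d :=
  Finset.sum_congr rfl fun k _ => by rw [mul_comm k d]; rfl

theorem ccx_chi {Q : Lev} {l : O} (hl : P0 Q l) : IsChar l (chi l) := rkey_chi hl.isCoprime_six

theorem ccx_per (l m : O) : Per (l * m) (ccF l m) := fun x t => by
  rw [ccF, ccF, (gs_per l (chi l)).of_dvd (dvd_mul_right l m),
    show chi m (x + l * m * t) = chi m x from (sym_per 6 m).of_dvd (dvd_mul_left m l) x t]

theorem ccx_F_hom {Q : Lev} {l m c : O} (hl : P0 Q l) (hm : P0 Q m) (hc : IsCoprime c l) (k : O) :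
    ccF l m (c * k) = chi l c * conj (chi m c) * ccF l m k := by
  rw [ccF, ccF, gs_mul_unit hl.1.ne_zero (ccx_chi hl) hc, (ccx_chi hm).mul, map_mul, map_mul,
    Complex.conj_conj]
  ring

theorem ccx_hom {q c : O} (hq : q ≠ 0) {f : O → ℂ} (hf : Per q f) (hc : IsCoprime c q) {w : ℂ}
    (h : ∀ k, f (c * k) = w * f k) (d : O) : gs q f d = w * gs q f (d * c) := by
  rw [gs, gs, ← sum_res_affine hq (hf.mul (ad_per q d)) hc 0, Finset.mul_sum]
  refine Finset.sum_congr rfl fun x _ => ?_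
  rw [add_zero, h, mul_assoc, mul_assoc d]

theorem ccx_mul {q1 q2 : O} (h1 : q1 ≠ 0) (h2 : q2 ≠ 0) (hc : IsCoprime q1 q2) {f1 f2 : O → ℂ}
    (p1 : Per q1 f1) (p2 : Per q2 f2) {w1 w2 : ℂ} (e1 : ∀ k, f1 (q2 * k) = w1 * f1 k)
    (e2 : ∀ k, f2 (q1 * k) = w2 * f2 k) (c : ℂ) (k : O) :
    gs (q1 * q2) (fun n => c * (f1 n * f2 n)) k = c * w1 * w2 * (gs q1 f1 k * gs q2 f2 k) := by
  have hp : Per (q1 * q2) fun n => c * (f1 n * f2 n) := fun x t => by
    simp only [p1.of_dvd (dvd_mul_right q1 q2) x t, p2.of_dvd (dvd_mul_left q2 q1) x t]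
  rw [gs, sum_res_crt h1 h2 hc (hp.mul (ad_per _ k)), gs, gs, Finset.sum_mul_sum, Finset.mul_sum]
  refine Finset.sum_congr rfl fun x _ => ?_
  rw [Finset.mul_sum]
  refine Finset.sum_congr rfl fun y _ => ?_
  have a1 : f1 (x * q2 + y * q1) = w1 * f1 x := by rw [mul_comm y, p1, mul_comm, e1]
  have a2 : f2 (x * q2 + y * q1) = w2 * f2 y := by rw [add_comm, mul_comm x, p2, mul_comm, e2]
  have a3 : ad (q1 * q2) (k * (x * q2 + y * q1)) = ad q1 (k * x) * ad q2 (k * y) := by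
    rw [show k * (x * q2 + y * q1) = q2 * (k * x) + q1 * (k * y) by ring, ad_add, ad_mul_cancel h1,
      mul_comm q1, ad_mul_cancel h2]
  rw [a1, a2, a3]
  ring

theorem ccx_tau_one : tau 1 = 1 := by
  have h1 := tau_eq Prim.one squarefree_one Prim.one
  have h4 : gs 1 (cub 1) 1 = 1 := rkey_gs_one 3
  rw [one_pow, one_mul] at h1
  simp [h1, g3, h4]

theorem ccx_tt_one : tt 1 = 1 := by simp [tt, ccx_tau_one, ang]

theorem ccx_f1_one : f1 1 = 1 := by simp [f1, ChA.chi_one_left, gam_one]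

theorem ccx_unit {Q : Lev} {l e : O} (hl : P0 Q l) (he : IsCoprime e l) :
    chi l e * conj (chi l e) = 1 :=
  rkey_mul_conj ((ccx_chi hl).norm_eq_one hl.1.ne_zero he)

theorem ccx_left {l : O} (h0 : l ≠ 0) (h2 : IsCoprime l 2) (d : O) :
    cc d l 1 = conj (chi l d) := by
  have hN : (N l : ℂ) ≠ 0 := by exact_mod_cast (N_pos h0).ne'
  rw [cc, sg_comm, sg_one l h2, ccx_f1_one, ccx_tt_one, FTc, mul_one l,
    show chi l d = _ from fourier_inv h0 (sym_per 6 l) d]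
  simp only [ChA.chi_one_left, map_one, mul_one, one_mul, N_one, Real.sqrt_one, Complex.ofReal_one,
    map_mul, map_sum, ad_neg, Complex.conj_conj, map_inv₀, Complex.conj_ofReal]
  rw [div_eq_inv_mul]
  rfl

theorem cc_one (d : O) : cc d 1 1 = 1 := by
  rw [ccx_left one_ne_zero isCoprime_one_left, ChA.chi_one_left, map_one]

theorem cc_mul {Q : Lev} (d : O) {l1 m1 l2 m2 : O} (h1 : P0 Q l1) (h2 : P0 Q m1) (h3 : P0 Q l2)
    (h4 : P0 Q m2) (h : IsCoprime (l1 * m1) (l2 * m2)) :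
    cc d (l1 * l2) (m1 * m2) = cc d l1 m1 * cc d l2 m2 := by
  have hl : IsCoprime l1 l2 := h.of_mul_left_left.of_mul_right_left
  have hm : IsCoprime m1 m2 := h.of_mul_left_right.of_mul_right_right
  have e : ccF (l1 * l2) (m1 * m2) =
      fun k => conj (chi l1 l2 * chi l2 l1) * (ccF l1 m1 k * ccF l2 m2 k) := funext fun k => by
    rw [ccF, show chi (l1 * l2) = fun x => chi l1 x * chi l2 x from
        funext fun x => sym_mul_left 6 h1.1.ne_zero h3.1.ne_zero x,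
      gs_mul h1.1.ne_zero h3.1.ne_zero hl (ccx_chi h1) (ccx_chi h3),
      show chi (m1 * m2) k = chi m1 k * chi m2 k from sym_mul_left 6 h2.1.ne_zero h4.1.ne_zero k]
    simp only [ccF, map_mul]
    ring
  have t1 := h1.isCoprime_two
  have t2 := h2.isCoprime_two
  have t3 := h3.isCoprime_two
  have t4 := h4.isCoprime_two
  have key : sg l1 m2 * sg l2 m1 * sg m1 m2 * cub m1 m2 * (conj (chi l1 l2 * chi l2 l1) *
      (chi l1 (l2 * m2) * conj (chi m1 (l2 * m2))) *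
      (chi l2 (l1 * m1) * conj (chi m2 (l1 * m1)))) = 1 := by
    rw [(ccx_chi h1).mul, (ccx_chi h2).mul, (ccx_chi h3).mul, (ccx_chi h4).mul,
      chi_rec h1.1 h4.1 t1 t4, chi_rec h3.1 h2.1 t3 t2, chi_rec h4.1 h2.1 t4 t2,
      ← chi_sq h2.isCoprime_six, sg_comm m2 m1]
    simp only [map_mul, conj_sg t2 t4]
    calc _ = (sg l1 m2 * sg l1 m2) * (sg l2 m1 * sg l2 m1) * (sg m1 m2 * sg m1 m2) *
        (chi l1 l2 * conj (chi l1 l2)) * (chi l2 l1 * conj (chi l2 l1)) *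
        (chi m2 l1 * conj (chi m2 l1)) * (chi m1 l2 * conj (chi m1 l2)) *
        (chi m1 m2 * conj (chi m1 m2)) ^ 2 := by ring
      _ = 1 := by
        rw [sg_sq t1 t4, sg_sq t3 t2, sg_sq t2 t4, ccx_unit h1 hl.symm, ccx_unit h3 hl,
          ccx_unit h4 h.of_mul_left_left.of_mul_right_right,
          ccx_unit h2 h.of_mul_left_right.of_mul_right_left.symm, ccx_unit h2 hm.symm]
        norm_num
  rw [cc, cc, cc, ccx_FT, ccx_FT, ccx_FT, mul_mul_mul_comm l1 l2, e,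
    ccx_mul (h1.mul h2).1.ne_zero (h3.mul h4).1.ne_zero h (ccx_per _ _) (ccx_per _ _)
      (ccx_F_hom h1 h2 h.of_mul_left_left.symm) (ccx_F_hom h3 h4 h.of_mul_right_left),
    sg_mul_left t1 t3 (t2.mul_left t4), sg_comm l1, sg_comm l2, sg_mul_left t2 t4 t1,
    sg_mul_left t2 t4 t3, sg_comm m1 l1, sg_comm m2 l1, sg_comm m1 l2, sg_comm m2 l2,
    f1_mul h2.isCoprime_six h4.isCoprime_six, tt, tt, tt, tau_mul h2.1 h4.1 hm, ang_mul,
    rq_sqrt_mul, N_mul, div_mul_div_comm, Complex.ofReal_mul, mul_mul_mul_comm (N l1 : ℂ)]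
  congr 1
  linear_combination (sg l1 m1 * sg l2 m2 * f1 m1 * f1 m2 * tau m1 * tau m2 * ang m1 * ang m2 *
    gs (l1 * m1) (ccF l1 m1) d * gs (l2 * m2) (ccF l2 m2) d) * key

/-- homogeneity in the row (substitute `k ↦ k e⁻¹`, `sum_res_affine`, `gs_mul_unit`) -/
theorem cc_hom {Q : Lev} (d : O) {l m e : O} (hl : P0 Q l) (hm : P0 Q m)
    (he : IsCoprime e (l * m)) : cc (d * e) l m = conj (chi l e) * chi m e * cc d l m := by
  have h := ccx_hom (hl.mul hm).1.ne_zero (ccx_per l m) he (ccx_F_hom hl hm he.of_mul_right_left) d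
  have u1 := ccx_unit hl he.of_mul_right_left
  have u2 := ccx_unit hm he.of_mul_right_right
  rw [cc, cc, ccx_FT, ccx_FT, h, ← mul_div_assoc]
  congr 1
  linear_combination (-(sg l m * f1 m * tt m * gs (l * m) (ccF l m) (d * e))) *
    (chi m e * conj (chi m e) * u1 + u2)

theorem ccx_norm {Q : Lev} (d : O) {l m : O} (hl : P0 Q l) (hm : P0 Q m) :
    ‖cc d l m‖ = ‖tau m‖ * ‖gs (l * m) (ccF l m) d‖ / (N l * √(N m)) := by
  rw [cc, ccx_FT, tt]
  simp only [norm_div, norm_mul, norm_sg hl.isCoprime_two hm.isCoprime_two,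
    norm_f1 hm.isCoprime_six, norm_ang hm.1.ne_zero, one_mul, mul_one, Complex.norm_real,
    Real.norm_of_nonneg (N_nonneg l), Real.norm_of_nonneg (Real.sqrt_nonneg _)]

/-- trivial bound -/
theorem norm_cc_le {Q : Lev} (d : O) {l m : O} (hl : P0 Q l) (hm : P0 Q m) :
    ‖cc d l m‖ ≤ N l * N m := by
  have h1 := one_le_N hl.1.ne_zero
  have h2 := one_le_N hm.1.ne_zero
  have h3 : ‖gs (l * m) (ccF l m) d‖ ≤ N l * N m * N l := by
    refine (norm_sum_le _ _).trans ((Finset.sum_le_card_nsmul _ _ (N l) fun x _ => ?_).trans ?_)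
    · rw [norm_mul, norm_ad, mul_one, ccF, norm_mul, RCLike.norm_conj, RCLike.norm_conj]
      exact (mul_le_of_le_one_right (norm_nonneg _) ((ccx_chi hm).norm_le hm.1.ne_zero x)).trans
        (norm_gs_le hl.1.ne_zero ((ccx_chi hl).norm_le hl.1.ne_zero) x)
    · rw [card_res (hl.mul hm).1.ne_zero, nsmul_eq_mul, ← N_mul]
      exact le_rfl
  have h4 : ‖tau m‖ ≤ √(N m) := (norm_tau_le hm.1).trans (by
    rw [Real.sqrt_eq_rpow]
    exact Real.rpow_le_rpow_of_exponent_le h2 (by norm_num))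
  rw [ccx_norm d hl hm, div_le_iff₀ (by positivity)]
  exact (mul_le_mul h4 h3 (norm_nonneg _) (Real.sqrt_nonneg _)).trans_eq (by ring)

theorem cc_left {Q : Lev} (d : O) {l : O} (hl : P0 Q l) : cc d l 1 = conj (chi l d) := by
  exact ccx_left hl.1.ne_zero hl.isCoprime_two d

section loc
variable {Q : Lev} {p : O}

theorem ccx_F_one (m k : O) : ccF 1 m k = conj (chi m k) := by
  rw [ccF, (s3_unit isUnit_one (rkey_chi isCoprime_one_left) k).2, map_one, one_mul]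

theorem cc_prime (hp : Prime p) (hp0 : P0 Q p) (d : O) : cc d 1 p = -chi p d := by
  have h1 := key_identity hp0.1 hp0.isCoprime_two hp.squarefree
  have h2 := rkey_mul_conj (norm_gt hp0.isCoprime_six hp.squarefree)
  have h3 : (√(N p) : ℂ) ≠ 0 := by exact_mod_cast (Real.sqrt_pos.2 (N_pos hp.ne_zero)).ne'
  rw [mu_prime hp] at h1
  rw [cc, ccx_FT, one_mul p, funext (ccx_F_one p), gs_conj_chi hp0.isCoprime_six hp.squarefree,
    sg_one p hp0.isCoprime_two, N_one, Complex.ofReal_one, one_mul, one_mul, div_eq_iff h3]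
  linear_combination (-(chi p d * √(N p))) * (conj (gt p) * h1 + h2)

theorem ccx_P0_pow (hp0 : P0 Q p) (j : ℕ) : P0 Q (p ^ j) := ⟨hp0.1.pow j, hp0.2.pow_left⟩

theorem ccx_chi_pow (hp : Prime p) (j : ℕ) (k : O) : chi (p ^ j) k = chi p k ^ j :=
  sym_pow_left 6 hp.ne_zero j k

theorem ccx_chi_zero (hp : Prime p) (hp0 : P0 Q p) {k : O} (hk : p ∣ k) : chi p k = 0 :=
  ((ccx_chi hp0).zero_iff k).2 fun h => hp.not_isUnit (h.isUnit_of_dvd' hk dvd_rfl)

theorem ccx_chi_norm (hp : Prime p) (hp0 : P0 Q p) {k : O} (hk : ¬ p ∣ k) : ‖chi p k‖ = 1 :=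
  (ccx_chi hp0).norm_eq_one hp.ne_zero (hp.irreducible.coprime_iff_not_dvd.2 hk).symm

theorem ccx_tau_sq (hp : Prime p) (hp' : Prim p) : tau (p ^ 2) = 0 := by
  by_contra h
  obtain ⟨m, c, -, hs, hc, e⟩ := tau_ne_zero (hp'.pow 2) h
  by_cases h1 : c = 1
  · rw [h1, one_pow, mul_one, sq] at e
    exact hp.not_isUnit (hs p e.dvd)
  · obtain ⟨q, hq, -, hqc⟩ := hc.exists_prime_dvd h1
    have h2 : q ^ 3 ∣ p ^ 2 := (pow_dvd_pow_of_dvd hqc 3).trans (e ▸ dvd_mul_left _ _)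
    have h3 : Associated q p := (hq.dvd_prime_iff_associated hp).1
      (hq.dvd_of_dvd_pow ((dvd_pow_self q three_ne_zero).trans h2))
    have h4 := (pow_dvd_pow_iff hp.ne_zero hp.not_isUnit).1 ((h3.symm.pow_pow (n := 3)).dvd.trans h2)
    omega

theorem ccx_tau_pow (hp' : Prim p) (b : ℕ) :
    tau (p ^ b) = tau (p ^ (b % 3)) * (√(N p ^ (b / 3)) : ℝ) := by
  rw [← N_pow, ← tau_mul_cube (hp'.pow _) (hp'.pow _), ← pow_mul, ← pow_add, Nat.mod_add_div']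

theorem ccx_norm_tau (hp : Prime p) (hp' : Prim p) (b : ℕ) :
    ‖tau (p ^ b)‖ ≤ N p ^ (((b / 3 : ℕ) : ℝ) / 2) := by
  have h : ‖tau (p ^ (b % 3))‖ ≤ 1 := by
    rcases (by omega : b % 3 = 0 ∨ b % 3 = 1 ∨ b % 3 = 2) with h | h | h <;> rw [h]
    · rw [pow_zero, ccx_tau_one, norm_one]
    · have := rkey_norm_tau hp' hp.squarefree Prim.one
      rw [one_pow, mul_one, N_one, Real.sqrt_one] at this
      rw [pow_one, this]
    · rw [ccx_tau_sq hp hp', norm_zero]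
      exact zero_le_one
  rw [ccx_tau_pow hp', norm_mul, Complex.norm_real, Real.norm_of_nonneg (Real.sqrt_nonneg _),
    Real.sqrt_eq_rpow, ← Real.rpow_natCast_mul (N_nonneg p), mul_one_div]
  exact mul_le_of_le_one_left (Real.rpow_nonneg (N_nonneg p) _) h

theorem ccx_F_loc (hp : Prime p) (hp0 : P0 Q p) {a : ℕ} (ha : a ≤ 1) (b : ℕ) :
    ∃ c : ℂ, ‖c‖ = N p ^ ((a : ℝ) / 2) ∧
      ccF (p ^ a) (p ^ b) = fun k => c * chi p k ^ (a + 5 * b) := by
  have h6 := hp0.isCoprime_six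
  rcases Nat.le_one_iff_eq_zero_or_eq_one.1 ha with rfl | rfl
  · refine ⟨1, by simp, funext fun k => ?_⟩
    rw [pow_zero, ccx_F_one, ccx_chi_pow hp, map_pow, conj_chi h6, ← pow_mul, one_mul, zero_add]
  · have h1 := gs_chi_pow h6 hp.squarefree (j := 1) (by norm_num)
    have h2 := norm_gs_chi_pow h6 hp.squarefree (j := 1) (by norm_num)
    simp only [pow_one] at h1 h2
    refine ⟨conj (gs p (chi p) 1), ?_, funext fun k => ?_⟩
    · rw [RCLike.norm_conj, Nat.cast_one, ← Real.sqrt_eq_rpow]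
      exact h2
    · rw [pow_one, ccF, show gs p (chi p) k = _ from h1 k, ccx_chi_pow hp, map_pow, conj_chi h6 k,
        ← conj_chi h6 k, map_mul, Complex.conj_conj, conj_chi h6 k]
      ring

theorem ccx_gs_pow (hp : Prime p) (hp0 : P0 Q p) {j : ℕ} (hj : j ≠ 0) (x : O) :
    ‖gs p (fun k => chi p k ^ j) x‖ ≤ if 6 ∣ j then N p ^ (if p ∣ x then (1 : ℝ) else 0)
      else if p ∣ x then 0 else N p ^ (1 / 2 : ℝ) := by
  have h6 := hp0.isCoprime_six
  by_cases h : 6 ∣ j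
  · rw [if_pos h]
    split_ifs with hx
    · rw [Real.rpow_one]
      exact norm_gs_le hp.ne_zero (((ccx_chi hp0).pow_char hj).norm_le hp.ne_zero) x
    · rw [gs_prime_princ hp ((ccx_chi hp0).pow_char hj), if_neg hx, norm_neg, norm_one,
        Real.rpow_zero]
      rintro ⟨n, h1, h2⟩
      obtain ⟨i, rfl⟩ := h
      refine h2 ?_
      simp only
      rw [pow_mul, ← ChA.IsChar_pow (ccx_chi hp0), ChA.chi_pow_six h6, if_pos h1.symm, one_pow]
  · rw [if_neg h, gs_chi_pow h6 hp.squarefree h, norm_mul, norm_gs_chi_pow h6 hp.squarefree h,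
      RCLike.norm_conj, norm_pow]
    split_ifs with hx
    · rw [ccx_chi_zero hp hp0 hx, norm_zero, zero_pow hj, zero_mul]
    · rw [ccx_chi_norm hp hp0 hx, one_pow, one_mul, Real.sqrt_eq_rpow]

theorem ccx_local (hp : Prime p) (hp0 : P0 Q p) (d : O) {a b : ℕ} (ha : a ≤ 1) (hb : 1 ≤ b) :
    ‖cc d (p ^ a) (p ^ b)‖ ≤ if p ^ (a + b - 1) ∣ d then
      N p ^ (((b / 3 : ℕ) : ℝ) / 2 + ((a : ℝ) + b) / 2 - 1) *
        (if 6 ∣ a + 5 * b then N p ^ (if p ^ (a + b) ∣ d then (1 : ℝ) else 0)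
          else if p ^ (a + b) ∣ d then 0 else N p ^ (1 / 2 : ℝ)) else 0 := by
  obtain ⟨c, hc, hF⟩ := ccx_F_loc hp hp0 ha b
  obtain ⟨n, hn⟩ : ∃ n, a + b = n + 1 := ⟨a + b - 1, by omega⟩
  have hj : a + 5 * b ≠ 0 := by omega
  have hP := N_pos hp.ne_zero
  have e : gs (p ^ a * p ^ b) (ccF (p ^ a) (p ^ b)) d =
      c * gs (p * p ^ n) (fun k => chi p k ^ (a + 5 * b)) d := by
    rw [hF, ← pow_add, hn, pow_succ']
    simp only [gs, Finset.mul_sum, mul_assoc]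
  rw [ccx_norm d (ccx_P0_pow hp0 a) (ccx_P0_pow hp0 b), e,
    gs_lift hp.ne_zero (pow_ne_zero n hp.ne_zero) ((ccx_chi hp0).pow_char hj).per, hn,
    Nat.add_sub_cancel]
  by_cases h : p ^ n ∣ d
  · obtain ⟨x, rfl⟩ := h
    have h1 := ccx_gs_pow hp hp0 hj x
    have h2 : p ^ (n + 1) ∣ p ^ n * x ↔ p ∣ x := by
      rw [pow_succ, mul_dvd_mul_iff_left (pow_ne_zero n hp.ne_zero)]
    have h3 : (n : ℝ) = a + b - 1 := by
      rw [eq_sub_iff_add_eq]; exact_mod_cast hn.symm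
    rw [if_pos (dvd_mul_right _ _), if_pos (dvd_mul_right _ _),
      mul_div_cancel_left₀ _ (pow_ne_zero n hp.ne_zero), norm_mul, norm_mul, hc,
      Complex.norm_real, Real.norm_of_nonneg (N_nonneg _), ← mul_assoc, ← mul_assoc,
      mul_div_right_comm]
    simp only [h2]
    refine mul_le_mul ?_ h1 (norm_nonneg _) (by positivity)
    rw [div_le_iff₀ (mul_pos (N_pos (pow_ne_zero _ hp.ne_zero))
      (Real.sqrt_pos.2 (N_pos (pow_ne_zero _ hp.ne_zero)))), N_pow, N_pow, N_pow,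
      Real.sqrt_eq_rpow, ← Real.rpow_natCast_mul hP.le, ← Real.rpow_natCast, ← Real.rpow_natCast,
      mul_assoc, ← Real.rpow_add hP, ← Real.rpow_add hP, ← Real.rpow_add hP]
    refine (mul_le_mul_of_nonneg_right (ccx_norm_tau hp hp0.1 b) (by positivity)).trans_eq ?_
    rw [← Real.rpow_add hP, h3]
    congr 1
    ring
  · rw [if_neg h, if_neg h, mul_zero, norm_zero, mul_zero, zero_div]

theorem cc_eq_zero_of_two_le (hp : Prime p) (hp0 : P0 Q p) (d : O) {a b : ℕ} (ha : 2 ≤ a)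
    (hb : 1 ≤ b) : cc d (p ^ a) (p ^ b) = 0 := by
  obtain ⟨n, rfl⟩ : ∃ n, a = n + 1 := ⟨a - 1, by omega⟩
  have e : ∀ k, ccF (p ^ (n + 1)) (p ^ b) k = 0 := fun k => by
    rw [ccF, funext (ccx_chi_pow hp (n + 1)), pow_succ', gs_lift hp.ne_zero (pow_ne_zero n hp.ne_zero)
      ((ccx_chi hp0).pow_char (by omega)).per]
    split_ifs with h
    · rw [ccx_chi_pow hp, ccx_chi_zero hp hp0 ((dvd_pow_self p (by omega)).trans h),
        zero_pow (by omega), map_zero, mul_zero]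
    · rw [map_zero, zero_mul]
  simp [cc, ccx_FT, gs, e]

theorem dvd_of_cc_ne_zero (hp : Prime p) (hp0 : P0 Q p) {d : O} {a b : ℕ} (hb : 1 ≤ b)
    (h : cc d (p ^ a) (p ^ b) ≠ 0) : p ^ (a + b - 1) ∣ d := by
  by_contra h0
  have := ccx_local hp hp0 d (a := a)
    (by_contra fun h1 => h (cc_eq_zero_of_two_le hp hp0 d (by omega) hb)) hb
  rw [if_neg h0] at this
  exact h (norm_le_zero_iff.1 this)

theorem mod_three_of_cc_ne_zero (hp : Prime p) (hp0 : P0 Q p) {d : O} {a b : ℕ}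
    (h : cc d (p ^ a) (p ^ b) ≠ 0) : b % 3 ≠ 2 := by
  intro h0
  refine h ?_
  rw [cc, tt, ccx_tau_pow hp0.1 b, h0, ccx_tau_sq hp hp0.1]
  simp

theorem ccx_mod {a : ℕ} (ha : a ≤ 1) (b : ℕ) : 6 ∣ a + 5 * b ↔ b % 6 = a := by
  rcases Nat.le_one_iff_eq_zero_or_eq_one.1 ha with rfl | rfl <;> omega

theorem ccx_local' (hp : Prime p) (hp0 : P0 Q p) (d : O) {a b : ℕ} (ha : a ≤ 1) (hb : 1 ≤ b) :
    ‖cc d (p ^ a) (p ^ b)‖ ≤ if p ^ (a + b) ∣ d then
      (if 6 ∣ a + 5 * b then N p ^ (((b / 3 : ℕ) : ℝ) / 2 + ((a : ℝ) + b) / 2) else 0)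
      else N p ^ (((b / 3 : ℕ) : ℝ) / 2 + ((a : ℝ) + b) / 2 - if 6 ∣ a + 5 * b then 1 else 1 / 2) := by
  have hP := N_pos hp.ne_zero
  refine (ccx_local hp hp0 d ha hb).trans ?_
  split_ifs
  · rw [← Real.rpow_add hP, sub_add_cancel]
  · rw [Real.rpow_zero, mul_one]
  · rw [mul_zero]
  · rw [← Real.rpow_add hP]
    exact le_of_eq (by congr 1; ring)
  all_goals positivity

theorem norm_cc_zero_left (hp : Prime p) (hp0 : P0 Q p) (d : O) {b : ℕ} (hb : 1 ≤ b) :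
    ‖cc d 1 (p ^ b)‖ ≤ if p ^ b ∣ d then (if 6 ∣ b then N p ^ (2 * b / 3 : ℝ) else 0)
      else N p ^ (((b / 3 : ℕ) : ℝ) / 2 + b / 2 - 1 / 2) := by
  have h := ccx_local' hp hp0 d (Nat.zero_le 1) hb
  rw [pow_zero, zero_add, zero_add] at h
  refine h.trans ?_
  have h6 : 6 ∣ 5 * b ↔ 6 ∣ b := by omega
  simp only [h6]
  split_ifs with h1 h2 h2
  · obtain ⟨c, rfl⟩ := h2
    rw [show 6 * c / 3 = 2 * c by omega]
    exact le_of_eq (by congr 1; push_cast; ring)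
  · exact le_rfl
  · exact Real.rpow_le_rpow_of_exponent_le (one_le_N hp.ne_zero) (by push_cast; linarith)
  · exact le_of_eq (by congr 1; push_cast; ring)

theorem norm_cc_one_left (hp : Prime p) (hp0 : P0 Q p) (d : O) {b : ℕ} (hb : 1 ≤ b) :
    ‖cc d p (p ^ b)‖ ≤ if p ^ (b + 1) ∣ d then
        (if b % 6 = 1 then N p ^ (((b / 3 : ℕ) : ℝ) / 2 + b / 2 + 1 / 2) else 0)
      else N p ^ (((b / 3 : ℕ) : ℝ) / 2 + b / 2) := by
  have h := ccx_local' hp hp0 d le_rfl hb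
  rw [pow_one, add_comm 1 b] at h
  refine h.trans ?_
  have h6 : 6 ∣ 1 + 5 * b ↔ b % 6 = 1 := by omega
  simp only [h6]
  split_ifs with h1 h2 h2
  · exact le_of_eq (by congr 1; push_cast; ring)
  · exact le_rfl
  · exact Real.rpow_le_rpow_of_exponent_le (one_le_N hp.ne_zero) (by push_cast; linarith)
  · exact le_of_eq (by congr 1; push_cast; ring)

/-- the normalised local coefficient is at most `N(p)^w`, `w = ⌊v_p(d)/6⌋` -/
theorem norm_cc_le_val (hp : Prime p) (hp0 : P0 Q p) {d : O} {w : ℕ} (hw : ¬ p ^ (6 * (w + 1)) ∣ d)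
    (a b : ℕ) : ‖cc d (p ^ a) (p ^ b)‖ ≤ N p ^ (((a + b : ℕ) : ℝ) / 2 + w) := by
  have h1 := one_le_N hp.ne_zero
  by_cases h0 : cc d (p ^ a) (p ^ b) = 0
  · rw [h0, norm_zero]
    positivity
  rcases Nat.eq_zero_or_pos b with rfl | hb
  · rw [pow_zero, cc_left d (ccx_P0_pow hp0 a), RCLike.norm_conj]
    exact ((ccx_chi (ccx_P0_pow hp0 a)).norm_le (pow_ne_zero a hp.ne_zero) d).trans
      (Real.one_le_rpow h1 (by positivity))
  have ha : a ≤ 1 := by_contra fun h => h0 (cc_eq_zero_of_two_le hp hp0 d (by omega) hb)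
  have hlt : ∀ n, p ^ n ∣ d → n < 6 * (w + 1) := fun n hn =>
    not_le.1 fun h => hw ((pow_dvd_pow p h).trans hn)
  have h2 := hlt _ (dvd_of_cc_ne_zero hp hp0 hb h0)
  refine (ccx_local' hp hp0 d ha hb).trans ?_
  simp only [ccx_mod ha]
  split_ifs with h3 h4 h4
  · have h5 := hlt _ h3
    have : ((b / 3 : ℕ) : ℝ) ≤ 2 * w := by exact_mod_cast (by omega : b / 3 ≤ 2 * w)
    exact Real.rpow_le_rpow_of_exponent_le h1 (by push_cast; linarith)
  · positivity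
  · have : ((b / 3 : ℕ) : ℝ) ≤ 2 * w + 2 := by exact_mod_cast (by omega : b / 3 ≤ 2 * w + 2)
    exact Real.rpow_le_rpow_of_exponent_le h1 (by push_cast; linarith)
  · have : ((b / 3 : ℕ) : ℝ) ≤ 2 * w + 1 := by exact_mod_cast (by omega : b / 3 ≤ 2 * w + 1)
    exact Real.rpow_le_rpow_of_exponent_le h1 (by push_cast; linarith)

end loc

theorem ccx_zero_loc {Q : Lev} {p : O} (hp : Prime p) (hp0 : P0 Q p) {i j : ℕ} (hij : 0 < i + j)
    (h : cc 0 (p ^ i) (p ^ j) ≠ 0) : ∃ c, j = i + 6 * c ∧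
      ‖cc 0 (p ^ i) (p ^ j)‖ ≤ Real.sqrt (N (p ^ i) * N (p ^ j)) * N (p ^ c) := by
  have hP := N_pos hp.ne_zero
  rcases Nat.eq_zero_or_pos j with rfl | hj
  · rw [pow_zero, cc_left 0 (ccx_P0_pow hp0 i), ccx_chi_pow hp, ccx_chi_zero hp hp0 (dvd_zero p),
      zero_pow (by omega), map_zero] at h
    exact absurd rfl h
  have hi : i ≤ 1 := by_contra fun h1 => h (cc_eq_zero_of_two_le hp hp0 0 (by omega) hj)
  have h1 := ccx_local' hp hp0 0 hi hj
  rw [if_pos (dvd_zero _)] at h1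
  simp only [ccx_mod hi] at h1
  split_ifs at h1 with h2
  · refine ⟨j / 6, by omega, h1.trans_eq ?_⟩
    rw [← N_mul, ← pow_add, N_pow, N_pow, Real.sqrt_eq_rpow, ← Real.rpow_natCast_mul hP.le,
      ← Real.rpow_natCast, ← Real.rpow_add hP, show j / 3 = 2 * (j / 6) by omega]
    congr 1
    push_cast
    ring
  · exact absurd (norm_le_zero_iff.1 h1) h

/-- the zero row -/
theorem cc_zero_row {Q : Lev} {l m : O} (hl : P0 Q l) (hm : P0 Q m) (h : cc 0 l m ≠ 0) :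
    ∃ a, P0 Q a ∧ m = l * a ^ 6 ∧ ‖cc 0 l m‖ ≤ Real.sqrt (N l * N m) * N a := by
  induction hn : nm (l * m) using Nat.strong_induction_on generalizing l m with
  | _ n ih =>
  by_cases h1 : l * m = 1
  · rw [hl.1.eq_one_of_isUnit (IsUnit.of_mul_eq_one m h1),
      hm.1.eq_one_of_isUnit (IsUnit.of_mul_eq_one_right l h1), cc_one]
    exact ⟨1, P0.one Q, by simp, by simp⟩
  obtain ⟨p, hp, hp', hd⟩ := (hl.mul hm).1.exists_prime_dvd h1
  have hp0 := (hl.mul hm).of_dvd hp' hd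
  obtain ⟨i, l', hl', rfl⟩ := WfDvdMonoid.max_power_factor hl.1.ne_zero hp.irreducible
  obtain ⟨j, m', hm', rfl⟩ := WfDvdMonoid.max_power_factor hm.1.ne_zero hp.irreducible
  have k1 : P0 Q l' := hl.of_dvd (hl.1.of_mul_left (hp'.pow i)) (dvd_mul_left _ _)
  have k2 : P0 Q m' := hm.of_dvd (hm.1.of_mul_left (hp'.pow j)) (dvd_mul_left _ _)
  have k3 : ¬ p ∣ l' * m' := fun h0 => (hp.dvd_or_dvd h0).elim hl' hm'
  rw [mul_mul_mul_comm, ← pow_add] at hd hn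
  have hij : 0 < i + j := Nat.pos_of_ne_zero fun h0 => k3 (by rwa [h0, pow_zero, one_mul] at hd)
  have e := cc_mul 0 (ccx_P0_pow hp0 i) (ccx_P0_pow hp0 j) k1 k2
    (by rw [← pow_add]; exact (hp.irreducible.coprime_iff_not_dvd.2 k3).pow_left)
  rw [e] at h ⊢
  obtain ⟨c, rfl, hc⟩ := ccx_zero_loc hp hp0 hij (left_ne_zero_of_mul h)
  obtain ⟨a, ha, rfl, hb⟩ := ih _ (by
    have h2 : 2 ≤ nm p := Nat.ofNat_le_cast.1 (Prime.two_le_N hp)
    rw [← hn, nm_mul (p ^ _), b1_nm_pow]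
    exact lt_mul_of_one_lt_left (nm_pos (k1.mul k2).1.ne_zero) (one_lt_pow₀ h2 hij.ne'))
    k1 k2 (right_ne_zero_of_mul h) rfl
  refine ⟨p ^ c * a, (ccx_P0_pow hp0 c).mul ha, by ring, ?_⟩
  rw [norm_mul]
  refine (mul_le_mul hc hb (norm_nonneg _) (mul_nonneg (Real.sqrt_nonneg _) (N_nonneg _))).trans_eq ?_
  rw [mul_mul_mul_comm, ← Real.sqrt_mul (mul_nonneg (N_nonneg _) (N_nonneg _)), mul_mul_mul_comm,
    ← N_mul (p ^ i) l', ← N_mul (p ^ _) (l' * _), ← N_mul (p ^ c) a]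

end Crest.Agent.R17
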