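import Crest.Agent.R17.Ring

/-!
# R17 / Defs : all definitions for the quasi-Riemann hypothesis `Re s > 7/8` (rid 17)

Read `Crest/Agent/R17/README.lean` for the overview of the whole proof.
Conventions: `O = ℤ[ω]`, `N x = (nm x : ℝ)`, `Prim n` means `n ≡ 1 (mod 3)` (every ideal prime to `3`
has exactly one primary generator; products and exact quotients of primary elements are primary).
All weights are log-Gaussians `gw u = exp (-u²)`; the row weight is `Om x = exp (-c0 x)`,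
`c0 = 2π/√3`, which is self-dual for the additive character `ee` (trivial exactly on `O`).
-/

set_option autoImplicit false

noncomputable section

open scoped Classical ComplexConjugate

namespace Crest.Agent.R17

/-! ## Basic objects -/

/-- the norm as a real number -/
def N (x : O) : ℝ := (nm x : ℝ)

/-- primary elements: `n ≡ 1 mod 3` -/
def Prim (n : O) : Prop := (3 : O) ∣ n - 1

/-- the six units -/
def units6 : Finset O := {1, -1, om, -om, om ^ 2, -om ^ 2}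

/-- the non-zero elements of norm `≤ X` -/
def ball (X : ℝ) : Finset O :=
  (((Finset.Icc (-(2 * (⌈X⌉₊ : ℤ))) (2 * (⌈X⌉₊ : ℤ))) ×ˢ
      (Finset.Icc (-(2 * (⌈X⌉₊ : ℤ))) (2 * (⌈X⌉₊ : ℤ)))).image
      (fun p : ℤ × ℤ => (⟨p.1, p.2⟩ : O))).filter (fun d => d ≠ 0 ∧ N d ≤ X)

/-- the primary divisors of `n` (empty for `n = 0`) -/
def pdiv (n : O) : Finset O := (ball (N n)).filter (fun e => Prim e ∧ e ∣ n)

/-- a complete residue system modulo `q ≠ 0` (the Euclidean remainders) -/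
def res (q : O) : Finset O := (insert 0 (ball (N q))).filter (fun x => x % q = x)

/-- Möbius function of `O`, complex valued -/
def mu (n : O) : ℂ := ((UniqueFactorizationMonoid.moebius n : ℤ) : ℂ)

/-- `f` is periodic modulo `q` -/
def Per (q : O) (f : O → ℂ) : Prop := ∀ x t : O, f (x + q * t) = f x

/-- restriction of a sequence to primary elements -/
def prim (a : O → ℂ) : O → ℂ := fun n => if Prim n then a n else 0

/-- A level: a non-zero multiple of `72`. -/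
structure Lev where
  q : O
  ne : q ≠ 0
  dvd : (72 : O) ∣ q

/-- `n ∈ 𝒫₀`: primary and coprime to the level -/
def P0 (Q : Lev) (n : O) : Prop := Prim n ∧ IsCoprime n Q.q

/-! ## Additive characters and Gauss sums -/

/-- the additive character `z ↦ exp(2πi · (2/√3) Im z)` of `ℂ`; `ee (a + bω) = exp (2πi b)` for real
`a, b`, so it is trivial on `O`, and `O` is self-dual. -/
def ee (z : ℂ) : ℂ := Complex.exp (4 * Real.pi / Real.sqrt 3 * z.im * Complex.I)

/-- `x ↦ ee (x / q)`, an additive character of `O / q` -/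
def ad (q x : O) : ℂ := ee (toC x / toC q)

/-- Gauss sum / finite Fourier transform `∑_{x mod q} ψ(x) ee(kx/q)` -/
def gs (q : O) (ψ : O → ℂ) (k : O) : ℂ := ∑ x ∈ res q, ψ x * ad q (k * x)

/-! ## Power residue symbols -/

/-- `k`-th power residue symbol `(d/p)_k` for a prime `p` (`k ∈ {2,3,6}`, `p ∤ k`) -/
def symP (k : ℕ) (p d : O) : ℂ :=
  ∑ u ∈ units6, if u ^ k = 1 ∧ p ∣ d ^ ((nm p - 1) / k) - u then toC u else 0

/-- `k`-th power residue (Jacobi) symbol `(d/n)_k`; depends only on the ideal `(n)` -/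
def sym (k : ℕ) (n d : O) : ℂ :=
  ((UniqueFactorizationMonoid.factors n).map (fun p => symP k p d)).prod

/-- sextic symbol `χ_n(d) = (d/n)_6` -/
def chi (n d : O) : ℂ := sym 6 n d
/-- cubic symbol `(d/n)_3` -/
def cub (n d : O) : ℂ := sym 3 n d
/-- quadratic symbol `(d/n)_2` -/
def qua (n d : O) : ℂ := sym 2 n d

/-- the normalised quadratic Gauss sum as a function of `n mod 4` (Landsberg–Schaar) -/
def gam (n : O) : ℂ :=
  (1 / 2) * ∑ y ∈ ({0, 1, om, om ^ 2} : Finset O), ee (-(toC (n * y ^ 2)) / 4)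

/-- the sign in quadratic / sextic reciprocity (for `a, b` coprime to `2`) -/
def sg (a b : O) : ℂ := gam (a * b) * conj (gam a) * conj (gam b)

/-- normalised sextic Gauss sum `g̃(χ_n)` -/
def gt (n : O) : ℂ := gs n (chi n) 1 / (Real.sqrt (N n) : ℂ)
/-- normalised cubic Gauss sum -/
def g3 (n : O) : ℂ := gs n (cub n) 1 / (Real.sqrt (N n) : ℂ)

/-- angular character `n / |n|` -/
def ang (n : O) : ℂ := toC n / (‖toC n‖ : ℂ)

/-- cubic theta coefficient on primary `m`: `τ(m₀c³) = conj(g̃₃(m₀)) √N(c)` for `m₀` squarefree, and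
`0` if `m` is not of this shape (at most one term of the sum is non-zero). -/
def tau (m : O) : ℂ :=
  ∑ c ∈ pdiv m, if c ^ 3 ∣ m ∧ Squarefree (m / c ^ 3) then
    conj (g3 (m / c ^ 3)) * (Real.sqrt (N c) : ℂ) else 0

/-- `t(m) = τ(m) · m/|m|` -/
def tt (m : O) : ℂ := tau m * ang m

/-- the class function in the key identity -/
def f1 (m : O) : ℂ := conj (chi m 4) * conj (gam m)

/-! ## Characters and L-functions -/

/-- `ψ` is a (Dirichlet) character modulo `q` -/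
structure IsChar (q : O) (ψ : O → ℂ) : Prop where
  one : ψ 1 = 1
  mul : ∀ a b, ψ (a * b) = ψ a * ψ b
  per : Per q ψ
  zero_iff : ∀ n, ψ n = 0 ↔ ¬ IsCoprime n q

/-- `ψ` is a finite order Hecke character modulo `q` (a character trivial on units) -/
def IsHChar (q : O) (ψ : O → ℂ) : Prop := IsChar q ψ ∧ ∀ u : O, IsUnit u → ψ u = 1

/-- the finite set of Hecke characters modulo `q` -/
def hchars (q : O) : Finset (O → ℂ) :=
  if h : {ψ : O → ℂ | IsHChar q ψ}.Finite then h.toFinset else ∅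

/-- non-principal -/
def NonPrinc (q : O) (ψ : O → ℂ) : Prop := ∃ n, IsCoprime n q ∧ ψ n ≠ 1

/-- Dirichlet series `∑_{n ≠ 0} φ(n) N(n)^{-s}` -/
def dser (φ : O → ℂ) (s : ℂ) : ℂ := ∑' n : O, if n = 0 then 0 else φ n * (N n : ℂ) ^ (-s)

/-- the entire function `(s-1) · dser φ s` (exists for periodic `φ`) -/
def Ef (φ : O → ℂ) : ℂ → ℂ :=
  if h : ∃ E : ℂ → ℂ, Differentiable ℂ E ∧ ∀ s : ℂ, 1 < s.re → E s = (s - 1) * dser φ s
  then h.choose else 0

/-- the analytic continuation of `dser φ`; equals `Ef φ s / (s-1)` for `s ≠ 1`, entire when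
`Ef φ 1 = 0` -/
def Lf (φ : O → ℂ) (s : ℂ) : ℂ := dslope (Ef φ) 1 s + Ef φ 1 / (s - 1)

/-- all Hecke L-functions are zero-free on `Re s > β` -/
def ZF (β : ℝ) : Prop :=
  ∀ (Q : Lev) (ψ : O → ℂ), IsHChar Q.q ψ → ∀ s : ℂ, β < s.re → (s ≠ 1 ∨ NonPrinc Q.q ψ) →
    Lf (prim ψ) s ≠ 0

/-- zero-free rectangle -/
def ZFR (ψ : O → ℂ) (σ T : ℝ) : Prop :=
  ∀ s : ℂ, σ < s.re → |s.im| ≤ T → Lf (prim ψ) s ≠ 0

/-! ## Weights and blocks -/

/-- log-Gaussian weight -/
def gw (u : ℝ) : ℝ := Real.exp (-u ^ 2)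

/-- `c0 = 2π/√3` -/
def c0 : ℝ := 2 * Real.pi / Real.sqrt 3

/-- self-dual row weight -/
def Om (x : ℝ) : ℝ := Real.exp (-(c0 * x))

/-- block with complex exponent: `∑_{n ≠ 0} a(n) N(n)^{-s} gw(log N n - y)` -/
def blks (a : O → ℂ) (y : ℝ) (s : ℂ) : ℂ :=
  ∑' n : O, if n = 0 then 0 else a n * (N n : ℂ) ^ (-s) * (gw (Real.log (N n) - y) : ℂ)

/-- normalised block on the critical line -/
def blk (a : O → ℂ) (y t : ℝ) : ℂ := blks a y (1 / 2 + t * Complex.I)

/-- normalised block over primary elements -/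
def pb (a : O → ℂ) (y t : ℝ) : ℂ := blk (prim a) y t

/-- the row character `n ↦ ν(n) χ_n(d)` -/
def rc (ν : O → ℂ) (d : O) : O → ℂ := fun n => ν n * chi n d

/-- `μ · ψ` -/
def mm (ψ : O → ℂ) : O → ℂ := fun n => mu n * ψ n

/-- the principal character of level `Q` -/
def one0 (Q : Lev) : O → ℂ := fun n => if IsCoprime n Q.q then 1 else 0

/-- exceptional rows: `d = d₀ a⁶` with `d₀ ∣ q^∞` (this includes `d = 0`) -/
def Exc (Q : Lev) (d : O) : Prop := ∃ (d0 a : O) (j : ℕ), d0 ∣ Q.q ^ j ∧ d = d0 * a ^ 6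

/-- the non-exceptional rows of norm `≤ D` -/
def npball (Q : Lev) (D : ℝ) : Finset O := (ball D).filter (fun d => ¬ Exc Q d)

/-- principal rows -/
def PRow (Q : Lev) (d : O) : Prop := d ≠ 0 ∧ ∀ n, P0 Q n → IsCoprime n d → chi n d = 1

/-! ## Prime slots and marks -/

/-- primary primes not dividing the level with `|log N p - yP| ≤ R` -/
def slot (Q : Lev) (yP R : ℝ) : Finset O :=
  (ball (Real.exp (yP + R))).filter
    (fun p => Prime p ∧ Prim p ∧ ¬ p ∣ Q.q ∧ Real.exp (yP - R) ≤ N p)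

/-- weight of a slot prime -/
def wP (yP : ℝ) (p : O) : ℝ := Real.log (N p) * gw (Real.log (N p) - yP)

/-- prime block `∑_{p ∈ slot} ψ(p) w(p) N(p)^{-1/2 + x + iτ}` -/
def Pb (Q : Lev) (ψ : O → ℂ) (yP R x τ : ℝ) : ℂ :=
  ∑ p ∈ slot Q yP R, ψ p * (wP yP p : ℂ) * (N p : ℂ) ^ (-(1 / 2 : ℂ) + x + τ * Complex.I)

/-- `S` is a set of primary primes not dividing the level, with norms in `[P1, P2]` -/
def IsSlot (Q : Lev) (S : Finset O) (P1 P2 : ℝ) : Prop :=
  ∀ p ∈ S, Prime p ∧ Prim p ∧ ¬ p ∣ Q.q ∧ P1 ≤ N p ∧ N p ≤ P2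

/-- marked Möbius block with `J` marks from `S` and product coefficients `a` -/
def Mk (ν : O → ℂ) (S : Finset O) (J : ℕ) (a : O → ℂ) (d : O) (y t : ℝ) : ℂ :=
  ∑ I ∈ S.powersetCard J, (∏ p ∈ I, a p * chi p d / (Real.sqrt (N p) : ℂ)) *
    pb (fun m => if IsCoprime m (∏ p ∈ I, p) then mm (rc ν d) m else 0) y t

/-! ## Poisson step objects -/

/-- `α` is supported on squarefree elements of `𝒫₀` coprime to `g` -/
def SuppSq (Q : Lev) (g : O) (α : O → ℂ) : Prop :=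
  ∀ n, α n ≠ 0 → P0 Q n ∧ Squarefree n ∧ IsCoprime n g

/-- all polynomial moments of `α` are finite -/
def Rapid (α : O → ℂ) : Prop := ∀ j : ℕ, Summable (fun n => ‖α n‖ * N n ^ j)

/-- the `j`-th absolute moment -/
def mom (α : O → ℂ) (j : ℕ) : ℝ := ∑' n, ‖α n‖ * N n ^ j

/-- the bilinear form with coprime variables -/
def Qform (α : O → ℂ) (g : O) (D : ℝ) : ℂ :=
  ∑' d : O, if IsCoprime d g then (Om (N d / D) : ℂ) *
    ∑' m1 : O, ∑' m2 : O, if IsCoprime m1 m2 then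
      α m1 * conj (α m2) * chi m1 d * conj (chi m2 d) else 0 else 0

/-- the dual sum after one Poisson step -/
def Tsum (α ν : O → ℂ) (r e k : O) (σ τ : ℝ) : ℂ :=
  ∑' m : O, α (r * m) * (N (r * m) : ℂ) ^ (-(1 / 2 : ℂ) + σ + τ * Complex.I) *
    gt m * ν m * chi m (e * r ^ 2) * conj (chi m k)

/-- the sum after the second (backward) Poisson step -/
def Bsum (β ν : O → ℂ) (g r d : O) (σ τ : ℝ) : ℂ :=
  ∑' m : O, β (g * r * m) * (N (r * m) : ℂ) ^ (-(1 / 2 : ℂ) + σ + τ * Complex.I) *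
    ν m * chi m d

/-- `‖Γ(σ + iτ)‖` -/
def Gm (σ τ : ℝ) : ℝ := ‖Complex.Gamma (σ + τ * Complex.I)‖

/-! ## Theta function interface -/

/-- shape of the support of cubic theta coefficients at any cusp -/
def CubeShape (Q n c : O) : Prop :=
  ∃ n2 m0 : O, n = n2 * m0 * c ^ 3 ∧ n2 ∣ Q ^ 2 ∧ Prim m0 ∧ Squarefree m0 ∧ IsCoprime m0 Q

/-- the theta-complete marked sum `F(k)` -/
def Fth (φ : O → ℂ) (Ls : Finset O) (a : O → ℂ) (k : O) (y t : ℝ) : ℂ :=
  ∑ l ∈ Ls, a l * blk (fun m => if l ∣ m then tt m * φ m * conj (chi m k) else 0)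
    (y + Real.log (N l)) t

/-! ## The probe -/

/-- finite Fourier transform of `k ↦ conj G(l;k) conj χ_m(k)` modulo `l m` -/
def FTc (l m d : O) : ℂ :=
  ∑ k ∈ res (l * m), conj (gs l (chi l) k) * conj (chi m k) * ad (l * m) (k * d)

/-- the (pair-multiplicative) coefficient of the high side -/
def cc (d l m : O) : ℂ :=
  sg l m * f1 m * tt m * FTc l m d / ((N l : ℂ) * (Real.sqrt (N m) : ℂ))

/-- parameters of the probe at scale `Z = exp z` -/
def y0 (z : ℝ) : ℝ := 5 / 4 * z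
def y1 (z : ℝ) : ℝ := 7 / 12 * z
def KK (z : ℝ) : ℝ := Real.exp (25 / 24 * z)
def yP (J : ℕ) (z : ℝ) : ℝ := 5 / (24 * J) * z

/-- the probe, written on the `k`-side -/
def Psi (Q : Lev) (η : O → ℂ) (J : ℕ) (ρ z : ℝ) : ℂ :=
  ∑' k : O, (Om (N k / KK z) : ℂ) *
    ∑' l : O, ∑ I ∈ (slot Q (yP J z) (ρ * z)).powersetCard J, ∑' n : O,
      if P0 Q l ∧ P0 Q n then
        sg l (n * ∏ p ∈ I, p) * conj (gs l (chi l) k) / (Real.sqrt (N l) : ℂ) *
          (gw (Real.log (N l) - y1 z) : ℂ) *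
        (∏ p ∈ I, (-(wP (yP J z) p : ℂ))) * η n * f1 (n * ∏ p ∈ I, p) * tt (n * ∏ p ∈ I, p) *
          conj (chi (n * ∏ p ∈ I, p) k) * (gw (Real.log (N n) - y0 z) : ℂ)
      else 0

/-- the contribution of the row `d` on the high side -/
def Row (Q : Lev) (η : O → ℂ) (J : ℕ) (ρ z : ℝ) (d : O) : ℂ :=
  ∑' l : O, ∑ I ∈ (slot Q (yP J z) (ρ * z)).powersetCard J, ∑' n : O,
    if P0 Q l ∧ P0 Q n then
      (∏ p ∈ I, (-(wP (yP J z) p : ℂ))) * cc d l (n * ∏ p ∈ I, p) * η n /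
        (Real.sqrt (N l * N (n * ∏ p ∈ I, p)) : ℂ) *
      (gw (Real.log (N l) - y1 z) : ℂ) * (gw (Real.log (N n) - y0 z) : ℂ) *
      (Om (KK z * N d / (N l * N (n * ∏ p ∈ I, p))) : ℂ)
    else 0

/-- normalising factor of the marks on principal rows -/
def EJ (Q : Lev) (J : ℕ) (ρ z : ℝ) : ℝ :=
  ∑ I ∈ (slot Q (yP J z) (ρ * z)).powersetCard J, ∏ p ∈ I, wP (yP J z) p * N p ^ (-(1 / 3 : ℝ))

/-- a level divisible by all primes of norm `≤ P` -/
def BigLev (Q : Lev) (P : ℝ) : Prop := ∀ p : O, Prime p → N p ≤ P → p ∣ Q.q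

/-- the signal: `∑_h b(h) η(h) N(h)^{-1/3} ∑_n μη(n) N(n)^{-1/3} gw(log N(hn) - y)` -/
def Sig (b η : O → ℂ) (y : ℝ) : ℂ :=
  ∑' h : O, if Prim h then b h * η h * (N h : ℂ) ^ (-(1 / 3 : ℂ)) *
    blks (prim (mm η)) (y - Real.log (N h)) (1 / 3) else 0

end Crest.Agent.R17
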