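import Crest.Agent.R17.DetectorAuxC

/-!
# R17 / Detector : buffered zero-free rectangles and the zero detector  (PART E2)
-/

set_option autoImplicit false

noncomputable section

open scoped Classical ComplexConjugate

namespace Crest.Agent.R17

/-- `s(T) = sSup ({1/2} ∪ {Re ρ : ρ zero of some character of the packet, |Im ρ| ≤ T})` is monotone
with values in `[1/2, β]`; with `T_i = (2i+1) T₁` some `i < J` has `s(T_{i+1}) - s(T_i) ≤ ε₀/2`;
take `σ' = s(T_{i+1})`, `T = T_i`. -/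
theorem buffer {ε0 : ℝ} (hε0 : 0 < ε0) : ∃ J0 : ℝ, ∀ (Q : Lev) (β : ℝ), 1 / 2 ≤ β → β ≤ 1 → ZF β →
    ∀ d : O, ¬ Exc Q d → ∀ T1 : ℝ, 0 < T1 → ∃ σ' T : ℝ, T1 ≤ T ∧ T ≤ J0 * T1 ∧ 1 / 2 ≤ σ' ∧ σ' ≤ β ∧
      (∀ ν ∈ hchars Q.q, ZFR (rc ν d) σ' (T + 2 * T1)) ∧
      (σ' ≤ 1 / 2 + ε0 ∨ ∃ ν ∈ hchars Q.q, ∃ s : ℂ, Lf (prim (rc ν d)) s = 0 ∧ |s.im| ≤ T ∧
        σ' - ε0 ≤ s.re ∧ s.re ≤ σ') := by
  obtain ⟨J, hJ⟩ := exists_nat_gt (1 / ε0)
  refine ⟨2 * J + 1, fun Q β hβ hβ1 hZ d hd T1 hT1 => ?_⟩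
  set S : ℝ → Set ℝ := fun T => {x | x = 1 / 2 ∨ ∃ ν ∈ hchars Q.q, ∃ s : ℂ,
    Lf (prim (rc ν d)) s = 0 ∧ |s.im| ≤ T ∧ x = s.re} with hS
  have hub : ∀ T, β ∈ upperBounds (S T) := by
    rintro T x (rfl | ⟨ν, hν, s, h0, -, rfl⟩)
    · exact hβ
    · exact not_lt.1 fun h => hZ (levd Q d) _ (rc_isHChar Q hν (not_exc_ne_zero Q hd)) s h
        (Or.inr (rc_nonPrinc Q hν hd)) h0
  have hne : ∀ T, (S T).Nonempty := fun T => ⟨1 / 2, Or.inl rfl⟩
  have hlo : ∀ T, 1 / 2 ≤ sSup (S T) := fun T => le_csSup ⟨β, hub T⟩ (Or.inl rfl)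
  have hhi : ∀ T, sSup (S T) ≤ β := fun T => csSup_le (hne T) (hub T)
  set f : ℕ → ℝ := fun i => sSup (S ((2 * i + 1) * T1)) with hf
  obtain ⟨i, hi, hfi⟩ : ∃ i < J, f (i + 1) ≤ f i + ε0 / 2 := by
    by_contra hc
    push Not at hc
    have : ∀ i ≤ J, f 0 + i * (ε0 / 2) ≤ f i := by
      intro i
      induction i with
      | zero => simp
      | succ i ih =>
        intro h
        have := hc i h
        have := ih (by omega)
        push_cast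
        linarith
    have h1 := this J le_rfl
    have h2 : 1 / 2 ≤ f 0 := hlo _
    have h3 : f J ≤ β := hhi _
    rw [div_lt_iff₀ hε0] at hJ
    linarith
  have hi0 : (0 : ℝ) ≤ i := Nat.cast_nonneg i
  have hiJ : (i : ℝ) ≤ J := by exact_mod_cast hi.le
  have hz : ∀ ν ∈ hchars Q.q, ∀ s : ℂ, Lf (prim (rc ν d)) s = 0 →
      |s.im| ≤ (2 * i + 1) * T1 + 2 * T1 → s.re ≤ f (i + 1) := fun ν hν s h0 h1 =>
    le_csSup ⟨β, hub _⟩ (Or.inr ⟨ν, hν, s, h0, by push_cast; linarith, rfl⟩)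
  refine ⟨f (i + 1), (2 * i + 1) * T1, by nlinarith, by nlinarith, hlo _, hhi _,
    fun ν hν s h1 h2 h0 => (hz ν hν s h0 h2).not_gt h1, ?_⟩
  rcases le_or_gt (f (i + 1)) (1 / 2 + ε0) with h | h
  · exact Or.inl h
  · obtain ⟨x, hx, hx'⟩ := exists_lt_of_lt_csSup (hne ((2 * i + 1) * T1))
      (b := f (i + 1) - ε0) (by change _ < f i; linarith)
    rcases hx with rfl | ⟨ν, hν, s, h0, h1, rfl⟩
    · linarith
    · exact Or.inr ⟨ν, hν, s, h0, h1, hx'.le, hz ν hν s h0 (by linarith)⟩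

/-- **Zero detector.**  Let `s₀ = σ + iγ` be a zero, `Mb(x) = blks (prim (mm ψ)) x s₀`,
`B(y) = blks (prim ψ) y s₀`.  `∫_ℝ B = √π L(s₀) = 0`: `∫_{-∞}^Y B = (1/2π)∫ L(s₀+w) √π e^{w²/4+wY}/w`
on `Re w = 2`, shift across `w = 0` to `Re w = -1` (`shift_line_pole`, `Lf_growth`), let `Y → ∞`; `B` is
integrable (`reflect_sup`/Mellin shift for large `y`, `norm_blk_le_neg`).  Hence
`0 = (∫_{x ≤ log X} Mb)(∫ B) = ∬_{x+y ≤ log X} - ∬_{x > log X, x+y ≤ log X} + ∬_{x ≤ log X < x+y}`, and the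
first term is `∑_{a,b} μψ(a)ψ(b) N(ab)^{-s₀} W₂(log X - log N(ab)) = W₂(log X) ≥ π/2`
(`W₂(u) = ∬_{x+y ≤ u} gw x gw y`, `sum_mu_pdiv`).  Outside the box `x, y ∈ [-ε' log Z, (A+1) log Z]`
everything is negligible, so some point of the two regions in the box has
`|Mb(x)||B(y)| ≥ c/log² Z`.  By `blks_shift`, `Mb(x) = e^{(1/2-σ)x+…} pb(mm ψ)(x + (1/2-σ)/2) γ`, and
`localM`, `localZ` give `|Mb|, |B| ≤ Z^{ε' + Cε₀}`, so both are saturated; `y > log D/2 + ε log Z/2` is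
impossible by `reflect_sup` + `localZ` (`|B(y)| ≲ Z^{ε'+Cε₀} e^{(σ-1/2)(log D - 2y)}`); choose
`ε', ε₀ ≪ δ₀ ε`. -/
theorem detector (A : ℝ) {ε δ0 : ℝ} (hε : 0 < ε) (hδ : 0 < δ0) : ∃ ε0 > 0, ∀ Q : Lev, ∃ Z0 : ℝ,
    ∀ Z : ℝ, Z0 ≤ Z → ∀ (ρ : O) (ψ : O → ℂ), Squarefree ρ → IsCoprime Q.q ρ → IsHChar (Q.q * ρ) ψ →
    NonPrinc (Q.q * ρ) ψ → ∀ D X σ' : ℝ, N ρ ≤ D → D ≤ Z ^ A → 1 ≤ X → X ≤ Z ^ A →
    ∀ s : ℂ, Lf (prim ψ) s = 0 → 1 / 2 + δ0 ≤ s.re → s.re ≤ σ' → σ' ≤ s.re + ε0 → σ' ≤ 1 →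
      |s.im| ≤ Real.log Z ^ 3 → ZFR ψ σ' (|s.im| + 2 * Real.log Z ^ 2) →
      ∃ y1 y2 : ℝ, -(ε * Real.log Z) ≤ y1 ∧ -(ε * Real.log Z) ≤ y2 ∧
        y1 ≤ Real.log X + ε * Real.log Z ∧ Real.log X - ε * Real.log Z ≤ y1 + y2 ∧
        y2 ≤ Real.log D / 2 + ε * Real.log Z ∧
        Z ^ (-ε) * Real.exp ((σ' - 1 / 2) * y1) ≤ ‖pb (mm ψ) y1 s.im‖ ∧
        Z ^ (-ε) * Real.exp ((σ' - 1 / 2) * y2) ≤ ‖pb ψ y2 s.im‖ := by
  obtain ⟨A1, hA1⟩ : ∃ A1, A1 = |A| + ε + 1 := ⟨_, rfl⟩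
  have hA0 := abs_nonneg A
  have hA := le_abs_self A
  obtain ⟨θ, hθ, t1, t2, t3, t4⟩ : ∃ θ > 0, θ ≤ ε / 3 ∧ θ ≤ δ0 * ε / 4 ∧ θ ≤ 1 ∧ θ ≤ δ0 :=
    ⟨min (min (ε / 3) (δ0 * ε / 4)) (min 1 δ0), by positivity,
      (min_le_left _ _).trans (min_le_left _ _), (min_le_left _ _).trans (min_le_right _ _),
      (min_le_right _ _).trans (min_le_left _ _), (min_le_right _ _).trans (min_le_right _ _)⟩
  obtain ⟨κ, hκ, k1, k2⟩ : ∃ κ > 0, κ * A1 = θ / 4 ∧ κ ≤ δ0 := by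
    have : 1 ≤ A1 := by linarith
    refine ⟨θ / 4 / A1, by positivity, by field_simp, (div_le_self (by positivity) this).trans ?_⟩
    linarith
  obtain ⟨i, hi⟩ := exists_nat_ge ((A1 + 1) / ε)
  rw [div_le_iff₀ hε] at hi
  obtain ⟨CT, hT⟩ := norm_blk_le
  obtain ⟨CN, hN⟩ := norm_blk_le_neg (i + 2)
  obtain ⟨CM, ZM, hM⟩ := localM A1 (half_pos hθ)
  obtain ⟨CZ, ZZ, hZ⟩ := localZ A1 (half_pos hθ)
  refine ⟨κ, hκ, fun Q => ?_⟩
  obtain ⟨CR, B, hR⟩ := reflect_sup (A1 + 2) (half_pos hθ) Q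
  obtain ⟨K, hK, K1, K2, K3, K4, K5, K6⟩ : ∃ K, 1 ≤ K ∧ CT ≤ K ∧ CN ≤ K ∧ CM ≤ K ∧ CZ ≤ K ∧
      |CR| * |CZ| ≤ K ∧ |CR| ≤ K := by
    have := le_abs_self CT; have := le_abs_self CN; have := le_abs_self CM
    have := le_abs_self CZ; have := abs_nonneg CT; have := abs_nonneg CN
    have := abs_nonneg CM; have := abs_nonneg CZ; have := abs_nonneg CR
    have : 0 ≤ |CR| * |CZ| := by positivity
    refine ⟨1 + |CT| + |CN| + |CM| + |CZ| + |CR| * |CZ| + |CR|, ?_, ?_, ?_, ?_, ?_, ?_, ?_⟩ <;>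
      linarith
  obtain ⟨Z0, hZ0⟩ := det_eventually B hθ (pow_pos det_G_pos 2)
    (2 * K ^ 2 * (∫ x : ℝ, Real.exp (-κ * |x|)) ^ 2) (max (max ZM ZZ) (N Q.q))
  refine ⟨Z0, fun Z hZ' ρ ψ hρ hc hψ hn D X σ' d1 d2 x1 x2 s s0 s1 s2 s3 s4 s5 s6 => ?_⟩
  obtain ⟨z1, z2, z3, z4, z5, z6⟩ := hZ0 Z hZ'
  simp only [max_le_iff] at z1
  obtain ⟨⟨z1, z1'⟩, z1''⟩ := z1
  have hZp : 0 < Z := by linarith
  have L0 : 0 ≤ Real.log Z := by linarith
  have n1 := mul_le_mul_of_nonneg_right t1 L0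
  have n2 := mul_le_mul_of_nonneg_right t2 L0
  have n3 := mul_le_mul_of_nonneg_right t3 L0
  have n4 := mul_le_mul_of_nonneg_right hi L0
  have n5 := mul_nonneg hA0 L0
  have hexp : ∀ e : ℝ, Z ^ e = Real.exp (e * Real.log Z) := fun e => by
    rw [Real.rpow_def_of_pos hZp, mul_comm]
  have hρ1 := one_le_N hρ.ne_zero
  have hlog : ∀ u : ℝ, 1 ≤ u → u ≤ Z ^ A → 0 ≤ Real.log u ∧ Real.log u ≤ |A| * Real.log Z :=
    fun u h1 h2 => ⟨Real.log_nonneg h1, by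
      rw [hexp] at h2
      exact ((Real.log_le_iff_le_exp (by linarith)).2 h2).trans
        (mul_le_mul_of_nonneg_right hA (by linarith))⟩
  obtain ⟨l0, l1⟩ := hlog X x1 x2
  obtain ⟨e0, e1⟩ := hlog D (hρ1.trans d1) d2
  have e2 : Real.log (N ρ) ≤ Real.log D := Real.log_le_log (by linarith) d1
  have hZA : ∀ e, A ≤ e → Z ^ A ≤ Z ^ e := fun e h =>
    Real.rpow_le_rpow_of_exponent_le (by linarith) h
  set Q' : Lev := ⟨Q.q * ρ, mul_ne_zero Q.ne hρ.ne_zero, Q.dvd.mul_right ρ⟩ with hQ'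
  have hNQ : N Q'.q ≤ Z ^ A1 := by
    change N (Q.q * ρ) ≤ _
    rw [N_mul, show A1 = 1 + (A1 - 1) by ring, Real.rpow_add hZp, Real.rpow_one]
    exact mul_le_mul z1'' ((d1.trans d2).trans (hZA _ (by linarith))) (N_nonneg _) hZp.le
  have hb := hψ.1.norm_le Q'.ne
  have hbP := det_prim_le (det_mm_le hb)
  have hbR := det_prim_le hb
  have hL2 : 0 ≤ Real.log Z ^ 2 := by positivity
  have hK0 : 0 ≤ K := by linarith
  have hLZ : ∀ y t, |t - s.im| ≤ Real.log Z ^ 2 → y ≤ A1 * Real.log Z → ‖pb ψ y t‖ ≤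
      CZ * Real.exp (θ * Real.log Z / 2 + (σ' - 1 / 2) * y) := fun y t h1 h2 => by
    have h3 := abs_sub_abs_le_abs_sub t s.im
    refine (hZ Z z1' Q' ψ hψ hn hNQ σ' _ y t (by linarith) s4 s6 (by linarith) (by linarith)
      h2).trans_eq ?_
    rw [hexp, mul_assoc, ← Real.exp_add]
    congr 2
    ring
  by_contra hcon
  have hεL : 0 ≤ ε * Real.log Z := by positivity
  have hθL : 0 ≤ θ * Real.log Z := by positivity
  have hΛ : A1 * Real.log Z = |A| * Real.log Z + ε * Real.log Z + Real.log Z := by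
    rw [hA1]; ring
  have t1' : 3 * (θ * Real.log Z) ≤ ε * Real.log Z := by linarith
  obtain ⟨m1, m2⟩ := det_ineq (P := fun x => ‖pb (mm ψ) x s.im‖) (R := fun y => ‖pb ψ y s.im‖)
    (a := s.re - 1 / 2) (a' := σ' - 1 / 2) (κ := κ) (δ := δ0) (E := ε * Real.log Z)
    (Θ := θ * Real.log Z) (Λ := A1 * Real.log Z) (L := Real.log Z) (K := K) (j := (i + 2 : ℕ))
    (l := Real.log X) (d := Real.log D) hK hκ k2 (by linarith) (by linarith) (by linarith)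
    (by push_cast; linarith [(Nat.cast_nonneg i : (0 : ℝ) ≤ i)]) hθL
    (by
      have : (κ + (σ' - 1 / 2 - (s.re - 1 / 2))) * (A1 * Real.log Z) ≤
          (2 * κ) * (A1 * Real.log Z) :=
        mul_le_mul_of_nonneg_right (by linarith) (by linarith)
      have e : (2 * κ) * (A1 * Real.log Z) = θ * Real.log Z / 2 := by
        linear_combination (2 * Real.log Z) * k1
      linarith)
    (by linarith) t1' (by linarith) (by push_cast; linarith)
    l0 (by linarith) e0 (by linarith) (fun _ => norm_nonneg _)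
    (fun x => (hT _ hbP x _).trans (mul_le_mul_of_nonneg_right K1 (Real.exp_pos _).le))
    (fun x hx => (hN _ hbP x _ hx).trans (mul_le_mul_of_nonneg_right K2 (Real.exp_pos _).le))
    (fun x hx => (hN _ hbR x _ hx).trans (mul_le_mul_of_nonneg_right K2 (Real.exp_pos _).le))
    (fun x hx => by
      refine (hM Z z1 Q' ψ hψ hn hNQ σ' _ x s.im (by linarith) s4 s6 (by linarith) (by linarith)
        hx).trans ?_
      rw [hexp, mul_assoc, ← Real.exp_add, div_mul_eq_mul_div]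
      exact mul_le_mul_of_nonneg_right K3 (Real.exp_pos _).le)
    (fun x hx => (hLZ x _ (by simpa using hL2) hx).trans
      (mul_le_mul_of_nonneg_right K4 (Real.exp_pos _).le))
    (fun y hy => by
      have h1 := hR Z z2 ρ ψ hρ hc hψ hn ((d1.trans d2).trans (hZA _ (by linarith))) y s.im
        (|CZ| * Real.exp (θ * Real.log Z + (σ' - 1 / 2) * (Real.log D - y))) (by positivity)
        (by linarith) fun y' t' _ h3 h4 => (hLZ y' t' h4 (by linarith)).trans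
          (mul_le_mul (le_abs_self _) (Real.exp_le_exp.2 (by
            linarith [mul_le_mul_of_nonneg_left
              (by linarith : y' ≤ Real.log D - y + θ * Real.log Z / 2)
              (by linarith : 0 ≤ σ' - 1 / 2),
              mul_le_mul_of_nonneg_right (by linarith : σ' - 1 / 2 ≤ 1) hθL])) (Real.exp_pos _).le (abs_nonneg _))
      refine h1.trans ?_
      rw [mul_add, hexp, hexp]
      refine add_le_add ?_ ?_
      · refine det_prod (abs_nonneg _) (abs_nonneg _) (by positivity)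
          (mul_le_mul_of_nonneg_right (le_abs_self CR) (Real.exp_pos _).le) le_rfl ?_ K5
        linarith
      · have h2 : (1 + |s.im|) ^ B ≤ Real.exp (Real.log Z) := by
          rw [Real.exp_log hZp]
          exact (pow_le_pow_left₀ (by positivity) (by linarith) B).trans z5
        refine det_prod (K2 := 1) (abs_nonneg CR) zero_le_one (Real.exp_pos _).le
          (mul_le_mul (le_abs_self CR) h2 (by positivity) (abs_nonneg _)) (one_mul _).ge ?_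
          (by linarith)
        linarith)
    (fun x y b1 b2 b3 b4 b5 => by
      by_contra h
      rw [not_or, not_lt, not_lt, Real.exp_add, Real.exp_add, ← neg_mul, ← hexp] at h
      exact hcon ⟨x, y, b1, b2, b3, b4, b5, h.1, h.2⟩)
  have hcore := det_core Q' hψ hn (s := s) (by linarith) s0 (c := (s.re - 1 / 2) / 2)
    (η := 2 * K ^ 2 * Real.exp (-(θ * Real.log Z))) (by linarith) l0 (by positivity) hκ
    (by
      simp only [det_shift]
      exact (by fun_prop : Continuous fun x : ℝ => (Real.exp (-(s.re - 1 / 2) * x -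
        (s.re - 1 / 2) ^ 2 / 4) : ℂ)).mul ((continuous_blk ⟨1, 0, fun n _ => by simpa using hbR n⟩).comp
          (f := fun x : ℝ => (x, s.im)) (by fun_prop)))
    (fun y => (det_norm_shift _ s κ y).trans
      (mul_le_mul_of_nonneg_right (m1 y) (Real.exp_pos _).le))
    (fun x y h => by
      refine (mul_le_mul (det_norm_shift _ s κ x) (det_norm_shift _ s κ y) (norm_nonneg _)
        (by positivity)).trans ?_
      rw [mul_mul_mul_comm]
      exact mul_le_mul_of_nonneg_right (m2 x y h) (by positivity))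
  linarith

end Crest.Agent.R17
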