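import Crest.Agent.R17.Local

/-!
# R17 / DetectorAuxA : the continuous partition of unity behind the zero detector
-/

set_option autoImplicit false

noncomputable section

open scoped Classical ComplexConjugate
open MeasureTheory Set

namespace Crest.Agent.R17

/-- the cumulative Gaussian -/
def det_G (v : ℝ) : ℝ := ∫ y in Iic v, gw y

/-- `∬_{x + y ≤ u} gw x gw y` -/
def det_W (u : ℝ) : ℝ := ∫ x, gw x * det_G (u - x)

theorem det_gw_sub (a b : ℝ) : gw (a - b) = gw (b - a) := by
  unfold gw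
  congr 1
  ring

theorem det_int_gw : Integrable gw := by
  simpa only [det_gw_sub 0, sub_zero] using (refl1_int_gw 0).1

theorem det_G_nonneg (v : ℝ) : 0 ≤ det_G v := integral_nonneg fun _ => (gw_pos _).le

theorem det_G_mono : Monotone det_G := fun _ _ h =>
  setIntegral_mono_set det_int_gw.integrableOn (ae_of_all _ fun _ => (gw_pos _).le)
    (Iic_subset_Iic.2 h).eventuallyLE

theorem det_G_pos : 0 < det_G 0 := by
  rw [det_G, setIntegral_pos_iff_support_of_nonneg_ae (ae_of_all _ fun _ => (gw_pos _).le)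
    det_int_gw.integrableOn]
  have : Function.support gw = univ := eq_univ_of_forall fun y => (gw_pos y).ne'
  simp [this]

theorem det_G_shift (u q : ℝ) : ∫ y in Iic u, gw (q - y) = det_G (u - q) := by
  rw [det_G, ← integral_indicator measurableSet_Iic, ← integral_indicator measurableSet_Iic,
    ← integral_sub_right_eq_self (indicator _ gw) q]
  refine integral_congr_ae (ae_of_all _ fun y => ?_)
  simp only [indicator, mem_Iic, sub_le_sub_iff_right, det_gw_sub q]

theorem det_G_le {l : ℝ} (hl : 0 ≤ l) (v : ℝ) :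
    det_G v ≤ Real.sqrt Real.pi * Real.exp (l * v + l ^ 2 / 4) := by
  obtain ⟨h1, h2⟩ := refl1_int_exp_gw (-l) v 0
  rw [← sub_zero v, ← det_G_shift]
  refine (setIntegral_mono_on (refl1_int_gw 0).1.integrableOn h1.integrableOn measurableSet_Iic
    fun y hy => le_mul_of_one_le_left (gw_pos _).le
      (Real.one_le_exp (by nlinarith [mem_Iic.1 hy]))).trans
    ((setIntegral_le_integral h1 (ae_of_all _ fun _ =>
      mul_nonneg (Real.exp_pos _).le (gw_pos _).le)).trans_eq ?_)
  rw [h2]
  congr 2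
  ring

theorem det_int_W (p v : ℝ) : Integrable fun x => gw (p - x) * det_G (v - x) := by
  refine (refl1_int_gw p).1.mul_bdd (c := Real.sqrt Real.pi)
    (det_G_mono.measurable.comp (measurable_const.sub measurable_id)).aestronglyMeasurable
    (ae_of_all _ fun x => ?_)
  rw [Real.norm_of_nonneg (det_G_nonneg _)]
  simpa using det_G_le le_rfl (v - x)

theorem det_W_shift (p v : ℝ) : ∫ x, gw (p - x) * det_G (v - x) = det_W (v - p) := by
  rw [det_W, ← integral_sub_right_eq_self (fun x => gw x * det_G (v - p - x)) p]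
  refine integral_congr_ae (ae_of_all _ fun x => ?_)
  simp only [det_gw_sub p, sub_sub_sub_cancel_right]

theorem det_W_nonneg (u : ℝ) : 0 ≤ det_W u :=
  integral_nonneg fun _ => mul_nonneg (gw_pos _).le (det_G_nonneg _)

theorem det_W_le (u : ℝ) : det_W u ≤ Real.pi * Real.exp 8 * Real.exp (4 * u) := by
  obtain ⟨h1, h2⟩ := refl1_int_exp_gw (-4) u 0
  rw [← sub_zero u, ← det_W_shift]
  refine (integral_mono (det_int_W 0 u) (h1.const_mul (Real.sqrt Real.pi * Real.exp 4))
    fun x => ?_).trans_eq ?_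
  · refine (mul_le_mul_of_nonneg_left (det_G_le (l := 4) (by norm_num) _)
      (gw_pos _).le).trans_eq ?_
    rw [show 4 * (u - x) + 4 ^ 2 / 4 = 4 + -4 * (x - u) by ring, Real.exp_add]
    ring
  · rw [integral_const_mul, h2, show -4 * (0 - u) + (-4) ^ 2 / 4 = 4 + 4 * (u - 0) by ring,
      Real.exp_add, show (8 : ℝ) = 4 + 4 by norm_num, Real.exp_add]
    linear_combination (Real.exp 4 * Real.exp 4 * Real.exp (4 * (u - 0))) *
      Real.mul_self_sqrt Real.pi_pos.le

theorem det_W_ge {u : ℝ} (hu : 0 ≤ u) : det_G 0 ^ 2 ≤ det_W u := by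
  have h := det_int_W 0 u
  simp only [det_gw_sub 0, sub_zero] at h
  calc det_G 0 ^ 2 = ∫ x in Iic 0, gw x * det_G 0 := by rw [integral_mul_const, sq]; rfl
    _ ≤ ∫ x in Iic 0, gw x * det_G (u - x) :=
        setIntegral_mono_on (det_int_gw.mul_const _).integrableOn h.integrableOn measurableSet_Iic
          fun x hx => mul_le_mul_of_nonneg_left (det_G_mono (by linarith [mem_Iic.1 hx]))
            (gw_pos _).le
    _ ≤ det_W u := setIntegral_le_integral h
        (ae_of_all _ fun _ => mul_nonneg (gw_pos _).le (det_G_nonneg _))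

theorem det_gw_le (p x : ℝ) : gw (p - x) ≤ Real.exp (4 * x + 4) * Real.exp (-4 * p) := by
  rw [gw, ← Real.exp_add]
  exact Real.exp_le_exp.2 (by nlinarith [sq_nonneg (p - x - 2)])

theorem det_G_le' (u q : ℝ) :
    det_G (u - q) ≤ Real.sqrt Real.pi * Real.exp (4 * u + 4) * Real.exp (-4 * q) := by
  refine (det_G_le (l := 4) (by norm_num) _).trans_eq ?_
  rw [mul_assoc, ← Real.exp_add]
  congr 2
  ring

theorem det_summ {ι : Type} {α : ι → ℂ} {p w : ι → ℝ} {K : ℝ}
    (hα : Summable fun i => ‖α i‖ * Real.exp (-4 * p i)) (h0 : ∀ i, 0 ≤ w i)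
    (hw : ∀ i, w i ≤ K * Real.exp (-4 * p i)) : Summable fun i => ‖α i * (w i : ℂ)‖ := by
  refine Summable.of_nonneg_of_le (fun _ => norm_nonneg _) (fun i => ?_) (hα.mul_left K)
  rw [norm_mul, Complex.norm_of_nonneg (h0 i)]
  exact (mul_le_mul_of_nonneg_left (hw i) (norm_nonneg _)).trans_eq (by ring)

theorem det_cum {κ : Type} [Countable κ] {β : κ → ℂ} {q : κ → ℝ}
    (hβ : Summable fun j => ‖β j‖ * Real.exp (-4 * q j)) (u : ℝ) :
    ∫ y in Iic u, ∑' j, β j * (gw (q j - y) : ℂ) = ∑' j, β j * (det_G (u - q j) : ℂ) := by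
  rw [← integral_tsum_of_summable_integral_norm (F := fun j y => β j * (gw (q j - y) : ℂ))
    (fun j => ((refl1_int_gw _).1.integrableOn.ofReal (𝕜 := ℂ)).const_mul _)]
  · refine tsum_congr fun j => ?_
    rw [integral_const_mul, integral_complex_ofReal, det_G_shift]
  · refine (det_summ hβ (fun j => det_G_nonneg _) fun j => det_G_le' u (q j)).congr fun j => ?_
    simp only [norm_mul, Complex.norm_of_nonneg (gw_pos _).le,
      Complex.norm_of_nonneg (det_G_nonneg _)]
    rw [integral_const_mul, det_G_shift]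

theorem det_ident {ι κ : Type} [Countable ι] [Countable κ] {α : ι → ℂ} {β : κ → ℂ} {p : ι → ℝ}
    {q : κ → ℝ} (hα : Summable fun i => ‖α i‖ * Real.exp (-4 * p i))
    (hβ : Summable fun j => ‖β j‖ * Real.exp (-4 * q j)) (l : ℝ) :
    ∫ x, (∑' i, α i * (gw (p i - x) : ℂ)) * ∫ y in Iic (l - x), ∑' j, β j * (gw (q j - y) : ℂ) =
      ∑' z : ι × κ, α z.1 * β z.2 * (det_W (l - p z.1 - q z.2) : ℂ) := by
  have e1 : ∀ x, (∑' i, α i * (gw (p i - x) : ℂ)) *
      (∫ y in Iic (l - x), ∑' j, β j * (gw (q j - y) : ℂ)) = ∑' z : ι × κ, α z.1 * β z.2 *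
        ((gw (p z.1 - x) * det_G (l - q z.2 - x) : ℝ) : ℂ) := fun x => by
    rw [det_cum hβ, tsum_mul_tsum_of_summable_norm
      (det_summ hα (fun _ => (gw_pos _).le) fun i => det_gw_le (p i) x)
      (det_summ hβ (fun j => det_G_nonneg _) fun j => det_G_le' (l - x) (q j))]
    refine tsum_congr fun z => ?_
    rw [sub_right_comm l x]
    push_cast
    ring
  simp only [e1]
  rw [← integral_tsum_of_summable_integral_norm (F := fun (z : ι × κ) x => α z.1 * β z.2 *
        ((gw (p z.1 - x) * det_G (l - q z.2 - x) : ℝ) : ℂ))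
    (fun z => ((det_int_W _ _).ofReal (𝕜 := ℂ)).const_mul _)]
  · refine tsum_congr fun z => ?_
    rw [integral_const_mul, integral_complex_ofReal, det_W_shift, sub_right_comm]
  · refine Summable.of_nonneg_of_le (fun _ => integral_nonneg fun _ => norm_nonneg _)
      (fun z => ?_) ((hα.mul_of_nonneg hβ (fun _ => by positivity) fun _ => by positivity).mul_left
        (Real.pi * Real.exp 8 * Real.exp (4 * l)))
    simp only [norm_mul, Complex.norm_of_nonneg (mul_nonneg (gw_pos _).le (det_G_nonneg _))]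
    rw [integral_const_mul, det_W_shift]
    refine (mul_le_mul_of_nonneg_left (det_W_le _) (by positivity)).trans_eq ?_
    rw [show 4 * (l - q z.2 - p z.1) = 4 * l + -4 * p z.1 + -4 * q z.2 by ring, Real.exp_add,
      Real.exp_add]
    ring

/-- the estimate of the integral by the two regions -/
theorem det_split {M B : ℝ → ℂ} {h : ℝ → ℝ} {η l : ℝ} (hη : 0 ≤ η) (hh : Integrable h)
    (h0 : ∀ x, 0 ≤ h x) (hB : Integrable B) (hB0 : ∫ y, B y = 0)
    (hb : ∀ x y, (l < x ∧ x + y ≤ l) ∨ (x ≤ l ∧ l < x + y) → ‖M x‖ * ‖B y‖ ≤ η * (h x * h y)) :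
    ‖∫ x, M x * ∫ y in Iic (l - x), B y‖ ≤ η * (∫ x, h x) ^ 2 := by
  have key : ∀ (x : ℝ) (S : Set ℝ), MeasurableSet S →
      (∀ y ∈ S, ‖M x‖ * ‖B y‖ ≤ η * (h x * h y)) →
      ‖M x * ∫ y in S, B y‖ ≤ η * (∫ y, h y) * h x := fun x S hS hb => by
    rw [← integral_const_mul]
    refine (norm_integral_le_of_norm_le ((hh.const_mul (η * h x)).integrableOn)
      ((ae_restrict_iff' hS).2 (ae_of_all _ fun y hy => ?_))).trans ?_
    · rw [norm_mul, mul_assoc]
      exact hb y hy
    · refine (setIntegral_le_integral (hh.const_mul _) (ae_of_all _ fun y =>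
        mul_nonneg (mul_nonneg hη (h0 x)) (h0 y))).trans_eq ?_
      rw [integral_const_mul]
      ring
  refine (norm_integral_le_of_norm_le (hh.const_mul (η * ∫ y, h y))
    (ae_of_all _ fun x => ?_)).trans_eq (by rw [integral_const_mul]; ring)
  rcases lt_or_ge l x with hx | hx
  · exact key x _ measurableSet_Iic fun y hy => hb x y (Or.inl ⟨hx, by linarith [mem_Iic.1 hy]⟩)
  · have e := intervalIntegral.integral_Iic_add_Ioi (b := l - x) hB.integrableOn hB.integrableOn
    rw [hB0, add_eq_zero_iff_eq_neg] at e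
    rw [e, mul_neg, norm_neg]
    exact key x _ measurableSet_Ioi fun y hy => hb x y (Or.inr ⟨hx, by linarith [mem_Ioi.1 hy]⟩)

theorem det_int_h {κ : ℝ} (hκ : 0 < κ) : Integrable fun x : ℝ => Real.exp (-κ * |x|) := by
  rw [← integrableOn_univ, ← Iic_union_Ioi (a := 0), integrableOn_union]
  constructor
  · refine (integrableOn_exp_mul_Iic hκ 0).congr_fun (fun x hx => ?_) measurableSet_Iic
    simp only [abs_of_nonpos (mem_Iic.1 hx)]
    congr 1
    ring
  · refine (exp_neg_integrableOn_Ioi 0 hκ).congr_fun (fun x hx => ?_) measurableSet_Ioi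
    simp only [abs_of_pos (mem_Ioi.1 hx)]

end Crest.Agent.R17
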