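import Crest.Agent.R17.DetectorAuxA

/-!
# R17 / DetectorAuxB : the detector identity and the vanishing of `∫ B`
-/

set_option autoImplicit false

noncomputable section

open scoped Classical ComplexConjugate FourierTransform
open MeasureTheory Set

namespace Crest.Agent.R17

theorem det_prim_le {a : O → ℂ} (ha : ∀ n, ‖a n‖ ≤ 1) (n : O) : ‖prim a n‖ ≤ 1 := by
  unfold prim
  split_ifs
  · exact ha n
  · simp

theorem det_mm_le {a : O → ℂ} (ha : ∀ n, ‖a n‖ ≤ 1) (n : O) : ‖mm a n‖ ≤ 1 := by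
  rw [mm, norm_mul]
  exact mul_le_one₀ (norm_mu_le n) (norm_nonneg _) (ha n)

/-- Dirichlet convolution `μψ * ψ = δ` against a decaying test function -/
theorem det_conv {ψ : O → ℂ} (h1 : ψ 1 = 1) (hψ : ∀ a b, ψ (a * b) = ψ a * ψ b)
    (hb : ∀ n, ‖ψ n‖ ≤ 1) {F : O → ℂ} {C : ℝ} (hF : ∀ n, n ≠ 0 → ‖F n‖ ≤ C * N n ^ (-4 : ℝ)) :
    ∑' z : O × O, prim (mm ψ) z.1 * prim ψ z.2 * F (z.1 * z.2) = F 1 := by
  have hC : 0 ≤ C := by simpa using (norm_nonneg _).trans (hF 1 one_ne_zero)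
  have h2 := summable_N_rpow (σ := 2) (by norm_num)
  have hp : ∀ n : O, 0 ≤ N n ^ (-2 : ℝ) := fun n => Real.rpow_nonneg (N_nonneg n) _
  have h22 := (h2.mul_of_nonneg h2 hp hp).mul_left C
  have hkey : ∀ a b n : O, a ≠ 0 → b ≠ 0 → n ≠ 0 → a ∣ n → b ∣ n →
      ‖F n‖ ≤ C * (N a ^ (-2 : ℝ) * N b ^ (-2 : ℝ)) := fun a b n ha hb' hn h3 h4 => by
    refine (hF n hn).trans (mul_le_mul_of_nonneg_left ?_ hC)
    rw [show (-4 : ℝ) = -2 + -2 by norm_num, Real.rpow_add (N_pos hn)]
    exact mul_le_mul (Real.rpow_le_rpow_of_nonpos (N_pos ha) (N_le_of_dvd hn h3) (by norm_num))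
      (Real.rpow_le_rpow_of_nonpos (N_pos hb') (N_le_of_dvd hn h4) (by norm_num)) (hp _) (hp _)
  have s1 : Summable fun z : O × O => prim (mm ψ) z.1 * prim ψ z.2 * F (z.1 * z.2) := by
    refine Summable.of_norm_bounded h22 fun z => ?_
    by_cases h3 : Prim z.1 ∧ Prim z.2
    · rw [norm_mul, norm_mul]
      exact (mul_le_of_le_one_left (norm_nonneg _) (mul_le_one₀ (det_prim_le (det_mm_le hb) _)
        (norm_nonneg _) (det_prim_le hb _))).trans (hkey _ _ _ h3.1.ne_zero h3.2.ne_zero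
        (h3.1.mul h3.2).ne_zero (dvd_mul_right _ _) (dvd_mul_left _ _))
    · have : prim (mm ψ) z.1 * prim ψ z.2 = 0 := by
        unfold prim
        rcases not_and_or.1 h3 with h | h <;> simp [h]
      rw [this, zero_mul, norm_zero]
      exact mul_nonneg hC (mul_nonneg (hp _) (hp _))
  set g : O → O → ℂ := fun a n => if Prim a ∧ Prim n ∧ a ∣ n then mu a * (ψ n * F n) else 0 with hg
  have s2 : Summable (Function.uncurry g) := by
    refine Summable.of_norm_bounded h22 fun z => ?_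
    simp only [Function.uncurry, hg]
    split_ifs with h3
    · rw [norm_mul, norm_mul, ← mul_assoc]
      exact (mul_le_of_le_one_left (norm_nonneg _) (mul_le_one₀ (norm_mu_le _)
        (norm_nonneg _) (hb _))).trans (hkey _ _ _ h3.1.ne_zero h3.2.1.ne_zero
        h3.2.1.ne_zero h3.2.2 dvd_rfl)
    · rw [norm_zero]
      exact mul_nonneg hC (mul_nonneg (hp _) (hp _))
  have e1 : ∀ a, ∑' b, prim (mm ψ) a * prim ψ b * F (a * b) = ∑' n, g a n := fun a => by
    by_cases ha : Prim a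
    · simp only [hg, ha, true_and]
      rw [tsum_prim_dvd ha]
      refine tsum_congr fun b => ?_
      simp only [prim, mm, ha, if_true, hψ]
      split_ifs <;> ring
    · simp [hg, ha, prim]
  have e2 : ∀ n, ∑' a, g a n = if n = 1 then F 1 else 0 := fun n => by
    by_cases hn : Prim n
    · rw [tsum_eq_sum (s := pdiv n) fun a ha => if_neg fun h => ha
        ((mem_pdiv hn.ne_zero).2 ⟨h.1, h.2.2⟩), Finset.sum_congr rfl
          (g := fun a => mu a * (ψ n * F n)) fun a ha => if_pos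
            ⟨((mem_pdiv hn.ne_zero).1 ha).1, hn, ((mem_pdiv hn.ne_zero).1 ha).2⟩,
        ← Finset.sum_mul, sum_mu_pdiv hn]
      split_ifs with h
      · simp [h, h1]
      · simp
    · rw [if_neg (by rintro rfl; exact hn Prim.one)]
      simp [hg, hn]
  rw [s1.tsum_prod]
  simp only [e1]
  rw [← s2.tsum_comm]
  simp [e2]

/-- the coefficients of a block -/
def det_co (a : O → ℂ) (s : ℂ) (n : O) : ℂ := if n = 0 then 0 else a n * (N n : ℂ) ^ (-s)

theorem det_blks (a : O → ℂ) (s : ℂ) (c y : ℝ) :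
    blks a (y + c) s = ∑' n, det_co a s n * (gw (Real.log (N n) - c - y) : ℂ) := by
  refine tsum_congr fun n => ?_
  rw [det_co, sub_right_comm, sub_sub]
  split_ifs <;> simp

theorem det_norm_cpow {n : O} (hn : n ≠ 0) {s : ℂ} (hs : 0 ≤ s.re) : ‖(N n : ℂ) ^ (-s)‖ ≤ 1 := by
  rw [Complex.norm_cpow_eq_rpow_re_of_pos (N_pos hn)]
  exact Real.rpow_le_one_of_one_le_of_nonpos (one_le_N hn) (by simpa using hs)

theorem det_exp_log {n : O} (hn : n ≠ 0) (u : ℝ) :
    Real.exp (4 * (u - Real.log (N n))) = Real.exp (4 * u) * N n ^ (-4 : ℝ) := by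
  rw [Real.rpow_def_of_pos (N_pos hn), ← Real.exp_add]
  congr 1
  ring

theorem det_co_summ {a : O → ℂ} (ha : ∀ n, ‖a n‖ ≤ 1) {s : ℂ} (hs : 0 ≤ s.re) (c : ℝ) :
    Summable fun n => ‖det_co a s n‖ * Real.exp (-4 * (Real.log (N n) - c)) := by
  refine Summable.of_nonneg_of_le (fun _ => by positivity) (fun n => ?_)
    ((summable_N_rpow (σ := 4) (by norm_num)).mul_left (Real.exp (4 * c)))
  rw [det_co]
  split_ifs with hn
  · rw [norm_zero, zero_mul]
    exact mul_nonneg (Real.exp_pos _).le (Real.rpow_nonneg (N_nonneg n) _)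
  · rw [← det_exp_log hn, norm_mul]
    refine (mul_le_of_le_one_left (Real.exp_pos _).le
      (mul_le_one₀ (ha n) (norm_nonneg _) (det_norm_cpow hn hs))).trans_eq ?_
    congr 1
    ring

theorem det_key {ψ : O → ℂ} (h1 : ψ 1 = 1) (hψ : ∀ a b, ψ (a * b) = ψ a * ψ b)
    (hb : ∀ n, ‖ψ n‖ ≤ 1) {s : ℂ} (hs : 0 ≤ s.re) (c l : ℝ) :
    ∫ x, blks (prim (mm ψ)) (x + c) s * ∫ y in Iic (l - x), blks (prim ψ) (y + c) s =
      det_W (l + 2 * c) := by
  simp only [det_blks]
  rw [det_ident (det_co_summ (det_prim_le (det_mm_le hb)) hs c)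
    (det_co_summ (det_prim_le hb) hs c)]
  have h := det_conv h1 hψ hb
    (F := fun n => (N n : ℂ) ^ (-s) * (det_W (l + 2 * c - Real.log (N n)) : ℂ))
    (C := Real.pi * Real.exp 8 * Real.exp (4 * (l + 2 * c))) fun n hn => by
      rw [norm_mul, Complex.norm_of_nonneg (det_W_nonneg _), mul_assoc, ← det_exp_log hn]
      exact (mul_le_of_le_one_left (det_W_nonneg _) (det_norm_cpow hn hs)).trans (det_W_le _)
  simp only [N_one, Real.log_one, sub_zero, Complex.ofReal_one, Complex.one_cpow, one_mul] at h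
  rw [← h]
  refine tsum_congr fun z => ?_
  unfold det_co
  by_cases ha : z.1 = 0
  · have : ¬ Prim z.1 := fun h => h.ne_zero ha
    simp [ha, prim, ha ▸ this]
  by_cases hb' : z.2 = 0
  · have : ¬ Prim z.2 := fun h => h.ne_zero hb'
    simp [hb', prim, hb' ▸ this]
  rw [if_neg ha, if_neg hb', N_mul, Real.log_mul (N_pos ha).ne' (N_pos hb').ne',
    Complex.ofReal_mul, Complex.mul_cpow_ofReal_nonneg (N_nonneg _) (N_nonneg _),
    show l - (Real.log (N z.1) - c) - (Real.log (N z.2) - c) =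
      l + 2 * c - (Real.log (N z.1) + Real.log (N z.2)) by ring]
  ring

/-- `∫ B = √π L(s)` by Fourier inversion -/
theorem det_int_zero (Q : Lev) {ψ : O → ℂ} (h : IsHChar Q.q ψ) (hn : NonPrinc Q.q ψ) {s : ℂ}
    (hs : 0 ≤ s.re) (h0 : Lf (prim ψ) s = 0) (hB : Integrable fun y => blks (prim ψ) y s) :
    ∫ y, blks (prim ψ) y s = 0 := by
  have hper := h.per_prim Q
  have hb := det_prim_le (h.1.norm_le Q.ne)
  have hE := Ef_one_nonPrinc Q h hn
  have hd := Lf_differentiable Q.ne hper hE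
  obtain ⟨C, B, hC⟩ := Lf_growth s.re (s.re + 2)
  set G : ℂ → ℂ := fun z => Lf (prim ψ) (z + (s.re - 1 / 2 : ℝ)) with hG
  have hGd : Differentiable ℂ G := hd.comp (by fun_prop)
  have hGs : ∀ w : ℂ, G (1 / 2 + s.im * Complex.I + w) = Lf (prim ψ) (s + w) := fun w => by
    simp only [hG]
    congr 1
    conv_rhs => rw [← Complex.re_add_im s]
    push_cast
    ring
  have hgr : ∀ z : ℂ, 1 / 2 + 0 ≤ z.re → z.re ≤ 1 / 2 + 2 →
      ‖G z‖ ≤ (|C| * N Q.q ^ B + B) * Real.exp ((|C| * N Q.q ^ B + B) * |z.im|) := by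
    intro z h1 h2
    have h3 := hC Q.q _ Q.ne hper hb hE (z + (s.re - 1 / 2 : ℝ)) (by simp; linarith)
      (by simp; linarith)
    have h4 : 0 ≤ |C| * N Q.q ^ B := mul_nonneg (abs_nonneg _) (pow_nonneg (N_nonneg _) _)
    have h5 : (1 + |z.im|) ^ B ≤ Real.exp ((|C| * N Q.q ^ B + B) * |z.im|) := by
      refine (pow_le_pow_left₀ (by positivity) ((add_comm _ _).trans_le
        (Real.add_one_le_exp |z.im|)) B).trans ?_
      rw [← Real.exp_nat_mul]
      exact Real.exp_le_exp.2 (mul_le_mul_of_nonneg_right (by linarith) (abs_nonneg _))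
    simp only [Complex.add_im, Complex.ofReal_im, add_zero, mul_pow, ← mul_assoc] at h3
    refine h3.trans (mul_le_mul ?_ h5 (by positivity) (by positivity))
    have := mul_le_mul_of_nonneg_right (le_abs_self C) (pow_nonneg (N_nonneg Q.q) B)
    linarith [(Nat.cast_nonneg B : (0 : ℝ) ≤ B)]
  have e1 : ∀ y, blks (prim ψ) y s = kern G 0 s.im y := fun y => by
    rw [Kn.shift (b := 2) (by norm_num) _ _ hGd.differentiableOn hgr, blks_mellin y 2 s, kern]
    · congr 1
      refine integral_congr_ae (ae_of_all _ fun τ => ?_)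
      simp only [hGs]
      rw [Lf_eq_dser Q.ne hper (by simp; linarith)]
    · exact Summable.of_nonneg_of_le
        (fun n => mul_nonneg (norm_nonneg _) (Real.rpow_nonneg (N_nonneg _) _))
        (fun n => mul_le_of_le_one_left (Real.rpow_nonneg (N_nonneg _) _) (hb n))
        (summable_N_rpow (by linarith))
  set f : ℝ → ℂ := fun τ => Kn.ki G s.im 0 ((0 : ℝ) + τ * Complex.I) with hf
  have hfc : Continuous f := by
    simp only [hf, Kn.ki]
    exact (hGd.continuous.comp (by fun_prop)).mul (by fun_prop)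
  have hfi : Integrable f := by
    obtain ⟨A, -, hA⟩ := Kn.bound s.im hgr
    exact ((integrable_exp_neg_mul_sq (b := 1 / 8) (by norm_num)).const_mul _).mono'
      hfc.aestronglyMeasurable (ae_of_all _ fun τ => hA 0 τ 0 le_rfl (by norm_num))
  have hpi : (Real.pi : ℂ) ≠ 0 := Complex.ofReal_ne_zero.2 Real.pi_ne_zero
  have e2 : 𝓕 f = fun ξ => (2 * Real.pi : ℂ) * blks (prim ψ) (-(2 * Real.pi) * ξ) s := by
    funext ξ
    rw [e1, Kn.kern_eq, ← mul_assoc, mul_one_div_cancel (by simp [hpi]), one_mul,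
      Real.fourier_real_eq_integral_exp_smul]
    refine integral_congr_ae (ae_of_all _ fun τ => ?_)
    simp only [hf, Kn.ki, smul_eq_mul]
    rw [mul_left_comm, mul_left_comm (Complex.exp _), ← Complex.exp_add]
    congr 3
    push_cast
    ring
  have hne : -(2 * Real.pi) ≠ 0 := by simp [Real.pi_ne_zero]
  have e3 := hfi.fourierInv_fourier_eq (v := 0)
    (by rw [e2]; exact (hB.comp_mul_left' hne).const_mul _) hfc.continuousAt
  have e4 : f 0 = 0 := by simp only [hf, Kn.ki, hGs]; simp [h0]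
  rw [e4, Real.fourierInv_eq', e2] at e3
  simp only [inner_zero_right, mul_zero, Complex.ofReal_zero, zero_mul, Complex.exp_zero,
    one_smul] at e3
  rw [integral_const_mul, Measure.integral_comp_mul_left (fun y => blks (prim ψ) y s)] at e3
  simpa [hpi, Real.pi_ne_zero] using e3

/-- the analytic core of the detector -/
theorem det_core (Q : Lev) {ψ : O → ℂ} (h : IsHChar Q.q ψ) (hn : NonPrinc Q.q ψ) {s : ℂ}
    (hs : 0 ≤ s.re) (h0 : Lf (prim ψ) s = 0) {c l η κ K : ℝ} (hc : 0 ≤ c) (hl : 0 ≤ l)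
    (hη : 0 ≤ η) (hκ : 0 < κ) (hm : Continuous fun y => blks (prim ψ) (y + c) s)
    (hK : ∀ y, ‖blks (prim ψ) (y + c) s‖ ≤ K * Real.exp (-κ * |y|))
    (hb : ∀ x y, (l < x ∧ x + y ≤ l) ∨ (x ≤ l ∧ l < x + y) →
      ‖blks (prim (mm ψ)) (x + c) s‖ * ‖blks (prim ψ) (y + c) s‖ ≤
        η * (Real.exp (-κ * |x|) * Real.exp (-κ * |y|))) :
    det_G 0 ^ 2 ≤ η * (∫ x : ℝ, Real.exp (-κ * |x|)) ^ 2 := by
  have hB : Integrable fun y => blks (prim ψ) (y + c) s :=
    ((det_int_h hκ).const_mul K).mono' hm.aestronglyMeasurable (ae_of_all _ hK)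
  have hB0 : ∫ y, blks (prim ψ) (y + c) s = 0 := by
    rw [integral_add_right_eq_self (fun y => blks (prim ψ) y s)]
    exact det_int_zero Q h hn hs h0 (by simpa using hB.comp_sub_right c)
  have h1 := det_split hη (det_int_h hκ) (fun _ => (Real.exp_pos _).le) hB hB0 hb
  rw [det_key h.1.one h.1.mul (h.1.norm_le Q.ne) hs,
    Complex.norm_of_nonneg (det_W_nonneg _)] at h1
  exact (det_W_ge (by linarith)).trans h1

end Crest.Agent.R17
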