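import Crest.Agent.R17.DetectorAuxB

/-!
# R17 / DetectorAuxC : the elementary case analysis of the zero detector
-/

set_option autoImplicit false

noncomputable section

open scoped Classical ComplexConjugate
open Real

namespace Crest.Agent.R17

theorem det_step {K F u v w : ℝ} (hK : 0 ≤ K) (hF : F ≤ K * exp v) (h : u + v ≤ w) :
    exp u * F ≤ K * exp w := by
  refine (mul_le_mul_of_nonneg_left hF (exp_pos u).le).trans ?_
  rw [mul_left_comm, ← exp_add]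
  exact mul_le_mul_of_nonneg_left (exp_le_exp.2 h) hK

theorem det_prod {K1 K2 K p r u v w : ℝ} (hK1 : 0 ≤ K1) (hK2 : 0 ≤ K2) (hr : 0 ≤ r)
    (h1 : p ≤ K1 * exp u) (h2 : r ≤ K2 * exp v) (h : u + v ≤ w) (hK : K1 * K2 ≤ K) :
    p * r ≤ K * exp w := by
  refine (mul_le_mul h1 h2 hr (by positivity)).trans ?_
  rw [mul_mul_mul_comm, ← exp_add]
  exact mul_le_mul hK (exp_le_exp.2 h) (exp_pos _).le ((mul_nonneg hK1 hK2).trans hK)

section

variable {a a' κ δ E Θ Λ L K j : ℝ}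

theorem det_neg {F : ℝ → ℝ} (hK : 1 ≤ K) (h1 : κ ≤ a) (h2 : a ≤ 1 / 2)
    (hN : ∀ x, x ≤ 0 → F x ≤ K * exp (j * x)) {x : ℝ} (hx : x ≤ 0) :
    exp (κ * |x| - a * x) * F x ≤ K * exp ((j - 1) * x) :=
  det_step (by linarith) (hN x hx) (by rw [abs_of_nonpos hx]; nlinarith)

theorem det_loc {F : ℝ → ℝ} (hK : 1 ≤ K) (h0 : 0 < κ) (h1 : κ ≤ a) (h2 : a ≤ 1 / 2) (h3 : a ≤ a')
    (hj : 2 ≤ j) (hΘ : 0 ≤ Θ) (hs : (κ + (a' - a)) * Λ ≤ Θ / 2)
    (hN : ∀ x, x ≤ 0 → F x ≤ K * exp (j * x))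
    (hL : ∀ x, x ≤ Λ → F x ≤ K * exp (Θ / 2 + a' * x)) {x : ℝ} (hx : x ≤ Λ) :
    exp (κ * |x| - a * x) * F x ≤ K * exp Θ := by
  rcases le_total x 0 with h | h
  · exact (det_neg hK h1 h2 hN h).trans
      (mul_le_mul_of_nonneg_left (exp_le_exp.2 (by nlinarith)) (by linarith))
  · refine det_step (by linarith) (hL x hx) ?_
    rw [abs_of_nonneg h]
    nlinarith [mul_le_mul_of_nonneg_left hx (by linarith : 0 ≤ κ + (a' - a))]

theorem det_sat {F : ℝ} (h0 : 0 < κ) (h3 : a ≤ a') (hs : (κ + (a' - a)) * Λ ≤ Θ / 2) {x : ℝ}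
    (hx : |x| ≤ Λ) (hF : F < exp (-E + a' * x)) :
    exp (κ * |x| - a * x) * F ≤ 1 * exp (-E + Θ / 2) := by
  refine det_step zero_le_one (by simpa using hF.le) ?_
  nlinarith [mul_le_mul_of_nonneg_left hx (by linarith : 0 ≤ κ + (a' - a)),
    mul_le_mul_of_nonneg_left (le_abs_self x) (by linarith : 0 ≤ a' - a)]

theorem det_far {F d y : ℝ} (hK : 1 ≤ K) (h0 : 0 < κ) (h1 : κ ≤ δ) (h2 : δ ≤ a) (h3 : a ≤ a')
    (hE : 0 ≤ E) (hΘ : 0 ≤ Θ) (hs : (κ + (a' - a)) * Λ ≤ Θ / 2) (h4 : 4 * Θ ≤ δ * E) (h5 : Θ ≤ L)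
    (hd : 0 ≤ d) (hd' : d ≤ Λ) (hy : d / 2 + E ≤ y)
    (hF : F ≤ K * (exp (3 * Θ / 2 + a' * (d - y)) + exp (-2 * L))) :
    exp (κ * |y| - a * y) * F ≤ 2 * K * exp (-2 * Θ) := by
  have hy0 : 0 ≤ y := by linarith
  rw [abs_of_nonneg hy0]
  have b1 : exp (κ * y - a * y) * (K * exp (3 * Θ / 2 + a' * (d - y))) ≤ K * exp (-2 * Θ) := by
    refine det_step (by linarith) le_rfl ?_
    nlinarith [mul_le_mul_of_nonneg_left hy (by linarith : 0 ≤ a + a' - κ),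
      mul_le_mul_of_nonneg_left hd' (by linarith : 0 ≤ κ + (a' - a)),
      mul_le_mul_of_nonneg_right (by linarith : δ ≤ a + a' - κ) hE]
  have b2 : exp (κ * y - a * y) * (K * exp (-2 * L)) ≤ K * exp (-2 * Θ) :=
    det_step (by linarith) le_rfl (by nlinarith)
  refine (mul_le_mul_of_nonneg_left hF (exp_pos _).le).trans ?_
  rw [mul_add, mul_add]
  linarith

theorem det_ineq {P R : ℝ → ℝ} {l d : ℝ} (hK : 1 ≤ K) (h0 : 0 < κ) (h1 : κ ≤ δ) (h2 : δ ≤ a)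
    (h3 : a ≤ a') (h3' : a' ≤ 1 / 2) (hj : 2 ≤ j) (hΘ : 0 ≤ Θ) (hs : (κ + (a' - a)) * Λ ≤ Θ / 2)
    (h4 : 4 * Θ ≤ δ * E) (h4' : 3 * Θ ≤ E) (h5 : Θ ≤ L) (h7 : Λ + L ≤ (j - 2) * E)
    (hl : 0 ≤ l) (hl' : l + E ≤ Λ) (hd : 0 ≤ d) (hd' : d + E ≤ Λ) (hR0 : ∀ y, 0 ≤ R y)
    (hT : ∀ x, P x ≤ K * exp (x / 2))
    (hNP : ∀ x, x ≤ 0 → P x ≤ K * exp (j * x)) (hNR : ∀ x, x ≤ 0 → R x ≤ K * exp (j * x))
    (hLP : ∀ x, x ≤ Λ → P x ≤ K * exp (Θ / 2 + a' * x))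
    (hLR : ∀ x, x ≤ Λ → R x ≤ K * exp (Θ / 2 + a' * x))
    (hS : ∀ y, d / 2 + E ≤ y → R y ≤ K * (exp (3 * Θ / 2 + a' * (d - y)) + exp (-2 * L)))
    (hH : ∀ x y, -E ≤ x → -E ≤ y → x ≤ l + E → l - E ≤ x + y → y ≤ d / 2 + E →
      P x < exp (-E + a' * x) ∨ R y < exp (-E + a' * y)) :
    (∀ y, exp (κ * |y| - a * y) * R y ≤ 2 * K * exp Θ) ∧
    ∀ x y, (l < x ∧ x + y ≤ l) ∨ (x ≤ l ∧ l < x + y) →
      (exp (κ * |x| - a * x) * P x) * (exp (κ * |y| - a * y) * R y) ≤ 2 * K ^ 2 * exp (-Θ) := by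
  have hE : 0 ≤ E := by linarith
  have hK0 : 0 ≤ K := by linarith
  have ha : κ ≤ a := by linarith
  have ha' : a ≤ 1 / 2 := by linarith
  have locP := fun x => det_loc (x := x) hK h0 ha ha' h3 hj hΘ hs hNP hLP
  have locR := fun x => det_loc (x := x) hK h0 ha ha' h3 hj hΘ hs hNR hLR
  have far := fun y hy => det_far hK h0 h1 h2 h3 hE hΘ hs h4 h5 hd (by linarith) hy (hS y hy)
  have hr : ∀ y, 0 ≤ exp (κ * |y| - a * y) * R y := fun y => mul_nonneg (exp_pos _).le (hR0 y)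
  have k1 : K * K ≤ 2 * K ^ 2 := by nlinarith
  have box : ∀ x y, -E ≤ x → -E ≤ y → x ≤ l + E → l - E ≤ x + y → y ≤ d / 2 + E →
      (exp (κ * |x| - a * x) * P x) * (exp (κ * |y| - a * y) * R y) ≤ 2 * K ^ 2 * exp (-Θ) := by
    intro x y b1 b2 b3 b4 b5
    rcases hH x y b1 b2 b3 b4 b5 with h | h
    · exact det_prod zero_le_one hK0 (hr y)
        (det_sat h0 h3 hs (abs_le.2 ⟨by linarith, by linarith⟩) h) (locR y (by linarith))
        (by linarith) (by nlinarith)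
    · exact det_prod hK0 zero_le_one (hr y) (locP x (by linarith))
        (det_sat h0 h3 hs (abs_le.2 ⟨by linarith, by linarith⟩) h) (by linarith) (by nlinarith)
  refine ⟨fun y => ?_, fun x y h => ?_⟩
  · rcases le_total y Λ with h | h
    · exact (locR y h).trans (mul_le_mul_of_nonneg_right (by linarith) (exp_pos _).le)
    · exact (far y (by linarith)).trans
        (mul_le_mul_of_nonneg_left (exp_le_exp.2 (by linarith)) (by linarith))
  rcases h with ⟨c1, c2⟩ | ⟨c1, c2⟩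
  · rcases le_total (-E) y with h | h
    · exact box x y (by linarith) h (by linarith) (by linarith) (by linarith)
    · refine det_prod hK0 hK0 (hr y) (det_step (w := l - y) hK0 (hT x) ?_)
        (det_neg hK ha ha' hNR (by linarith)) ?_ k1
      · rw [abs_of_nonneg (by linarith)]
        nlinarith
      · nlinarith [mul_le_mul_of_nonneg_left h (by linarith : 0 ≤ j - 2)]
  · rcases le_total (d / 2 + E) y with h | h
    · exact det_prod hK0 (by linarith) (hr y) (locP x (by linarith)) (far y h) (by linarith)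
        (by nlinarith)
    rcases le_total (-E) x with h' | h'
    · exact box x y h' (by linarith) (by linarith) (by linarith) h
    · refine det_prod hK0 hK0 (hr y) (det_neg hK ha ha' hNP (by linarith))
        (locR y (by linarith)) ?_ k1
      nlinarith [mul_le_mul_of_nonneg_left h' (by linarith : 0 ≤ j - 2)]

end

theorem det_shift (f : O → ℂ) (s : ℂ) (x : ℝ) :
    blks f (x + (s.re - 1 / 2) / 2) s =
      (exp (-(s.re - 1 / 2) * x - (s.re - 1 / 2) ^ 2 / 4) : ℂ) * blk f x s.im := by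
  have h := blks_shift f (x + (s.re - 1 / 2) / 2) (-(s.re - 1 / 2)) (1 / 2 + s.im * Complex.I)
  have e : (1 / 2 + s.im * Complex.I - (-(s.re - 1 / 2) : ℝ) : ℂ) = s := by
    conv_rhs => rw [← Complex.re_add_im s]
    push_cast
    ring
  rw [e] at h
  rw [h, blk]
  congr 3 <;> ring

theorem det_norm_shift (f : O → ℂ) (s : ℂ) (κ x : ℝ) :
    ‖blks f (x + (s.re - 1 / 2) / 2) s‖ ≤
      exp (κ * |x| - (s.re - 1 / 2) * x) * ‖blk f x s.im‖ * exp (-κ * |x|) := by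
  rw [det_shift, norm_mul, Complex.norm_of_nonneg (exp_pos _).le, mul_right_comm, ← exp_add]
  exact mul_le_mul_of_nonneg_right (exp_le_exp.2 (by nlinarith [sq_nonneg (s.re - 1 / 2)]))
    (norm_nonneg _)

theorem det_log_pow (n : ℕ) {c : ℝ} (hc : 0 < c) :
    ∀ᶠ Z : ℝ in Filter.atTop, log Z ^ n ≤ c * Z := by
  filter_upwards [(isLittleO_pow_log_id_atTop (n := n)).bound hc, Filter.eventually_ge_atTop 0]
    with Z h1 h2
  rw [id, Real.norm_of_nonneg h2] at h1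
  exact (le_abs_self _).trans h1

theorem det_eventually (B : ℕ) {θ g : ℝ} (hθ : 0 < θ) (hg : 0 < g) (K Z1 : ℝ) :
    ∃ Z0, ∀ Z : ℝ, Z0 ≤ Z → Z1 ≤ Z ∧ 3 ≤ Z ∧ 1 ≤ log Z ∧ log Z ^ 3 + log Z ^ 2 ≤ Z ∧
      (1 + log Z ^ 3) ^ B ≤ Z ∧ K * exp (-(θ * log Z)) < g := by
  have h1 : Filter.Tendsto (fun Z : ℝ => K * exp (-(θ * log Z))) Filter.atTop (nhds (K * 0)) :=
    (tendsto_exp_atBot.comp (Filter.tendsto_neg_atTop_atBot.comp
      (tendsto_log_atTop.const_mul_atTop hθ))).const_mul K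
  refine Filter.eventually_atTop.1 ?_
  filter_upwards [Filter.eventually_ge_atTop Z1, Filter.eventually_ge_atTop 3,
    tendsto_log_atTop.eventually_ge_atTop 1, det_log_pow 3 one_half_pos,
    det_log_pow 2 one_half_pos, det_log_pow (3 * B) (c := (2 ^ B)⁻¹) (by positivity),
    h1.eventually_lt_const (by simpa using hg)] with Z b1 b2 b3 b4 b5 b6 b7
  refine ⟨b1, b2, b3, by linarith, ?_, b7⟩
  refine (pow_le_pow_left₀ (by positivity) (by linarith [one_le_pow₀ (n := 3) b3] :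
    1 + log Z ^ 3 ≤ 2 * log Z ^ 3) B).trans ?_
  rw [mul_pow, ← pow_mul]
  rwa [le_inv_mul_iff₀ (by positivity)] at b6

end Crest.Agent.R17
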