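import Crest.Agent.R17.Basic

/-!
# R17 / Euler4 : multiplicative functions of several variables on `𝒫₀`

Used by `Gram`, `High`, `Prin`.  A function `F` of a tuple `v : ι → O` is multiplicative if
`F (v * w) = F v * F w` whenever all entries are in `𝒫₀` and `∏ v`, `∏ w` are coprime.  One removes the
"generic part" of `F` by convolving in each variable with the inverse of a completely multiplicative
function (`conv`), and bounds weighted `ℓ¹` norms of the result by Euler products (`TMul.sum_le`).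
-/

set_option autoImplicit false

noncomputable section

open scoped Classical ComplexConjugate

namespace Crest.Agent.R17

variable {ι : Type} [Fintype ι] [DecidableEq ι]

/-- all entries in `𝒫₀` -/
def P0v (Q : Lev) (v : ι → O) : Prop := ∀ i, P0 Q (v i)

/-- multiplicative function of a tuple -/
def TMul {R : Type} [CommMonoid R] (Q : Lev) (F : (ι → O) → R) : Prop :=
  F 1 = 1 ∧ ∀ v w : ι → O, P0v Q v → P0v Q w → IsCoprime (∏ i, v i) (∏ i, w i) →
    F (v * w) = F v * F w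

/-- multiplicative function of one variable -/
def Mul1 {R : Type} [CommMonoid R] (Q : Lev) (f : O → R) : Prop :=
  f 1 = 1 ∧ ∀ a b : O, P0 Q a → P0 Q b → IsCoprime a b → f (a * b) = f a * f b

/-- Dirichlet convolution in the variable `i` -/
def conv (i : ι) (f : O → ℂ) (F : (ι → O) → ℂ) (v : ι → O) : ℂ :=
  ∑ e ∈ pdiv (v i), F (Function.update v i (v i / e)) * f e

theorem e4_pdiv_one : pdiv (1 : O) = {1} := b3_pdiv_of_isUnit isUnit_one

theorem e4_mul_div {a : O} (ha : a ≠ 0) (b : O) : a * b / a = b := mul_div_cancel_left₀ b ha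

theorem e4_mul_div' {a : O} (ha : a ≠ 0) (b : O) : b * a / a = b := mul_div_cancel_right₀ b ha

theorem e4_P0_div {Q : Lev} {n e : O} (hn : P0 Q n) (he : e ∈ pdiv n) :
    P0 Q e ∧ P0 Q (n / e) ∧ n = e * (n / e) := by
  rw [mem_pdiv hn.1.ne_zero] at he
  have h1 : n = e * (n / e) := (EuclideanDomain.mul_div_cancel' he.1.ne_zero he.2).symm
  refine ⟨hn.of_dvd he.1 he.2, hn.of_dvd (hn.1.div he.1 he.2) ⟨e, ?_⟩, h1⟩
  rw [mul_comm]; exact h1

omit [Fintype ι] in
theorem e4_P0v_update {Q : Lev} {v : ι → O} (hv : P0v Q v) (i : ι) {a : O} (ha : P0 Q a) :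
    P0v Q (Function.update v i a) := by
  intro j
  by_cases h : j = i
  · subst h; rw [Function.update_self]; exact ha
  · rw [Function.update_of_ne h]; exact hv j

theorem e4_prod_update_dvd {v : ι → O} (i : ι) {a : O} (ha : a ∣ v i) :
    ∏ j, Function.update v i a j ∣ ∏ j, v j := by
  refine Finset.prod_dvd_prod_of_dvd _ _ fun j _ => ?_
  by_cases h : j = i
  · subst h; rw [Function.update_self]; exact ha
  · rw [Function.update_of_ne h]

/-- reindexing of a double divisor sum by the product -/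
theorem e4_sum_sum {n : O} (hn : Prim n) (G : O → O → ℂ) :
    ∑ e ∈ pdiv n, ∑ d ∈ pdiv (n / e), G e d = ∑ m ∈ pdiv n, ∑ e ∈ pdiv m, G e (m / e) := by
  rw [Finset.sum_sigma', Finset.sum_sigma']
  refine Finset.sum_bij' (fun x _ => ⟨x.1 * x.2, x.1⟩) (fun x _ => ⟨x.2, x.1 / x.2⟩) ?_ ?_ ?_ ?_ ?_
  · rintro ⟨e, d⟩ hx
    simp only [Finset.mem_sigma] at hx ⊢
    obtain ⟨he, hd⟩ := hx
    rw [mem_pdiv hn.ne_zero] at he
    rw [mem_pdiv (hn.div he.1 he.2).ne_zero] at hd
    have hed : Prim (e * d) := he.1.mul hd.1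
    rw [mem_pdiv hn.ne_zero, mem_pdiv hed.ne_zero]
    refine ⟨⟨hed, ?_⟩, he.1, dvd_mul_right _ _⟩
    rw [← EuclideanDomain.mul_div_cancel' he.1.ne_zero he.2]
    exact mul_dvd_mul_left _ hd.2
  · rintro ⟨m, e⟩ hx
    simp only [Finset.mem_sigma] at hx ⊢
    obtain ⟨hm, he⟩ := hx
    rw [mem_pdiv hn.ne_zero] at hm
    rw [mem_pdiv hm.1.ne_zero] at he
    have hen : e ∣ n := he.2.trans hm.2
    rw [mem_pdiv hn.ne_zero, mem_pdiv (hn.div he.1 hen).ne_zero]
    refine ⟨⟨he.1, hen⟩, hm.1.div he.1 he.2, ?_⟩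
    obtain ⟨a, rfl⟩ := he.2
    obtain ⟨b, rfl⟩ := hm.2
    rw [mul_assoc, e4_mul_div he.1.ne_zero, e4_mul_div he.1.ne_zero]
    exact dvd_mul_right _ _
  · rintro ⟨e, d⟩ hx
    simp only [Finset.mem_sigma] at hx
    rw [mem_pdiv hn.ne_zero] at hx
    simp only [e4_mul_div hx.1.1.ne_zero]
  · rintro ⟨m, e⟩ hx
    simp only [Finset.mem_sigma] at hx
    obtain ⟨hm, he⟩ := hx
    rw [mem_pdiv hn.ne_zero] at hm
    rw [mem_pdiv hm.1.ne_zero] at he
    simp only [EuclideanDomain.mul_div_cancel' he.1.ne_zero he.2]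
  · rintro ⟨e, d⟩ hx
    simp only [Finset.mem_sigma] at hx
    rw [mem_pdiv hn.ne_zero] at hx
    simp only [e4_mul_div hx.1.1.ne_zero]

theorem e4_sum_flip {m : O} (hm : Prim m) (G : O → O → ℂ) :
    ∑ e ∈ pdiv m, G e (m / e) = ∑ e ∈ pdiv m, G (m / e) e := by
  have key : ∀ e ∈ pdiv m, m / e ∈ pdiv m ∧ m / (m / e) = e := by
    intro e he
    rw [mem_pdiv hm.ne_zero] at he ⊢
    have h1 := hm.div he.1 he.2
    obtain ⟨a, rfl⟩ := he.2
    rw [e4_mul_div he.1.ne_zero] at h1 ⊢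
    exact ⟨⟨h1, dvd_mul_left _ _⟩, e4_mul_div' h1.ne_zero _⟩
  refine Finset.sum_bij' (fun e _ => m / e) (fun e _ => m / e) (fun e he => (key e he).1)
    (fun e he => (key e he).1) (fun e he => (key e he).2) (fun e he => (key e he).2) ?_
  intro e he
  simp only [(key e he).2]

omit [Fintype ι] in
/-- associativity of the convolution -/
theorem e4_conv_conv {i : ι} (f g : O → ℂ) (F : (ι → O) → ℂ) {v : ι → O} (hv : Prim (v i)) :
    conv i f (conv i g F) v =
      ∑ m ∈ pdiv (v i), F (Function.update v i (v i / m)) * ∑ e ∈ pdiv m, f e * g (m / e) := by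
  unfold R17.conv
  simp only [Function.update_self, Function.update_idem, Finset.sum_mul, Finset.mul_sum]
  rw [e4_sum_sum hv (fun e d => F (Function.update v i (v i / e / d)) * g d * f e)]
  refine Finset.sum_congr rfl fun m hm => Finset.sum_congr rfl fun e he => ?_
  rw [mem_pdiv hv.ne_zero] at hm
  rw [mem_pdiv hm.1.ne_zero] at he
  have : v i / e / (m / e) = v i / m := by
    have h1 := hm.1.div he.1 he.2
    obtain ⟨a, rfl⟩ := he.2
    obtain ⟨b, hb⟩ := hm.2
    rw [e4_mul_div he.1.ne_zero] at h1 ⊢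
    rw [hb, e4_mul_div hm.1.ne_zero, mul_assoc, e4_mul_div he.1.ne_zero, e4_mul_div h1.ne_zero]
  rw [this]; ring

theorem e4_mm_sum {Q : Lev} {ψ : O → ℂ} (h1 : ψ 1 = 1)
    (hψ : ∀ a b, P0 Q a → P0 Q b → ψ (a * b) = ψ a * ψ b) {m : O} (hm : P0 Q m) :
    ∑ e ∈ pdiv m, mm ψ e * ψ (m / e) = if m = 1 then 1 else 0 := by
  have : ∀ e ∈ pdiv m, mm ψ e * ψ (m / e) = mu e * ψ m := by
    intro e he
    obtain ⟨a0, a1, a2⟩ := e4_P0_div hm he
    unfold mm
    rw [mul_assoc, ← hψ _ _ a0 a1, ← a2]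
  rw [Finset.sum_congr rfl this, ← Finset.sum_mul, sum_mu_pdiv hm.1]
  split_ifs with h
  · rw [h, h1, one_mul]
  · rw [zero_mul]

omit [Fintype ι] in
theorem e4_delta {Q : Lev} {i : ι} (F : (ι → O) → ℂ) {v : ι → O} (hv : P0 Q (v i)) {c : O → ℂ}
    (hc : ∀ m, P0 Q m → c m = if m = 1 then 1 else 0) :
    ∑ m ∈ pdiv (v i), F (Function.update v i (v i / m)) * c m = F v := by
  rw [Finset.sum_eq_single 1]
  · rw [hc 1 (P0.one Q), if_pos rfl, mul_one, EuclideanDomain.div_one, Function.update_eq_self]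
  · intro m hm h1
    rw [hc m (e4_P0_div hv hm).1, if_neg h1, mul_zero]
  · intro h
    exact absurd (one_mem_pdiv hv.1.ne_zero) h

theorem TMul.mul {R : Type} [CommMonoid R] {Q : Lev} {F G : (ι → O) → R} (hF : TMul Q F)
    (hG : TMul Q G) : TMul Q (fun v => F v * G v) := by
  refine ⟨by simp only [hF.1, hG.1, mul_one], fun v w hv hw h => ?_⟩
  simp only [hF.2 v w hv hw h, hG.2 v w hv hw h]
  exact mul_mul_mul_comm _ _ _ _
theorem TMul.norm {Q : Lev} {F : (ι → O) → ℂ} (hF : TMul Q F) : TMul Q (fun v => ‖F v‖) := by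
  refine ⟨by simp only [hF.1, norm_one], fun v w hv hw h => ?_⟩
  simp only [hF.2 v w hv hw h, norm_mul]
theorem Mul1.tmul {R : Type} [CommMonoid R] {Q : Lev} {f : O → R} (hf : Mul1 Q f) (i : ι) :
    TMul Q (fun v : ι → O => f (v i)) := by
  refine ⟨hf.1, fun v w hv hw h => ?_⟩
  exact hf.2 _ _ (hv i) (hw i)
    ((h.of_isCoprime_of_dvd_left (Finset.dvd_prod_of_mem _ (Finset.mem_univ i))).of_isCoprime_of_dvd_right
      (Finset.dvd_prod_of_mem _ (Finset.mem_univ i)))
theorem mul1_rpow (Q : Lev) (x : ℝ) : Mul1 Q (fun n => N n ^ x) := by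
  refine ⟨by simp only [N_one, Real.one_rpow], fun a b _ _ _ => ?_⟩
  simp only [N_mul]
  exact Real.mul_rpow (N_nonneg a) (N_nonneg b)
/-- `sum_pdiv_mul` -/
theorem TMul.conv {Q : Lev} {F : (ι → O) → ℂ} (hF : TMul Q F) (i : ι) {f : O → ℂ} (hf : Mul1 Q f) :
    TMul Q (conv i f F) := by
  constructor
  · unfold R17.conv
    simp only [Pi.one_apply, e4_pdiv_one, Finset.sum_singleton, EuclideanDomain.div_one, hf.1, mul_one]
    have : Function.update (1 : ι → O) i 1 = 1 := Function.update_eq_self i (1 : ι → O)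
    rw [this, hF.1]
  · intro v w hv hw h
    have hc : IsCoprime (v i) (w i) :=
      (h.of_isCoprime_of_dvd_left (Finset.dvd_prod_of_mem _ (Finset.mem_univ i))).of_isCoprime_of_dvd_right
        (Finset.dvd_prod_of_mem _ (Finset.mem_univ i))
    unfold R17.conv
    rw [Pi.mul_apply, sum_pdiv_mul (hv i).1.ne_zero (hw i).1.ne_zero hc, Finset.sum_mul_sum]
    refine Finset.sum_congr rfl fun a ha => Finset.sum_congr rfl fun b hb => ?_
    obtain ⟨a0, a1, a2⟩ := e4_P0_div (hv i) ha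
    obtain ⟨b0, b1, b2⟩ := e4_P0_div (hw i) hb
    have hd : v i * w i / (a * b) = (v i / a) * (w i / b) := by
      conv_lhs => rw [a2, b2]
      rw [mul_mul_mul_comm]
      exact e4_mul_div (mul_ne_zero a0.1.ne_zero b0.1.ne_zero) _
    have hu : Function.update (v * w) i (v i * w i / (a * b)) =
        Function.update v i (v i / a) * Function.update w i (w i / b) := by
      rw [hd]; exact Function.update_mul v w i _ _
    have hda : v i / a ∣ v i := ⟨a, by rw [mul_comm]; exact a2⟩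
    have hdb : w i / b ∣ w i := ⟨b, by rw [mul_comm]; exact b2⟩
    have hab : IsCoprime a b :=
      (hc.of_isCoprime_of_dvd_left ⟨_, a2⟩).of_isCoprime_of_dvd_right ⟨_, b2⟩
    rw [hu, hF.2 _ _ (e4_P0v_update hv i a1) (e4_P0v_update hw i b1)
      ((h.of_isCoprime_of_dvd_left (e4_prod_update_dvd i hda)).of_isCoprime_of_dvd_right
        (e4_prod_update_dvd i hdb)), hf.2 a b a0 b0 hab]
    ring
theorem conv_prime_pow {p : O} (hp : Prime p) (hp' : Prim p) (i : ι) (f : O → ℂ)
    (F : (ι → O) → ℂ) (e : ι → ℕ) :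
    conv i f F (fun j => p ^ e j) =
      ∑ k ∈ Finset.range (e i + 1), F (fun j => p ^ (Function.update e i (e i - k) j)) * f (p ^ k) :=
  by
  unfold R17.conv
  rw [pdiv_prime_pow hp hp', Finset.sum_image]
  · refine Finset.sum_congr rfl fun k hk => ?_
    have hk' : k ≤ e i := Nat.lt_succ_iff.1 (Finset.mem_range.1 hk)
    congr 2
    funext j
    by_cases h : j = i
    · subst h
      simp only [Function.update_self]
      have : p ^ e j = p ^ k * p ^ (e j - k) := by rw [← pow_add]; congr 1; omega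
      rw [this]
      exact e4_mul_div (pow_ne_zero _ hp.ne_zero) _
    · simp only [Function.update_of_ne h]
  · intro a _ b _ hab
    exact pow_injective_of_not_isUnit hp.not_isUnit hp.ne_zero hab
/-- `ψ * μψ = δ` -/
theorem conv_mm_cancel {Q : Lev} {ψ : O → ℂ} (h1 : ψ 1 = 1)
    (hψ : ∀ a b, P0 Q a → P0 Q b → ψ (a * b) = ψ a * ψ b) (i : ι) (F : (ι → O) → ℂ) {v : ι → O}
    (hv : P0 Q (v i)) : conv i ψ (conv i (mm ψ) F) v = F v := by
  rw [e4_conv_conv _ _ _ hv.1]
  refine e4_delta F hv fun m hm => ?_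
  rw [e4_sum_flip hm.1 (fun a b => ψ a * mm ψ b), ← e4_mm_sum h1 hψ hm]
  exact Finset.sum_congr rfl fun e _ => mul_comm _ _
theorem conv_cancel_mm {Q : Lev} {ψ : O → ℂ} (h1 : ψ 1 = 1)
    (hψ : ∀ a b, P0 Q a → P0 Q b → ψ (a * b) = ψ a * ψ b) (i : ι) (F : (ι → O) → ℂ) {v : ι → O}
    (hv : P0 Q (v i)) : conv i (mm ψ) (conv i ψ F) v = F v := by
  rw [e4_conv_conv _ _ _ hv.1]
  exact e4_delta F hv fun m hm => e4_mm_sum h1 hψ hm
theorem conv_comm {i j : ι} (hij : i ≠ j) (f g : O → ℂ) (F : (ι → O) → ℂ) :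
    conv i f (conv j g F) = conv j g (conv i f F) := by
  funext v
  unfold R17.conv
  simp only [Function.update_of_ne hij, Function.update_of_ne hij.symm, Finset.sum_mul]
  rw [Finset.sum_comm]
  refine Finset.sum_congr rfl fun b _ => Finset.sum_congr rfl fun a _ => ?_
  rw [Function.update_comm hij]
  ring

/-- splitting off the coordinates at one prime -/
theorem exists_prime_part {Q : Lev} {p : O} (hp : Prime p) (hp0 : P0 Q p) {v : ι → O}
    (hv : P0v Q v) : ∃ (e : ι → ℕ) (w : ι → O), P0v Q w ∧ (∀ i, ¬ p ∣ w i) ∧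
      v = (fun i => p ^ e i) * w := by
  have h : ∀ i, ∃ (e : ℕ) (w : O), P0 Q w ∧ ¬ p ∣ w ∧ v i = p ^ e * w := by
    intro i
    obtain ⟨e, w, h1, h2⟩ := WfDvdMonoid.max_power_factor' (hv i).1.ne_zero hp.not_isUnit
    have hw : Prim w := Prim.of_mul_left (h2 ▸ (hv i).1) (hp0.1.pow e)
    exact ⟨e, w, (hv i).of_dvd hw ⟨p ^ e, by rw [h2, mul_comm]⟩, h1, h2⟩
  choose e w h1 h2 h3 using h
  exact ⟨e, w, h1, h2, funext h3⟩

theorem e4_eq_one {Q : Lev} {v : ι → O} (hv : P0v Q v) (h : ∏ i, v i = 1) : v = 1 := by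
  funext i
  refine (hv i).1.eq_one_of_isUnit (isUnit_of_dvd_one ?_)
  rw [← h]
  exact Finset.dvd_prod_of_mem _ (Finset.mem_univ i)

theorem e4_P0_prod {Q : Lev} {α : Type*} {s : Finset α} {f : α → O} (h : ∀ i ∈ s, P0 Q (f i)) :
    P0 Q (∏ i ∈ s, f i) :=
  ⟨Prim.prod fun i hi => (h i hi).1, IsCoprime.prod_left fun i hi => (h i hi).2⟩

theorem e4_P0_pow {Q : Lev} {p : O} (hp : P0 Q p) (e : ℕ) : P0 Q (p ^ e) :=
  ⟨hp.1.pow e, hp.2.pow_left⟩

/-- induction over the primes: a property of tuples that holds at `1`, and is stable under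
multiplying by a tuple of powers of a new prime, holds for all tuples in `𝒫₀` -/
theorem P0v.induction {Q : Lev} {P : (ι → O) → Prop} (h1 : P 1)
    (hstep : ∀ (p : O) (e : ι → ℕ) (w : ι → O), Prime p → P0 Q p → P0v Q w → (∀ i, ¬ p ∣ w i) →
      P w → P ((fun i => p ^ e i) * w)) {v : ι → O} (hv : P0v Q v) : P v := by
  induction hn : nm (∏ i, v i) using Nat.strong_induction_on generalizing v with
  | _ n ih =>
  by_cases h : ∏ i, v i = 1
  · rw [e4_eq_one hv h]; exact h1
  have hP : P0 Q (∏ i, v i) := e4_P0_prod fun i _ => hv i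
  obtain ⟨p, hp, hp', hpd⟩ := hP.1.exists_prime_dvd h
  have hp0 : P0 Q p := hP.of_dvd hp' hpd
  obtain ⟨e, w, hw, hw', hvw⟩ := exists_prime_part hp hp0 hv
  have hprod : ∏ i, v i = (∏ i, p ^ e i) * ∏ i, w i := by
    rw [← Finset.prod_mul_distrib, hvw]; rfl
  have hnd : ¬ p ∣ ∏ i, w i := fun hd => by
    obtain ⟨i, _, hi⟩ := (hp.dvd_finsetProd_iff _).1 hd
    exact hw' i hi
  have hW : P0 Q (∏ i, w i) := e4_P0_prod fun i _ => hw i
  have hlt : nm (∏ i, w i) < n := by
    rw [← hn, hprod, nm_mul]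
    have h2 : nm (∏ i, p ^ e i) ≠ 1 := fun h2 => by
      have hu := isUnit_iff_nm.2 h2
      rw [hprod] at hpd
      exact hnd (hu.dvd_mul_left.1 hpd)
    have h3 : 0 < nm (∏ i, p ^ e i) :=
      nm_pos (Finset.prod_ne_zero_iff.2 fun i _ => pow_ne_zero _ hp.ne_zero)
    have h4 := nm_pos hW.1.ne_zero
    have h5 : 2 ≤ nm (∏ i, p ^ e i) := by omega
    nlinarith
  rw [hvw]
  exact hstep p e w hp hp0 hw hw' (ih _ hlt hw rfl)

/-- **Euler product bound.**  Induction on `T` (`exists_prime_part`). -/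
theorem TMul.sum_le_prod {Q : Lev} {F : (ι → O) → ℝ} (hF : TMul Q F)
    (h0 : ∀ v, P0v Q v → 0 ≤ F v) {B : O → ℝ} (T : Finset O) (hT : ∀ p ∈ T, Prime p ∧ P0 Q p)
    (hB : ∀ p ∈ T, ∀ E : Finset (ι → ℕ), ∑ e ∈ E, F (fun i => p ^ e i) ≤ B p)
    (S : Finset (ι → O))
    (hS : ∀ v ∈ S, P0v Q v ∧ ∀ p, Prime p → P0 Q p → p ∣ ∏ i, v i → p ∈ T) :
    ∑ v ∈ S, F v ≤ ∏ p ∈ T, B p := by
  induction T using Finset.induction_on generalizing S with
  | empty =>
    rw [Finset.prod_empty]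
    have hsub : S ⊆ {1} := by
      intro v hv
      rw [Finset.mem_singleton]
      obtain ⟨h1, h2⟩ := hS v hv
      refine e4_eq_one h1 ?_
      by_contra h
      have hP : P0 Q (∏ i, v i) := e4_P0_prod fun i _ => h1 i
      obtain ⟨p, hp, hp', hpd⟩ := hP.1.exists_prime_dvd h
      exact absurd (h2 p hp (hP.of_dvd hp' hpd) hpd) (Finset.notMem_empty p)
    calc ∑ v ∈ S, F v ≤ ∑ v ∈ ({1} : Finset (ι → O)), F v :=
          Finset.sum_le_sum_of_subset_of_nonneg hsub fun v hv _ => by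
            rw [Finset.mem_singleton.1 hv]; exact h0 _ fun _ => P0.one Q
      _ = 1 := by rw [Finset.sum_singleton, hF.1]
  | insert p T hpT ih =>
    obtain ⟨hp, hp0⟩ := hT p (Finset.mem_insert_self p T)
    have h : ∀ v, v ∈ S → ∃ (e : ι → ℕ) (w : ι → O), P0v Q w ∧ (∀ i, ¬ p ∣ w i) ∧
        v = (fun i => p ^ e i) * w := fun v hv => exists_prime_part hp hp0 (hS v hv).1
    choose! e w h1 h2 h3 using h
    have hpe : ∀ a : ι → ℕ, P0v Q (fun i => p ^ a i) := fun a i => e4_P0_pow hp0 _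
    have hW : ∑ u ∈ S.image w, F u ≤ ∏ q ∈ T, B q := by
      refine ih (fun q hq => hT q (Finset.mem_insert_of_mem hq))
        (fun q hq => hB q (Finset.mem_insert_of_mem hq)) _ ?_
      intro u hu
      obtain ⟨v, hv, rfl⟩ := Finset.mem_image.1 hu
      refine ⟨h1 v hv, fun q hq hq0 hqd => ?_⟩
      have hd : q ∣ ∏ i, v i := by
        refine hqd.trans (Finset.prod_dvd_prod_of_dvd _ _ fun i _ => ?_)
        conv_rhs => rw [h3 v hv]
        exact dvd_mul_left _ _
      rcases Finset.mem_insert.1 ((hS v hv).2 q hq hq0 hd) with h | h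
      · subst h
        obtain ⟨i, _, hi⟩ := (hq.dvd_finsetProd_iff _).1 hqd
        exact absurd hi (h2 v hv i)
      · exact h
    have hE := hB p (Finset.mem_insert_self p T) (S.image e)
    have hW0 : 0 ≤ ∑ u ∈ S.image w, F u := Finset.sum_nonneg fun u hu => by
      obtain ⟨v, hv, rfl⟩ := Finset.mem_image.1 hu
      exact h0 _ (h1 v hv)
    have hB0 : 0 ≤ B p := by simpa using hB p (Finset.mem_insert_self p T) ∅
    have hval : ∀ v ∈ S, F v = F (fun i => p ^ e v i) * F (w v) := by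
      intro v hv
      conv_lhs => rw [h3 v hv]
      refine hF.2 _ _ (hpe _) (h1 v hv) ?_
      refine IsCoprime.prod_left fun i _ => IsCoprime.prod_right fun j _ => IsCoprime.pow_left ?_
      exact (hp.irreducible.coprime_iff_not_dvd).2 (h2 v hv j)
    have hinj : Set.InjOn (fun v => (e v, w v)) S := by
      intro v hv v' hv' hvv
      simp only [Prod.mk.injEq] at hvv
      rw [h3 v hv, h3 v' hv', hvv.1, hvv.2]
    calc ∑ v ∈ S, F v = ∑ v ∈ S, F (fun i => p ^ e v i) * F (w v) := Finset.sum_congr rfl hval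
      _ = ∑ x ∈ S.image (fun v => (e v, w v)), F (fun i => p ^ x.1 i) * F x.2 := by
          rw [Finset.sum_image hinj]
      _ ≤ ∑ x ∈ S.image e ×ˢ S.image w, F (fun i => p ^ x.1 i) * F x.2 := by
          refine Finset.sum_le_sum_of_subset_of_nonneg ?_ ?_
          · intro x hx
            obtain ⟨v, hv, rfl⟩ := Finset.mem_image.1 hx
            exact Finset.mem_product.2 ⟨Finset.mem_image_of_mem _ hv, Finset.mem_image_of_mem _ hv⟩
          · intro x hx _
            obtain ⟨v, hv, hv'⟩ := Finset.mem_image.1 (Finset.mem_product.1 hx).2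
            exact mul_nonneg (h0 _ (hpe _)) (hv' ▸ h0 _ (h1 v hv))
      _ = (∑ a ∈ S.image e, F (fun i => p ^ a i)) * ∑ u ∈ S.image w, F u := by
          rw [Finset.sum_product, Finset.sum_mul_sum]
      _ ≤ B p * ∏ q ∈ T, B q := mul_le_mul hE hW hW0 hB0
      _ = ∏ q ∈ insert p T, B q := (Finset.prod_insert hpT).symm

/-- usable form: the local factors are `≤ (1 + c p) · g p`, where `g p = 1` outside a finite set `T₀` -/
theorem TMul.tsum_le {Q : Lev} {F : (ι → O) → ℝ} (hF : TMul Q F) (h0 : ∀ v, P0v Q v → 0 ≤ F v)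
    {c g : O → ℝ} {M : ℝ} (T0 : Finset O) (hc : ∀ p, 0 ≤ c p) (hg : ∀ p, 1 ≤ g p)
    (hM : ∀ T : Finset O, (∀ p ∈ T, Prime p ∧ P0 Q p) → ∑ p ∈ T, c p ≤ M)
    (hB : ∀ p, Prime p → P0 Q p → ∀ E : Finset (ι → ℕ),
      ∑ e ∈ E, F (fun i => p ^ e i) ≤ (1 + c p) * (if p ∈ T0 then g p else 1)) :
    Summable (fun v : ι → O => if P0v Q v then F v else 0) ∧
    ∑' v : ι → O, (if P0v Q v then F v else 0) ≤ Real.exp M * ∏ p ∈ T0, g p := by
  have hnn : 0 ≤ fun v : ι → O => if P0v Q v then F v else 0 := by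
    intro v
    by_cases h : P0v Q v
    · simp only [if_pos h]; exact h0 v h
    · simp only [if_neg h]; exact le_rfl
  have key : ∀ S : Finset (ι → O),
      ∑ v ∈ S, (if P0v Q v then F v else 0) ≤ Real.exp M * ∏ p ∈ T0, g p := by
    intro S
    rw [← Finset.sum_filter]
    set S' := S.filter (P0v Q) with hS'
    have hP : P0 Q (∏ v ∈ S', ∏ i, v i) :=
      e4_P0_prod fun v hv => e4_P0_prod fun i _ => (Finset.mem_filter.1 hv).2 i
    set T := (pdiv (∏ v ∈ S', ∏ i, v i)).filter Prime with hTdef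
    have hT : ∀ p ∈ T, Prime p ∧ P0 Q p := fun p hp =>
      ⟨(Finset.mem_filter.1 hp).2, (e4_P0_div hP (Finset.mem_filter.1 hp).1).1⟩
    have h1 := hF.sum_le_prod h0 (B := fun p => (1 + c p) * (if p ∈ T0 then g p else 1)) T hT
      (fun p hp => hB p (hT p hp).1 (hT p hp).2) S' (fun v hv => ⟨(Finset.mem_filter.1 hv).2,
        fun p hp hp0 hd => Finset.mem_filter.2 ⟨(mem_pdiv hP.1.ne_zero).2
          ⟨hp0.1, hd.trans (Finset.dvd_prod_of_mem (fun v : ι → O => ∏ i, v i) hv)⟩, hp⟩⟩)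
    refine h1.trans ?_
    rw [Finset.prod_mul_distrib]
    refine mul_le_mul ?_ ?_ (Finset.prod_nonneg fun p _ => ?_) (Real.exp_pos M).le
    · calc ∏ p ∈ T, (1 + c p) ≤ ∏ p ∈ T, Real.exp (c p) :=
            Finset.prod_le_prod (fun p _ => by linarith [hc p])
              (fun p _ => by linarith [Real.add_one_le_exp (c p)])
        _ = Real.exp (∑ p ∈ T, c p) := (Real.exp_sum _ _).symm
        _ ≤ Real.exp M := Real.exp_le_exp.2 (hM T hT)
    · rw [Finset.prod_ite_mem]
      exact Finset.prod_le_prod_of_subset_of_one_le Finset.inter_subset_right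
        (fun p _ => zero_le_one.trans (hg p)) (fun p _ _ => hg p)
    · split_ifs
      · exact zero_le_one.trans (hg p)
      · exact zero_le_one
  exact ⟨summable_of_sum_le hnn key, Real.tsum_le_of_sum_le hnn key⟩

theorem e4_fiber {α : Type} {G : α × O → ℂ} (hG : Summable G) (π : α × O → α) (s : α → Finset O)
    (σ : α → O → α) (h1 : ∀ x, G x ≠ 0 → x.2 ∈ s (π x) ∧ x.1 = σ (π x) x.2)
    (h2 : ∀ a, ∀ e ∈ s a, π (σ a e, e) = a) :
    ∑' a, ∑ e ∈ s a, G (σ a e, e) = ∑' h, ∑' e, G (h, e) := by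
  rw [← hG.tsum_prod, ← (hG.hasSum.tsum_fiberwise π).tsum_eq]
  refine tsum_congr fun a => ?_
  rw [tsum_subtype, tsum_eq_sum (s := (s a).image (fun e => (σ a e, e))), Finset.sum_image]
  · refine Finset.sum_congr rfl fun e he => ?_
    rw [Set.indicator_of_mem]
    exact h2 a e he
  · intro e _ e' _ h
    exact (Prod.mk.inj h).2
  · intro x hx
    by_contra h
    have hm : x ∈ π ⁻¹' {a} := Set.mem_of_indicator_ne_zero h
    rw [Set.indicator_of_mem hm] at h
    obtain ⟨h3, h4⟩ := h1 x h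
    have ha : π x = a := hm
    rw [ha] at h3 h4
    exact hx (Finset.mem_image.2 ⟨x.2, h3, Prod.ext h4.symm rfl⟩)

/-- reindexing `n = h e` -/
theorem tsum_conv1 (Q : Lev) {f : O → ℂ} {W : O → O → ℂ}
    (hs : Summable (fun x : O × O => if P0 Q x.1 ∧ P0 Q x.2 then ‖f x.2 * W x.1 (x.1 * x.2)‖ else 0)) :
    ∑' n : O, (if P0 Q n then ∑ e ∈ pdiv n, f e * W (n / e) n else 0) =
      ∑' h : O, if P0 Q h then ∑' e : O, (if P0 Q e then f e * W h (h * e) else 0) else 0 := by
  set G : O × O → ℂ := fun x => if P0 Q x.1 ∧ P0 Q x.2 then f x.2 * W x.1 (x.1 * x.2) else 0 with hG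
  have hGs : Summable G := by
    refine Summable.of_norm (hs.congr fun x => ?_)
    simp only [hG]
    split_ifs
    · rfl
    · exact norm_zero.symm
  have key := e4_fiber hGs (fun x => x.1 * x.2) (fun n => if P0 Q n then pdiv n else ∅)
    (fun n e => n / e) ?_ ?_
  · convert key using 3 with n h
    · split_ifs with hn
      · refine Finset.sum_congr rfl fun e he => ?_
        obtain ⟨a0, a1, a2⟩ := e4_P0_div hn he
        simp only [hG]
        rw [if_pos ⟨a1, a0⟩, mul_comm (n / e) e, ← a2]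
      · rw [Finset.sum_empty]
    · simp only [hG]
      split_ifs with hh
      · simp only [hh, true_and]
      · simp only [hh, false_and, if_false, tsum_zero]
  · intro x hx
    have hx' : P0 Q x.1 ∧ P0 Q x.2 := by
      by_contra h
      exact hx (if_neg h)
    have hm := hx'.1.mul hx'.2
    simp only [if_pos hm]
    exact ⟨(mem_pdiv hm.1.ne_zero).2 ⟨hx'.2.1, dvd_mul_left _ _⟩,
      (e4_mul_div' hx'.2.1.ne_zero _).symm⟩
  · intro n e he
    by_cases hn : P0 Q n
    · simp only [if_pos hn] at he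
      obtain ⟨a0, a1, a2⟩ := e4_P0_div hn he
      simp only
      rw [mul_comm, ← a2]
    · simp only [if_neg hn] at he
      exact absurd he (Finset.notMem_empty e)

/-- reindexing a sum over tuples: `v = update h i (h i * e)` -/
theorem tsum_conv (Q : Lev) (i : ι) {f : O → ℂ} {H W : (ι → O) → ℂ}
    (hs : Summable (fun x : (ι → O) × O => if P0v Q x.1 ∧ P0 Q x.2 then
      ‖H x.1 * f x.2 * W (Function.update x.1 i (x.1 i * x.2))‖ else 0)) :
    ∑' v : ι → O, (if P0v Q v then conv i f H v * W v else 0) =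
      ∑' h : ι → O, if P0v Q h then
        H h * ∑' e : O, (if P0 Q e then f e * W (Function.update h i (h i * e)) else 0) else 0 :=
  by
  set G : (ι → O) × O → ℂ := fun x => if P0v Q x.1 ∧ P0 Q x.2 then
    H x.1 * f x.2 * W (Function.update x.1 i (x.1 i * x.2)) else 0 with hG
  have hGs : Summable G := by
    refine Summable.of_norm (hs.congr fun x => ?_)
    simp only [hG]
    split_ifs
    · rfl
    · exact norm_zero.symm
  have key := e4_fiber hGs (fun x => Function.update x.1 i (x.1 i * x.2))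
    (fun v => if P0v Q v then pdiv (v i) else ∅) (fun v e => Function.update v i (v i / e)) ?_ ?_
  · convert key using 3 with v h
    · split_ifs with hn
      · unfold R17.conv
        rw [Finset.sum_mul]
        refine Finset.sum_congr rfl fun e he => ?_
        obtain ⟨a0, a1, a2⟩ := e4_P0_div (hn i) he
        simp only [hG]
        rw [if_pos ⟨e4_P0v_update hn i a1, a0⟩, Function.update_self, Function.update_idem,
          mul_comm (v i / e) e, ← a2, Function.update_eq_self]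
      · rw [Finset.sum_empty]
    · simp only [hG]
      split_ifs with hh
      · rw [← tsum_mul_left]
        refine tsum_congr fun e => ?_
        simp only [hh, true_and]
        split_ifs
        · ring
        · ring
      · simp only [hh, false_and, if_false, tsum_zero]
  · intro x hx
    have hx' : P0v Q x.1 ∧ P0 Q x.2 := by
      by_contra h
      exact hx (if_neg h)
    have hm := (hx'.1 i).mul hx'.2
    simp only [if_pos (e4_P0v_update hx'.1 i hm), Function.update_self, Function.update_idem]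
    refine ⟨(mem_pdiv hm.1.ne_zero).2 ⟨hx'.2.1, dvd_mul_left _ _⟩, ?_⟩
    rw [e4_mul_div' hx'.2.1.ne_zero, Function.update_eq_self]
  · intro v e he
    by_cases hn : P0v Q v
    · simp only [if_pos hn] at he
      obtain ⟨a0, a1, a2⟩ := e4_P0_div (hn i) he
      simp only [Function.update_self, Function.update_idem]
      rw [mul_comm, ← a2, Function.update_eq_self]
    · simp only [if_neg hn] at he
      exact absurd he (Finset.notMem_empty e)

/-- Newton's identities for a finite family -/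
theorem e4_newton (S : Finset O) (x : O → ℂ) (k : ℕ) :
    (k : ℂ) * ∑ I ∈ S.powersetCard k, ∏ p ∈ I, x p = (-1) ^ (k + 1) *
      ∑ a ∈ (Finset.HasAntidiagonal.antidiagonal k).filter (fun a => a.1 < k),
        (-1) ^ a.1 * (∑ I ∈ S.powersetCard a.1, ∏ p ∈ I, x p) * ∑ p ∈ S, x p ^ a.2 := by
  have he : ∀ n, MvPolynomial.aeval (fun p : S => x p) (MvPolynomial.esymm S ℂ n) =
      ∑ I ∈ S.powersetCard n, ∏ p ∈ I, x p := by
    intro n
    rw [MvPolynomial.aeval_esymm_eq_multiset_esymm, ← Finset.esymm_map_val]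
    congr 1
    rw [Finset.univ_eq_attach, Finset.attach_val]
    exact Multiset.attach_map_val' _ _
  have hp : ∀ n, MvPolynomial.aeval (fun p : S => x p) (MvPolynomial.psum S ℂ n) =
      ∑ p ∈ S, x p ^ n := by
    intro n
    simp only [MvPolynomial.psum, map_sum, map_pow, MvPolynomial.aeval_X]
    exact Finset.sum_coe_sort S (fun p => x p ^ n)
  have := congrArg (MvPolynomial.aeval (fun p : S => x p)) (MvPolynomial.mul_esymm_eq_sum S ℂ k)
  simpa only [map_mul, map_natCast, map_pow, map_neg, map_one, map_sum, he, hp] using this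

/-- Newton-type bound for elementary symmetric functions: from
`p₁ e_k = (k+1) e_{k+1} + ∑_p x_p² e_{k-1}(S∖p)`, by strong induction on `k` (for all subsets `S`
simultaneously, with `|p₁(S∖T)| ≤ |p₁(S)| + |T| m`), or from the generating function. -/
theorem norm_esymm_le (k : ℕ) : ∃ C, ∀ (S : Finset O) (x : O → ℂ) (M : ℝ), 1 ≤ M →
    (∀ p ∈ S, ‖x p‖ ≤ M) → ∑ p ∈ S, ‖x p‖ ^ 2 ≤ M →
    ‖∑ I ∈ S.powersetCard k, ∏ p ∈ I, x p‖ ≤ C * M ^ k * (1 + ‖∑ p ∈ S, x p‖) ^ k := by
  refine ⟨1, fun S x M hM hx h2 => ?_⟩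
  rw [one_mul, ← mul_pow]
  set A := M * (1 + ‖∑ p ∈ S, x p‖) with hA
  have hn0 : 0 ≤ ‖∑ p ∈ S, x p‖ := norm_nonneg _
  have hMA : M ≤ A := by rw [hA]; nlinarith
  have hA0 : 0 ≤ A := by linarith
  have hp : ∀ j, 1 ≤ j → ‖∑ p ∈ S, x p ^ j‖ ≤ A ^ j := by
    intro j hj
    rcases Nat.eq_or_lt_of_le hj with h | h
    · subst h
      simp only [pow_one]
      rw [hA]; nlinarith
    · obtain ⟨l, rfl⟩ : ∃ l, j = l + 2 := ⟨j - 2, by omega⟩
      calc ‖∑ p ∈ S, x p ^ (l + 2)‖ ≤ ∑ p ∈ S, ‖x p ^ (l + 2)‖ := norm_sum_le _ _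
        _ ≤ ∑ p ∈ S, M ^ l * ‖x p‖ ^ 2 := Finset.sum_le_sum fun p hp => by
            rw [norm_pow, pow_add]
            exact mul_le_mul_of_nonneg_right (pow_le_pow_left₀ (norm_nonneg _) (hx p hp) l)
              (by positivity)
        _ ≤ M ^ l * M := by
            rw [← Finset.mul_sum]
            exact mul_le_mul_of_nonneg_left h2 (by positivity)
        _ ≤ M ^ (l + 2) := by
            rw [← pow_succ]; exact pow_le_pow_right₀ hM (by omega)
        _ ≤ A ^ (l + 2) := pow_le_pow_left₀ (by linarith) hMA _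
  induction k using Nat.strong_induction_on with
  | _ k ih =>
  rcases Nat.eq_zero_or_pos k with h0 | h0
  · subst h0; simp
  have hN := congrArg norm (e4_newton S x k)
  rw [norm_mul, norm_mul, norm_pow, norm_neg, norm_one, one_pow, one_mul, Complex.norm_natCast] at hN
  have hcard : ((Finset.HasAntidiagonal.antidiagonal k).filter (fun a => a.1 < k)).card ≤ k := by
    have : ((Finset.HasAntidiagonal.antidiagonal k).filter (fun a => a.1 < k)).card ≤ (Finset.range k).card := by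
      refine Finset.card_le_card_of_injOn (fun a => a.1) ?_ ?_
      · intro a ha
        simpa using (Finset.mem_filter.1 ha).2
      · intro a ha b hb hab
        have h1 := Finset.HasAntidiagonal.mem_antidiagonal.1 (Finset.mem_filter.1 ha).1
        have h2 := Finset.HasAntidiagonal.mem_antidiagonal.1 (Finset.mem_filter.1 hb).1
        simp only at hab
        exact Prod.ext hab (by omega)
    simpa using this
  have hle : (k : ℝ) * ‖∑ I ∈ S.powersetCard k, ∏ p ∈ I, x p‖ ≤ k * A ^ k := by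
    rw [hN]
    refine (norm_sum_le _ _).trans ?_
    refine (Finset.sum_le_card_nsmul _ _ (A ^ k) fun a ha => ?_).trans ?_
    · have h1 := Finset.HasAntidiagonal.mem_antidiagonal.1 (Finset.mem_filter.1 ha).1
      have h3 := (Finset.mem_filter.1 ha).2
      rw [norm_mul, norm_mul, norm_pow, norm_neg, norm_one, one_pow, one_mul, ← h1, pow_add]
      exact mul_le_mul (ih _ h3) (hp _ (by omega)) (norm_nonneg _) (by positivity)
    · rw [nsmul_eq_mul]
      exact mul_le_mul_of_nonneg_right (by exact_mod_cast hcard) (by positivity)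
  exact le_of_mul_le_mul_left hle (by exact_mod_cast h0)

/-- `(k+1) e_{k+1} = ∑_I x_I ∑_{p ∉ I} x_p` -/
theorem e4_succ (k : ℕ) (S : Finset O) (x : O → ℝ) :
    ((k : ℝ) + 1) * ∑ I ∈ S.powersetCard (k + 1), ∏ p ∈ I, x p =
      ∑ I ∈ S.powersetCard k, (∏ p ∈ I, x p) * ∑ q ∈ S \ I, x q := by
  have h1 : ((k : ℝ) + 1) * ∑ I ∈ S.powersetCard (k + 1), ∏ p ∈ I, x p =
      ∑ I ∈ S.powersetCard (k + 1), ∑ _q ∈ I, ∏ p ∈ I, x p := by
    rw [Finset.mul_sum]
    refine Finset.sum_congr rfl fun I hI => ?_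
    rw [Finset.sum_const, (Finset.mem_powersetCard.1 hI).2, nsmul_eq_mul]
    push_cast; rfl
  rw [h1]
  simp only [Finset.mul_sum]
  rw [Finset.sum_sigma', Finset.sum_sigma']
  refine Finset.sum_bij' (fun y _ => ⟨y.1.erase y.2, y.2⟩) (fun y _ => ⟨insert y.2 y.1, y.2⟩)
    ?_ ?_ ?_ ?_ ?_
  · rintro ⟨I, q⟩ hy
    simp only [Finset.mem_sigma, Finset.mem_powersetCard, Finset.mem_sdiff] at hy ⊢
    obtain ⟨⟨h1, h2⟩, h3⟩ := hy
    refine ⟨⟨(Finset.erase_subset _ _).trans h1, ?_⟩, h1 h3, Finset.notMem_erase _ _⟩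
    rw [Finset.card_erase_of_mem h3, h2]; rfl
  · rintro ⟨I, q⟩ hy
    simp only [Finset.mem_sigma, Finset.mem_powersetCard, Finset.mem_sdiff] at hy ⊢
    obtain ⟨⟨h1, h2⟩, h3, h4⟩ := hy
    refine ⟨⟨Finset.insert_subset h3 h1, ?_⟩, Finset.mem_insert_self _ _⟩
    rw [Finset.card_insert_of_notMem h4, h2]
  · rintro ⟨I, q⟩ hy
    simp only [Finset.mem_sigma] at hy
    simp only [Finset.insert_erase hy.2]
  · rintro ⟨I, q⟩ hy
    simp only [Finset.mem_sigma, Finset.mem_sdiff] at hy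
    simp only [Finset.erase_insert hy.2.2]
  · rintro ⟨I, q⟩ hy
    simp only [Finset.mem_sigma] at hy
    simp only
    rw [Finset.prod_erase_mul _ _ hy.2]

/-- lower bound `k! e_k(x) ≥ (∑ x - k max x)^k` for non-negative `x` -/
theorem esymm_ge (k : ℕ) (S : Finset O) (x : O → ℝ) (m : ℝ) (hm : 0 ≤ m)
    (hx : ∀ p ∈ S, 0 ≤ x p ∧ x p ≤ m) (h : k * m ≤ ∑ p ∈ S, x p) :
    (∑ p ∈ S, x p - k * m) ^ k ≤ k.factorial * ∑ I ∈ S.powersetCard k, ∏ p ∈ I, x p := by
  induction k with
  | zero => simp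
  | succ k ih =>
    push_cast at h ⊢
    have hk : (k : ℝ) * m ≤ ∑ p ∈ S, x p := by nlinarith
    have ih' := ih hk
    have hprod : ∀ I ∈ S.powersetCard k, 0 ≤ ∏ p ∈ I, x p := fun I hI =>
      Finset.prod_nonneg fun p hp => (hx p ((Finset.mem_powersetCard.1 hI).1 hp)).1
    have h1 : (∑ p ∈ S, x p - k * m) * ∑ I ∈ S.powersetCard k, ∏ p ∈ I, x p ≤
        ((k : ℝ) + 1) * ∑ I ∈ S.powersetCard (k + 1), ∏ p ∈ I, x p := by
      rw [e4_succ, Finset.mul_sum]
      refine Finset.sum_le_sum fun I hI => ?_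
      rw [mul_comm]
      refine mul_le_mul_of_nonneg_left ?_ (hprod I hI)
      obtain ⟨hI1, hI2⟩ := Finset.mem_powersetCard.1 hI
      rw [← Finset.sum_sdiff hI1]
      have : ∑ p ∈ I, x p ≤ k * m := by
        have := Finset.sum_le_card_nsmul I x m fun p hp => (hx p (hI1 hp)).2
        rwa [hI2, nsmul_eq_mul] at this
      linarith
    calc (∑ p ∈ S, x p - (k + 1) * m) ^ (k + 1) ≤ (∑ p ∈ S, x p - k * m) ^ (k + 1) :=
          pow_le_pow_left₀ (by linarith) (by linarith) _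
      _ = (∑ p ∈ S, x p - k * m) * (∑ p ∈ S, x p - k * m) ^ k := by ring
      _ ≤ (∑ p ∈ S, x p - k * m) * (k.factorial * ∑ I ∈ S.powersetCard k, ∏ p ∈ I, x p) :=
          mul_le_mul_of_nonneg_left ih' (by linarith)
      _ = k.factorial * ((∑ p ∈ S, x p - k * m) * ∑ I ∈ S.powersetCard k, ∏ p ∈ I, x p) := by ring
      _ ≤ k.factorial * (((k : ℝ) + 1) * ∑ I ∈ S.powersetCard (k + 1), ∏ p ∈ I, x p) :=
          mul_le_mul_of_nonneg_left h1 (by positivity)
      _ = _ := by rw [Nat.factorial_succ]; push_cast; ring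

/-- upper bound `e_k(x) ≤ (∑ x)^k` -/
theorem esymm_le (k : ℕ) (S : Finset O) (x : O → ℝ) (hx : ∀ p ∈ S, 0 ≤ x p) :
    ∑ I ∈ S.powersetCard k, ∏ p ∈ I, x p ≤ (∑ p ∈ S, x p) ^ k := by
  induction k with
  | zero => simp
  | succ k ih =>
    have hprod : ∀ j, ∀ I ∈ S.powersetCard j, 0 ≤ ∏ p ∈ I, x p := fun j I hI =>
      Finset.prod_nonneg fun p hp => hx p ((Finset.mem_powersetCard.1 hI).1 hp)
    have h0 : 0 ≤ ∑ I ∈ S.powersetCard (k + 1), ∏ p ∈ I, x p := Finset.sum_nonneg (hprod _)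
    have hS : 0 ≤ ∑ p ∈ S, x p := Finset.sum_nonneg hx
    calc ∑ I ∈ S.powersetCard (k + 1), ∏ p ∈ I, x p
        ≤ ((k : ℝ) + 1) * ∑ I ∈ S.powersetCard (k + 1), ∏ p ∈ I, x p := by
          have : (0 : ℝ) ≤ k := Nat.cast_nonneg k
          nlinarith
      _ ≤ ∑ I ∈ S.powersetCard k, (∏ p ∈ I, x p) * ∑ q ∈ S, x q := by
          rw [e4_succ]
          refine Finset.sum_le_sum fun I hI => mul_le_mul_of_nonneg_left ?_ (hprod _ I hI)
          exact Finset.sum_le_sum_of_subset_of_nonneg Finset.sdiff_subset fun p hp _ => hx p hp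
      _ ≤ (∑ p ∈ S, x p) ^ (k + 1) := by
          rw [← Finset.sum_mul, pow_succ]
          exact mul_le_mul_of_nonneg_right ih hS

end Crest.Agent.R17
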