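import Crest.Agent.R17.FMoment_K

/-!
# R17 / FMoment / F1 : moments with powers of the prime sum

Definitions in `FMoment_Defs.lean`.  Prefix helper lemmas with `fmf1_`.
-/

set_option autoImplicit false

noncomputable section

open scoped Classical ComplexConjugate
open MeasureTheory

namespace Crest.Agent.R17.FM

variable {π : Par} {Q : Lev} {J0 : ℕ} {E : ℝ}

theorem fmf1_summ (h : π.OK Q J0 E) (d : O) : Summable fun m => π.al m * chi m d :=
  h.summable_mul fun _ hm _ => TL.norm_chi_le hm.isCoprime_six d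

theorem fmf1_filter (h : π.OK Q J0 E) {p : O} (hp : p ∈ π.S) :
    π.S.filter (fun q => q ∣ p) = {p} := by
  simpa using filter_dvd_pr h.primes (Finset.singleton_subset_iff.2 hp)

theorem fmf1_excl (p : O) : (π.set (π.J + 1) π.y).dil (pr {p}) {p} = π.excl p := by
  simp [Par.set, Par.dil, Par.cut, Par.excl]

theorem fmf1_al (h : π.OK Q J0 E) {p : O} (hp : p ∈ π.S) (n : O) :
    (π.excl p).al n = if p ∣ n then 0 else π.al n := by
  have hpp := (h.primes p hp).1
  split_ifs with a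
  · exact if_neg fun b => hpp.not_isUnit (b.2.of_mul_right_right.isUnit_of_dvd' a dvd_rfl)
  · have e : W (π.S.filter fun q => ¬ q ∣ p) π.J π.b π.y n = W π.S π.J π.b π.y n := by
      refine Finset.sum_congr ?_ fun _ _ => rfl
      ext I
      simp only [Finset.mem_filter, Finset.mem_powersetCard]
      refine ⟨fun b => ⟨⟨b.1.1.trans (Finset.filter_subset _ _), b.1.2⟩, b.2⟩, fun b =>
        ⟨⟨fun q hq => Finset.mem_filter.2 ⟨b.1.1 hq, fun c => a ?_⟩, b.1.2⟩, b.2⟩⟩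
      obtain rfl : q = p := Finset.mem_singleton.1
        (fmf1_filter h hp ▸ Finset.mem_filter.2 ⟨b.1.1 hq, c⟩)
      exact (Finset.dvd_prod_of_mem _ hq).trans b.2
    simp only [Par.al, Par.excl, e, IsCoprime.mul_right_iff,
      (hpp.coprime_iff_not_dvd.2 a).symm, and_true]

/-- split `n` according to `p ∣ n`: for `p ∤ n`, `al π n = al (π.dil …) n` with the parameters
`((π.set (J+1) y).dil (pr {p}) {p})` (same `J`, same `y`, `S` without `p`, `H p`); for `n = p m` use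
`tsum_dvd`, `al_dil`, `sym_mul_left`. -/
theorem Par.OK.F_split (h : π.OK Q J0 E) {p : O} (hp : p ∈ π.S) (d : O) :
    π.F d = ((π.set (π.J + 1) π.y).dil (pr {p}) {p}).F d +
      chi p d * ∑ I ∈ marks π.S π.J p, π.cf p I * (π.dil p I).F d := by
  obtain ⟨hpp, hp'⟩ := h.primes p hp
  have h1 := fmf1_summ (h.excl hp') d
  have h2 : ∀ n, π.al n * chi n d =
      (π.excl p).al n * chi n d + if p ∣ n then π.al n * chi n d else 0 := fun n => by
    rw [fmf1_al h hp]; split_ifs <;> simp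
  have h3 : Summable fun n => if p ∣ n then π.al n * chi n d else 0 :=
    ((fmf1_summ h d).sub h1).congr fun n => by rw [sub_eq_iff_eq_add', ← h2]
  rw [fmf1_excl, Par.F, tsum_congr h2, h1.tsum_add h3, tsum_dvd hpp.ne_zero]
  congr 1
  simp only [Par.F, ← tsum_mul_left]
  rw [← Summable.tsum_finsetSum fun I _ => (fmf1_summ (h.dil hp' I) d).mul_left _, ← tsum_mul_left]
  refine tsum_congr fun m => ?_
  rw [h.al_dil hp', Finset.sum_mul, Finset.mul_sum]
  refine Finset.sum_congr rfl fun I _ => ?_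
  by_cases hm : m = 0
  · have : (π.dil p I).al m = 0 := if_neg fun b => b.1.ne_zero hm
    simp [this]
  · rw [TL.chi_mul hpp.ne_zero hm]; ring

/-- multiply `F_split` by `xp d p`, sum over `p ∈ S`, and use `F_pull` with `i = 1` for
`π.set (J+1) y` (`Finset.powersetCard_one`) -/
theorem Par.OK.p1_mul_F (h : π.OK Q J0 E) (hJ : π.J + 1 ≤ J0) (d : O) :
    (∑ p ∈ π.S, π.xp d p) * π.F d = ((π.J + 1 : ℕ) : ℂ) * (π.set (π.J + 1) π.y).F d +
      ∑ p ∈ π.S, π.xp d p * chi p d * ∑ I ∈ marks π.S π.J p, π.cf p I * (π.dil p I).F d := by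
  have h1 := (h.set hJ π.y).F_pull (i := 1) (Nat.le_add_left _ _) d
  rw [Finset.powersetCard_one, Finset.sum_map] at h1
  rw [show ((π.J + 1 : ℕ) : ℂ) = ((π.set (π.J + 1) π.y).J.choose 1 : ℕ) by
    rw [Nat.choose_one_right]; rfl, h1, Finset.sum_mul]
  refine Eq.trans ?_ Finset.sum_add_distrib
  refine Finset.sum_congr rfl fun p hp => ?_
  rw [h.F_split hp d, mul_add, mul_assoc]
  congr 2
  exact (Finset.prod_singleton (π.xp d) p).symm

theorem fmf1_half {p : O} (hp : p ≠ 0) : N p ^ (-(1 / 2 : ℝ)) * N p ^ (-(1 / 2 : ℝ)) = (N p)⁻¹ := by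
  rw [← Real.rpow_add (N_pos hp), ← Real.rpow_neg_one]; norm_num

theorem fmf1_u (h : π.OK Q J0 E) {p : O} (hp : p ∈ π.S) (I : Finset O) (d : O) :
    1 + ‖∑ q ∈ π.S, π.xp d q‖ ≤ 2 * (1 + ‖∑ q ∈ (π.dil p I).S, (π.dil p I).xp d q‖) := by
  have h1 := (h.norm_xp_le d hp).trans (Real.rpow_le_one_of_one_le_of_nonpos
    (one_le_N (h.primes p hp).1.ne_zero) (by norm_num))
  rw [← Finset.sum_filter_add_sum_filter_not π.S (fun q => q ∣ p), fmf1_filter h hp,
    Finset.sum_singleton]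
  change _ ≤ 2 * (1 + ‖∑ q ∈ π.S.filter (fun q => ¬ q ∣ p), π.xp d q‖)
  linarith [norm_add_le (π.xp d p) (∑ q ∈ π.S.filter (fun q => ¬ q ∣ p), π.xp d q),
    norm_nonneg (∑ q ∈ π.S.filter (fun q => ¬ q ∣ p), π.xp d q)]

theorem fmf1_coef (h : π.OK Q J0 E) {p : O} (hp : p ∈ π.S) {I : Finset O}
    (hI : I ∈ marks π.S π.J p) (d : O) : ‖π.xp d p * chi p d * π.cf p I‖ ≤ (N p)⁻¹ := by
  obtain ⟨a, b, c, -⟩ := h.hS p hp
  have h1 := TL.norm_chi_le (P0.isCoprime_six (Q := Q) ⟨b, a.coprime_iff_not_dvd.2 c⟩) d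
  rw [norm_mul, norm_mul, ← fmf1_half a.ne_zero]
  exact mul_le_mul ((mul_le_of_le_one_right (norm_nonneg _) h1).trans (h.norm_xp_le d hp))
    (h.norm_cf_le a.ne_zero (mem_marks.1 hI).1) (norm_nonneg _) (Real.rpow_nonneg (N_nonneg _) _)

theorem fmf1_card (h : π.OK Q J0 E) {p : O} (hp : p ∈ π.S) : (marks π.S π.J p).card ≤ 2 := by
  refine (Finset.card_filter_le _ _).trans ?_
  rw [fmf1_filter h hp]
  simp

/-- Induction on `k`.  With `u(π) = 1 + ‖∑_{p ∈ S} xp d p‖`: `u^{k+1} ‖F‖ ≤ u^k ‖F‖ + u^k ‖p₁ F‖`,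
`p1_mul_F`; `xp` is unchanged by `set`, `dil`; `u(π) ≤ 2 u(π.dil p I)` (`norm_xp_le`, the sum over `S`
without `p`); `‖xp d p · χ_p(d) · cf p I‖ ≤ (N p)⁻¹`, at most `2` sets `I` (`marks ⊆ {∅,{p}}`).
Use Minkowski in `ℓ²(R)` (`minkowski_fin` with the weights `u^{2k}` put into the vectors, or weighted
Cauchy–Schwarz).  The hypothesis `hb` is the bound for `k = 0` on the family of all admissible
parameters with the same `t, P1, P2`. -/
theorem f1_ind (k : ℕ) (Q : Lev) (J0 : ℕ) (E : ℝ) (R : Finset O) (J : ℕ) (y t P1 P2 𝓔 σ : ℝ)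
    (hJ : J ≤ J0) (h𝓔 : 0 ≤ 𝓔)
    (hb : ∀ π : Par, π.OK Q J0 E → π.J ≤ J → π.y ≤ y → π.t = t → π.P1 = P1 → π.P2 = P2 →
      N π.H ≤ P2 ^ J → ∑ d ∈ R, ‖π.F d‖ ^ 2 ≤ 𝓔) :
    ∀ π : Par, π.OK Q J0 E → π.J + k ≤ J → π.y ≤ y → π.t = t → π.P1 = P1 → π.P2 = P2 →
      N π.H * P2 ^ k ≤ P2 ^ J → ∑ p ∈ π.S, (N p)⁻¹ ≤ σ →
      ∑ d ∈ R, ‖π.F d‖ ^ 2 * (1 + ‖∑ p ∈ π.S, π.xp d p‖) ^ (2 * k) ≤
        (2 ^ (k + 1) * (J + 2 + σ)) ^ (2 * k) * 𝓔 := by
  induction k with
  | zero =>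
    intro π h h1 h2 h3 h4 h5 h6 _
    simpa using hb π h h1 h2 h3 h4 h5 (by simpa using h6)
  | succ k ih =>
    intro π h h1 h2 h3 h4 h5 h6 h7
    have hP : 1 ≤ P2 := h5 ▸ h.h1.trans h.h12
    have hσ : 0 ≤ σ := (Finset.sum_nonneg fun p _ => inv_nonneg.2 (N_nonneg p)).trans h7
    have h6' : N π.H * P2 ^ k ≤ P2 ^ J := (mul_le_mul_of_nonneg_left
      (pow_le_pow_right₀ hP k.le_succ) (N_nonneg _)).trans h6
    have hJ' : π.J + 1 ≤ J0 := by omega
    set c : ℝ := 2 ^ (k + 1) * (J + 2 + σ) with hc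
    have hB : 0 ≤ c ^ (2 * k) * 𝓔 := by positivity
    have a1 := ih π h (by omega) h2 h3 h4 h5 h6' h7
    have a2 := ih _ (h.set hJ' π.y) (by change π.J + 1 + k ≤ J; omega) h2 h3 h4 h5 h6' h7
    have a3 := minkowski_fin R (π.S.sigma fun p => marks π.S π.J p)
      (ω := fun d => (1 + ‖∑ p ∈ π.S, π.xp d p‖) ^ (2 * k)) (fun _ _ => by positivity)
      (fun d x => π.xp d x.1 * chi x.1 d * π.cf x.1 x.2 * (π.dil x.1 x.2).F d)
      (e := fun x => 2 ^ k * (N x.1)⁻¹) (fun x _ => mul_nonneg (by positivity)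
        (inv_nonneg.2 (N_nonneg _))) hB (by
      rintro ⟨p, I⟩ hx
      obtain ⟨hp, hI⟩ := Finset.mem_sigma.1 hx
      obtain ⟨hpp, hp', -, -, hN⟩ := h.hS p hp
      have := ih _ (h.dil hp' I) (by change π.J - I.card + k ≤ J; omega)
        ((h.y_cut hpp.ne_zero hI).2.trans h2) h3 h4 h5
        (by
          refine le_trans ?_ h6
          change N (π.H * p) * _ ≤ _
          rw [N_mul, pow_succ', mul_assoc]
          exact mul_le_mul_of_nonneg_left (mul_le_mul_of_nonneg_right (h5 ▸ hN) (by positivity))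
            (N_nonneg _))
        ((Finset.sum_le_sum_of_subset_of_nonneg (Finset.filter_subset _ _)
          fun p _ _ => inv_nonneg.2 (N_nonneg p)).trans h7)
      refine le_trans ?_ (mul_le_mul_of_nonneg_right this (sq_nonneg _))
      rw [Finset.sum_mul]
      refine Finset.sum_le_sum fun d _ => ?_
      refine (mul_le_mul (pow_le_pow_left₀ (by positivity) (fmf1_u h hp I d) _)
        (pow_le_pow_left₀ (norm_nonneg _) ((norm_mul_le _ _).trans (mul_le_mul_of_nonneg_right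
          (fmf1_coef h hp hI d) (norm_nonneg _))) 2) (by positivity) (by positivity)).trans_eq ?_
      rw [mul_pow 2]
      ring)
    have a4 : ∑ x ∈ π.S.sigma fun p => marks π.S π.J p, 2 ^ k * (N x.1)⁻¹ ≤ 2 ^ (k + 1) * σ := by
      rw [Finset.sum_sigma]
      refine le_trans ?_ (mul_le_mul_of_nonneg_left h7 (by positivity))
      rw [Finset.mul_sum]
      refine Finset.sum_le_sum fun p hp => ?_
      have : ((marks π.S π.J p).card : ℝ) ≤ 2 := by exact_mod_cast fmf1_card h hp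
      simp only [Finset.sum_const, nsmul_eq_mul]
      rw [pow_succ', mul_assoc]
      exact mul_le_mul_of_nonneg_right this (mul_nonneg (by positivity)
        (inv_nonneg.2 (N_nonneg _)))
    replace a3 := a3.trans (mul_le_mul_of_nonneg_left (pow_le_pow_left₀ (Finset.sum_nonneg
      fun x _ => mul_nonneg (by positivity) (inv_nonneg.2 (N_nonneg _))) a4 2) hB)
    have hJr : ((π.J + 1 : ℕ) : ℝ) ≤ J := by exact_mod_cast (by omega : π.J + 1 ≤ J)
    calc _ ≤ ∑ d ∈ R, 3 * (‖π.F d‖ ^ 2 * (1 + ‖∑ p ∈ π.S, π.xp d p‖) ^ (2 * k) +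
          J ^ 2 * (‖(π.set (π.J + 1) π.y).F d‖ ^ 2 * (1 + ‖∑ p ∈ π.S, π.xp d p‖) ^ (2 * k)) +
          (1 + ‖∑ p ∈ π.S, π.xp d p‖) ^ (2 * k) * ‖∑ x ∈ π.S.sigma fun p => marks π.S π.J p,
            π.xp d x.1 * chi x.1 d * π.cf x.1 x.2 * (π.dil x.1 x.2).F d‖ ^ 2) := by
          refine Finset.sum_le_sum fun d _ => ?_
          have e := h.p1_mul_F hJ' d
          simp only [Finset.mul_sum, ← mul_assoc] at e
          rw [Finset.sum_sigma'] at e
          generalize ∑ x ∈ π.S.sigma fun p => marks π.S π.J p,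
            π.xp d x.1 * chi x.1 d * π.cf x.1 x.2 * (π.dil x.1 x.2).F d = T at e ⊢
          have e1 := (congrArg norm e).trans_le (norm_add_le _ _)
          rw [norm_mul, norm_mul, Complex.norm_natCast] at e1
          have e2 := mul_le_mul_of_nonneg_right hJr (norm_nonneg ((π.set (π.J + 1) π.y).F d))
          have e3 : (‖π.F d‖ * (1 + ‖∑ p ∈ π.S, π.xp d p‖)) ^ 2 ≤
              (‖π.F d‖ + J * ‖(π.set (π.J + 1) π.y).F d‖ + ‖T‖) ^ 2 :=
            pow_le_pow_left₀ (by positivity) (by linarith) 2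
          generalize ‖π.F d‖ = x at e3 ⊢
          generalize ‖(π.set (π.J + 1) π.y).F d‖ = x' at e3 ⊢
          generalize ‖T‖ = x'' at e3 ⊢
          have e4 : (x + J * x' + x'') ^ 2 ≤ 3 * (x ^ 2 + (J * x') ^ 2 + x'' ^ 2) := by
            nlinarith [sq_nonneg (x - J * x'), sq_nonneg (x - x''), sq_nonneg (J * x' - x'')]
          have e5 := mul_le_mul_of_nonneg_right (e3.trans e4)
            (by positivity : 0 ≤ (1 + ‖∑ p ∈ π.S, π.xp d p‖) ^ (2 * k))
          exact le_of_eq_of_le (by ring) (e5.trans_eq (by ring))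
      _ ≤ 3 * (c ^ (2 * k) * 𝓔 + J ^ 2 * (c ^ (2 * k) * 𝓔) +
          c ^ (2 * k) * 𝓔 * (2 ^ (k + 1) * σ) ^ 2) := by
          rw [← Finset.mul_sum, Finset.sum_add_distrib, Finset.sum_add_distrib, ← Finset.mul_sum]
          exact mul_le_mul_of_nonneg_left (add_le_add (add_le_add a1
            (mul_le_mul_of_nonneg_left a2 (sq_nonneg _))) a3) (by norm_num)
      _ = (3 * (1 + J ^ 2 + (2 ^ (k + 1) * σ) ^ 2)) * c ^ (2 * k) * 𝓔 := by ring
      _ ≤ (2 * c) ^ 2 * (2 * c) ^ (2 * k) * 𝓔 := by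
          have hc0 : 0 ≤ c := by positivity
          have b1 : (1 : ℝ) ≤ 2 ^ (k + 1) := one_le_pow₀ one_le_two
          have b2 : (0 : ℝ) ≤ J := J.cast_nonneg
          have b3 : 1 + J + 2 ^ (k + 1) * σ ≤ c := by rw [hc]; nlinarith
          have b4 : 0 ≤ 2 ^ (k + 1) * σ := by positivity
          have b5 := pow_le_pow_left₀ (by positivity) b3 2
          gcongr
          · generalize 2 ^ (k + 1) * σ = s at b4 b5 ⊢
            nlinarith [mul_nonneg b2 b4, sq_nonneg c]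
          · linarith
      _ = _ := by rw [hc]; ring

end Crest.Agent.R17.FM
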