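import Crest.Agent.R17.FMoment_Link

/-!
# R17 / FMoment / F5 : amplification of the rows by sixth powers

Definitions in `FMoment_Defs.lean`.  Prefix helper lemmas with `fmf5_`.
-/

set_option autoImplicit false

noncomputable section

open scoped Classical ComplexConjugate
open MeasureTheory

namespace Crest.Agent.R17.FM

/-- the Möbius function split along the gcd with `a` -/
theorem fmf5_mu {a n : O} (ha : Prim a) (hn : Prim n) :
    mu n = ∑ e ∈ pdiv a, if e ∣ n then (if IsCoprime (n / e) a then mu e * mu (n / e) else 0)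
      else 0 := by
  obtain ⟨g, n', a', hg, hn', ha', rfl, rfl, hc⟩ := exists_prim_gcd hn ha
  have hgm : g ∈ pdiv (g * a') := (mem_pdiv ha.ne_zero).2 ⟨hg, dvd_mul_right _ _⟩
  rw [Finset.sum_eq_single_of_mem g hgm]
  · rw [if_pos (dvd_mul_right _ _), mul_div_cancel_left₀ _ hg.ne_zero]
    split_ifs with h
    · exact mu_mul (h.of_mul_right_left).symm
    · refine mu_eq_zero fun hs => h ?_
      exact ((squarefree_mul_iff.1 hs).1.isCoprime.symm).mul_right hc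
  · intro e he hne
    obtain ⟨he1, he2⟩ := (mem_pdiv ha.ne_zero).1 he
    split_ifs with h1 h2
    · exfalso
      obtain ⟨m, hm⟩ := h1
      rw [hm, mul_div_cancel_left₀ _ he1.ne_zero] at h2
      refine hne (he1.eq_of_associated hg (associated_of_dvd_dvd ?_ ?_))
      · obtain ⟨u, v, huv⟩ := hc
        have e1 : g = u * (g * n') + v * (g * a') := by linear_combination -g * huv
        rw [e1]
        exact dvd_add (Dvd.dvd.mul_left ⟨m, hm⟩ _) (he2.mul_left _)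
      · exact (h2.of_mul_right_left.symm).dvd_of_dvd_mul_right ⟨n', hm.symm⟩
    · rfl
    · rfl

theorem fmf5_P0 {Q : Lev} {ν : O → ℂ} (hν : ν ∈ hchars Q.q) {n : O} (hn : Prim n) (h : ν n ≠ 0) :
    IsCoprime n 6 := by
  have h1 : P0 Q n := ⟨hn, by
    by_contra h2
    exact h ((((mem_hchars Q.ne).1 hν).1.zero_iff n).2 h2)⟩
  exact h1.isCoprime_six

theorem fmf5_rc {Q : Lev} {ν : O → ℂ} (hν : ν ∈ hchars Q.q) {n : O} (hn : Prim n) (d : O) :
    ‖ν n * chi n d‖ ≤ 1 := by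
  by_cases h : ν n = 0
  · simp [h]
  · exact Par.fmal_one (norm_hchar_le Q hν n)
      (norm_sym_le (k := 6) (by simp) (by simpa using fmf5_P0 hν hn h) d)

theorem fmf5_six {n : O} (hn : IsCoprime n 6) (d a : O) :
    chi n (d * a ^ 6) = if IsCoprime n a then chi n d else 0 := by
  have h := rkey_chi hn
  have h1 : ∀ j : ℕ, chi n (a ^ j) = chi n a ^ j := by
    intro j
    induction j with
    | zero => simpa using h.one
    | succ j ih => rw [pow_succ, h.mul, ih, pow_succ]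
  have h2 : chi n a ^ 6 = if IsCoprime a n then 1 else 0 :=
    sym_pow_eq (k := 6) (by simp) (by simpa using hn) a
  rw [h.mul, h1, h2]
  by_cases hc : IsCoprime n a
  · rw [if_pos hc, if_pos hc.symm, mul_one]
  · rw [if_neg hc, if_neg fun h' => hc h'.symm, mul_zero]

/-- Split squarefree primary `n = e n'` with `e = gcd(n,a)`:
`μ(n) = ∑_{e ∈ pdiv a, e ∣ n} μ(e) μ(n/e) 1_{(n/e, a) = 1}` (exactly one term for squarefree `n`, none
otherwise since the product would be squarefree), `pb_dvd`, `blks_sum`, `blks_smul`, and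
`χ_{n'}(d) 1_{(n',a)=1} = χ_{n'}(d a⁶)` when `ν n' ≠ 0` (`sym_pow_eq`). -/
theorem pb_amplify (Q : Lev) {ν : O → ℂ} (hν : ν ∈ hchars Q.q) {a : O} (ha : Prim a) (d : O)
    (y t : ℝ) :
    pb (mm (rc ν d)) y t = ∑ e ∈ pdiv a, mu e * ν e * chi e d *
      (N e : ℂ) ^ (-(1 / 2 + t * Complex.I)) *
        pb (mm (rc ν (d * a ^ 6))) (y - Real.log (N e)) t := by
  set H : O → O → ℂ := fun e n =>
    (if IsCoprime (n / e) a then mu e * mu (n / e) else 0) * (ν n * chi n d) with hH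
  have h1 : prim (mm (rc ν d)) =
      fun n => ∑ e ∈ pdiv a, prim (fun n => if e ∣ n then H e n else 0) n := by
    funext n
    unfold prim
    by_cases hn : Prim n
    · simp only [if_pos hn]
      unfold mm rc
      rw [fmf5_mu ha hn, Finset.sum_mul]
      refine Finset.sum_congr rfl fun e _ => ?_
      by_cases h : e ∣ n
      · rw [if_pos h, if_pos h]
      · rw [if_neg h, if_neg h, zero_mul]
    · simp [hn]
  have h2 : ∀ e, PolyBd (prim (fun n => if e ∣ n then H e n else 0)) := by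
    intro e
    refine bk2_polyBd fun n => ?_
    unfold prim
    beta_reduce
    split_ifs with hn h
    · refine Par.fmal_one ?_ (fmf5_rc hν hn d)
      split_ifs
      · exact Par.fmal_one (norm_mu_le _) (norm_mu_le _)
      · simp
    · simp
    · simp
  have h3 : pb (mm (rc ν d)) y t = ∑ e ∈ pdiv a, pb (fun n => if e ∣ n then H e n else 0) y t := by
    unfold pb blk
    rw [h1, blks_sum _ fun e _ => h2 e]
  rw [h3]
  refine Finset.sum_congr rfl fun e he => ?_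
  have he' := ((mem_pdiv ha.ne_zero).1 he).1
  have h4 : pb (fun m => H e (e * m)) (y - Real.log (N e)) t =
      mu e * ν e * chi e d * pb (mm (rc ν (d * a ^ 6))) (y - Real.log (N e)) t := by
    unfold pb blk
    rw [← blks_smul]
    congr 1
    funext m
    unfold prim
    split_ifs with hm
    · simp only [hH, mm, rc]
      have e1 : chi (e * m) d = chi e d * chi m d := sym_mul_left 6 he'.ne_zero hm.ne_zero d
      rw [mul_div_cancel_left₀ _ he'.ne_zero, ((mem_hchars Q.ne).1 hν).1.mul, e1]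
      by_cases h : ν m = 0
      · simp [h]
      · rw [fmf5_six (fmf5_P0 hν hm h)]
        split_ifs
        · ring
        · ring
    · simp
  rw [pb_dvd he', h4]
  ring

/-- one amplifier -/
theorem fmf5_one (Q : Lev) {ν : O → ℂ} (hν : ν ∈ hchars Q.q) {a : O} (ha : Prim a) (d : O)
    (y t : ℝ) :
    ‖pb (mm (rc ν d)) y t‖ ^ 2 ≤ dv a * ∑ e ∈ pdiv a,
      (N e)⁻¹ * ‖pb (mm (rc ν (d * a ^ 6))) (y - Real.log (N e)) t‖ ^ 2 := by
  rw [pb_amplify Q hν ha d y t]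
  refine (norm_sum_sq_le _ _).trans (mul_le_mul_of_nonneg_left
    (Finset.sum_le_sum fun e he => ?_) (Nat.cast_nonneg _))
  have he' := ((mem_pdiv ha.ne_zero).1 he).1
  have h1 : ‖mu e * ν e * chi e d‖ ≤ 1 := by
    rw [mul_assoc]; exact Par.fmal_one (norm_mu_le e) (fmf5_rc hν he' d)
  have h2 := Par.fmal_norm he'.ne_zero t h1
  have h3 : (N e ^ (-(1 / 2 : ℝ))) ^ 2 = (N e)⁻¹ := by
    rw [← Real.rpow_natCast, ← Real.rpow_mul (N_nonneg e), ← Real.rpow_neg_one]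
    norm_num
  rw [norm_mul, mul_pow, ← h3]
  exact mul_le_mul_of_nonneg_right (pow_le_pow_left₀ (norm_nonneg _) h2 2) (sq_nonneg _)

/-- the fibres of `(d, a) ↦ d a⁶` -/
theorem fmf5_fib (A : Finset O) {D 𝒜 : ℝ} (hD : 0 ≤ D) (hA : ∀ a ∈ A, Prim a ∧ N a ≤ 𝒜)
    {f : O → ℝ} (hf : ∀ ρ, 0 ≤ f ρ) :
    ∑ a ∈ A, ∑ d ∈ ball D, f (d * a ^ 6) ≤ ∑ ρ ∈ ball (D * 𝒜 ^ 6), dv ρ * f ρ := by
  have h1 : ∀ a ∈ A, ∑ d ∈ ball D, f (d * a ^ 6) ≤
      ∑ ρ ∈ ball (D * 𝒜 ^ 6), if a ∈ pdiv ρ then f ρ else 0 := by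
    intro a ha
    obtain ⟨ha1, ha2⟩ := hA a ha
    have h6 : a ^ 6 ≠ 0 := pow_ne_zero _ ha1.ne_zero
    rw [← Finset.sum_filter, ← Finset.sum_image (s := ball D) (g := fun d => d * a ^ 6)
      (fun x _ y _ h => mul_right_cancel₀ h6 h)]
    refine Finset.sum_le_sum_of_subset_of_nonneg (fun ρ hρ => ?_) fun ρ _ _ => hf ρ
    obtain ⟨d, hd, rfl⟩ := Finset.mem_image.1 hρ
    obtain ⟨hd1, hd2⟩ := mem_ball.1 hd
    have h0 : d * a ^ 6 ≠ 0 := mul_ne_zero hd1 h6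
    refine Finset.mem_filter.2 ⟨mem_ball.2 ⟨h0, ?_⟩, (mem_pdiv h0).2 ⟨ha1, ⟨d * a ^ 5, by ring⟩⟩⟩
    rw [N_mul, N_pow]
    exact mul_le_mul hd2 (pow_le_pow_left₀ (N_nonneg a) ha2 6) (pow_nonneg (N_nonneg a) 6) hD
  refine (Finset.sum_le_sum h1).trans ?_
  rw [Finset.sum_comm]
  refine Finset.sum_le_sum fun ρ _ => ?_
  rw [← Finset.sum_filter, Finset.sum_const, nsmul_eq_mul]
  refine mul_le_mul_of_nonneg_right ?_ (hf ρ)
  unfold dv
  exact_mod_cast Finset.card_le_card fun a ha => (Finset.mem_filter.1 ha).2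

/-- Average `‖M_d(y)‖² ≤ dv a ∑_{e ∣ a} (N e)⁻¹ ‖M_{d a⁶}(y - log N e)‖²` over `a ∈ 𝒫₀`, `N a ≤ 𝒜`
(`card_P0_ge`); for fixed `e` the map `(d,a) ↦ d a⁶ ∈ ball (D 𝒜⁶)` has fibres of size `≤ dv ρ`;
`∑_{e ∈ ball 𝒜} (N e)⁻¹ ≤ ∑ N e^{-1+θ} ≤ C 𝒜^θ` (`sum_ball_rpow`). -/
theorem amplify_rows (Q : Lev) {θ : ℝ} (hθ : 0 < θ) : ∃ C, 0 ≤ C ∧ ∀ ν ∈ hchars Q.q,
    ∀ D 𝒜 y t 𝓔 : ℝ, 1 ≤ D → 1 ≤ 𝒜 → 0 ≤ 𝓔 →
    (∀ y' ≤ y, ∑ ρ ∈ ball (D * 𝒜 ^ 6), ‖pb (mm (rc ν ρ)) y' t‖ ^ 2 ≤ 𝓔) →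
      ∑ d ∈ ball D, ‖pb (mm (rc ν d)) y t‖ ^ 2 ≤ C * (D * 𝒜 ^ 6) ^ θ / 𝒜 * 𝓔 := by
  have hθ3 : 0 < θ / 3 := by positivity
  obtain ⟨c, hc, hcard⟩ := card_P0_ge Q
  obtain ⟨C1, hC1, hdv⟩ := dv_le hθ3
  obtain ⟨C2, hC2, hsum⟩ := sum_N_rpow_le hθ3
  refine ⟨C1 * C2 * C1 / c, by positivity, fun ν hν D 𝒜 y t 𝓔 hD h𝒜 h𝓔 H => ?_⟩
  set A := (ball 𝒜).filter (fun a => P0 Q a) with hAdef
  set M : O → ℝ → ℝ := fun d y => ‖pb (mm (rc ν d)) y t‖ ^ 2 with hM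
  set Z := D * 𝒜 ^ 6 with hZ
  set z := Z ^ (θ / 3) with hz
  have hM0 : ∀ d y, 0 ≤ M d y := fun d y => sq_nonneg _
  have hA : ∀ a ∈ A, Prim a ∧ N a ≤ 𝒜 := fun a ha =>
    ⟨(Finset.mem_filter.1 ha).2.1, (mem_ball.1 (Finset.mem_filter.1 ha).1).2⟩
  have h𝒜Z : 𝒜 ≤ Z := by
    have h1 : 𝒜 ≤ 𝒜 ^ 6 := le_self_pow₀ h𝒜 (by norm_num)
    exact h1.trans (le_mul_of_one_le_left (by positivity) hD)
  have hZ0 : 0 ≤ Z := by positivity
  have hz0 : 0 ≤ z := Real.rpow_nonneg hZ0 _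
  have hpow : ∀ n : O, N n ≤ Z → N n ^ (θ / 3) ≤ z := fun n hn =>
    Real.rpow_le_rpow (N_nonneg n) hn hθ3.le
  have hdv' : ∀ n : O, n ≠ 0 → N n ≤ Z → dv n ≤ C1 * z := fun n hn h =>
    (hdv n hn).trans (mul_le_mul_of_nonneg_left (hpow n h) (by positivity))
  -- the amplified sums
  have h1 : ∀ y' ≤ y, ∑ a ∈ A, ∑ d ∈ ball D, M (d * a ^ 6) y' ≤ C1 * z * 𝓔 := by
    intro y' hy'
    refine (fmf5_fib A (by positivity) hA (f := fun ρ => M ρ y') fun ρ => hM0 ρ y').trans ?_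
    refine le_trans ?_ (mul_le_mul_of_nonneg_left (H y' hy') (by positivity))
    rw [Finset.mul_sum]
    refine Finset.sum_le_sum fun ρ hρ => ?_
    exact mul_le_mul_of_nonneg_right (hdv' ρ (mem_ball.1 hρ).1 (mem_ball.1 hρ).2) (hM0 ρ y')
  have h2 : ∑ e ∈ ball 𝒜, (N e)⁻¹ ≤ C2 * z := by
    refine le_trans ?_ (mul_le_mul_of_nonneg_right (hsum (ball 𝒜)) hz0)
    rw [Finset.sum_mul]
    refine Finset.sum_le_sum fun e he => ?_
    obtain ⟨he1, he2⟩ := mem_ball.1 he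
    have e1 : (N e)⁻¹ = N e ^ (-1 - θ / 3) * N e ^ (θ / 3) := by
      rw [← Real.rpow_add (N_pos he1), ← Real.rpow_neg_one]; congr 1; ring
    rw [e1]
    exact mul_le_mul_of_nonneg_left (hpow e (he2.trans h𝒜Z)) (Real.rpow_nonneg (N_nonneg e) _)
  have h3 : ∀ a ∈ A, ∀ d, M d y ≤
      C1 * z * ∑ e ∈ ball 𝒜, (N e)⁻¹ * M (d * a ^ 6) (y - Real.log (N e)) := by
    intro a ha d
    obtain ⟨ha1, ha2⟩ := hA a ha
    have hnn : ∀ e, 0 ≤ (N e)⁻¹ * M (d * a ^ 6) (y - Real.log (N e)) := fun e =>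
      mul_nonneg (inv_nonneg.2 (N_nonneg e)) (hM0 _ _)
    refine (fmf5_one Q hν ha1 d y t).trans (mul_le_mul (hdv' a ha1.ne_zero (ha2.trans h𝒜Z))
      (Finset.sum_le_sum_of_subset_of_nonneg (fun e he => ?_) fun e _ _ => hnn e)
      (Finset.sum_nonneg fun e _ => hnn e) (by positivity))
    obtain ⟨he1, he2⟩ := (mem_pdiv ha1.ne_zero).1 he
    exact mem_ball.2 ⟨he1.ne_zero, (N_le_of_dvd ha1.ne_zero he2).trans ha2⟩
  have h4 : (A.card : ℝ) * ∑ d ∈ ball D, M d y ≤ C1 * z * (C2 * z * (C1 * z * 𝓔)) := by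
    calc (A.card : ℝ) * ∑ d ∈ ball D, M d y = ∑ a ∈ A, ∑ d ∈ ball D, M d y := by
          rw [Finset.sum_const, nsmul_eq_mul]
      _ ≤ ∑ a ∈ A, ∑ d ∈ ball D,
            C1 * z * ∑ e ∈ ball 𝒜, (N e)⁻¹ * M (d * a ^ 6) (y - Real.log (N e)) :=
          Finset.sum_le_sum fun a ha => Finset.sum_le_sum fun d _ => h3 a ha d
      _ = C1 * z * ∑ e ∈ ball 𝒜, (N e)⁻¹ *
            ∑ a ∈ A, ∑ d ∈ ball D, M (d * a ^ 6) (y - Real.log (N e)) := by
          simp only [← Finset.mul_sum]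
          congr 1
          simp only [Finset.mul_sum]
          rw [Finset.sum_comm (s := ball 𝒜)]
          exact Finset.sum_congr rfl fun a _ => Finset.sum_comm
      _ ≤ C1 * z * ∑ e ∈ ball 𝒜, (N e)⁻¹ * (C1 * z * 𝓔) := by
          refine mul_le_mul_of_nonneg_left (Finset.sum_le_sum fun e he => ?_) (by positivity)
          refine mul_le_mul_of_nonneg_left (h1 _ ?_) (inv_nonneg.2 (N_nonneg e))
          have := Real.log_nonneg (one_le_N (mem_ball.1 he).1)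
          linarith
      _ ≤ C1 * z * (C2 * z * (C1 * z * 𝓔)) := by
          rw [← Finset.sum_mul]
          exact mul_le_mul_of_nonneg_left (mul_le_mul_of_nonneg_right h2 (by positivity))
            (by positivity)
  have h5 : Z ^ θ = z * z * z := by
    have hZp : 0 < Z := by positivity
    rw [hz, ← Real.rpow_add hZp, ← Real.rpow_add hZp]; congr 1; ring
  have h6 : c * 𝒜 * ∑ d ∈ ball D, M d y ≤ C1 * z * (C2 * z * (C1 * z * 𝓔)) :=
    (mul_le_mul_of_nonneg_right (hcard 𝒜 h𝒜) (Finset.sum_nonneg fun d _ => hM0 d y)).trans h4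
  have h7 : C1 * C2 * C1 / c * Z ^ θ / 𝒜 * 𝓔 = C1 * z * (C2 * z * (C1 * z * 𝓔)) / (c * 𝒜) := by
    rw [h5]; field_simp
  rw [h7, le_div_iff₀ (by positivity), mul_comm]
  exact h6

end Crest.Agent.R17.FM
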