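import Crest.Agent.R17.FMoment_Step

/-!
# R17 / FMoment / Ind : the induction

Definitions in `FMoment_Defs.lean`.  Prefix helper lemmas with `fmind_`.
-/

set_option autoImplicit false

noncomputable section

open scoped Classical ComplexConjugate
open MeasureTheory

namespace Crest.Agent.R17.FM

theorem fmind_mono {Q : Lev} {J0 : ℕ} {δ E M M' : ℝ} {B : ℕ} {X : ℝ} (h : Bnd Q J0 δ E M B X)
    (hM : M ≤ M') : Bnd Q J0 δ E M' B X := by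
  intro π hπ hH D h1 h2 h3
  have hD1 : 1 ≤ D := (one_le_pow₀ hπ.one_le_L).trans h3
  have hl := Real.rpow_nonneg hπ.len_pos.le δ
  refine (h π hπ hH D h1 h2 h3).trans ?_
  gcongr

/-- Induction on `j`; base `short`; `C_{j+1} E^{c(j+1)} G^{c+2} ≥ C E^c (G^c + C_j E^{cj} G^{c+2})`. -/
theorem bnd_pow : ∃ c : ℕ, ∀ (Q : Lev) (J0 : ℕ) (δ : ℝ), 0 < δ → δ ≤ 1 / 8 → ∀ j : ℕ,
    ∃ (C : ℝ) (B : ℕ), 1 ≤ C ∧ ∀ E G : ℝ, 1 ≤ E → 1 ≤ G → (G ^ (j + 1)) ^ δ ≤ E →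
      Bnd Q J0 δ E (C * E ^ (c * j) * G ^ (c + 2)) B (G ^ (j + 1)) := by
  obtain ⟨c, hc⟩ := step
  refine ⟨c, fun Q J0 δ hδ hδ1 j => ?_⟩
  induction j with
  | zero =>
    obtain ⟨C, hC, h⟩ := short J0 hδ hδ1
    refine ⟨C, 0, hC, fun E G hE hG _ π hπ _ D h1 h2 h3 => ?_⟩
    have hD1 : 1 ≤ D := (one_le_pow₀ hπ.one_le_L).trans h3
    have hl := Real.rpow_nonneg hπ.len_pos.le δ
    refine (h Q E π hπ D G hD1 hG (Or.inl (by simpa using h1))).trans ?_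
    have : G ^ 2 ≤ G ^ (c + 2) := pow_le_pow_right₀ hG (by omega)
    simp only [mul_zero, pow_zero, mul_one]
    gcongr
  | succ j ih =>
    obtain ⟨C, B, hC, h⟩ := ih
    obtain ⟨C', B', hC', h'⟩ := hc Q J0 B δ hδ hδ1
    refine ⟨C' * (1 + C), B', one_le_mul_of_one_le_of_one_le hC' (by linarith),
      fun E G hE hG hGE => ?_⟩
    have hG0 : 0 < G := by linarith
    have h1 : (G ^ (j + 1)) ^ δ ≤ E :=
      (Real.rpow_le_rpow (by positivity) (pow_le_pow_right₀ hG (by omega)) hδ.le).trans hGE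
    have h2 : G ^ (j + 1 + 1) / G = G ^ (j + 1) := by rw [pow_succ G (j + 1)]; field_simp
    have hM : 1 ≤ C * E ^ (c * j) * G ^ (c + 2) :=
      one_le_mul_of_one_le_of_one_le (one_le_mul_of_one_le_of_one_le hC (one_le_pow₀ hE))
        (one_le_pow₀ hG)
    refine fmind_mono (h' E G _ _ hG hM hGE (by rw [h2]; exact h E G hE hG h1)) ?_
    have h3 : G ^ c ≤ E ^ (c * j) * G ^ (c + 2) :=
      (pow_le_pow_right₀ hG (by omega)).trans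
        (le_mul_of_one_le_left (by positivity) (one_le_pow₀ hE))
    calc C' * E ^ c * (G ^ c + C * E ^ (c * j) * G ^ (c + 2))
        ≤ C' * E ^ c * (E ^ (c * j) * G ^ (c + 2) + C * E ^ (c * j) * G ^ (c + 2)) := by gcongr
      _ = _ := by ring

/-- Let `A' = max A 1`, `η = ε/(3(c+2))`, `j = ⌈A'/η⌉₊`, `G = Z^η`, `E = Z^{δ a}` with
`a = η (j+1) + 1`, and `δ ≤ 1/8` so small that `c j δ a ≤ ε/3` and `2 A' δ ≤ ε/3`; `η1 = δ`.  `bnd_pow`,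
`toH`, `OK.mono`, `ball_le_Mo`; `len ≤ len · L ≤ D ≤ Z^A ≤ G^{j+1}`. -/
theorem final (A : ℝ) {ε : ℝ} (hε : 0 < ε) : ∃ η1 > (0 : ℝ), η1 ≤ 1 ∧ ∀ (Q : Lev) (J0 : ℕ),
    ∃ (C : ℝ) (B : ℕ), 0 ≤ C ∧ ∀ Z : ℝ, 1 ≤ Z → ∀ π : Par, π.OK Q J0 (Z ^ η1) → ∀ D : ℝ,
      D ≤ Z ^ A → N π.H ≤ Z ^ A → π.len * π.L ≤ D → π.L ^ 6 ≤ D →
      ∑ d ∈ ball D, ‖π.F d‖ ^ 2 ≤ C * Z ^ ε * (1 + |π.t|) ^ B * D := by
  obtain ⟨c, hc⟩ := bnd_pow
  obtain ⟨A', hA'⟩ : ∃ A', A' = max A 1 := ⟨_, rfl⟩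
  have hA1 : 1 ≤ A' := hA' ▸ le_max_right _ _
  have hA2 : A ≤ A' := hA' ▸ le_max_left _ _
  obtain ⟨η, hη⟩ : ∃ η, η = ε / (3 * (c + 2)) := ⟨_, rfl⟩
  have hη0 : 0 < η := by rw [hη]; positivity
  have hη1 : η * (c + 2) = ε / 3 := by rw [hη]; field_simp
  obtain ⟨j, hj⟩ : ∃ j : ℕ, A' ≤ η * (j + 1) := by
    refine ⟨⌈A' / η⌉₊, ?_⟩
    have := Nat.le_ceil (A' / η)
    rw [div_le_iff₀ hη0] at this
    nlinarith
  obtain ⟨a, ha⟩ : ∃ a, a = η * (j + 1) + 1 := ⟨_, rfl⟩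
  have ha1 : 1 ≤ a := by rw [ha]; nlinarith [(Nat.cast_nonneg j : (0 : ℝ) ≤ j)]
  obtain ⟨w, hw⟩ : ∃ w, w = a * (c * j : ℕ) + 2 * A' := ⟨_, rfl⟩
  have hw0 : 0 < w := by rw [hw]; positivity
  obtain ⟨δ, hδ⟩ : ∃ δ, δ = min (1 / 8) (2 * ε / 3 / w) := ⟨_, rfl⟩
  have hδ0 : 0 < δ := by rw [hδ]; positivity
  have hδ1 : δ ≤ 1 / 8 := hδ ▸ min_le_left _ _
  have hδ2 : δ * w ≤ 2 * ε / 3 := by
    rw [← le_div_iff₀ hw0, hδ]; exact min_le_right _ _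
  refine ⟨δ, hδ0, by linarith, fun Q J0 => ?_⟩
  obtain ⟨C, B, hC, h⟩ := hc Q J0 δ hδ0 hδ1 j
  obtain ⟨CH, hCH, hH⟩ := toH hδ0
  refine ⟨Real.exp c0 * (CH * C), B, by positivity, fun Z hZ π hπ D hD hHZ h2 h4 => ?_⟩
  have hZ0 : 0 < Z := by linarith
  have hE : 1 ≤ Z ^ (δ * a) := Real.one_le_rpow hZ (by positivity)
  have hG : 1 ≤ Z ^ η := Real.one_le_rpow hZ hη0.le
  have e1 : (Z ^ η) ^ (j + 1) = Z ^ (η * (j + 1)) := by
    rw [← Real.rpow_natCast, ← Real.rpow_mul hZ0.le]; push_cast; rfl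
  have hGE : ((Z ^ η) ^ (j + 1)) ^ δ ≤ Z ^ (δ * a) := by
    rw [e1, ← Real.rpow_mul hZ0.le]
    refine Real.rpow_le_rpow_of_exponent_le hZ ?_
    rw [ha]; nlinarith
  have hπ' : π.OK Q J0 (Z ^ (δ * a)) :=
    hπ.mono (Real.rpow_le_rpow_of_exponent_le hZ (by nlinarith))
  have hL := hπ.one_le_L
  have hl := hπ.len_pos
  have hD1 : 1 ≤ D := (one_le_pow₀ hL).trans h4
  have hZA : Z ^ A ≤ Z ^ A' := Real.rpow_le_rpow_of_exponent_le hZ hA2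
  have hlen : π.len ≤ Z ^ A' := (le_mul_of_one_le_right hl.le hL).trans (h2.trans (hD.trans hZA))
  have k1 := hH Q J0 _ _ B _ (by positivity) (h _ _ hE hG hGE) π hπ' D
    (hlen.trans (by rw [e1]; exact Real.rpow_le_rpow_of_exponent_le hZ hj)) h2 h4
  have k2 := ball_le_Mo hπ.rapid hπ.supp6 (D := D) (by linarith)
  have k3 : N π.H ^ (δ / 2) ≤ Z ^ (A' * δ) := by
    refine (Real.rpow_le_rpow (N_nonneg _) (hHZ.trans hZA) (by positivity)).trans ?_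
    rw [← Real.rpow_mul hZ0.le]
    exact Real.rpow_le_rpow_of_exponent_le hZ (by nlinarith)
  have k4 : π.len ^ δ ≤ Z ^ (A' * δ) := by
    refine (Real.rpow_le_rpow hl.le hlen hδ0.le).trans ?_
    rw [← Real.rpow_mul hZ0.le]
  have k5 : (Z ^ (δ * a)) ^ (c * j) * (Z ^ η) ^ (c + 2) * Z ^ (A' * δ) * Z ^ (A' * δ) ≤ Z ^ ε := by
    rw [← Real.rpow_natCast, ← Real.rpow_natCast, ← Real.rpow_mul hZ0.le, ← Real.rpow_mul hZ0.le,
      ← Real.rpow_add hZ0, ← Real.rpow_add hZ0, ← Real.rpow_add hZ0]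
    refine Real.rpow_le_rpow_of_exponent_le hZ ?_
    rw [hw] at hδ2
    push_cast at hδ2 ⊢
    nlinarith
  have hN := Real.rpow_nonneg (N_nonneg π.H) (δ / 2)
  have hl' := Real.rpow_nonneg hl.le δ
  refine k2.trans ?_
  calc Real.exp c0 * Mo π.al D
      ≤ Real.exp c0 * (CH * (C * (Z ^ (δ * a)) ^ (c * j) * (Z ^ η) ^ (c + 2)) * Z ^ (A' * δ) *
        (1 + |π.t|) ^ B * D * Z ^ (A' * δ)) := by
        refine mul_le_mul_of_nonneg_left (k1.trans ?_) (Real.exp_pos _).le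
        gcongr
    _ = Real.exp c0 * (CH * C) * ((Z ^ (δ * a)) ^ (c * j) * (Z ^ η) ^ (c + 2) * Z ^ (A' * δ) *
        Z ^ (A' * δ)) * (1 + |π.t|) ^ B * D := by ring
    _ ≤ _ := by gcongr

end Crest.Agent.R17.FM
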