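import Crest.Agent.R17.ThetaNorm
import Crest.Agent.R17.Back
import Crest.Agent.R17.Block
import Crest.Agent.R17.FMoment_Ind
import Crest.Agent.R17.FMoment_F1
import Crest.Agent.R17.FMoment_F5

/-!
# R17 / FMoment : the marked second moment of Möbius blocks over the sextic family  (PART F)

(The formal proof is in the files `FMoment_*`, see `FMoment_Defs`; it follows the plan below.)

Write `Mk ν S J a d y t = ∑' n, α n χ_n(d)` with `α` supported on squarefree `𝒫₀`, `L = P2^J`,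
`X = e^y L` (total length), `𝓑(D) = ∑'_d Om(N d/D) |Mk|²`.  Fix `η` small (in terms of `ε`, `A` and the
`B0` of `thetaNorm`), `G₀ = Z^{2η}`, `ε' ≪ η₁ ≪ η²`.
**Claim A(j)**: `X ≤ Z^{jη}`, `e^y L² ≤ D`, `L⁶ ≤ D`, `1 ≤ D ≤ Z^{A+2-jγ}` (`γ = η/(A+3)`) ⇒
`𝓑(D) ≤ C_j Z^{Cη + j(ε' + Cη₁)} (1+|t|)^{B_j} D`, uniformly in `ν, S, J ≤ J₀, a`.
**A'(j)** (pull-out of marks; follows from A(j)): for arbitrary `D ≥ 1`, with `R = max(1,e^y)`,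
`𝓑(D) ≲ P2 · Φ(D,R,L)`, `Φ = D + D^{5/6} L + L √(R D) + R L`.  Let `D̃ = max(D,R)`, `J₁ ≤ J` maximal with
`R P2^{2J₁} ≤ D̃`, `P2^{6J₁} ≤ D̃`; `binom(J,J₁) Mk_J = ∑_{|I₁| = J-J₁} (∏ a χ/√N) Mk_{J₁}(S∖I₁; m ⊥ ∏I₁)`,
remove `m ⊥ H` by `mu_coprime_expand` (lengths `y - log N f`, weights `N f^{-1/2}`, `sum_smooth_le`),
Minkowski, `∑_{p∈S} N p^{-1/2} ≤ C √P2`.
**Base / short case**: if `X ≤ Z^η` or `e^y < L²`, use `tls`: `‖α‖² ≲ log^{J+1}`,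
`(∑|α|√N)² ≲ X² ≤ max(Z^{2η}, L⁶)`.
**Step** (`e^y ≥ L²`): `gcd_split`; `N g > G₀`: `gcd_large`, then `α(G·)` is a combination (marks
`I₁ ∣ G`, `≤ τ(G)` choices; `f ∣ G^∞`) of `N(G)^{-1/2} N(f)^{-1/2} Mk(ν, S∖{p∣G}, J-|I₁|, a, y')` with
`e^{y'} ≤ e^y` and total length `≤ X/N G`; apply A(j); `∑_G τ(G)³/N G ≲ Z^{ε'}` (for `N G > Z^{A+3}`
use `norm_blk_le_neg`).  `N g ≤ G₀`: `pstep` with `U = X² Z^{ε'}/(N(g)² D)`, `σ = ε'/(A+3)`; the weights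
`N(rm)^{-1/2+σ+iτ}` are absorbed by `blks_shift` and into `a'(p) = a(p)(N p/P1)^{-1/2+σ+iτ}`, giving the
prefactor `D/X` up to `(P2/P1)^J Z^{Cε'}`.
* `N r > G₀`: `back` (`K = U`, `U₂ = D Z^{ε'}/N r²`); rows `ρ = d g'² r²`, `N ρ ≤ D Z^{2ε'}`; the
  coefficient is `α(G m)`, `G = g r g' r'`; coprimality to `r, g'` (of `m` and of the marks) is
  automatic through `χ_·(ρ)`, coprimality to `g r'` is removed by `mu_coprime_expand`/shrinking `S`;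
  total weight `Z^{Cε'}/(N g N r')`; `local_sup` replaces the length (which depends on `r, g'`) by an
  integral over all `y' ≤ min(y+1, log(eX/G₀) - (J-i) log P2)`; the map `(d,g',r) ↦ ρ` has
  multiplicity `≤ Z^{ε'}`; apply A(j).  The diagonal term of `back` is `≲ X/(N g² N r)`.
* `N r ≤ G₀`: by `key_identity`, `Tsum` is a combination of sums
  `∑_{m squarefree, ∏I₂ ∣ m} tt m φ(m) conj χ_m(k) …` with `φ(m) = χ_m(-1) f1(m) ν(m) ν'(m) χ_m(r²)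
  1_{𝒫₀, (m,gr)=1}` periodic mod `Q₀ = q g r`.  Cube removal: with `T_c = ∑_m tt(mc³) φ(mc³) A(mc³) …`
  (`tau_mul_cube`: amplitude `1/N c`), `∑_{N c ≤ G₀} μ(c) T_c = S + Rem`, `Rem` = terms `m₀ c'³`,
  `N c' > G₀`, coefficient `≤ τ(c')` (`tau_ne_zero`).  `T_c` = combination (marks dividing `c`) of
  `Fth`, bounded by `thetaNorm`: `(D/X) Z^{Cη}(K + K²L/e^y + L³ + √K L e^{y/4})` with `K ≤ X² Z^{Cη}/D`
  is `≲ Z^{Cη}(X + e^{2y}L⁴/D + D L²/e^y + √D L e^{y/4}) ≤ 4 Z^{Cη} D`.  `Rem`: Minkowski over `c'`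
  (`∑ τ(c')²/N c' ≲ Z^{ε'}`), convert back with `key_identity`, `f1_mul`, `exists_hchar_sg`; `back` with
  the same `K` and `U₂ = D Z^{ε'}/(N r² N c'^6)`; the weight is now `N c'³/(N g N r')`, and A'(j) gives
  `N c'³ Φ(D Z^{2ε'}/N c'^6, R', L') ≲ D` because `e^{y'} ≤ e·e^y N(I₃)/N c'³`, `L' ≤ L/P2^{|I₃|}`
  (`I₃` = marks dividing `c'`); if `D Z^{2ε'}/N c'^6 < 1` there are no rows.
**f1Moment**: with `x_p = b_p χ_p(d)/(Λ √N p)`, `p₁ = ∑ x_p`, and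
`𝓜_j(S,H;y) = ∑_{|I|=j} x_I · pb(μνχ, m ⊥ H∏I)`: `p₁ 𝓜_j(S,H) = (j+1)𝓜_{j+1}(S,H) + ∑_p x_p² 𝓜_{j-1}(S∖p,Hp)
+ ∑_p x_p (unimodular) N p^{-1/2} 𝓜_j(S∖p, Hp; y - log N p) + (boundedly many terms)`; so in `ℓ²(d)`,
`‖p₁^k M‖ ≤ (C log Z)^k sup ‖𝓜_j‖`, and `(1+|P|)^{2J} ≤ 4^J (1 + |P|^{2J})`.
**f5Moment**: for `a ∈ 𝒫₀`, `M_d(y) = ∑_{e ∣ a} μ(e)νχ_e(d) N e^{-1/2-it} M_{d a⁶}(y - log N e)`;
average over `N a ≤ (R/D)^{1/6}` (`card_P0_ge`), multiplicity of `(d,a) ↦ d a⁶`, `fMoment` with `J = 0`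
and `D` replaced by `R`.
-/

set_option autoImplicit false

noncomputable section

open scoped Classical ComplexConjugate

namespace Crest.Agent.R17

theorem fMoment (A : ℝ) {ε : ℝ} (hε : 0 < ε) : ∃ η1 > (0 : ℝ), ∀ (Q : Lev) (J0 : ℕ),
    ∃ (C : ℝ) (B : ℕ) (Z0 : ℝ), ∀ Z : ℝ, Z0 ≤ Z → ∀ ν ∈ hchars Q.q,
    ∀ (S : Finset O) (P1 P2 : ℝ), IsSlot Q S P1 P2 → 1 ≤ P1 → P1 ≤ P2 → P2 ≤ Z ^ η1 →
    (P2 / P1) ^ J0 ≤ Z ^ η1 → ∀ J ≤ J0, ∀ a : O → ℂ, (∀ p, ‖a p‖ ≤ 1) →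
    ∀ D R y t : ℝ, D ≤ Z ^ A → 1 ≤ R → Real.exp y ≤ R → R * P2 ^ (2 * J) ≤ D → P2 ^ (6 * J) ≤ D →
      ∑ d ∈ ball D, ‖Mk ν S J a d y t‖ ^ 2 ≤ C * Z ^ ε * (1 + |t|) ^ B * D := by
  obtain ⟨η1, h0, -, h⟩ := FM.final A hε
  refine ⟨η1, h0, fun Q J0 => ?_⟩
  obtain ⟨C, B, -, h⟩ := h Q J0
  refine ⟨C, B, 1, fun Z hZ ν hν S P1 P2 hS h1 h12 h2 hE J hJ a ha D R y t hD hR hy hD1 hD2 => ?_⟩
  have hπ := FM.mkPar_ok hν hS h1 h12 h2 hE hJ (a := a) (fun p _ => ha p) y t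
  simp only [FM.Mk_eq_F hπ]
  have hP : 1 ≤ P2 := h1.trans h12
  refine h Z hZ _ hπ D hD ?_ ?_ ?_
  · change N 1 ≤ _
    rw [N_one]
    exact ((one_le_pow₀ hP).trans hD2).trans hD
  · change Real.exp y * P2 ^ J * P2 ^ J ≤ D
    rw [mul_assoc, ← pow_add, ← two_mul]
    exact (mul_le_mul_of_nonneg_right hy (by positivity)).trans hD1
  · change (P2 ^ J) ^ 6 ≤ D
    rwa [← pow_mul, mul_comm]

theorem FM.log_pow_le (j : ℕ) {ε : ℝ} (hε : 0 < ε) : ∃ C, 0 ≤ C ∧ ∀ Z : ℝ, 1 ≤ Z →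
    (1 + Real.log Z) ^ j ≤ C * Z ^ ε := by
  have hθ : 0 < ε / (j + 1) := by positivity
  refine ⟨(1 + (ε / (j + 1))⁻¹) ^ j, by positivity, fun Z hZ => ?_⟩
  have hZ0 : 0 < Z := by linarith
  have h1 := Real.log_le_rpow_div hZ0.le hθ
  have h2 : 1 ≤ Z ^ (ε / (j + 1)) := Real.one_le_rpow hZ hθ.le
  have h3 : 1 + Real.log Z ≤ (1 + (ε / (j + 1))⁻¹) * Z ^ (ε / (j + 1)) := by
    rw [div_eq_mul_inv (Z ^ _)] at h1
    linarith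
  have h4 : (Z ^ (ε / (j + 1))) ^ j ≤ Z ^ ε := by
    rw [← Real.rpow_natCast, ← Real.rpow_mul hZ0.le]
    refine Real.rpow_le_rpow_of_exponent_le hZ ?_
    rw [div_mul_eq_mul_div, div_le_iff₀ (by positivity)]
    nlinarith
  have h5 := Real.log_nonneg hZ
  calc (1 + Real.log Z) ^ j ≤ ((1 + (ε / (j + 1))⁻¹) * Z ^ (ε / (j + 1))) ^ j := by gcongr
    _ ≤ _ := by rw [mul_pow]; gcongr

theorem f1Moment (A : ℝ) {ε : ℝ} (hε : 0 < ε) : ∃ η1 > (0 : ℝ), ∀ (Q : Lev) (J0 : ℕ),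
    ∃ (C : ℝ) (B : ℕ) (Z0 : ℝ), ∀ Z : ℝ, Z0 ≤ Z → ∀ ν ∈ hchars Q.q,
    ∀ (S : Finset O) (P1 P2 : ℝ), IsSlot Q S P1 P2 → 1 ≤ P1 → P1 ≤ P2 → P2 ≤ Z ^ η1 →
    (P2 / P1) ^ J0 ≤ Z ^ η1 → ∀ J ≤ J0, ∀ (b : O → ℂ) (Λ : ℝ), 1 ≤ Λ → (∀ p ∈ S, ‖b p‖ ≤ Λ) →
    ∀ D R y t : ℝ, D ≤ Z ^ A → 1 ≤ R → Real.exp y ≤ R → R * P2 ^ (2 * J) ≤ D → P2 ^ (6 * J) ≤ D →
      ∑ d ∈ ball D, ‖pb (mm (rc ν d)) y t‖ ^ 2 *
          (1 + ‖∑ p ∈ S, b p * chi p d / (Real.sqrt (N p) : ℂ)‖) ^ (2 * J) ≤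
        C * Z ^ ε * (1 + |t|) ^ B * Λ ^ (2 * J) * D := by
  obtain ⟨η1, h0, hη, h⟩ := FM.final A (half_pos hε)
  refine ⟨η1, h0, fun Q J0 => ?_⟩
  obtain ⟨C, B, hC, h⟩ := h Q J0
  obtain ⟨C1, hC1⟩ := sum_ball_inv
  obtain ⟨C2, hC2, hl⟩ := FM.log_pow_le (2 * J0) (half_pos hε)
  refine ⟨(2 ^ (J0 + 1) * (J0 + 2 + |C1|)) ^ (2 * J0) * C2 * C, B, 1,
    fun Z hZ ν hν S P1 P2 hS h1 h12 h2 hE J hJ b Λ hΛ hb D R y t hD hR hy hD1 hD2 => ?_⟩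
  have hP : 1 ≤ P2 := h1.trans h12
  have hZ0 : 0 < Z := by linarith
  have hΛ0 : 0 < Λ := by linarith
  have hD0 : 1 ≤ D := (one_le_pow₀ hP).trans hD2
  have hlog := Real.log_nonneg hZ
  have hπ := FM.mkPar_ok hν hS h1 h12 h2 hE (Nat.zero_le J0) (a := fun p => b p / Λ)
    (fun p hp => by
      rw [norm_div, Complex.norm_real, Real.norm_of_nonneg hΛ0.le, div_le_one hΛ0]
      exact hb p hp) y t
  have hσ : ∑ p ∈ S, (N p)⁻¹ ≤ |C1| * (1 + Real.log Z) := by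
    have a1 : S ⊆ ball P2 := fun p hp => mem_ball.2 ⟨(hS p hp).1.ne_zero, (hS p hp).2.2.2.2⟩
    have a2 : P2 ≤ Z := h2.trans (by
      simpa using Real.rpow_le_rpow_of_exponent_le hZ hη)
    have a3 := Real.log_nonneg hP
    refine (Finset.sum_le_sum_of_subset_of_nonneg a1 fun p _ _ =>
      inv_nonneg.2 (N_nonneg p)).trans ((hC1 P2 hP).trans ?_)
    exact mul_le_mul (le_abs_self _) (by linarith [Real.log_le_log (by linarith) a2])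
      (by linarith) (abs_nonneg _)
  have key := FM.f1_ind J Q J0 (Z ^ η1) (ball D) J y t P1 P2
    (C * Z ^ (ε / 2) * (1 + |t|) ^ B * D) (|C1| * (1 + Real.log Z)) hJ (by positivity)
    (fun π hπ hJ' hy' ht hP1 hP2 hH => by
      have b1 : π.L ≤ P2 ^ J := by
        rw [FM.Par.L, hP2]; exact pow_le_pow_right₀ hP hJ'
      have b2 := hπ.one_le_L
      rw [← ht]
      refine h Z hZ π hπ D hD (hH.trans (le_trans ?_ hD)) ?_ ?_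
      · exact (pow_le_pow_right₀ hP (by omega)).trans hD2
      · have b3 : π.len = Real.exp π.y * π.L := rfl
        have b4 : Real.exp π.y ≤ R := (Real.exp_le_exp.2 hy').trans hy
        refine le_trans ?_ hD1
        rw [b3, two_mul, pow_add, mul_assoc]
        gcongr
      · refine le_trans ?_ hD2
        rw [mul_comm, pow_mul]
        gcongr)
    _ hπ (by simp [FM.mkPar]) le_rfl rfl rfl rfl (by simp [FM.mkPar, N_one]) hσ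
  have e1 : ∀ d : O, ‖∑ p ∈ S, b p * chi p d / (Real.sqrt (N p) : ℂ)‖ =
      Λ * ‖∑ p ∈ S, (FM.mkPar ν S 0 (fun p => b p / Λ) y t P1 P2).xp d p‖ := fun d => by
    have hn : ∀ z : ℂ, Λ * ‖z‖ = ‖Λ * z‖ := fun z => by
      rw [norm_mul, Complex.norm_real, Real.norm_of_nonneg hΛ0.le]
    rw [hn, Finset.mul_sum]
    congr 1
    refine Finset.sum_congr rfl fun p hp => ?_
    have : (Λ : ℂ) ≠ 0 := by exact_mod_cast hΛ0.ne'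
    rw [FM.xp_mkPar hν hS _ _ _ _ _ hp]
    field_simp
  have e2 : (2 ^ (J + 1) * (J + 2 + |C1| * (1 + Real.log Z))) ^ (2 * J) ≤
      (2 ^ (J0 + 1) * (J0 + 2 + |C1|)) ^ (2 * J0) * (C2 * Z ^ (ε / 2)) := by
    have c1 : (J : ℝ) ≤ J0 := by exact_mod_cast hJ
    have c0 : (0 : ℝ) ≤ J := Nat.cast_nonneg _
    have c2 : (2 : ℝ) ^ (J + 1) ≤ 2 ^ (J0 + 1) := pow_le_pow_right₀ (by norm_num) (by omega)
    have c3 : (J : ℝ) + 2 + |C1| * (1 + Real.log Z) ≤ (J0 + 2 + |C1|) * (1 + Real.log Z) := by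
      nlinarith
    have c4 : (1 : ℝ) ≤ 2 ^ (J0 + 1) * ((J0 + 2 + |C1|) * (1 + Real.log Z)) :=
      one_le_mul_of_one_le_of_one_le (one_le_pow₀ (by norm_num))
        (one_le_mul_of_one_le_of_one_le (by linarith [abs_nonneg C1]) (by linarith))
    calc _ ≤ (2 ^ (J0 + 1) * ((J0 + 2 + |C1|) * (1 + Real.log Z))) ^ (2 * J) := by gcongr
      _ ≤ (2 ^ (J0 + 1) * ((J0 + 2 + |C1|) * (1 + Real.log Z))) ^ (2 * J0) :=
        pow_le_pow_right₀ c4 (by omega)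
      _ = (2 ^ (J0 + 1) * (J0 + 2 + |C1|)) ^ (2 * J0) * (1 + Real.log Z) ^ (2 * J0) := by
        rw [← mul_assoc, mul_pow]
      _ ≤ _ := mul_le_mul_of_nonneg_left (hl Z hZ) (by positivity)
  have e3 : Z ^ ε = Z ^ (ε / 2) * Z ^ (ε / 2) := by rw [← Real.rpow_add hZ0, add_halves]
  calc _ ≤ ∑ d ∈ ball D, Λ ^ (2 * J) * (‖(FM.mkPar ν S 0 (fun p => b p / Λ) y t P1 P2).F d‖ ^ 2 *
        (1 + ‖∑ p ∈ S, (FM.mkPar ν S 0 (fun p => b p / Λ) y t P1 P2).xp d p‖) ^ (2 * J)) := by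
        refine Finset.sum_le_sum fun d _ => ?_
        rw [FM.pb_eq_F hπ, e1, mul_left_comm, ← mul_pow, mul_add, mul_one]
        gcongr
    _ ≤ Λ ^ (2 * J) * (((2 ^ (J0 + 1) * (J0 + 2 + |C1|)) ^ (2 * J0) * (C2 * Z ^ (ε / 2))) *
        (C * Z ^ (ε / 2) * (1 + |t|) ^ B * D)) := by
        rw [← Finset.mul_sum]
        refine mul_le_mul_of_nonneg_left (key.trans ?_) (by positivity)
        exact mul_le_mul_of_nonneg_right e2 (by positivity)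
    _ = _ := by rw [e3]; ring

theorem f5Moment (A : ℝ) {ε : ℝ} (hε : 0 < ε) (Q : Lev) :
    ∃ (C : ℝ) (B : ℕ) (Z0 : ℝ), ∀ Z : ℝ, Z0 ≤ Z → ∀ ν ∈ hchars Q.q,
    ∀ D R y t : ℝ, 1 ≤ D → D ≤ R → R ≤ Z ^ A → Real.exp y ≤ R →
      ∑ d ∈ ball D, ‖pb (mm (rc ν d)) y t‖ ^ 2 ≤
        C * Z ^ ε * (1 + |t|) ^ B * D * (R / D) ^ (5 / 6 : ℝ) := by
  obtain ⟨η1, h0, -, h⟩ := FM.final A (half_pos hε)
  obtain ⟨C, B, hC, h⟩ := h Q 0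
  have hA : 0 < max A 1 := lt_of_lt_of_le one_pos (le_max_right _ _)
  obtain ⟨C1, hC1, h1⟩ := FM.amplify_rows Q (θ := ε / 2 / max A 1) (by positivity)
  refine ⟨C1 * C, B, 1, fun Z hZ ν hν D R y t hD hDR hR hy => ?_⟩
  have hZ0 : 0 < Z := by linarith
  have hD0 : 0 < D := by linarith
  have hR0 : 0 < R := by linarith
  have hq : 1 ≤ R / D := by rwa [le_div_iff₀ hD0, one_mul]
  have hq0 : 0 < R / D := by linarith
  have e1 : D * ((R / D) ^ (1 / 6 : ℝ)) ^ 6 = R := by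
    rw [← Real.rpow_natCast, ← Real.rpow_mul hq0.le]
    norm_num
    field_simp
  have hE : 1 ≤ Z ^ η1 := Real.one_le_rpow hZ h0.le
  have key := h1 ν hν D ((R / D) ^ (1 / 6 : ℝ)) y t (C * Z ^ (ε / 2) * (1 + |t|) ^ B * R) hD
    (Real.one_le_rpow hq (by norm_num)) (by positivity) (fun y' hy' => by
      have hπ : (FM.mkPar ν ∅ 0 (fun _ => 0) y' t 1 1).OK Q 0 (Z ^ η1) :=
        FM.mkPar_ok hν (fun p hp => absurd hp (Finset.notMem_empty p)) le_rfl le_rfl hE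
          (by simpa using hE) le_rfl (fun p hp => absurd hp (Finset.notMem_empty p)) y' t
      rw [e1]
      simp only [FM.pb_eq_F hπ]
      refine h Z hZ _ hπ R hR ?_ ?_ ?_
      · change N 1 ≤ _
        rw [N_one]
        linarith
      · change Real.exp y' * 1 ^ 0 * 1 ^ 0 ≤ R
        simpa using (Real.exp_le_exp.2 hy').trans hy
      · change ((1 : ℝ) ^ 0) ^ 6 ≤ R
        simpa using hD.trans hDR)
  rw [e1] at key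
  refine key.trans ?_
  have e2 : R ^ (ε / 2 / max A 1) ≤ Z ^ (ε / 2) := by
    refine (Real.rpow_le_rpow hR0.le (hR.trans
      (Real.rpow_le_rpow_of_exponent_le hZ (le_max_left A 1))) (by positivity)).trans ?_
    rw [← Real.rpow_mul hZ0.le, mul_div_cancel₀ _ hA.ne']
  have e3 : Z ^ ε = Z ^ (ε / 2) * Z ^ (ε / 2) := by rw [← Real.rpow_add hZ0, add_halves]
  have e4 : R / (R / D) ^ (1 / 6 : ℝ) = D * (R / D) ^ (5 / 6 : ℝ) := by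
    rw [div_eq_iff (Real.rpow_pos_of_pos hq0 _).ne', mul_assoc, ← Real.rpow_add hq0]
    norm_num
    field_simp
  calc _ = C1 * C * (R ^ (ε / 2 / max A 1) * Z ^ (ε / 2)) * (1 + |t|) ^ B *
        (R / (R / D) ^ (1 / 6 : ℝ)) := by ring
    _ ≤ C1 * C * (Z ^ (ε / 2) * Z ^ (ε / 2)) * (1 + |t|) ^ B * (R / (R / D) ^ (1 / 6 : ℝ)) := by
      gcongr
    _ = _ := by rw [e3, e4]; ring

end Crest.Agent.R17
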