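import Crest.Agent.R17.FMoment_Defs

/-!
# R17 / FMoment / Abs : abstract inequalities

Definitions in `FMoment_Defs.lean`.  Prefix helper lemmas with `fmabs_`.
-/

set_option autoImplicit false

noncomputable section

open scoped Classical ComplexConjugate
open MeasureTheory

namespace Crest.Agent.R17.FM

/-- Only the integrable `f i` contribute to the left side; for them use `integral_finsetSum` and
`integral_mono_of_nonneg`. -/
theorem sum_integral_le {ι : Type*} (R : Finset ι) {f : ι → ℝ → ℝ} {g : ℝ → ℝ}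
    (hf : ∀ i ∈ R, ∀ τ, 0 ≤ f i τ) (hg : Integrable g) (h : ∀ τ, ∑ i ∈ R, f i τ ≤ g τ) :
    ∑ i ∈ R, ∫ τ, f i τ ≤ ∫ τ, g τ := by
  have e : ∑ i ∈ R.filter (fun i => Integrable (f i)), ∫ τ, f i τ = ∑ i ∈ R, ∫ τ, f i τ :=
    Finset.sum_filter_of_ne fun i _ hi => by_contra fun h0 => hi (integral_undef h0)
  have hi : ∀ i ∈ R.filter (fun i => Integrable (f i)), Integrable (f i) := fun i hi =>
    (Finset.mem_filter.1 hi).2
  rw [← e, ← integral_finsetSum _ hi]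
  exact integral_mono (integrable_finsetSum _ hi) hg fun τ =>
    (Finset.sum_le_sum_of_subset_of_nonneg (Finset.filter_subset _ _)
      fun i hi _ => hf i hi τ).trans (h τ)

/-- Only the summable `f i` contribute to the left side; for them pass to the limit along
`atTop : Filter (Finset κ)`. -/
theorem sum_tsum_le {ι κ : Type*} (T : Finset ι) {f : ι → κ → ℝ} (hf : ∀ i ∈ T, ∀ x, 0 ≤ f i x)
    {B : ℝ} (h : ∀ P : Finset κ, ∑ i ∈ T, ∑ x ∈ P, f i x ≤ B) :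
    ∑ i ∈ T, ∑' x, f i x ≤ B := by
  have e : ∑ i ∈ T.filter (fun i => Summable (f i)), ∑' x, f i x = ∑ i ∈ T, ∑' x, f i x :=
    Finset.sum_filter_of_ne fun i _ hi => by_contra fun h0 => hi (tsum_eq_zero_of_not_summable h0)
  rw [← e]
  refine hasSum_le_of_sum_le (hasSum_sum fun i hi => (Finset.mem_filter.1 hi).2.hasSum) fun P => ?_
  rw [Finset.sum_comm]
  exact (Finset.sum_le_sum_of_subset_of_nonneg (Finset.filter_subset _ _)
    fun i hi _ => Finset.sum_nonneg fun x _ => hf i hi x).trans (h P)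

theorem norm_sum_sq_le {ι : Type*} (s : Finset ι) (f : ι → ℂ) :
    ‖∑ i ∈ s, f i‖ ^ 2 ≤ s.card * ∑ i ∈ s, ‖f i‖ ^ 2 := by
  exact (pow_le_pow_left₀ (norm_nonneg _) (norm_sum_le s f) 2).trans sq_sum_le_card_mul_sum_sq

/-- Minkowski's inequality, finite form.  If `e c = 0` then `ω i ‖v i c‖² = 0` for all `i`; for the
other `c` use Cauchy–Schwarz `‖∑ v‖² ≤ (∑ e)(∑ ‖v‖²/e)`. -/
theorem minkowski_fin {ι κ : Type*} (T : Finset ι) (P : Finset κ) {ω : ι → ℝ}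
    (hω : ∀ i ∈ T, 0 ≤ ω i) (v : ι → κ → ℂ) {e : κ → ℝ} (he : ∀ c ∈ P, 0 ≤ e c) {E : ℝ} (hE : 0 ≤ E)
    (h : ∀ c ∈ P, ∑ i ∈ T, ω i * ‖v i c‖ ^ 2 ≤ E * e c ^ 2) :
    ∑ i ∈ T, ω i * ‖∑ c ∈ P, v i c‖ ^ 2 ≤ E * (∑ c ∈ P, e c) ^ 2 := by
  have h1 : ∀ i ∈ T, ω i * ‖∑ c ∈ P, v i c‖ ^ 2 ≤
      (∑ c ∈ P, e c) * ∑ c ∈ P, ω i * ‖v i c‖ ^ 2 / e c := fun i hi => by
    refine le_trans ?_ (Finset.sum_sq_le_sum_mul_sum_of_sq_eq_mul P
      (r := fun c => √(ω i) * ‖v i c‖) he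
      (fun c hc => div_nonneg (mul_nonneg (hω i hi) (sq_nonneg _)) (he c hc)) fun c hc => ?_)
    · rw [← Finset.mul_sum, mul_pow, Real.sq_sqrt (hω i hi)]
      exact mul_le_mul_of_nonneg_left (pow_le_pow_left₀ (norm_nonneg _) (norm_sum_le _ _) 2)
        (hω i hi)
    · rw [mul_pow, Real.sq_sqrt (hω i hi)]
      by_cases h0 : e c = 0
      · have h2 := (Finset.single_le_sum (f := fun i => ω i * ‖v i c‖ ^ 2)
          (fun j hj => mul_nonneg (hω j hj) (sq_nonneg _)) hi).trans (h c hc)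
        rw [h0, zero_mul]
        rw [h0, zero_pow two_ne_zero, mul_zero] at h2
        exact le_antisymm h2 (mul_nonneg (hω i hi) (sq_nonneg _))
      · rw [mul_div_cancel₀ _ h0]
  refine (Finset.sum_le_sum h1).trans ?_
  rw [← Finset.mul_sum, Finset.sum_comm, sq, mul_left_comm, Finset.mul_sum P e E]
  refine mul_le_mul_of_nonneg_left (Finset.sum_le_sum fun c hc => ?_) (Finset.sum_nonneg he)
  rw [← Finset.sum_div]
  refine (div_le_div_of_nonneg_right (h c hc) (he c hc)).trans_eq ?_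
  rw [mul_div_assoc, sq, mul_self_div_self]

/-- Minkowski's inequality for series (limit of `minkowski_fin`). -/
theorem minkowski {ι κ : Type*} (T : Finset ι) {ω : ι → ℝ} (hω : ∀ i ∈ T, 0 ≤ ω i) {u : ι → ℂ}
    {v : ι → κ → ℂ} (huv : ∀ i ∈ T, HasSum (v i) (u i)) {e : κ → ℝ} (he : ∀ c, 0 ≤ e c)
    {E C : ℝ} (hE : 0 ≤ E) (hC : ∀ P : Finset κ, ∑ c ∈ P, e c ≤ C)
    (h : ∀ c, ∑ i ∈ T, ω i * ‖v i c‖ ^ 2 ≤ E * e c ^ 2) :
    ∑ i ∈ T, ω i * ‖u i‖ ^ 2 ≤ E * C ^ 2 := by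
  have ht : Filter.Tendsto (fun P : Finset κ => ∑ i ∈ T, ω i * ‖∑ c ∈ P, v i c‖ ^ 2) Filter.atTop
      (nhds (∑ i ∈ T, ω i * ‖u i‖ ^ 2)) :=
    tendsto_finsetSum T fun i hi =>
      ((Filter.Tendsto.norm (huv i hi)).pow 2).const_mul (ω i)
  refine le_of_tendsto' ht fun P =>
    (minkowski_fin T P hω v (fun c _ => he c) hE fun c _ => h c).trans ?_
  exact mul_le_mul_of_nonneg_left
    (pow_le_pow_left₀ (Finset.sum_nonneg fun c _ => he c) (hC P) 2) hE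

/-- Exchange of finite sums, a series and the `Γ`-integral produced by `pstep` / `back`.
`sum_tsum_le` (restrict `P` to the `x` with `p x`), then for each `ν` `sum_integral_le` over `T ×ˢ P`
with `g τ = Gm σ τ * (𝓔 (1+|t|)^B (1+|τ|)^B)`, `integrable_Gm`; `C = ∫ Gm σ τ (1+|τ|)^B`. -/
theorem pack {σ : ℝ} (hσ : 0 < σ) (B : ℕ) : ∃ C, 0 ≤ C ∧ ∀ (ι κ μ : Type) (T : Finset ι)
    (V : Finset μ) (p : κ → Prop) [DecidablePred p] (ω : ι → ℝ) (f : ι → κ → μ → ℝ → ℝ) (𝓔 t : ℝ),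
    (∀ i ∈ T, 0 ≤ ω i) → (∀ i x ν τ, 0 ≤ f i x ν τ) → 0 ≤ 𝓔 →
    (∀ ν ∈ V, ∀ (τ : ℝ) (P : Finset κ), (∀ x ∈ P, p x) →
      ∑ i ∈ T, ω i * ∑ x ∈ P, f i x ν τ ≤ 𝓔 * (1 + |t - τ|) ^ B) →
    ∑ i ∈ T, ω i * ∑' x, (if p x then ∑ ν ∈ V, ∫ τ, Gm σ τ * f i x ν τ else 0) ≤
      C * V.card * 𝓔 * (1 + |t|) ^ B := by
  have hG : ∀ τ, 0 ≤ Gm σ τ := fun τ => norm_nonneg _
  refine ⟨∫ τ, Gm σ τ * (1 + |τ|) ^ B, integral_nonneg fun τ => mul_nonneg (hG τ) (by positivity),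
    fun ι κ μ T V p _ ω f 𝓔 t hω hf hE h => ?_⟩
  simp only [← tsum_mul_left]
  refine sum_tsum_le T (fun i hi x => mul_nonneg (hω i hi) ?_) fun P => ?_
  · split_ifs
    · exact Finset.sum_nonneg fun ν _ => integral_nonneg fun τ => mul_nonneg (hG τ) (hf _ _ _ _)
    · exact le_rfl
  have e : ∑ i ∈ T, ∑ x ∈ P, ω i * (if p x then ∑ ν ∈ V, ∫ τ, Gm σ τ * f i x ν τ else 0) =
      ∑ ν ∈ V, ∑ z ∈ T ×ˢ P.filter p, ∫ τ, ω z.1 * (Gm σ τ * f z.1 z.2 ν τ) := by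
    rw [Finset.sum_comm (s := V), Finset.sum_product]
    refine Finset.sum_congr rfl fun i _ => ?_
    rw [Finset.sum_filter]
    refine Finset.sum_congr rfl fun x _ => ?_
    split_ifs
    · simp only [integral_const_mul, Finset.mul_sum]
    · exact mul_zero _
  rw [e]
  refine (Finset.sum_le_card_nsmul V _ (𝓔 * (1 + |t|) ^ B * ∫ τ, Gm σ τ * (1 + |τ|) ^ B)
    fun ν hν => ?_).trans_eq (by rw [nsmul_eq_mul]; ring)
  rw [← integral_const_mul]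
  refine sum_integral_le _ (fun z hz τ => mul_nonneg (hω _ (Finset.mem_product.1 hz).1)
    (mul_nonneg (hG τ) (hf _ _ _ _))) ((integrable_Gm hσ B).const_mul _) fun τ => ?_
  have h1 := mul_le_mul_of_nonneg_left
    (h ν hν τ (P.filter p) fun x hx => (Finset.mem_filter.1 hx).2) (hG τ)
  have h2 : (1 + |t - τ|) ^ B ≤ (1 + |t|) ^ B * (1 + |τ|) ^ B := by
    rw [← mul_pow]
    refine pow_le_pow_left₀ (by positivity) ?_ B
    nlinarith [abs_sub t τ, abs_nonneg t, abs_nonneg τ]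
  rw [Finset.sum_product]
  simp only [Finset.mul_sum, mul_left_comm (Gm σ τ)] at h1
  refine h1.trans ((mul_le_mul_of_nonneg_left (mul_le_mul_of_nonneg_left h2 (hG τ)) hE).trans_eq ?_)
  ring

/-- from `summable_N_rpow` (note `N 0 ^ (-1-θ) = 0`) -/
theorem sum_N_rpow_le {θ : ℝ} (hθ : 0 < θ) : ∃ C, 0 ≤ C ∧ ∀ R : Finset O,
    ∑ r ∈ R, N r ^ (-1 - θ) ≤ C := by
  have h0 : ∀ n : O, 0 ≤ N n ^ (-(1 + θ)) := fun n => Real.rpow_nonneg (N_nonneg n) _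
  refine ⟨∑' n : O, N n ^ (-(1 + θ)), tsum_nonneg h0, fun R => ?_⟩
  rw [← neg_add']
  exact (summable_N_rpow (by linarith)).sum_le_tsum R fun n _ => h0 n

theorem dv_nonneg (n : O) : 0 ≤ dv n := by
  exact Nat.cast_nonneg _
theorem dv_le_N {n : O} (hn : n ≠ 0) : dv n ≤ N n := by
  exact card_pdiv_le_N hn
/-- divisor bound (`card_pdiv_le`) with a constant `≥ 1` -/
theorem dv_le {θ : ℝ} (hθ : 0 < θ) : ∃ C, 1 ≤ C ∧ ∀ n : O, n ≠ 0 → dv n ≤ C * N n ^ θ := by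
  obtain ⟨C, hC⟩ := card_pdiv_le hθ
  exact ⟨max 1 C, le_max_left _ _, fun n hn => (hC n hn).trans
    (mul_le_mul_of_nonneg_right (le_max_right _ _) (Real.rpow_nonneg (N_nonneg n) _))⟩
theorem norm_lamG_le (G : ℝ) (c : O) : ‖lamG G c‖ ≤ dv c := by
  refine (norm_sum_le _ _).trans ((Finset.sum_le_card_nsmul _ _ 1 fun e _ => norm_mu_le e).trans ?_)
  rw [nsmul_eq_mul, mul_one]
  exact Nat.cast_le.2 (Finset.card_filter_le _ _)

theorem fmabs_summable {α : O → ℂ} (hα : Rapid α) (h6 : ∀ n, α n ≠ 0 → IsCoprime n 6) {D : ℝ}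
    (hD : 0 < D) : Summable fun d : O => Om (N d / D) * ‖∑' n, α n * chi n d‖ ^ 2 := by
  simpa only [pow_one] using summable_moment hα h6 1 hD

/-- partial sums of `Mo` (`summable_moment` with `j = 1`) -/
theorem sum_le_Mo {α : O → ℂ} (hα : Rapid α) (h6 : ∀ n, α n ≠ 0 → IsCoprime n 6) {D : ℝ}
    (hD : 0 < D) (T : Finset O) :
    ∑ d ∈ T, Om (N d / D) * ‖∑' n, α n * chi n d‖ ^ 2 ≤ Mo α D := by
  exact (fmabs_summable hα h6 hD).sum_le_tsum T fun d _ => mul_nonneg (Om_pos _).le (sq_nonneg _)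
theorem Mo_le_of_sum_le {α : O → ℂ} {D B : ℝ}
    (h : ∀ T : Finset O, ∑ d ∈ T, Om (N d / D) * ‖∑' n, α n * chi n d‖ ^ 2 ≤ B) : Mo α D ≤ B := by
  exact Real.tsum_le_of_sum_le (fun d => mul_nonneg (Om_pos _).le (sq_nonneg _)) h
theorem Mo_nonneg (α : O → ℂ) (D : ℝ) : 0 ≤ Mo α D := by
  exact tsum_nonneg fun d => mul_nonneg (Om_pos _).le (sq_nonneg _)
theorem Mo_mono {α : O → ℂ} (hα : Rapid α) (h6 : ∀ n, α n ≠ 0 → IsCoprime n 6) {D D' : ℝ}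
    (hD : 0 < D) (h : D ≤ D') : Mo α D ≤ Mo α D' := by
  refine Mo_le_of_sum_le fun T => le_trans (Finset.sum_le_sum fun d _ => ?_)
    (sum_le_Mo hα h6 (hD.trans_le h) T)
  refine mul_le_mul_of_nonneg_right (Real.exp_le_exp.2 (neg_le_neg ?_)) (sq_nonneg _)
  exact mul_le_mul_of_nonneg_left (div_le_div_of_nonneg_left (N_nonneg d) hD h)
    (zero_le_one.trans one_lt_c0.le)
/-- `sum_ball_le_tsum` -/
theorem ball_le_Mo {α : O → ℂ} (hα : Rapid α) (h6 : ∀ n, α n ≠ 0 → IsCoprime n 6) {D : ℝ}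
    (hD : 0 < D) : ∑ d ∈ ball D, ‖∑' n, α n * chi n d‖ ^ 2 ≤ Real.exp c0 * Mo α D := by
  exact sum_ball_le_tsum hD (fun d => sq_nonneg _) (fmabs_summable hα h6 hD)

end Crest.Agent.R17.FM
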