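import Crest.Agent.R17.FMoment_W

/-!
# R17 / FMoment / Al : operations on standard sequences

Definitions in `FMoment_Defs.lean`.  Prefix helper lemmas with `fmal_`.
-/

set_option autoImplicit false

noncomputable section

open scoped Classical ComplexConjugate
open MeasureTheory

namespace Crest.Agent.R17.FM

namespace Par

variable {π : Par} {Q : Lev} {J0 : ℕ} {E : ℝ}

theorem OK.primes (h : π.OK Q J0 E) : ∀ p ∈ π.S, Prime p ∧ Prim p :=
  fun p hp => ⟨(h.hS p hp).1, (h.hS p hp).2.1⟩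
theorem OK.one_le_E (h : π.OK Q J0 E) : 1 ≤ E := (h.h1.trans h.h12).trans h.h2
theorem OK.one_le_L (h : π.OK Q J0 E) : 1 ≤ π.L := one_le_pow₀ (h.h1.trans h.h12)
theorem OK.len_pos (h : π.OK Q J0 E) : 0 < π.len :=
  mul_pos (Real.exp_pos _) (one_pos.trans_le h.one_le_L)
theorem OK.low_pos (h : π.OK Q J0 E) : 0 < π.low :=
  mul_pos (Real.exp_pos _) (pow_pos (one_pos.trans_le h.h1) _)
theorem OK.low_le_len (h : π.OK Q J0 E) : π.low ≤ π.len :=
  mul_le_mul_of_nonneg_left (pow_le_pow_left₀ (zero_le_one.trans h.h1) h.h12 _) (Real.exp_pos _).le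
/-- `(P2/P1)^J ≤ (P2/P1)^J0 ≤ E` -/
theorem OK.len_le_low (h : π.OK Q J0 E) : π.len ≤ E * π.low := by
  have h0 := pow_pos (one_pos.trans_le h.h1) π.J
  have h1 := (pow_le_pow_right₀ ((one_le_div (one_pos.trans_le h.h1)).2 h.h12) h.hJ).trans h.hE
  rw [div_pow, div_le_iff₀ h0] at h1
  rw [len, low, mul_left_comm]
  exact mul_le_mul_of_nonneg_left h1 (Real.exp_pos _).le
theorem OK.mono (h : π.OK Q J0 E) {E' : ℝ} (hE : E ≤ E') : π.OK Q J0 E' :=
  { h with h2 := h.h2.trans hE, hE := h.hE.trans hE }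

theorem OK.set (h : π.OK Q J0 E) {j : ℕ} (hj : j ≤ J0) (y : ℝ) : (π.set j y).OK Q J0 E :=
  { h with hJ := hj }
theorem OK.excl (h : π.OK Q J0 E) {r : O} (hr : Prim r) : (π.excl r).OK Q J0 E :=
  { h with
    hS := fun p hp => h.hS p (Finset.mem_filter.1 hp).1
    hb := fun p hp => h.hb p (Finset.mem_filter.1 hp).1
    hH := h.hH.mul hr
    hSH := fun p hp e => have hp' := Finset.mem_filter.1 hp
      ((h.hS p hp'.1).1.dvd_or_dvd e).elim (h.hSH p hp'.1) hp'.2 }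
theorem OK.cut (h : π.OK Q J0 E) (G : O) (I : Finset O) : (π.cut G I).OK Q J0 E :=
  { h with
    hS := fun p hp => h.hS p (Finset.mem_filter.1 hp).1
    hJ := (Nat.sub_le _ _).trans h.hJ
    hb := fun p hp => h.hb p (Finset.mem_filter.1 hp).1
    hSH := fun p hp => h.hSH p (Finset.mem_filter.1 hp).1 }
theorem OK.dil (h : π.OK Q J0 E) {G : O} (hG : Prim G) (I : Finset O) :
    (π.dil G I).OK Q J0 E :=
  { h.cut G I with hH := (h.excl hG).hH, hSH := (h.excl hG).hSH }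
theorem OK.tw (h : π.OK Q J0 E) {ν' : O → ℂ} (hν : ν' ∈ hchars Q.q) : (π.tw ν').OK Q J0 E :=
  { h with hν := mul_mem_hchars Q h.hν hν }
theorem _root_.Crest.Agent.R17.FM.sgc_mem (Q : Lev) (c : O) : sgc Q c ∈ hchars Q.q := by
  unfold sgc
  split_ifs with h
  · exact (exists_hchar_sg Q h).choose_spec.1
  · exact one0_mem Q
theorem _root_.Crest.Agent.R17.FM.sgc_eq (Q : Lev) {c n : O} (hc : P0 Q c) (hn : P0 Q n) :
    sgc Q c n = sg n (c ^ 3) := by
  have h : IsCoprime (c ^ 3) 2 := hc.isCoprime_two.pow_left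
  rw [sgc, dif_pos h]
  exact (exists_hchar_sg Q h).choose_spec.2 n hn
theorem OK.cube (h : π.OK Q J0 E) (c : O) (I : Finset O) : (π.cube Q c I).OK Q J0 E :=
  (h.cut _ I).tw (sgc_mem Q c)
theorem OK.shift (h : π.OK Q J0 E) {x : ℝ} (hx : x ≤ 0) (τ : ℝ) : (π.shift x τ).OK Q J0 E :=
  { h with
    hb := fun p hp => by
      have h1 := (one_le_div (one_pos.trans_le h.h1)).2 (h.hS p hp).2.2.2.1
      refine (norm_mul_le _ _).trans (mul_le_one₀ (h.hb p hp) (norm_nonneg _) ?_)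
      rw [Complex.norm_real, Real.norm_of_nonneg (by positivity)]
      exact Real.rpow_le_one_of_one_le_of_nonpos h1 hx }
theorem OK.mv (h : π.OK Q J0 E) (y t : ℝ) : (π.mv y t).OK Q J0 E :=
  { h with
    hb := fun p hp => by
      refine (norm_mul_le _ _).trans (mul_le_one₀ (h.hb p hp) (norm_nonneg _) ?_)
      rw [Complex.norm_cpow_eq_rpow_re_of_pos (N_pos (h.hS p hp).1.ne_zero)]
      simp }
theorem OK.drop (h : π.OK Q J0 E) (f : O) : (π.drop f).OK Q J0 E :=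
  { h with hH := Prim.one, hSH := fun p hp => (h.hS p hp).1.not_dvd_one }

theorem OK.L_set_le (h : π.OK Q J0 E) {j : ℕ} (hj : j ≤ π.J) (y : ℝ) : (π.set j y).L ≤ π.L :=
  pow_le_pow_right₀ (h.h1.trans h.h12) hj
theorem OK.L_cut_le (h : π.OK Q J0 E) (G : O) (I : Finset O) : (π.cut G I).L ≤ π.L :=
  pow_le_pow_right₀ (h.h1.trans h.h12) (Nat.sub_le _ _)
theorem OK.fmal_exp_cut (h : π.OK Q J0 E) {G : O} (hG : G ≠ 0) {I : Finset O} (hI : I ⊆ π.S) :
    Real.exp (π.cut G I).y = Real.exp π.y / N G * N (pr I) := by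
  rw [← Real.exp_log (N_pos hG), ← Real.exp_log (N_pos (pr_prim h.primes hI).ne_zero),
    ← Real.exp_sub, ← Real.exp_add]
  rfl
/-- `N (∏ I) ≤ P2^|I|` -/
theorem OK.len_cut_le (h : π.OK Q J0 E) {G : O} (hG : G ≠ 0) {I : Finset O}
    (hI : I ∈ marks π.S π.J G) : (π.cut G I).len ≤ π.len / N G := by
  obtain ⟨h1, -, h2⟩ := mem_marks.1 hI
  have h3 := N_pos hG
  have h4 := zero_le_one.trans (h.h1.trans h.h12)
  rw [len, len, h.fmal_exp_cut hG h1, mul_div_right_comm, ← pow_mul_pow_sub _ h2, mul_assoc]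
  exact mul_le_mul_of_nonneg_left (mul_le_mul_of_nonneg_right
    (N_pr_le fun p hp => (h.hS p (h1 hp)).2.2.2.2) (pow_nonneg h4 _)) (by positivity)
/-- `P1^|I| ≤ N (∏ I)` -/
theorem OK.le_low_cut (h : π.OK Q J0 E) {G : O} (hG : G ≠ 0) {I : Finset O}
    (hI : I ∈ marks π.S π.J G) : π.low / N G ≤ (π.cut G I).low := by
  obtain ⟨h1, -, h2⟩ := mem_marks.1 hI
  have h3 := N_pos hG
  have h4 := zero_le_one.trans h.h1
  rw [low, low, h.fmal_exp_cut hG h1, mul_div_right_comm, ← pow_mul_pow_sub _ h2, mul_assoc]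
  exact mul_le_mul_of_nonneg_left (mul_le_mul_of_nonneg_right
    (le_N_pr h4 fun p hp => (h.hS p (h1 hp)).2.2.2.1) (pow_nonneg h4 _)) (by positivity)
theorem OK.y_cut (h : π.OK Q J0 E) {G : O} (hG : G ≠ 0) {I : Finset O}
    (hI : I ∈ marks π.S π.J G) :
    π.y - Real.log (N G) ≤ (π.cut G I).y ∧ (π.cut G I).y ≤ π.y := by
  have h1 := (pr_prim h.primes (mem_marks.1 hI).1).ne_zero
  have h2 := Real.log_nonneg (one_le_N h1)
  have h3 := Real.log_le_log (N_pos h1) (N_le_of_dvd hG (pr_dvd_of_mem_marks h.primes hI))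
  simp only [Par.cut]
  constructor <;> linarith
theorem OK.len_shift_le (h : π.OK Q J0 E) {x : ℝ} (hx : x ≤ 0) (τ : ℝ) :
    (π.shift x τ).len ≤ π.len :=
  mul_le_mul_of_nonneg_right (Real.exp_le_exp.2 (show π.y + x / 2 ≤ π.y by linarith))
    (zero_le_one.trans h.one_le_L)
/-- `e^{1/4} ≤ 2` -/
theorem OK.le_low_shift (h : π.OK Q J0 E) {x : ℝ} (hx : -(1 / 2) ≤ x) (τ : ℝ) :
    π.low ≤ 2 * (π.shift x τ).low := by
  have h1 := Real.add_one_le_exp (x / 2)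
  have e : (π.shift x τ).low = Real.exp (x / 2) * π.low := by
    simp only [low, Par.shift, Real.exp_add]
    ring
  rw [e]
  nlinarith [h.low_pos]

theorem OK.supp (h : π.OK Q J0 E) {n : O} (hn : π.al n ≠ 0) :
    P0 Q n ∧ Squarefree n ∧ IsCoprime n π.H := by
  obtain ⟨h1, h2⟩ := ite_ne_right_iff.1 hn
  simp only [ne_eq, mul_eq_zero, not_or] at h2
  exact ⟨⟨h1.1, not_not.1 (mt (((mem_hchars Q.ne).1 h.hν).1.zero_iff n).2 h2.1.1.2)⟩,
    not_not.1 (mt mu_eq_zero h2.1.1.1), h1.2⟩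
theorem OK.suppSq (h : π.OK Q J0 E) : SuppSq Q 1 π.al :=
  fun _ hn => ⟨(h.supp hn).1, (h.supp hn).2.1, isCoprime_one_right⟩
theorem OK.supp6 (h : π.OK Q J0 E) : ∀ n, π.al n ≠ 0 → IsCoprime n 6 :=
  fun _ hn => (h.supp hn).1.isCoprime_six
theorem fmal_norm {n : O} (hn : n ≠ 0) (t : ℝ) {a : ℂ} (ha : ‖a‖ ≤ 1) :
    ‖a * (N n : ℂ) ^ (-(1 / 2 + t * Complex.I) : ℂ)‖ ≤ N n ^ (-(1 / 2 : ℝ)) := by
  refine (norm_mul_le _ _).trans ((mul_le_of_le_one_left (norm_nonneg _) ha).trans_eq ?_)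
  rw [Complex.norm_cpow_eq_rpow_re_of_pos (N_pos hn)]
  simp
theorem fmal_one {a b : ℂ} (ha : ‖a‖ ≤ 1) (hb : ‖b‖ ≤ 1) : ‖a * b‖ ≤ 1 :=
  (norm_mul_le _ _).trans (mul_le_one₀ ha (norm_nonneg _) hb)
theorem OK.norm_al_le (h : π.OK Q J0 E) (n : O) :
    ‖π.al n‖ ≤ N n ^ (-(1 / 2 : ℝ)) * ‖W π.S π.J π.b π.y n‖ := by
  unfold al
  split_ifs with hn
  · exact (norm_mul_le _ _).trans (mul_le_mul_of_nonneg_right (fmal_norm hn.1.ne_zero _
      (fmal_one (norm_mu_le n) (norm_hchar_le Q h.hν n))) (norm_nonneg _))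
  · rw [norm_zero]
    exact mul_nonneg (Real.rpow_nonneg (N_nonneg n) _) (norm_nonneg _)
theorem OK.norm_cf_le (h : π.OK Q J0 E) {G : O} (hG : G ≠ 0) {I : Finset O} (hI : I ⊆ π.S) :
    ‖π.cf G I‖ ≤ N G ^ (-(1 / 2 : ℝ)) := by
  unfold cf
  split_ifs with hn
  · rw [mul_right_comm]
    refine fmal_norm hG _ (fmal_one (fmal_one (norm_mu_le G) (norm_hchar_le Q h.hν G)) ?_)
    rw [norm_prod]
    exact Finset.prod_le_one (fun _ _ => norm_nonneg _) fun p hp => h.hb p (hI hp)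
  · rw [norm_zero]
    exact Real.rpow_nonneg (N_nonneg G) _
theorem OK.norm_xp_le (h : π.OK Q J0 E) (d : O) {p : O} (hp : p ∈ π.S) :
    ‖π.xp d p‖ ≤ N p ^ (-(1 / 2 : ℝ)) := by
  obtain ⟨h1, h2, h3, -⟩ := h.hS p hp
  rw [xp, norm_neg]
  exact fmal_norm h1.ne_zero _ (fmal_one (fmal_one (h.hb p hp) (norm_hchar_le Q h.hν p))
    ((rkey_chi (P0.isCoprime_six ⟨h2, h1.coprime_iff_not_dvd.2 h3⟩)).norm_le h1.ne_zero d))

/-- `W_cut`; `μ(G m) = μ(G) μ(m) 1_{(m,G)=1}` (if `G, m` are not coprime, `G m` is not squarefree);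
`Prim (G m) ↔ Prim m`. -/
theorem OK.al_dil (h : π.OK Q J0 E) {G : O} (hG : Prim G) (m : O) :
    π.al (G * m) = ∑ I ∈ marks π.S π.J G, π.cf G I * (π.dil G I).al m := by
  by_cases hc : IsCoprime G π.H ∧ Prim m ∧ IsCoprime m (π.H * G)
  · obtain ⟨h1, h2, h3⟩ := hc
    rw [al, if_pos ⟨hG.mul h2, h1.mul_left h3.of_mul_right_left⟩,
      W_cut h.primes _ _ _ hG.ne_zero h2.ne_zero, Finset.mul_sum, mu_mul h3.of_mul_right_right.symm,
      ((mem_hchars Q.ne).1 h.hν).1.mul, N_mul, Complex.ofReal_mul,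
      Complex.mul_cpow_ofReal_nonneg (N_nonneg G) (N_nonneg m)]
    refine Finset.sum_congr rfl fun I _ => ?_
    rw [cf, if_pos h1, al, if_pos ⟨h2, h3⟩]
    simp only [Par.dil, Par.cut]
    ring
  · rw [Finset.sum_eq_zero fun I _ => ?_]
    · by_contra h0
      obtain ⟨h1, h2, h3⟩ := h.supp h0
      exact hc ⟨h3.of_mul_left_left, h1.1.of_mul_left hG, h3.of_mul_left_right.mul_right
        (IsRelPrime.of_squarefree_mul h2).isCoprime.symm⟩
    · rcases not_and_or.1 hc with hc | hc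
      · rw [cf, if_neg hc, zero_mul]
      · exact mul_eq_zero_of_right _ (if_neg hc)

theorem al_tw (π : Par) (ν' : O → ℂ) (n : O) : (π.tw ν').al n = π.al n * ν' n := by
  by_cases hn : Prim n ∧ IsCoprime n π.H
  · rw [al, al, if_pos hn, if_pos (show Prim n ∧ IsCoprime n (π.tw ν').H from hn)]
    simp only [tw]
    ring
  · rw [al, al, if_neg hn, if_neg (show ¬ (Prim n ∧ IsCoprime n (π.tw ν').H) from hn), zero_mul]

theorem OK.fmal_shift (h : π.OK Q J0 E) (x u : ℝ) {I : Finset O} (hI : I ∈ π.S.powersetCard π.J) :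
    Real.exp (x * u) * gw (u - (π.y + Real.log (N (pr I)))) = Real.exp (x ^ 2 / 4) * π.low ^ x *
      ((∏ p ∈ I, (N p / π.P1) ^ x) * gw (u - (π.y + x / 2 + Real.log (N (pr I))))) := by
  obtain ⟨h1, h2⟩ := Finset.mem_powersetCard.1 hI
  have h3 := one_pos.trans_le h.h1
  have h4 := N_pos (pr_prim h.primes h1).ne_zero
  have e : π.low * ∏ p ∈ I, (N p / π.P1) = Real.exp (π.y + Real.log (N (pr I))) := by
    rw [Finset.prod_div_distrib, Finset.prod_const, h2, ← N_prod, low, Real.exp_add,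
      Real.exp_log h4]
    field_simp
  rw [exp_mul_gw, Real.finsetProd_rpow _ _ fun p _ => div_nonneg (N_nonneg p) h3.le, ← mul_assoc,
    mul_assoc _ (π.low ^ x), ← Real.mul_rpow h.low_pos.le
      (Finset.prod_nonneg fun p _ => div_nonneg (N_nonneg p) h3.le), e, ← Real.exp_mul,
    ← Real.exp_add]
  congr 2 <;> ring

/-- `exp_mul_gw` with `u = log N n` and `y + log N ∏I` in place of `y`;
`N(∏ I)^x = P1^{xJ} ∏ (N p/P1)^x`, `low^x = e^{xy} P1^{xJ}`. -/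
theorem OK.al_shift (h : π.OK Q J0 E) (x τ : ℝ) (n : O) :
    π.al n * (N n : ℂ) ^ ((x : ℂ) + τ * Complex.I) =
      ((Real.exp (x ^ 2 / 4) * π.low ^ x : ℝ) : ℂ) * (π.shift x τ).al n := by
  by_cases hn : Prim n ∧ IsCoprime n π.H
  · rw [al, al, if_pos hn, if_pos (show Prim n ∧ IsCoprime n (π.shift x τ).H from hn)]
    simp only [Par.shift]
    have e : (Real.exp (x * Real.log (N n)) : ℂ) * W π.S π.J π.b π.y n =
        ((Real.exp (x ^ 2 / 4) * π.low ^ x : ℝ) : ℂ) *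
          W π.S π.J (fun p => π.b p * (((N p / π.P1) ^ x : ℝ) : ℂ)) (π.y + x / 2) n := by
      simp only [W, Finset.mul_sum]
      refine Finset.sum_congr rfl fun I hI => ?_
      rw [mul_left_comm, ← Complex.ofReal_mul, h.fmal_shift x _ (Finset.mem_filter.1 hI).1,
        Finset.prod_mul_distrib, ← Complex.ofReal_prod]
      simp only [Complex.ofReal_mul]
      ring
    have e2 : (N n : ℂ) ^ (-(1 / 2 + π.t * Complex.I)) * (N n : ℂ) ^ ((x : ℂ) + τ * Complex.I) =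
        (N n : ℂ) ^ (-(1 / 2 + (π.t - τ : ℝ) * Complex.I)) * Real.exp (x * Real.log (N n)) := by
      simp only [bk2_cpow hn.1.ne_zero, Complex.ofReal_exp, ← Complex.exp_add, Complex.ofReal_mul,
        Complex.ofReal_sub]
      congr 1
      ring
    linear_combination mu n * π.ν n * W π.S π.J π.b π.y n * e2 +
      mu n * π.ν n * (N n : ℂ) ^ (-(1 / 2 + (π.t - τ : ℝ) * Complex.I)) * e
  · rw [al, al, if_neg hn, if_neg (show ¬ (Prim n ∧ IsCoprime n (π.shift x τ).H) from hn),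
      zero_mul, mul_zero]

/-- Primes dividing the row `ρ` do not matter.  If `n` is not coprime to `ρ` both sides vanish
(`χ_n(ρ) = 0` if `n` is coprime to `6`, otherwise `al n = 0`); if it is, every prime dividing `n` is
prime to `ρ`, so the index sets of `W` agree (`pr_dvd_iff`) and the coprimality conditions agree. -/
theorem OK.al_relax {π' : Par} (h : π.OK Q J0 E) (h' : π'.OK Q J0 E) (hν : π.ν = π'.ν)
    (hJ : π.J = π'.J) (hb : π.b = π'.b) (hy : π.y = π'.y) (ht : π.t = π'.t) {ρ : O}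
    (hS : ∀ p, ¬ p ∣ ρ → (p ∈ π.S ↔ p ∈ π'.S))
    (hH : ∀ p, Prime p → ¬ p ∣ ρ → (p ∣ π.H ↔ p ∣ π'.H)) (n : O) :
    π.al n * chi n ρ = π'.al n * chi n ρ := by
  by_cases hn : IsCoprime n ρ
  · have h1 : ∀ p, Prime p → p ∣ n → ¬ p ∣ ρ := fun p hp h1 h2 =>
      hp.not_isUnit (hn.isUnit_of_dvd' h1 h2)
    have h2 : ∀ {H H' : O}, (∀ p, Prime p → ¬ p ∣ ρ → p ∣ H' → p ∣ H) → Prim n ∧ IsCoprime n H →
        Prim n ∧ IsCoprime n H' := fun e hc => ⟨hc.1, isCoprime_of_prime_dvd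
      (fun e => hc.1.ne_zero e.1) fun p hp h2 h3 =>
        hp.not_isUnit (hc.2.isUnit_of_dvd' h2 (e p hp (h1 p hp h2) h3))⟩
    have h3 : ∀ {S S' : Finset O} {I : Finset O}, (∀ p ∈ S, Prime p ∧ Prim p) →
        (∀ p, ¬ p ∣ ρ → p ∈ S → p ∈ S') → I ⊆ S → pr I ∣ n → I ⊆ S' := fun hS e hI hd p hp =>
      e p (h1 p (hS p (hI hp)).1 ((Finset.dvd_prod_of_mem _ hp).trans hd)) (hI hp)
    have h4 : W π.S π.J π.b π.y n = W π'.S π.J π.b π.y n := by
      refine Finset.sum_congr ?_ fun _ _ => rfl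
      ext I
      simp only [Finset.mem_filter, Finset.mem_powersetCard]
      exact and_congr_left fun hd => and_congr_left' ⟨fun e => h3 h.primes
        (fun p hp => (hS p hp).1) e hd, fun e => h3 h'.primes (fun p hp => (hS p hp).2) e hd⟩
    rw [al, al, ← hν, ← hJ, ← hb, ← hy, ← ht, h4, if_congr ⟨h2 fun p hp e => (hH p hp e).2,
      h2 fun p hp e => (hH p hp e).1⟩ rfl rfl]
  · have key : ∀ {π : Par}, π.OK Q J0 E → π.al n * chi n ρ = 0 := fun h =>
      mul_eq_zero.2 (or_iff_not_imp_left.2 fun h0 =>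
        ((rkey_chi (h.supp6 n h0)).zero_iff ρ).2 fun e => hn e.symm)
    rw [key h, key h']

end Par

end Crest.Agent.R17.FM
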