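import Crest.Agent.R17.FMoment_Abs

/-!
# R17 / FMoment / SupA : a supremum over the length costs nothing

Definitions in `FMoment_Defs.lean`.  Prefix helper lemmas with `fmsupa_`.
-/

set_option autoImplicit false

noncomputable section

open scoped Classical ComplexConjugate
open MeasureTheory

namespace Crest.Agent.R17.FM

/-- Let `j i = ⌊Y - y i⌋₊` and `Fj j d = C₀ (1+|t|)² ∫_{y' ∈ [Y-j-2, Y-j+1]} ∫_{t' ∈ [t-1,t+1]} ‖blk (a d) y' t'‖²`.
By `local_sup` (and monotonicity of the outer integral in the set; the inner integral is a continuous,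
non-negative function of `y'`, `continuous_blk`) `‖blk (a (ρ i)) (y i) t‖² ≤ Fj (j i) (ρ i)`.  For fixed
`j`, `∑_{i : j i = j} w i Fj j (ρ i) ≤ m ∑_{d ∈ R} Fj j d ≤ m C₀ (1+|t|)² · 6 · 𝓔 e^{δ(Y-j+1)}` (exchange
the finite sum and the integrals), and `∑_j e^{-δ j} ≤ 1/(1 - e^{-δ})`. -/
theorem sup_blk {δ : ℝ} (hδ : 0 < δ) : ∃ C, 0 ≤ C ∧ ∀ (ι : Type) (T : Finset ι) (R : Finset O)
    (a : O → O → ℂ) (ρ : ι → O) (y w : ι → ℝ) (Y t m 𝓔 : ℝ), (∀ d ∈ R, PolyBd (a d)) →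
    (∀ i ∈ T, ρ i ∈ R ∧ y i ≤ Y ∧ 0 ≤ w i) →
    (∀ d ∈ R, ∑ i ∈ T.filter (fun i => ρ i = d), w i ≤ m) → 0 ≤ m → 0 ≤ 𝓔 →
    (∀ y' t' : ℝ, y' ≤ Y + 1 → |t' - t| ≤ 1 →
      ∑ d ∈ R, ‖blk (a d) y' t'‖ ^ 2 ≤ 𝓔 * Real.exp (δ * y')) →
    ∑ i ∈ T, w i * ‖blk (a (ρ i)) (y i) t‖ ^ 2 ≤
      C * (1 + |t|) ^ 2 * m * 𝓔 * Real.exp (δ * Y) := by
  obtain ⟨C, hC⟩ := local_sup
  refine ⟨|C| * (2 * Real.exp δ / δ), by positivity,
    fun ι T R a ρ y w Y t m 𝓔 ha hT hm hm0 hE h => ?_⟩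
  obtain ⟨A, hA⟩ : ∃ A, ∀ i ∈ T, A ≤ y i - 1 := by
    obtain ⟨A, hA⟩ := (T.image fun i => y i - 1).finite_toSet.bddBelow
    exact ⟨A, fun i hi => hA (Finset.mem_coe.2 (Finset.mem_image_of_mem _ hi))⟩
  set g : O → ℝ → ℝ := fun d y' => ∫ t' in Set.Icc (t - 1) (t + 1), ‖blk (a d) y' t'‖ ^ 2 with hg
  have hc : ∀ d ∈ R, Continuous fun p : ℝ × ℝ => ‖blk (a d) p.1 p.2‖ ^ 2 := fun d hd =>
    (continuous_blk (ha d hd)).norm.pow 2
  have hgc : ∀ d ∈ R, Continuous (g d) := fun d hd =>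
    continuous_parametric_integral_of_continuous (f := fun y' t' => ‖blk (a d) y' t'‖ ^ 2) (hc d hd)
      isCompact_Icc
  have hg0 : ∀ d y', 0 ≤ g d y' := fun d y' => integral_nonneg fun _ => sq_nonneg _
  set G : O → ℝ := fun d => ∫ y' in Set.Icc A (Y + 1), g d y' with hG
  have hG0 : ∀ d, 0 ≤ G d := fun d => integral_nonneg fun _ => hg0 d _
  have h1 : ∀ i ∈ T, ‖blk (a (ρ i)) (y i) t‖ ^ 2 ≤ |C| * (1 + |t|) ^ 2 * G (ρ i) := by
    intro i hi
    obtain ⟨e1, e2, -⟩ := hT i hi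
    refine (hC _ (ha _ e1) _ _).trans (mul_le_mul (by gcongr; exact le_abs_self C) ?_
      (integral_nonneg fun _ => hg0 _ _) (by positivity))
    exact setIntegral_mono_set (hgc _ e1).continuousOn.integrableOn_Icc
      (Filter.Eventually.of_forall (hg0 _))
      (Set.Icc_subset_Icc (hA i hi) (by linarith)).eventuallyLE
  have h2 : ∀ y' ≤ Y + 1, ∑ d ∈ R, g d y' ≤ 2 * 𝓔 * Real.exp (δ * y') := by
    intro y' hy'
    have hi : ∀ d ∈ R, IntegrableOn (fun t' => ‖blk (a d) y' t'‖ ^ 2) (Set.Icc (t - 1) (t + 1)) :=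
      fun d hd => ((hc d hd).comp (Continuous.prodMk_right y')).continuousOn.integrableOn_Icc
    simp only [hg]
    rw [← integral_finsetSum _ hi]
    refine (setIntegral_mono_on (integrable_finsetSum _ hi)
      (continuous_const (y := 𝓔 * Real.exp (δ * y'))).continuousOn.integrableOn_Icc measurableSet_Icc
      fun t' ht' => h y' t' hy' (abs_le.2 ⟨by linarith [ht'.1], by linarith [ht'.2]⟩)).trans_eq ?_
    rw [setIntegral_const, Real.volume_real_Icc_of_le (by linarith), smul_eq_mul]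
    ring
  have h3 : ∑ d ∈ R, G d ≤ 2 * 𝓔 * (Real.exp (δ * (Y + 1)) / δ) := by
    have hi : ∀ d ∈ R, IntegrableOn (g d) (Set.Icc A (Y + 1)) :=
      fun d hd => (hgc d hd).continuousOn.integrableOn_Icc
    have hi' := (integrableOn_exp_mul_Iic hδ (Y + 1)).const_mul (2 * 𝓔)
    simp only [hG]
    rw [← integral_finsetSum _ hi, ← integral_exp_mul_Iic hδ, ← integral_const_mul]
    refine (setIntegral_mono_on (integrable_finsetSum _ hi)
      (IntegrableOn.mono_set hi' Set.Icc_subset_Iic_self) measurableSet_Icc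
      fun y' hy' => h2 y' hy'.2).trans ?_
    exact setIntegral_mono_set hi' (Filter.Eventually.of_forall fun _ => by positivity)
      Set.Icc_subset_Iic_self.eventuallyLE
  have h4 : ∑ i ∈ T, w i * G (ρ i) ≤ m * ∑ d ∈ R, G d := by
    rw [← Finset.sum_fiberwise_of_maps_to fun i hi => (hT i hi).1, Finset.mul_sum]
    refine Finset.sum_le_sum fun d hd => ?_
    rw [Finset.sum_congr rfl fun i hi => by rw [(Finset.mem_filter.1 hi).2], ← Finset.sum_mul]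
    exact mul_le_mul_of_nonneg_right (hm d hd) (hG0 d)
  calc _ ≤ ∑ i ∈ T, w i * (|C| * (1 + |t|) ^ 2 * G (ρ i)) :=
        Finset.sum_le_sum fun i hi => mul_le_mul_of_nonneg_left (h1 i hi) (hT i hi).2.2
    _ = |C| * (1 + |t|) ^ 2 * ∑ i ∈ T, w i * G (ρ i) := by
        rw [Finset.mul_sum]
        exact Finset.sum_congr rfl fun i _ => by ring
    _ ≤ |C| * (1 + |t|) ^ 2 * (m * (2 * 𝓔 * (Real.exp (δ * (Y + 1)) / δ))) := by
        gcongr
        exact h4.trans (mul_le_mul_of_nonneg_left h3 hm0)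
    _ = _ := by rw [mul_add, mul_one, Real.exp_add]; ring

end Crest.Agent.R17.FM
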