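import Crest.Agent.R17.FMoment_Link
import Crest.Agent.R17.FMoment_SupA

/-!
# R17 / FMoment / Sup : families of rows with varying lengths

Definitions in `FMoment_Defs.lean`.  Prefix helper lemmas with `fmsup_`.
-/

set_option autoImplicit false

noncomputable section

open scoped Classical ComplexConjugate
open MeasureTheory

namespace Crest.Agent.R17.FM

/-- the part with a fixed number of marks -/
theorem fmsup_fix (J0 B : ℕ) {δ : ℝ} (hδ : 0 < δ) : ∃ C, 0 ≤ C ∧ ∀ (Q : Lev) (E M X : ℝ), 0 ≤ M →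
    BndK Q J0 δ E M B X → ∀ π : Par, π.OK Q J0 E → ∀ (ι : Type) (T : Finset ι) (ρ : ι → O)
    (j₀ : ℕ) (y w : ι → ℝ) (D κ X3 m : ℝ), 1 ≤ κ → κ ^ 2 ≤ D → 0 < X3 → Real.exp 1 * X3 ≤ X →
    Real.exp 1 * X3 * π.L ≤ D → κ * X3 ≤ D → π.L ^ 6 ≤ D → 0 ≤ m → j₀ ≤ π.J →
    (∀ i ∈ T, ρ i ∈ ball (D / κ ^ 2) ∧ (π.set j₀ (y i)).len ≤ X3 ∧ 0 ≤ w i) →
    (∀ d : O, ∑ i ∈ T.filter (fun i => ρ i = d), w i ≤ m) →
    κ * ∑ i ∈ T, w i * ‖(π.set j₀ (y i)).F (ρ i)‖ ^ 2 ≤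
      C * m * M * N π.H ^ (δ / 2) * (1 + |π.t|) ^ (B + 2) * D * X3 ^ δ := by
  obtain ⟨C, hC, hsup⟩ := sup_blk hδ
  refine ⟨C * Real.exp c0 * 2 ^ B, by positivity, ?_⟩
  intro Q E M X hM hB π h ι T ρ j₀ y w D κ X3 m hκ hκD hX3 hX hD1 hD2 hD3 hm hj hT hfib
  have hκ0 : 0 < κ := lt_of_lt_of_le one_pos hκ
  have hD0 : 0 < D := lt_of_lt_of_le (by positivity) hκD
  have hj0 : j₀ ≤ J0 := hj.trans h.hJ
  have h₀ : (π.set j₀ 0).OK Q J0 E := h.set hj0 0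
  have hP2 : 1 ≤ π.P2 := h.h1.trans h.h12
  set P : ℝ := π.P2 ^ j₀ with hP
  have hP1 : 1 ≤ P := one_le_pow₀ hP2
  have hP0 : 0 < P := lt_of_lt_of_le one_pos hP1
  have hPL : P ≤ π.L := h.L_set_le hj 0
  have hNH : 0 ≤ N π.H ^ (δ / 2) := Real.rpow_nonneg (N_nonneg _) _
  set Y : ℝ := Real.log (X3 / P) with hY
  have hexpY : Real.exp Y = X3 / P := Real.exp_log (div_pos hX3 hP0)
  set 𝓔 : ℝ := Real.exp c0 * M * N π.H ^ (δ / 2) * (2 * (1 + |π.t|)) ^ B * (D / κ) * P ^ δ with h𝓔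
  have h𝓔0 : 0 ≤ 𝓔 := by positivity
  have key := hsup ι T (ball (D / κ ^ 2)) (fun d => (π.set j₀ 0).sq d) ρ y w Y π.t m 𝓔
    (fun d _ => h₀.polyBd_sq d) ?_ (fun d _ => hfib d) hm h𝓔0 ?_
  · have hrw : ∑ i ∈ T, w i * ‖(π.set j₀ (y i)).F (ρ i)‖ ^ 2 =
        ∑ i ∈ T, w i * ‖blk ((π.set j₀ 0).sq (ρ i)) (y i) π.t‖ ^ 2 :=
      Finset.sum_congr rfl fun i _ => by rw [F_set h hj0 (y i) 0]
    have hXd : P ^ δ * Real.exp (δ * Y) = X3 ^ δ := by
      rw [mul_comm δ Y, Real.exp_mul, hexpY, ← Real.mul_rpow hP0.le (div_pos hX3 hP0).le]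
      congr 1
      field_simp
    rw [hrw]
    refine (mul_le_mul_of_nonneg_left key hκ0.le).trans (le_of_eq ?_)
    rw [h𝓔, ← hXd, mul_pow, pow_add]
    field_simp
  · intro i hi
    obtain ⟨h1, h2, h3⟩ := hT i hi
    refine ⟨h1, ?_, h3⟩
    have h2' : Real.exp (y i) * P ≤ X3 := h2
    rw [hY, Real.le_log_iff_exp_le (div_pos hX3 hP0), le_div_iff₀ hP0]
    exact h2'
  · intro y' t' hy' ht'
    have h' : ((π.set j₀ 0).mv y' t').OK Q J0 E := h₀.mv y' t'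
    have hlen : ((π.set j₀ 0).mv y' t').len = Real.exp y' * P := rfl
    have hL : ((π.set j₀ 0).mv y' t').L = P := rfl
    have hH : ((π.set j₀ 0).mv y' t').H = π.H := rfl
    have ht : ((π.set j₀ 0).mv y' t').t = t' := rfl
    have hle : Real.exp y' * P ≤ Real.exp 1 * X3 := by
      have : Real.exp y' ≤ Real.exp 1 * (X3 / P) := by
        rw [← hexpY, ← Real.exp_add]
        exact Real.exp_le_exp.2 (by linarith)
      calc Real.exp y' * P ≤ Real.exp 1 * (X3 / P) * P := mul_le_mul_of_nonneg_right this hP0.le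
        _ = Real.exp 1 * X3 := by field_simp
    have he3 : Real.exp 1 ≤ 3 := (Real.exp_one_lt_d9.trans (by norm_num)).le
    have hb := hB _ h' D κ hκ hκD (by rw [hlen]; exact hle.trans hX)
      (by
        rw [hlen, hL]
        exact (mul_le_mul hle hPL hP0.le (by positivity)).trans hD1)
      (by
        rw [hlen]
        calc κ * (Real.exp y' * P) ≤ κ * (3 * X3) :=
              mul_le_mul_of_nonneg_left (hle.trans (mul_le_mul_of_nonneg_right he3 hX3.le)) hκ0.le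
          _ = 3 * (κ * X3) := by ring
          _ ≤ 3 * D := by linarith)
      (by
        rw [hL]
        exact (pow_le_pow_left₀ hP0.le hPL 6).trans hD3)
    rw [hlen, hH, ht] at hb
    have hMo := ball_le_Mo h'.rapid h'.supp6 (D := D / κ ^ 2) (by positivity)
    have hrw : ∑ d ∈ ball (D / κ ^ 2), ‖blk ((π.set j₀ 0).sq d) y' t'‖ ^ 2 =
        ∑ d ∈ ball (D / κ ^ 2), ‖∑' n, ((π.set j₀ 0).mv y' t').al n * chi n d‖ ^ 2 :=
      Finset.sum_congr rfl fun d _ => by rw [← h₀.F_mv y' t' d]; rfl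
    have ht2 : (1 + |t'|) ^ B ≤ (2 * (1 + |π.t|)) ^ B := by
      refine pow_le_pow_left₀ (by positivity) ?_ B
      have h1 : |t'| ≤ |t' - π.t| + |π.t| := by
        have := abs_add_le (t' - π.t) π.t
        simpa using this
      have := abs_nonneg π.t
      linarith
    have hpw : (Real.exp y' * P) ^ δ = P ^ δ * Real.exp (δ * y') := by
      rw [Real.mul_rpow (Real.exp_pos _).le hP0.le, mul_comm δ y', Real.exp_mul, mul_comm]
    have hMo2 : Mo ((π.set j₀ 0).mv y' t').al (D / κ ^ 2) ≤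
        M * N π.H ^ (δ / 2) * (2 * (1 + |π.t|)) ^ B * (D / κ) * (P ^ δ * Real.exp (δ * y')) := by
      rw [← hpw]
      have h1 : M * N π.H ^ (δ / 2) * (1 + |t'|) ^ B * D * (Real.exp y' * P) ^ δ ≤
          M * N π.H ^ (δ / 2) * (2 * (1 + |π.t|)) ^ B * D * (Real.exp y' * P) ^ δ := by
        gcongr
      have h2 := hb.trans h1
      rw [← le_div_iff₀' hκ0] at h2
      refine h2.trans (le_of_eq ?_)
      field_simp
    rw [hrw]
    refine hMo.trans ((mul_le_mul_of_nonneg_left hMo2 (Real.exp_pos _).le).trans (le_of_eq ?_))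
    rw [h𝓔]
    ring

/-- If `T` is empty there is nothing to prove; otherwise `1 ≤ D/κ²`.  Split `T` according to
`j i = j₀ ≤ π.J ≤ J0` (`Finset.sum_fiberwise_of_maps_to`).  For fixed `j₀` apply `sup_blk` with
`R = ball (D/κ²)`, `a d = (π.set j₀ 0).sq d` (`F_set`), `Y = log (X3/P2^{j₀})` and
`𝓔 = e^{c0} M N H^{δ/2} 2^B (1+|t|)^B (D/κ) P2^{j₀ δ}`: for `y' ≤ Y + 1`, `|t' - t| ≤ 1` the block is
`((π.set j₀ 0).mv y' t').F d` (`F_mv`), of length `≤ e X3`; `ball_le_Mo`, `BndK` (`e ≤ 3`). -/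
theorem supK (J0 B : ℕ) {δ : ℝ} (hδ : 0 < δ) : ∃ C, 0 ≤ C ∧ ∀ (Q : Lev) (E M X : ℝ), 0 ≤ M →
    BndK Q J0 δ E M B X → ∀ π : Par, π.OK Q J0 E → ∀ (ι : Type) (T : Finset ι) (ρ : ι → O)
    (j : ι → ℕ) (y w : ι → ℝ) (D κ X3 m : ℝ), 1 ≤ κ → 0 < X3 → Real.exp 1 * X3 ≤ X →
    Real.exp 1 * X3 * π.L ≤ D → κ * X3 ≤ D → π.L ^ 6 ≤ D → 0 ≤ m →
    (∀ i ∈ T, ρ i ∈ ball (D / κ ^ 2) ∧ j i ≤ π.J ∧ (π.set (j i) (y i)).len ≤ X3 ∧ 0 ≤ w i) →
    (∀ d : O, ∑ i ∈ T.filter (fun i => ρ i = d), w i ≤ m) →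
    κ * ∑ i ∈ T, w i * ‖(π.set (j i) (y i)).F (ρ i)‖ ^ 2 ≤
      C * m * M * N π.H ^ (δ / 2) * (1 + |π.t|) ^ (B + 2) * D * X3 ^ δ := by
  obtain ⟨C, hC, hfix⟩ := fmsup_fix J0 B hδ
  refine ⟨(J0 + 1 : ℕ) * C, by positivity, ?_⟩
  intro Q E M X hM hB π h ι T ρ j y w D κ X3 m hκ hX3 hX hD1 hD2 hD3 hm hT hfib
  have hκ0 : 0 < κ := lt_of_lt_of_le one_pos hκ
  have hD0 : 0 < D := lt_of_lt_of_le (mul_pos hκ0 hX3) hD2
  have hNH : 0 ≤ N π.H ^ (δ / 2) := Real.rpow_nonneg (N_nonneg _) _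
  rcases T.eq_empty_or_nonempty with rfl | ⟨i₀, hi₀⟩
  · simp only [Finset.sum_empty, mul_zero]
    positivity
  have hκD : κ ^ 2 ≤ D := by
    obtain ⟨h1, h2⟩ := mem_ball.1 (hT i₀ hi₀).1
    have := (one_le_N h1).trans h2
    rwa [le_div_iff₀ (by positivity), one_mul] at this
  have hmap : ∀ i ∈ T, j i ∈ Finset.range (J0 + 1) := fun i hi =>
    Finset.mem_range.2 (Nat.lt_succ_of_le ((hT i hi).2.1.trans h.hJ))
  rw [← Finset.sum_fiberwise_of_maps_to hmap, Finset.mul_sum]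
  have hone : ∀ j₀ ∈ Finset.range (J0 + 1),
      κ * ∑ i ∈ T.filter (fun i => j i = j₀), w i * ‖(π.set (j i) (y i)).F (ρ i)‖ ^ 2 ≤
        C * m * M * N π.H ^ (δ / 2) * (1 + |π.t|) ^ (B + 2) * D * X3 ^ δ := by
    intro j₀ _
    by_cases hj : j₀ ≤ π.J
    · have hrw : ∑ i ∈ T.filter (fun i => j i = j₀), w i * ‖(π.set (j i) (y i)).F (ρ i)‖ ^ 2 =
          ∑ i ∈ T.filter (fun i => j i = j₀), w i * ‖(π.set j₀ (y i)).F (ρ i)‖ ^ 2 :=
        Finset.sum_congr rfl fun i hi => by rw [(Finset.mem_filter.1 hi).2]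
      rw [hrw]
      refine hfix Q E M X hM hB π h ι _ ρ j₀ y w D κ X3 m hκ hκD hX3 hX hD1 hD2 hD3 hm hj ?_ ?_
      · intro i hi
        obtain ⟨hi, hji⟩ := Finset.mem_filter.1 hi
        obtain ⟨h1, -, h3, h4⟩ := hT i hi
        exact ⟨h1, hji ▸ h3, h4⟩
      · intro d
        refine le_trans (Finset.sum_le_sum_of_subset_of_nonneg ?_ ?_) (hfib d)
        · exact Finset.filter_subset_filter _ (Finset.filter_subset _ _)
        · intro i hi _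
          exact (hT i (Finset.mem_filter.1 hi).1).2.2.2
    · have : T.filter (fun i => j i = j₀) = ∅ :=
        Finset.filter_eq_empty_iff.2 fun i hi hji => hj (hji ▸ (hT i hi).2.1)
      rw [this]
      simp only [Finset.sum_empty, mul_zero]
      positivity
  refine (Finset.sum_le_sum hone).trans (le_of_eq ?_)
  rw [Finset.sum_const, Finset.card_range, nsmul_eq_mul]
  ring

end Crest.Agent.R17.FM
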