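import Crest.Agent.R17.FMoment_Twist
import Crest.Agent.R17.FMoment_Sup

/-!
# R17 / FMoment / BackI : the backward step, inner part

Definitions in `FMoment_Defs.lean`.  Prefix helper lemmas with `fmbacki_`.
-/

set_option autoImplicit false

noncomputable section

open scoped Classical ComplexConjugate
open MeasureTheory

namespace Crest.Agent.R17.FM

/-- the rows `ρ = d g² r²`: for a fixed `ρ` the pairs `(r, g)` of primary elements with `(r g)² ∣ ρ` are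
at most `dv ρ ²`, and `d` is determined.  Weighted form: `T'` is a finite family with data
`(r, g, d)`, and the weights of the members with given `(r, g, d)` add up to at most `m`. -/
theorem rows_fibre {ι : Type} (T' : Finset ι) (r g d : ι → O) (w : ι → ℝ) {m : ℝ} (hm : 0 ≤ m)
    (h : ∀ i ∈ T', Prim (r i) ∧ Prim (g i) ∧ d i ≠ 0)
    (hw : ∀ r0 g0 d0 : O, ∑ i ∈ T'.filter (fun i => r i = r0 ∧ g i = g0 ∧ d i = d0), w i ≤ m)
    (ρ : O) (hρ : ρ ≠ 0) :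
    ∑ i ∈ T'.filter (fun i => d i * g i ^ 2 * r i ^ 2 = ρ), w i ≤ dv ρ ^ 2 * m := by
  rw [← Finset.sum_fiberwise_of_maps_to (t := pdiv ρ ×ˢ pdiv ρ) (g := fun i => (r i, g i))]
  · refine (Finset.sum_le_card_nsmul _ _ m fun z _ => ?_).trans_eq ?_
    · rcases ((T'.filter (fun i => d i * g i ^ 2 * r i ^ 2 = ρ)).filter
        (fun i => (r i, g i) = z)).eq_empty_or_nonempty with h0 | ⟨i0, h0⟩
      · rw [h0]
        exact hm
      · simp only [Finset.mem_filter] at h0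
        obtain ⟨⟨h1, h2⟩, rfl⟩ := h0
        refine le_trans (le_of_eq (Finset.sum_congr ?_ fun _ _ => rfl)) (hw (r i0) (g i0) (d i0))
        ext i
        simp only [Finset.mem_filter, Prod.mk.injEq]
        constructor
        · rintro ⟨⟨h3, h4⟩, h5, h6⟩
          refine ⟨h3, h5, h6, ?_⟩
          rw [h5, h6, ← h2] at h4
          exact mul_right_cancel₀ (pow_ne_zero 2 (h i0 h1).2.1.ne_zero)
            (mul_right_cancel₀ (pow_ne_zero 2 (h i0 h1).1.ne_zero) h4)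
        · rintro ⟨h3, h5, h6, h4⟩
          exact ⟨⟨h3, by rw [h5, h6, h4, h2]⟩, h5, h6⟩
    · rw [Finset.card_product, nsmul_eq_mul, dv, sq, Nat.cast_mul]
  · intro i hi
    obtain ⟨h1, rfl⟩ := Finset.mem_filter.1 hi
    exact Finset.mem_product.2 ⟨(mem_pdiv hρ).2 ⟨(h i h1).1, ⟨d i * g i ^ 2 * r i, by ring⟩⟩,
      (mem_pdiv hρ).2 ⟨(h i h1).2.1, ⟨d i * g i * r i ^ 2, by ring⟩⟩⟩

/-- the quantities produced by `Bsum_le` -/
def fmbacki_V (π : Par) (δ τ : ℝ) (ν' : O → ℂ) (j : ℕ) (y : ℝ) (g r' : O) (I : Finset O)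
    (ρ : O) : ℝ :=
  ‖((((π.shift (δ - 1 / 2) τ).tw ν').excl r').set (j - I.card)
    (y + (δ - 1 / 2) / 2 - Real.log (N (g * r')) + Real.log (N (pr I)))).F ρ‖ ^ 2

theorem fmbacki_row {Y : ℝ} {d g r : O} (hg : g ≠ 0) (hr : r ≠ 0)
    (hd : d ∈ ball (Y / N r ^ 2 / N g ^ 2)) :
    d * g ^ 2 * r ^ 2 ∈ ball Y ∧ N g ≤ Y ∧ N r ≤ Y := by
  obtain ⟨h1, h2⟩ := mem_ball.1 hd
  have h0 := mul_ne_zero (mul_ne_zero h1 (pow_ne_zero 2 hg)) (pow_ne_zero 2 hr)
  have h3 : N (d * g ^ 2 * r ^ 2) ≤ Y := by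
    rwa [N_mul, N_mul, N_pow, N_pow, ← le_div_iff₀ (pow_pos (N_pos hr) 2),
      ← le_div_iff₀ (pow_pos (N_pos hg) 2)]
  exact ⟨mem_ball.2 ⟨h0, h3⟩, (N_le_of_dvd h0 ⟨d * g * r ^ 2, by ring⟩).trans h3,
    (N_le_of_dvd h0 ⟨d * g ^ 2 * r, by ring⟩).trans h3⟩

theorem fmbacki_fixed (J0 B : ℕ) {δ : ℝ} (hδ : 0 < δ) (hδ1 : δ ≤ 1 / 8) : ∃ C, 0 ≤ C ∧
    ∀ (Q : Lev) (E M X' : ℝ), 0 ≤ M → BndK Q J0 δ E M B X' → ∀ π : Par, π.OK Q J0 E →
    ∀ (ι : Type) (T : Finset ι) (r : ι → O) (j : ι → ℕ) (y ω : ι → ℝ) (D κ X1 X2 Λ m0 : ℝ),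
    π.BH δ E X' T r j y ω D κ X1 X2 Λ m0 → ∀ ν' ∈ hchars Q.q, ∀ (τ : ℝ) (r' : O), Prim r' →
    ∀ P : Finset (O × O), (∀ x ∈ P, Prim x.1 ∧ x.2 = r') →
      κ * ∑ i ∈ T, ∑ x ∈ P, ∑ d ∈ ball (D / κ ^ 2 / N (r i) ^ 2 / N x.1 ^ 2),
        ∑ I ∈ marks π.S (j i) (x.1 * r'), ω i * N (r i) * dv (x.1 * r') *
          fmbacki_V π δ τ ν' (j i) (y i) x.1 r' I (d * x.1 ^ 2 * r i ^ 2) ≤
      C * m0 * E ^ 3 * M * N π.H ^ (δ / 2) * (1 + |π.t - τ|) ^ (B + 2) * D * X1 ^ δ *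
        N r' ^ (-(δ / 4)) := by
  obtain ⟨C1, hC1, h1⟩ := supK J0 B hδ
  obtain ⟨C2, hC2, h2⟩ := dv_le (θ := δ / 8) (by positivity)
  refine ⟨C1 * C2 ^ 4, by positivity,
    fun Q E M X' hM hB π hπ ι T r j y ω D κ X1 X2 Λ m0 hb ν' hν τ r' hr' P hP => ?_⟩
  have hE := hπ.one_le_E
  have hL := hπ.one_le_L
  have hD : 1 ≤ D := (one_le_pow₀ hL).trans hb.h4
  have hκ := hb.hκ
  have hm0 := hb.hm
  have hX1 := hb.hX1
  have hX2 := hb.hX2
  have hN := one_le_N hr'.ne_zero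
  have hN0 : 0 < N r' := by linarith
  have hx : δ - 1 / 2 ≤ 0 := by linarith
  have hDκ : D / κ ^ 2 ≤ D := div_le_self (by linarith) (one_le_pow₀ hκ)
  have hsm : ∀ n : O, N n ≤ D / κ ^ 2 → ∀ e, 0 ≤ e → e ≤ δ / 2 → N n ^ e ≤ E := fun n h e a1 a2 =>
    ((Real.rpow_le_rpow (N_nonneg n) (h.trans hDκ) a1).trans
      (Real.rpow_le_rpow_of_exponent_le hD a2)).trans (le_of_sq_le_sq (by
        rw [← Real.rpow_mul_natCast (by linarith)]
        simpa using hb.hE2) (by linarith))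
  have hdv : ∀ n : O, n ≠ 0 → dv n ^ 2 ≤ C2 ^ 2 * N n ^ (δ / 4) := fun n hn => by
    refine (pow_le_pow_left₀ (dv_nonneg n) (h2 n hn) 2).trans_eq ?_
    rw [mul_pow, ← Real.rpow_mul_natCast (N_nonneg n)]
    congr 2
    push_cast
    ring
  have hmin : min X1 X2 / N r' ≤ min X1 X2 := div_le_self (le_min hX1.le hX2.le) hN
  have hmin1 := hmin.trans (min_le_left _ _)
  have hmin2 := mul_le_mul_of_nonneg_left (hmin.trans (min_le_right _ _)) (Real.exp_pos 1).le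
  set T' : Finset (Σ _ : ι, Σ _ : O × O, Σ _ : O, Finset O) := T.sigma fun i => P.sigma fun x =>
    (ball (D / κ ^ 2 / N (r i) ^ 2 / N x.1 ^ 2)).sigma fun _ => marks π.S (j i) (x.1 * r') with hT'
  have hmem : ∀ z ∈ T', z.1 ∈ T ∧ z.2.1 ∈ P ∧
      z.2.2.1 ∈ ball (D / κ ^ 2 / N (r z.1) ^ 2 / N z.2.1.1 ^ 2) ∧
      z.2.2.2 ∈ marks π.S (j z.1) (z.2.1.1 * r') := fun z hz => by
    simpa only [hT', Finset.mem_sigma] using hz
  have hrow := fun z hz => fmbacki_row (hP _ (hmem z hz).2.1).1.ne_zero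
    (hb.hr _ (hmem z hz).1).ne_zero (hmem z hz).2.2.1
  have hm' : 0 ≤ C2 ^ 2 * E ^ 2 * m0 * N r' ^ (δ / 4) := by positivity
  have h3 := h1 Q E M X' hM hB _ (((hπ.shift hx τ).tw hν).excl hr') _ T'
    (fun z => z.2.2.1 * z.2.1.1 ^ 2 * r z.1 ^ 2) (fun z => j z.1 - z.2.2.2.card)
    (fun z => y z.1 + (δ - 1 / 2) / 2 - Real.log (N (z.2.1.1 * r')) + Real.log (N (pr z.2.2.2)))
    (fun z => ω z.1 * N (r z.1) * dv (z.2.1.1 * r')) D κ (min X1 X2 / N r')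
    (C2 ^ 2 * E * (C2 ^ 2 * E ^ 2 * m0 * N r' ^ (δ / 4))) hκ (by positivity)
    (hmin2.trans hb.h1) ((mul_le_mul_of_nonneg_right hmin2 (zero_le_one.trans hL)).trans hb.h2)
    ((mul_le_mul_of_nonneg_left hmin1 (by linarith)).trans hb.h3) hb.h4 (by positivity)
    (fun z hz => by
      obtain ⟨a1, a2, a3, a4⟩ := hmem z hz
      have a5 := (hP _ a2).1.ne_zero
      have a6 := hπ.set ((hb.hj _ a1).trans hπ.hJ) (y z.1)
      refine ⟨(hrow z hz).1, (Nat.sub_le _ _).trans (hb.hj _ a1), ?_,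
        mul_nonneg (mul_nonneg (hb.hω _ a1) (N_nonneg _)) (dv_nonneg _)⟩
      refine ((a6.shift hx τ).len_cut_le (mul_ne_zero a5 hr'.ne_zero) a4).trans
        (div_le_div₀ (le_min hX1.le hX2.le) ((a6.len_shift_le hx τ).trans (le_min
          ((hb.up1 _ a1).trans (div_le_self hX1.le (one_le_N (hb.hr _ a1).ne_zero)))
          (hb.up2 _ a1))) hN0 ?_)
      exact N_le_of_dvd (mul_ne_zero a5 hr'.ne_zero) (dvd_mul_left _ _))
    (fun ρ => by
      rcases (T'.filter fun z => z.2.2.1 * z.2.1.1 ^ 2 * r z.1 ^ 2 = ρ).eq_empty_or_nonempty with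
        h0 | ⟨z0, h0⟩
      · rw [h0, Finset.sum_empty]
        positivity
      obtain ⟨b1, b2⟩ := Finset.mem_filter.1 h0
      obtain ⟨b3, b4⟩ := mem_ball.1 (b2 ▸ (hrow z0 b1).1)
      refine (rows_fibre T' (fun z => r z.1) (fun z => z.2.1.1) (fun z => z.2.2.1) _ hm'
        (fun z hz => ⟨hb.hr _ (hmem z hz).1, (hP _ (hmem z hz).2.1).1,
          (mem_ball.1 (hmem z hz).2.2.1).1⟩) (fun r0 g0 d0 => ?_) ρ b3).trans
        (mul_le_mul_of_nonneg_right ((hdv ρ b3).trans (mul_le_mul_of_nonneg_left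
          (hsm ρ b4 _ (by positivity) (by linarith)) (by positivity))) hm')
      rcases (T'.filter fun z => r z.1 = r0 ∧ z.2.1.1 = g0 ∧ z.2.2.1 = d0).eq_empty_or_nonempty with
        h0 | ⟨z1, h0⟩
      · rw [h0, Finset.sum_empty]
        exact hm'
      obtain ⟨c1, c2, c3, -⟩ := Finset.mem_filter.1 h0
      have c4 : g0 * r' ≠ 0 := mul_ne_zero (c3 ▸ (hP _ (hmem z1 c1).2.1).1.ne_zero) hr'.ne_zero
      have c5 : 0 < N r0 := N_pos (c2 ▸ (hb.hr _ (hmem z1 c1).1).ne_zero)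
      have c6 := hsm r0 (c2 ▸ (hrow z1 c1).2.2) (δ / 2) (by positivity) le_rfl
      have c7 := hsm g0 (c3 ▸ (hrow z1 c1).2.1) (δ / 4) (by positivity) (by linarith)
      have c8 := hdv _ c4
      rw [← Finset.sum_fiberwise_of_maps_to (t := T.filter fun i => r i = r0) (g := fun z => z.1)
        fun z hz => Finset.mem_filter.2 ⟨(hmem z (Finset.mem_filter.1 hz).1).1,
          (Finset.mem_filter.1 hz).2.1⟩]
      refine (Finset.sum_le_sum (g := fun i => ω i * (N r0 * dv (g0 * r') ^ 2))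
        fun i hi => ?_).trans ?_
      · have e0 : 0 ≤ ω i * N r0 * dv (g0 * r') :=
          mul_nonneg (mul_nonneg (hb.hω _ (Finset.mem_filter.1 hi).1) c5.le) (dv_nonneg _)
        refine (Finset.sum_le_card_nsmul _ _ (ω i * N r0 * dv (g0 * r')) fun z hz => ?_).trans ?_
        · simp only [Finset.mem_filter] at hz
          rw [hz.1.2.1, hz.1.2.2.1, hz.2]
        · rw [nsmul_eq_mul]
          refine (mul_le_mul_of_nonneg_right (le_trans (Nat.cast_le.2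
            (Finset.card_le_card_of_injOn (fun z => z.2.2.2) (fun z hz => ?_) ?_))
            (card_marks_le hπ.primes (j i) c4)) e0).trans_eq (by ring)
          · simp only [Finset.coe_filter, Finset.mem_filter, Set.mem_ofPred_eq] at hz
            have := (hmem z hz.1.1).2.2.2
            rwa [hz.1.2.2.1, hz.2] at this
          · rintro ⟨i1, x1, d1, I1⟩ hz1 ⟨i2, x2, d2, I2⟩ hz2 h
            simp only [Finset.coe_filter, Finset.mem_filter, Set.mem_ofPred_eq] at hz1 hz2 h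
            have e : x1 = x2 := Prod.ext (hz1.1.2.2.1.trans hz2.1.2.2.1.symm)
              ((hP _ (hmem _ hz1.1.1).2.1).2.trans (hP _ (hmem _ hz2.1.1).2.1).2.symm)
            rw [hz1.2, hz2.2, e, hz1.1.2.2.2, hz2.1.2.2.2, h]
      · rw [← Finset.sum_mul]
        refine (mul_le_mul (hb.fib r0) (mul_le_mul_of_nonneg_left c8 c5.le)
          (by positivity) (by positivity)).trans ?_
        rw [Real.rpow_add c5, Real.rpow_neg_one, N_mul, Real.mul_rpow (N_nonneg _) hN0.le]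
        have := mul_le_mul_of_nonneg_left (mul_le_mul c6 c7 (Real.rpow_nonneg (N_nonneg _) _)
          (by linarith)) (by positivity : 0 ≤ C2 ^ 2 * m0 * N r' ^ (δ / 4))
        refine le_trans (le_of_eq ?_) (this.trans_eq (by ring))
        field_simp)
  simp only [Finset.sum_sigma']
  refine h3.trans ?_
  have e1 : N (π.H * r') ^ (δ / 2) = N π.H ^ (δ / 2) * N r' ^ (δ / 2) := by
    rw [N_mul, Real.mul_rpow (N_nonneg _) hN0.le]
  have e2 : (min X1 X2 / N r') ^ δ ≤ X1 ^ δ * N r' ^ (-δ) := by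
    rw [Real.rpow_neg hN0.le, ← div_eq_mul_inv, ← Real.div_rpow hX1.le hN0.le]
    exact Real.rpow_le_rpow (by positivity) (div_le_div_of_nonneg_right (min_le_left _ _) hN0.le)
      hδ.le
  have e3 : N r' ^ (-(δ / 4)) = N r' ^ (δ / 4) * N r' ^ (δ / 2) * N r' ^ (-δ) := by
    rw [← Real.rpow_add hN0, ← Real.rpow_add hN0]
    congr 1
    ring
  have hH := N_nonneg π.H
  change _ * _ * _ * N (π.H * r') ^ (δ / 2) * (1 + |π.t - τ|) ^ (B + 2) * _ * _ ≤ _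
  rw [e1, e3]
  exact (mul_le_mul_of_nonneg_left e2 (by positivity)).trans_eq (by ring)

/-- Drop `(K N d)^{-δ} ≤ 1`.  `Bsum_le` for `π.set (j i) (y i)` with `σ = δ`;
`low^{2δ-1} ≤ (Λ N(r i)/X1) · X1^{2δ} ≤ Λ N(r i) E²/X1` (`lo`, `low ≤ len ≤ X1`, `hE1`).  Group the pairs
`x = (g, r') ∈ P` according to `r'`.  For fixed `r'` apply `supK` to `π₃ = ((π.shift (δ-1/2) τ).tw ν').excl r'`
(the parameters in `Bsum_le` are `π₃.set j' y'` by `rfl`) and the family of all `(i, g, I, d)`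
(a `Finset.sigma`), with `ρ = d g² (r i)²  ∈ ball (D/κ²)`, weight `ω i · N(r i) · dv (g r')`,
`X3 = min X1 X2 / N r'` (`len_cut_le`, `len_shift_le`, `up1`, `up2`).  Fibres (`rows_fibre`,
`card_marks_le`, `fib`, `dv_le`): `≤ dv ρ² · m0 N(r)^{δ/2} dv(g r')² ≤ C m0 E⁶ N r'^{δ/4}` because
`N ρ, N r, N g ≤ D` and `D^δ ≤ E²`.  Finally `N (H r')^{δ/2} X3^δ ≤ N H^{δ/2} X1^δ N r'^{-δ/2}` and
`∑_{r'} N r'^{-1-δ/4} ≤ C` (`sum_N_rpow_le`). -/
theorem back_inner (J0 B : ℕ) {δ : ℝ} (hδ : 0 < δ) (hδ1 : δ ≤ 1 / 8) : ∃ C, 0 ≤ C ∧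
    ∀ (Q : Lev) (E M X' : ℝ), 0 ≤ M → BndK Q J0 δ E M B X' → ∀ π : Par, π.OK Q J0 E →
    ∀ (ι : Type) (T : Finset ι) (r : ι → O) (j : ι → ℕ) (y ω : ι → ℝ) (D κ X1 X2 Λ m0 : ℝ),
    π.BH δ E X' T r j y ω D κ X1 X2 Λ m0 → ∀ K : ℝ, 1 ≤ K → ∀ ν' ∈ hchars Q.q, ∀ (τ : ℝ)
    (P : Finset (O × O)), (∀ x ∈ P, Prim x.1 ∧ Prim x.2) →
      ∑ i ∈ T, ω i * ∑ x ∈ P, ∑ d ∈ ball (D / κ ^ 2 / N (r i) ^ 2 / N x.1 ^ 2),
        (K * N d) ^ (-δ) * ‖Bsum (fun m => (π.set (j i) (y i)).al m * chi m (r i ^ 2)) ν' x.1 x.2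
          (d * x.1 ^ 2) δ τ‖ ^ 2 ≤
      C * m0 * Λ * E ^ 8 * M * N π.H ^ (δ / 2) * (D / (κ * X1)) * X1 ^ δ *
        (1 + |π.t - τ|) ^ (B + 2) := by
  obtain ⟨C1, hC1, h1⟩ := fmbacki_fixed J0 B hδ hδ1
  obtain ⟨C2, hC2, h2⟩ := sum_N_rpow_le (θ := δ / 4) (by positivity)
  refine ⟨2 * C1 * C2, by positivity,
    fun Q E M X' hM hB π hπ ι T r j y ω D κ X1 X2 Λ m0 hb K hK ν' hν τ P hP => ?_⟩
  have hE := hπ.one_le_E
  have hD : 1 ≤ D := (one_le_pow₀ hπ.one_le_L).trans hb.h4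
  have hκ := hb.hκ
  have hm0 := hb.hm
  have hX1 := hb.hX1
  have hΛ := hb.hΛ
  have hH := N_nonneg π.H
  set U : ι → O × O → O → ℝ := fun i x r' => ∑ d ∈ ball (D / κ ^ 2 / N (r i) ^ 2 / N x.1 ^ 2),
    ∑ I ∈ marks π.S (j i) (x.1 * r'), ω i * N (r i) * dv (x.1 * r') *
      fmbacki_V π δ τ ν' (j i) (y i) x.1 r' I (d * x.1 ^ 2 * r i ^ 2) with hU
  set A := C1 * m0 * E ^ 3 * M * N π.H ^ (δ / 2) * (1 + |π.t - τ|) ^ (B + 2) * D * X1 ^ δ / κ
    with hA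
  have hA0 : 0 ≤ A := by positivity
  have h3 : ∑ i ∈ T, ∑ x ∈ P, (N x.2)⁻¹ * U i x x.2 ≤ A * C2 := by
    simp only [← Finset.sum_fiberwise_of_maps_to (s := P) (t := P.image Prod.snd) (g := Prod.snd)
      fun x hx => Finset.mem_image_of_mem _ hx]
    rw [Finset.sum_comm]
    refine le_trans (Finset.sum_le_sum fun r' hr' => ?_) ((Finset.mul_sum _ _ _).symm.trans_le
      (mul_le_mul_of_nonneg_left (h2 (P.image Prod.snd)) hA0))
    obtain ⟨x0, hx0, e0⟩ := Finset.mem_image.1 hr'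
    have hp : Prim r' := e0 ▸ (hP _ hx0).2
    have hN := N_pos hp.ne_zero
    have h4 := h1 Q E M X' hM hB π hπ ι T r j y ω D κ X1 X2 Λ m0 hb ν' hν τ r' hp
      (P.filter fun x => x.2 = r') fun x hx =>
        ⟨(hP _ (Finset.mem_filter.1 hx).1).1, (Finset.mem_filter.1 hx).2⟩
    rw [← le_div_iff₀' (by linarith)] at h4
    rw [Finset.sum_congr rfl fun i _ => Finset.sum_congr rfl
      (g := fun x => (N r')⁻¹ * U i x r') fun x hx => by rw [(Finset.mem_filter.1 hx).2]]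
    simp only [← Finset.mul_sum]
    refine (mul_le_mul_of_nonneg_left h4 (by positivity)).trans_eq ?_
    rw [hA, sub_eq_add_neg (-1 : ℝ), Real.rpow_add hN, Real.rpow_neg_one]
    ring
  refine le_trans (Finset.sum_le_sum fun i hi => ?_) ((Finset.mul_sum _ _ _).symm.trans_le
    ((mul_le_mul_of_nonneg_left h3 (by positivity : 0 ≤ 2 * (E ^ 2 * (Λ / X1)))).trans ?_))
  · have a6 := hπ.set ((hb.hj _ hi).trans hπ.hJ) (y i)
    have a1 := N_pos (hb.hr _ hi).ne_zero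
    have a2 := a6.low_pos
    have a3 := hb.hω _ hi
    have a4 : (π.set (j i) (y i)).low ^ (2 * δ - 1) ≤ E ^ 2 * (Λ * N (r i) / X1) := by
      rw [sub_eq_add_neg, Real.rpow_add a2, Real.rpow_neg_one]
      refine mul_le_mul ((Real.rpow_le_rpow a2.le ((a6.low_le_len.trans (hb.up1 _ hi)).trans
        (div_le_self hX1.le (one_le_N (hb.hr _ hi).ne_zero))) (by positivity)).trans ?_) ?_
        (by positivity) (by positivity)
      · rw [mul_comm, show (2 : ℝ) = (2 : ℕ) by norm_num, Real.rpow_mul_natCast hX1.le]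
        exact pow_le_pow_left₀ (by positivity) hb.hE1 2
      · rw [← inv_div]
        exact inv_anti₀ (by positivity) (hb.lo _ hi)
    rw [Finset.mul_sum, Finset.mul_sum]
    refine Finset.sum_le_sum fun x hx => ?_
    simp only [hU]
    rw [Finset.mul_sum, Finset.mul_sum, Finset.mul_sum]
    refine Finset.sum_le_sum fun d hd => ?_
    have a5 := a6.Bsum_le (hP _ hx).1 (hP _ hx).2 hν hδ.le (by linarith) τ (r i) d
    have a7 : (K * N d) ^ (-δ) ≤ 1 := Real.rpow_le_one_of_one_le_of_nonpos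
      (one_le_mul_of_one_le_of_one_le hK (one_le_N (mem_ball.1 hd).1)) (by linarith)
    have a8 := dv_nonneg (x.1 * x.2)
    have a9 := N_nonneg x.2
    refine (mul_le_mul_of_nonneg_left ((mul_le_of_le_one_left (by positivity) a7).trans
      (a5.trans (mul_le_mul_of_nonneg_right (mul_le_mul_of_nonneg_left a4 zero_le_two)
        (mul_nonneg (by positivity) (Finset.sum_nonneg fun _ _ => by positivity))))) a3).trans_eq ?_
    rw [← Finset.mul_sum]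
    change ω i * (_ * (_ * ∑ I ∈ marks π.S (j i) (x.1 * x.2),
      fmbacki_V π δ τ ν' (j i) (y i) x.1 x.2 I (d * x.1 ^ 2 * r i ^ 2))) = _
    ring
  · have h4 : E ^ 5 ≤ E ^ 8 := pow_le_pow_right₀ hE (by norm_num)
    refine le_trans (le_of_eq ?_) ((mul_le_mul_of_nonneg_left h4 (by positivity :
      0 ≤ 2 * C1 * C2 * m0 * Λ * M * N π.H ^ (δ / 2) * (D / (κ * X1)) * X1 ^ δ *
        (1 + |π.t - τ|) ^ (B + 2))).trans_eq (by ring))
    rw [hA]
    ring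

end Crest.Agent.R17.FM
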