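import Crest.Agent.R17.FMoment_BackI

/-!
# R17 / FMoment / BackS : the backward step

Definitions in `FMoment_Defs.lean`.  Prefix helper lemmas with `fmbacks_`.
-/

set_option autoImplicit false

noncomputable section

open scoped Classical ComplexConjugate
open MeasureTheory

namespace Crest.Agent.R17.FM

/-- choice of the number of integrations by parts: if `X^δ ≤ E`, `1 ≤ E` then
`E · E^{-A0} X⁵ ≤ X^δ` (for `X ≤ 1` use `X⁵ ≤ X^δ`; for `X ≥ 1` use `X ≤ E^{1/δ}`) -/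
theorem exists_A0 {δ : ℝ} (hδ : 0 < δ) (hδ1 : δ ≤ 1 / 8) : ∃ A0 : ℕ, 2 ≤ A0 ∧ ∀ X E : ℝ, 0 < X →
    1 ≤ E → X ^ δ ≤ E → E * (E ^ A0)⁻¹ * X ^ 5 ≤ X ^ δ := by
  refine ⟨⌈5 / δ⌉₊ + 2, by omega, fun X E hX hE hXE => ?_⟩
  have hE0 : 0 < E := by linarith
  have e1 : E * (E ^ (⌈5 / δ⌉₊ + 2))⁻¹ = (E ^ (⌈5 / δ⌉₊ + 1))⁻¹ := by
    rw [pow_succ E (⌈5 / δ⌉₊ + 1)]
    field_simp
  rw [e1, ← div_eq_inv_mul, div_le_iff₀ (by positivity)]
  have e2 : 1 ≤ E ^ (⌈5 / δ⌉₊ + 1) := one_le_pow₀ hE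
  have e3 : 0 ≤ X ^ δ := Real.rpow_nonneg hX.le _
  rcases le_total X 1 with h | h
  · refine le_trans ?_ (le_mul_of_one_le_right e3 e2)
    rw [← Real.rpow_natCast]
    refine Real.rpow_le_rpow_of_exponent_ge hX h ?_
    push_cast
    linarith
  · refine le_trans ?_ (le_mul_of_one_le_left (by positivity) (Real.one_le_rpow h hδ.le))
    have e4 : X ^ 5 = (X ^ δ) ^ (5 / δ) := by
      rw [← Real.rpow_mul hX.le, ← Real.rpow_natCast]
      congr 1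
      field_simp
      norm_num
    rw [e4, ← Real.rpow_natCast]
    refine (Real.rpow_le_rpow e3 hXE (by positivity)).trans
      (Real.rpow_le_rpow_of_exponent_le hE ?_)
    push_cast
    linarith [Nat.le_ceil (5 / δ)]

/-- the tail term -/
theorem fmbacks_tail {A0 : ℕ} (hA0 : 2 ≤ A0) {X E V L m C : ℝ} (hX : 0 < X) (hE : 1 ≤ E)
    (hV : X ^ 2 * E ≤ V) (hL0 : 0 < L) (hL : L ≤ X) (hm0 : 0 ≤ m)
    (hm : m ≤ C * L ^ (((A0 + 1 : ℕ) : ℝ) + 1 / 2)) :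
    V * (V ^ A0)⁻¹ * m ^ 2 ≤ C ^ 2 * (E * (E ^ A0)⁻¹ * X ^ 5) := by
  obtain ⟨n, rfl⟩ : ∃ n, A0 = n + 1 := ⟨A0 - 1, by omega⟩
  have hE0 : 0 < E := by linarith
  have hV0 : 0 < X ^ 2 * E := by positivity
  have hV1 : 0 < V := hV0.trans_le hV
  have e1 : V * (V ^ (n + 1))⁻¹ = (V ^ n)⁻¹ := by rw [pow_succ]; field_simp
  have e2 : (V ^ n)⁻¹ ≤ ((X ^ 2 * E) ^ n)⁻¹ :=
    inv_anti₀ (by positivity) (pow_le_pow_left₀ hV0.le hV n)
  have e3 : m ^ 2 ≤ C ^ 2 * X ^ (2 * n + 5) := by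
    refine (pow_le_pow_left₀ hm0 hm 2).trans ?_
    rw [mul_pow, ← Real.rpow_natCast (L ^ _), ← Real.rpow_mul hL0.le]
    have : (((n + 1 + 1 : ℕ) : ℝ) + 1 / 2) * ((2 : ℕ) : ℝ) = ((2 * n + 5 : ℕ) : ℝ) := by
      push_cast
      ring
    rw [this, Real.rpow_natCast]
    gcongr
  rw [e1]
  refine (mul_le_mul e2 e3 (sq_nonneg _) (by positivity)).trans_eq ?_
  rw [mul_pow, ← pow_mul, pow_add, pow_succ E n]
  field_simp

/-- summing over the fibres of `r` -/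
theorem fmbacks_fib {δ : ℝ} (hδ : 0 < δ) : ∃ C, 0 ≤ C ∧ ∀ (ι : Type) (T : Finset ι) (r : ι → O)
    (ω : ι → ℝ) (m0 : ℝ), 0 ≤ m0 → (∀ i ∈ T, r i ≠ 0) →
    (∀ s : O, ∑ i ∈ T.filter (fun i => r i = s), ω i ≤ m0 * N s ^ (-1 + δ / 2)) →
    ∑ i ∈ T, ω i * N (r i) ^ (-δ) ≤ C * m0 := by
  obtain ⟨C, hC0, hC⟩ := sum_N_rpow_le (θ := δ / 2) (by positivity)
  refine ⟨C, hC0, fun ι T r ω m0 hm hr hfib => ?_⟩
  rw [← Finset.sum_fiberwise_of_maps_to (t := T.image r) fun i hi => Finset.mem_image_of_mem r hi,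
    mul_comm C]
  refine le_trans ?_ (mul_le_mul_of_nonneg_left (hC (T.image r)) hm)
  rw [Finset.mul_sum]
  refine Finset.sum_le_sum fun s hs => ?_
  obtain ⟨i, hi, rfl⟩ := Finset.mem_image.1 hs
  rw [Finset.sum_congr rfl fun i' hi' => by rw [(Finset.mem_filter.1 hi').2], ← Finset.sum_mul]
  refine (mul_le_mul_of_nonneg_right (hfib _) (Real.rpow_nonneg (N_nonneg _) _)).trans_eq ?_
  rw [mul_assoc, ← Real.rpow_add (N_pos (hr i hi))]
  congr 2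
  ring

/-- If `K < 1` the ball is empty.  Apply `back` (`σ = δ`, `A0` from `exists_A0`) to
`β i m = (π.set (j i) (y i)).al m · χ_m((r i)²)` (`‖β‖ ≤ ‖al‖` termwise, so `SuppSq`, `Rapid`, `mom`,
`ℓ²` bounds transfer) with `U = D/κ²/N(r i)²`.  Diagonal: `l2_al`, `up1`, `fib`:
`∑ ω i (X1/N r)^δ ≤ m0 X1^δ ∑_r N r^{-1-δ/2}` (`Finset.sum_fiberwise_of_maps_to` over `T.image r`).
Tail: `K U ≥ (X1/N r)² E`, `mom_al`: `≤ C E E^{-A0} (X1/N r)⁵ ≤ C X1^δ`, `∑ ω i N r^{-5} ≤ C m0`.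
Main term: `pack` and `back_inner`.  All of `Λ, E, M, N H, 1+|t|, K, D/(κ X1)` are `≥ 1`. -/
theorem backsum (Q : Lev) (J0 B : ℕ) {δ : ℝ} (hδ : 0 < δ) (hδ1 : δ ≤ 1 / 8) : ∃ C, 0 ≤ C ∧
    ∀ (E M X' : ℝ), 1 ≤ M → BndK Q J0 δ E M B X' → ∀ π : Par, π.OK Q J0 E →
    ∀ (ι : Type) (T : Finset ι) (r : ι → O) (j : ι → ℕ) (y ω : ι → ℝ) (D κ X1 X2 Λ m0 : ℝ),
    π.BH δ E X' T r j y ω D κ X1 X2 Λ m0 → ∀ K : ℝ, 0 < K → X1 ^ 2 * E ≤ K * (D / κ ^ 2) →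
      ∑ i ∈ T, ω i * ∑ k ∈ ball K, ‖(π.set (j i) (y i)).Ds (r i) k‖ ^ 2 ≤
      C * m0 * Λ * E ^ 8 * M * N π.H ^ (δ / 2) * (K * D / (κ * X1)) * X1 ^ δ *
        (1 + |π.t|) ^ (B + 2) := by
  obtain ⟨A0, hA0, hA⟩ := exists_A0 hδ hδ1
  obtain ⟨Cb, hCb⟩ := back Q hδ (by linarith) hA0
  obtain ⟨C2, hC20, hC2⟩ := l2_al J0 hδ
  obtain ⟨C4, hC40, hC4⟩ := mom_al J0 (A0 + 1)
  obtain ⟨C3, hC30, hC3⟩ := fmbacks_fib hδ
  obtain ⟨Cp, hCp0, hCp⟩ := pack hδ (B + 2)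
  obtain ⟨CI, hCI0, hCI⟩ := back_inner J0 B hδ hδ1
  refine ⟨|Cb| * ((C2 + C4 ^ 2) * C3) + |Cb| * (Cp * (hchars Q.q).card * CI), by positivity,
    fun E M X' hM hB π h ι T r j y ω D κ X1 X2 Λ m0 H K hK hKD => ?_⟩
  have hE := h.one_le_E
  have hκ := H.hκ
  have hX1 := H.hX1
  have hΛ := H.hΛ
  have hm0 := H.hm
  have hκX : 0 < κ * X1 := by positivity
  have hD : 0 < D := hκX.trans_le H.h3
  have hNH := one_le_N h.hH.ne_zero
  have hNH' : 1 ≤ N π.H ^ (δ / 2) := Real.one_le_rpow hNH (by positivity)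
  have hXδ : 0 ≤ X1 ^ δ := Real.rpow_nonneg hX1.le _
  rcases lt_or_ge K 1 with hK1 | hK1
  · simp only [ball_eq_empty hK1, Finset.sum_empty, mul_zero, Finset.sum_const_zero]
    positivity
  set f : ι → O × O → (O → ℂ) → ℝ → ℝ := fun i x ν τ =>
    ∑ d ∈ ball (D / κ ^ 2 / N (r i) ^ 2 / N x.1 ^ 2), (K * N d) ^ (-δ) *
      ‖Bsum (fun m => (π.set (j i) (y i)).al m * chi m (r i ^ 2)) ν x.1 x.2 (d * x.1 ^ 2) δ τ‖ ^ 2
    with hf
  have hf0 : ∀ i x ν τ, 0 ≤ f i x ν τ := fun i x ν τ => Finset.sum_nonneg fun d _ =>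
    mul_nonneg (Real.rpow_nonneg (mul_nonneg hK.le (N_nonneg d)) _) (sq_nonneg _)
  set S : ι → ℝ := fun i => ∑' x : O × O, (if Prim x.1 ∧ Prim x.2 then
    ∑ ν ∈ hchars Q.q, ∫ τ, Gm δ τ * f i x ν τ else 0) with hS
  have hS0 : ∀ i, 0 ≤ S i := fun i => tsum_nonneg fun x => by
    split_ifs
    · exact Finset.sum_nonneg fun ν _ => integral_nonneg fun τ =>
        mul_nonneg (Bk.Gm_nonneg δ τ) (hf0 i x ν τ)
    · exact le_rfl
  have main : ∑ i ∈ T, ω i * S i ≤ Cp * (hchars Q.q).card *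
      (CI * m0 * Λ * E ^ 8 * M * N π.H ^ (δ / 2) * (D / (κ * X1)) * X1 ^ δ) * (1 + |π.t|) ^ (B + 2) :=
    hCp ι (O × O) (O → ℂ) T (hchars Q.q) (fun x => Prim x.1 ∧ Prim x.2) ω f _ π.t H.hω hf0
      (by positivity) fun ν hν τ P hP =>
        hCI Q E M X' (by linarith) hB π h ι T r j y ω D κ X1 X2 Λ m0 H K hK1 ν hν τ P hP
  have each : ∀ i ∈ T, ∑ k ∈ ball K, ‖(π.set (j i) (y i)).Ds (r i) k‖ ^ 2 ≤
      |Cb| * K * ((C2 + C4 ^ 2) * X1 ^ δ * N (r i) ^ (-δ)) + |Cb| * K * S i := fun i hi => by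
    have hi' := h.set ((H.hj i hi).trans h.hJ) (y i)
    have hr1 := one_le_N (H.hr i hi).ne_zero
    have hr0 := N_pos (H.hr i hi).ne_zero
    have hβ : ∀ m, ‖(π.set (j i) (y i)).al m * chi m (r i ^ 2)‖ ≤ ‖(π.set (j i) (y i)).al m‖ :=
      fun m => by
        by_cases hm : (π.set (j i) (y i)).al m = 0
        · simp [hm]
        · rw [norm_mul]
          exact mul_le_of_le_one_right (norm_nonneg _)
            ((ChA.chi_isChar (hi'.supp6 m hm)).norm_le (hi'.supp hm).1.1.ne_zero _)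
    have hsupp : SuppSq Q 1 fun m => (π.set (j i) (y i)).al m * chi m (r i ^ 2) := fun m hm =>
      hi'.suppSq m (left_ne_zero_of_mul hm)
    have hmom : ∀ (a : ℕ) (m : O), ‖(π.set (j i) (y i)).al m * chi m (r i ^ 2)‖ * N m ^ a ≤
        ‖(π.set (j i) (y i)).al m‖ * N m ^ a := fun a m =>
      mul_le_mul_of_nonneg_right (hβ m) (pow_nonneg (N_nonneg m) a)
    have hrap : Rapid fun m => (π.set (j i) (y i)).al m * chi m (r i ^ 2) := fun a =>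
      Summable.of_nonneg_of_le (fun m => mul_nonneg (norm_nonneg _) (pow_nonneg (N_nonneg m) a))
        (hmom a) (hi'.rapid a)
    have hb := hCb _ hsupp hrap K (D / κ ^ 2 / N (r i) ^ 2) hK (by positivity)
    obtain ⟨l1, l2⟩ := hC2 Q E _ hi'
    have hsq : ∀ m, ‖(π.set (j i) (y i)).al m * chi m (r i ^ 2)‖ ^ 2 ≤
        ‖(π.set (j i) (y i)).al m‖ ^ 2 := fun m => pow_le_pow_left₀ (norm_nonneg _) (hβ m) 2
    have hXr : 0 < X1 / N (r i) := by positivity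
    have eX : (X1 / N (r i)) ^ δ = X1 ^ δ * N (r i) ^ (-δ) := by
      rw [Real.div_rpow hX1.le hr0.le, Real.rpow_neg hr0.le, div_eq_mul_inv]
    have d1 : ∑' m, ‖(π.set (j i) (y i)).al m * chi m (r i ^ 2)‖ ^ 2 ≤ C2 * (X1 / N (r i)) ^ δ :=
      ((Summable.of_nonneg_of_le (fun m => sq_nonneg _) hsq l1).tsum_le_tsum hsq l1).trans
        (l2.trans (mul_le_mul_of_nonneg_left
          (Real.rpow_le_rpow hi'.len_pos.le (H.up1 i hi) hδ.le) hC20))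
    have d2 : mom (fun m => (π.set (j i) (y i)).al m * chi m (r i ^ 2)) (A0 + 1) ≤
        C4 * (π.set (j i) (y i)).len ^ (((A0 + 1 : ℕ) : ℝ) + 1 / 2) :=
      ((hrap _).tsum_le_tsum (hmom _) (hi'.rapid _)).trans (hC4 Q E _ hi')
    have d3 : (X1 / N (r i)) ^ 2 * E ≤ K * (D / κ ^ 2 / N (r i) ^ 2) := by
      rw [div_pow, div_mul_eq_mul_div, ← mul_div_assoc]
      exact div_le_div_of_nonneg_right hKD (by positivity)
    have d4 := fmbacks_tail hA0 hXr hE d3 hi'.len_pos (H.up1 i hi)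
      (tsum_nonneg fun m => mul_nonneg (norm_nonneg _) (pow_nonneg (N_nonneg m) _)) d2
    have d5 := hA _ E hXr hE ((Real.rpow_le_rpow hXr.le (div_le_self hX1.le hr1) hδ.le).trans H.hE1)
    have d6 : 0 ≤ (X1 / N (r i)) ^ δ := Real.rpow_nonneg hXr.le _
    have d7 := d4.trans (mul_le_mul_of_nonneg_left d5 (sq_nonneg _))
    have hCb' := le_abs_self Cb
    have t1 : Cb * K * ∑' m, ‖(π.set (j i) (y i)).al m * chi m (r i ^ 2)‖ ^ 2 ≤
        |Cb| * K * (C2 * (X1 / N (r i)) ^ δ) :=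
      mul_le_mul (mul_le_mul_of_nonneg_right hCb' hK.le) d1 (tsum_nonneg fun m => sq_nonneg _)
        (by positivity)
    have t2 : Cb * K * S i ≤ |Cb| * K * S i :=
      mul_le_mul_of_nonneg_right (mul_le_mul_of_nonneg_right hCb' hK.le) (hS0 i)
    have t3 : Cb * (K * (D / κ ^ 2 / N (r i) ^ 2)) * ((K * (D / κ ^ 2 / N (r i) ^ 2)) ^ A0)⁻¹ *
        mom (fun m => (π.set (j i) (y i)).al m * chi m (r i ^ 2)) (A0 + 1) ^ 2 ≤
        |Cb| * K * (C4 ^ 2 * (X1 / N (r i)) ^ δ) := by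
      rw [mul_assoc Cb, mul_assoc Cb]
      exact mul_le_mul (hCb'.trans (le_mul_of_one_le_right (abs_nonneg _) hK1)) d7 (by positivity)
        (by positivity)
    refine hb.trans ((add_le_add_three t1 t2 t3).trans_eq ?_)
    rw [eX]
    ring
  have fib := hC3 ι T r ω m0 hm0 (fun i hi => (H.hr i hi).ne_zero) H.fib
  have hone : 1 ≤ Λ * E ^ 8 * M * N π.H ^ (δ / 2) * (D / (κ * X1)) * (1 + |π.t|) ^ (B + 2) := by
    have a1 : 1 ≤ D / (κ * X1) := (one_le_div hκX).2 H.h3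
    have a2 : 1 ≤ (1 + |π.t|) ^ (B + 2) := one_le_pow₀ (by linarith [abs_nonneg π.t])
    exact one_le_mul_of_one_le_of_one_le (one_le_mul_of_one_le_of_one_le
      (one_le_mul_of_one_le_of_one_le (one_le_mul_of_one_le_of_one_le
        (one_le_mul_of_one_le_of_one_le hΛ (one_le_pow₀ hE)) hM) hNH') a1) a2
  calc _ ≤ ∑ i ∈ T, ω i * (|Cb| * K * ((C2 + C4 ^ 2) * X1 ^ δ * N (r i) ^ (-δ)) + |Cb| * K * S i) :=
        Finset.sum_le_sum fun i hi => mul_le_mul_of_nonneg_left (each i hi) (H.hω i hi)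
    _ = |Cb| * K * ((C2 + C4 ^ 2) * X1 ^ δ) * ∑ i ∈ T, ω i * N (r i) ^ (-δ) +
          |Cb| * K * ∑ i ∈ T, ω i * S i := by
        rw [Finset.mul_sum, Finset.mul_sum, ← Finset.sum_add_distrib]
        exact Finset.sum_congr rfl fun i _ => by ring
    _ ≤ |Cb| * K * ((C2 + C4 ^ 2) * X1 ^ δ) * (C3 * m0) *
          (Λ * E ^ 8 * M * N π.H ^ (δ / 2) * (D / (κ * X1)) * (1 + |π.t|) ^ (B + 2)) +
          |Cb| * K * (Cp * (hchars Q.q).card *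
            (CI * m0 * Λ * E ^ 8 * M * N π.H ^ (δ / 2) * (D / (κ * X1)) * X1 ^ δ) *
              (1 + |π.t|) ^ (B + 2)) :=
        add_le_add ((mul_le_mul_of_nonneg_left fib (by positivity)).trans
          (le_mul_of_one_le_right (by positivity) hone))
          (mul_le_mul_of_nonneg_left main (by positivity))
    _ = _ := by ring

end Crest.Agent.R17.FM
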