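import Crest.Agent.R17.FMoment_Triv

/-!
# R17 / FMoment / Cube1 : passage to theta coefficients, cube removal

Definitions in `FMoment_Defs.lean`.  Prefix helper lemmas with `fmcube1_`.
-/

set_option autoImplicit false

noncomputable section

open scoped Classical ComplexConjugate
open MeasureTheory

namespace Crest.Agent.R17.FM

theorem fmcube1_dvd {e c m : O} (he : Prim e) (hc : Prim c) (hm : Squarefree m) :
    e ^ 3 ∣ m * c ^ 3 ↔ e ∣ c := by
  refine ⟨fun ⟨t, ht⟩ => ?_, fun h => (pow_dvd_pow_of_dvd h 3).mul_left m⟩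
  obtain ⟨a, -, rfl, -⟩ := rkey_cube (m := t) he hc hm (by rw [ht, mul_comm])
  exact dvd_mul_right _ _

theorem fmcube1_reindex {F : O → ℂ} {a : ℂ} (hF : HasSum F a)
    (h : ∀ n, F n ≠ 0 → ∃ m c, Squarefree m ∧ Prim c ∧ n = m * c ^ 3) :
    HasSum (fun c : O => if Prim c then ∑' m, if Squarefree m then F (m * c ^ 3) else 0 else 0) a := by
  have hs : ∀ x : Function.support fun x : O × O =>
      if Prim x.1 ∧ Squarefree x.2 then F (x.2 * x.1 ^ 3) else 0, Prim x.1.1 ∧ Squarefree x.1.2 :=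
    fun x => by_contra fun hc => x.2 (if_neg hc)
  have key := (hasSum_iff_hasSum_of_ne_zero_bij (f := F) (a := a) (g := fun x : O × O =>
    if Prim x.1 ∧ Squarefree x.2 then F (x.2 * x.1 ^ 3) else 0) (fun x => x.1.2 * x.1.1 ^ 3)
    (fun x y e => by
      have e : x.1.2 * x.1.1 ^ 3 = y.1.2 * y.1.1 ^ 3 := e
      have e1 : x.1.1 = y.1.1 := (hs x).1.eq_of_associated (hs y).1 (associated_of_dvd_dvd
        ((fmcube1_dvd (hs x).1 (hs y).1 (hs y).2).1 (e ▸ dvd_mul_left _ _))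
        ((fmcube1_dvd (hs y).1 (hs x).1 (hs x).2).1 (e ▸ dvd_mul_left _ _)))
      rw [e1] at e
      exact Subtype.ext (Prod.ext e1 (mul_right_cancel₀ ((hs y).1.pow 3).ne_zero e)))
    (fun n hn => by
      obtain ⟨m, c, hm, hc, rfl⟩ := h n hn
      exact ⟨⟨(c, m), by rwa [Function.mem_support, if_pos ⟨hc, hm⟩]⟩, rfl⟩)
    (fun x => (if_pos (hs x)).symm)).1 hF
  refine key.prod_fiberwise fun c => ?_
  have h1 := (key.summable.prod_factor c).hasSum
  by_cases hc : Prim c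
  · simpa only [hc, true_and, if_true] using h1
  · simp only [hc, false_and, if_false]
    exact hasSum_zero

theorem fmcube1_lam {G : ℝ} {c : O} (hc : Prim c) (hG : N c ≤ G) :
    lamG G c = if c = 1 then 1 else 0 := by
  rw [lamG, Finset.filter_true_of_mem fun e he =>
    (N_le_of_dvd hc.ne_zero ((mem_pdiv hc.ne_zero).1 he).2).trans hG, sum_mu_pdiv hc]

theorem fmcube1_main {A : O → ℂ} (hA : Summable A)
    (h : ∀ n, A n ≠ 0 → ∃ m c, Squarefree m ∧ Prim c ∧ n = m * c ^ 3) (G : ℝ) :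
    HasSum (fun c : O => if Prim c then
        lamG G c * ∑' m, if Squarefree m then A (m * c ^ 3) else 0 else 0)
      (∑ e ∈ (ball G).filter Prim, mu e * ∑' m, A (m * e ^ 3)) := by
  have h1 : HasSum (fun n => ∑ e ∈ (ball G).filter Prim, mu e * if e ^ 3 ∣ n then A n else 0)
      (∑ e ∈ (ball G).filter Prim, mu e * ∑' m, A (m * e ^ 3)) := by
    refine hasSum_sum fun e he => HasSum.mul_left _ ?_
    simp only [mul_comm _ (e ^ 3)]
    rw [← tsum_dvd ((Finset.mem_filter.1 he).2.pow 3).ne_zero]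
    exact (hA.indicator {n | e ^ 3 ∣ n}).hasSum
  have h2 := fmcube1_reindex h1 fun n hn => h n fun e => hn (by simp [e])
  refine (congrArg (HasSum · _) (funext fun c => ?_)).mpr h2
  split_ifs with hc
  · rw [← tsum_mul_left]
    refine tsum_congr fun m => ?_
    split_ifs with hm
    · simp only [mul_ite, mul_zero]
      rw [lamG, Finset.sum_mul, ← Finset.sum_filter]
      refine Finset.sum_congr (Finset.ext fun e => ?_) fun _ _ => rfl
      simp only [Finset.mem_filter, mem_pdiv hc.ne_zero, mem_ball]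
      exact ⟨fun h => ⟨⟨⟨h.1.1.ne_zero, h.2⟩, h.1.1⟩, (fmcube1_dvd h.1.1 hc hm).2 h.1.2⟩,
        fun h => ⟨⟨h.1.2, (fmcube1_dvd h.1.2 hc hm).1 h.2⟩, h.1.1.2⟩⟩
    · rw [mul_zero]
  · rfl

variable {π : Par} {Q : Lev} {J0 : ℕ} {E : ℝ}

/-- termwise `key_identity` (both terms vanish unless `m ∈ 𝒫₀` is squarefree and coprime to `H`) -/
theorem Par.OK.Ds_eq_Rc (h : π.OK Q J0 E) (r k : O) : π.Ds r k = π.Rc Q r k 1 := by
  refine tsum_congr fun m => ?_
  rw [one_pow, mul_one]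
  by_cases hs : Squarefree m
  swap
  · have : π.al m = 0 := by_contra fun e => hs (h.supp e).2.1
    rw [this, if_neg hs, zero_mul, zero_mul, zero_mul]
  rw [if_pos hs, Par.Ath, Par.ph]
  by_cases hm : P0 Q m ∧ IsCoprime m π.H
  swap
  · have : π.al m = 0 := by_contra fun e => hm ⟨(h.supp e).1, (h.supp e).2.2⟩
    rw [this, if_neg hm]
    ring
  have := key_identity hm.1.1 hm.1.isCoprime_two hs
  rw [Par.al, if_pos hm, if_pos ⟨hm.1.1, hm.2⟩]
  linear_combination (π.ν m * (N m : ℂ) ^ (-(1 / 2 + π.t * Complex.I)) * W π.S π.J π.b π.y m *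
    chi m (r ^ 2) * conj (chi m k)) * this

/-- `Tc c = ∑' n, 1_{c³ ∣ n} Ath n` (`tsum_dvd`), so `Th = ∑' n, Ath n · λ'(n)`,
`λ'(n) = ∑_{c ∈ ball G, primary, c³ ∣ n} μ(c)` (`summable_Ath`).  `Ath n ≠ 0` forces `n` primary and
`n = m₀ c'³` with `m₀` squarefree primary, `c'` primary (`tau_ne_zero`), uniquely (`rkey_cube`), and
`c³ ∣ n ↔ c ∣ c'` (`rkey_cube`), so `λ'(n) = lamG G c'`.  Reindex along `(c', m₀) ↦ m₀ c'³` (injective
on the support; e.g. `Function.Injective.hasSum_iff` on a subtype, or `hasSum_iff_hasSum_of_ne_zero_bij`)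
and use `HasSum.prod_fiberwise`: `Th = ∑'_{c' primary} lamG G c' · Rc c'`.  Finally `lamG G 1 = 1` and
`lamG G c' = 0` for `c' ≠ 1`, `N c' ≤ G` (`sum_mu_pdiv`), and `Ds_eq_Rc`. -/
theorem Par.OK.hasSum_rem (h : π.OK Q J0 E) (r k : O) {G : ℝ} (hG : 1 ≤ G) :
    HasSum (fun c : O => if Prim c ∧ G < N c then lamG G c * π.Rc Q r k c else 0)
      (π.Th Q r k G - π.Ds r k) := by
  have h1 := fmcube1_main (h.summable_Ath r k).of_norm (fun n hn => by
    have h2 : Prim n := by_contra fun e => hn (by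
      rw [Par.Ath, Par.ph, if_neg fun e' => e e'.1.1]
      ring)
    obtain ⟨m, c, -, hm⟩ := tau_ne_zero h2 fun e => hn (by
      rw [Par.Ath, tt, e]
      ring)
    exact ⟨m, c, hm⟩) G
  rw [h.Ds_eq_Rc]
  refine (congrArg (HasSum · _) (funext fun c => ?_)).mpr
    (h1.sub (hasSum_ite_eq 1 (π.Rc Q r k 1)))
  by_cases hc : Prim c
  swap
  · rw [if_neg hc, if_neg fun e => hc e.1, if_neg fun e : c = 1 => hc (e ▸ Prim.one), sub_zero]
  rw [if_pos hc]
  by_cases hcG : G < N c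
  · rw [if_pos ⟨hc, hcG⟩, if_neg fun e => by rw [e, N_one] at hcG; linarith, sub_zero, Par.Rc]
  rw [if_neg fun e => hcG e.2, fmcube1_lam hc (not_lt.1 hcG)]
  split_ifs with e
  · rw [e, one_mul, Par.Rc, sub_self]
  · rw [zero_mul, sub_zero]

end Crest.Agent.R17.FM
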