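import Crest.Agent.R17.FMoment_Triv

/-!
# R17 / FMoment / Cube2 : the terms of the cube removal

Definitions in `FMoment_Defs.lean`.  Prefix helper lemmas with `fmcube2_`.
-/

set_option autoImplicit false

noncomputable section

open scoped Classical ComplexConjugate
open MeasureTheory

namespace Crest.Agent.R17.FM

variable {π : Par} {Q : Lev} {J0 : ℕ} {E : ℝ}

theorem fmcube2_supp {r c m : O} (hc : Prim c) (hm : π.ph Q r (m * c ^ 3) ≠ 0) :
    (P0 Q m ∧ IsCoprime m π.H) ∧ P0 Q c ∧ IsCoprime c π.H := by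
  have h1 : P0 Q (m * c ^ 3) ∧ IsCoprime (m * c ^ 3) π.H := by
    by_contra hn
    exact hm (if_neg hn)
  have h2 : c ∣ m * c ^ 3 := Dvd.intro_left (m * c ^ 2) (by ring)
  exact ⟨⟨⟨Prim.of_mul_left (mul_comm m _ ▸ h1.1.1) (hc.pow 3), h1.1.2.of_mul_left_left⟩,
    h1.2.of_mul_left_left⟩, ⟨hc, h1.1.2.of_isCoprime_of_dvd_left h2⟩,
    h1.2.of_isCoprime_of_dvd_left h2⟩

theorem fmcube2_chi_le {n : O} (hn : IsCoprime n 6) (d : O) : ‖chi n d‖ ≤ 1 :=
  norm_sym_le (Or.inr (Or.inr rfl)) (by exact_mod_cast hn) d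

theorem fmcube2_cpow (a b : O) (s : ℂ) : (N (a * b) : ℂ) ^ s = (N a : ℂ) ^ s * (N b : ℂ) ^ s := by
  rw [N_mul, Complex.ofReal_mul, Complex.mul_cpow_ofReal_nonneg (N_nonneg a) (N_nonneg b)]

theorem fmcube2_norm {c : O} (hc : c ≠ 0) (t : ℝ) :
    ‖(Real.sqrt (N c) : ℂ) * (N (c ^ 3) : ℂ) ^ (-(1 / 2 + t * Complex.I))‖ = (N c)⁻¹ := by
  have h0 := N_pos hc
  have e : (-(1 / 2 + t * Complex.I) : ℂ).re = -(1 / 2) := by simp
  rw [norm_mul, Complex.norm_cpow_eq_rpow_re_of_pos (N_pos (pow_ne_zero 3 hc)), e, Complex.norm_real,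
    Real.norm_eq_abs, abs_of_nonneg (Real.sqrt_nonneg _), N_pow, Real.sqrt_eq_rpow,
    ← Real.rpow_natCast, ← Real.rpow_mul h0.le, ← Real.rpow_add h0, ← Real.rpow_neg_one]
  norm_num

theorem fmcube2_bound (h : π.OK Q J0 E) {c : O} (hc : c ≠ 0) {u : ℂ} (hu : ‖u‖ ≤ 1)
    (F : Finset O → ℂ) :
    ‖u * ((Real.sqrt (N c) : ℂ) * (N (c ^ 3) : ℂ) ^ (-(1 / 2 + π.t * Complex.I))) *
        ∑ I ∈ marks π.S π.J (c ^ 3), (∏ p ∈ I, π.b p) * F I‖ ≤
      (N c)⁻¹ * ∑ I ∈ marks π.S π.J (c ^ 3), ‖F I‖ := by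
  rw [norm_mul, norm_mul, fmcube2_norm hc]
  have h0 : 0 ≤ (N c)⁻¹ := inv_nonneg.2 (N_nonneg c)
  refine mul_le_mul (mul_le_of_le_one_left h0 hu) ((norm_sum_le _ _).trans
    (Finset.sum_le_sum fun I hI => ?_)) (norm_nonneg _) h0
  rw [norm_mul, norm_prod]
  exact mul_le_of_le_one_left (norm_nonneg _) (Finset.prod_le_one (fun _ _ => norm_nonneg _)
    fun p hp => h.hb p ((mem_marks.1 hI).1 hp))

theorem fmcube2_hasSum (h : π.OK Q J0 E) {A : O → ℂ} (hA : PolyBd A) (hA0 : A 0 = 0) (t : ℝ) :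
    HasSum (fun m => A m * (N m : ℂ) ^ (-(1 / 2 + t * Complex.I)) * W π.S π.J π.b π.y m)
      (∑ l ∈ π.Ls, π.aL l * blk (fun m => if l ∣ m then A m else 0) (π.y + Real.log (N l)) t) := by
  have hsub : ∀ I ∈ π.S.powersetCard π.J, I ⊆ π.S := fun I hI => (Finset.mem_powersetCard.1 hI).1
  rw [Par.Ls, Finset.sum_image fun I hI I' hI' e => pr_injOn h.primes (hsub I hI) (hsub I' hI') e]
  have hP : ∀ l : O, PolyBd fun m => if l ∣ m then A m else 0 := fun l => by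
    obtain ⟨C, j, hC⟩ := hA
    refine ⟨C, j, fun n hn => le_trans ?_ (hC n hn)⟩
    dsimp only
    split_ifs <;> simp
  have h1 := hasSum_sum (s := π.S.powersetCard π.J) fun I _ =>
    ((summable_blks (hP (pr I)) (π.y + Real.log (N (pr I)))
      (1 / 2 + t * Complex.I)).of_norm.hasSum).mul_left (π.aL (pr I))
  refine h1.congr_fun fun m => ?_
  by_cases hm : m = 0
  · simp [hm, hA0]
  rw [W, Finset.sum_filter, Finset.mul_sum]
  refine Finset.sum_congr rfl fun I hI => ?_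
  have e : π.aL (pr I) = ∏ p ∈ I, π.b p := by rw [Par.aL, filter_dvd_pr h.primes (hsub I hI)]
  rw [if_neg hm, e]
  split_ifs <;> ring

theorem fmcube2_congr (h : π.OK Q J0 E) {r : O} (hr : r ∣ π.H) {n n' : O}
    (hn : Q.q * π.H ∣ n - n') : π.ph Q r n = π.ph Q r n' := by
  have key : ∀ {n n' : O}, Q.q * π.H ∣ n - n' → P0 Q n ∧ IsCoprime n π.H →
      P0 Q n' ∧ IsCoprime n' π.H := fun {n n'} hn h1 => by
    have hq : Q.q ∣ n - n' := (dvd_mul_right _ _).trans hn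
    have h3 : (3 : O) ∣ n - n' := (Dvd.intro 24 (by norm_num)).trans (Q.dvd.trans hq)
    refine ⟨⟨?_, rsex_cop h1.1.2 hq⟩, rsex_cop h1.2 ((dvd_mul_left _ _).trans hn)⟩
    have := dvd_sub h1.1.1 h3
    rwa [sub_sub_sub_cancel_left] at this
  by_cases h1 : P0 Q n ∧ IsCoprime n π.H
  · have hq : Q.q ∣ n - n' := (dvd_mul_right _ _).trans hn
    have h72 := Q.dvd.trans hq
    have h6 := h1.1.isCoprime_six
    have hr0 : r ≠ 0 := ne_zero_of_dvd_ne_zero h.hH.ne_zero hr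
    rw [Par.ph, Par.ph, if_pos h1, if_pos (key hn h1), f1_congr h6 h72,
      ((mem_hchars Q.ne).1 h.hν).1.per.congr hq,
      chi_congr (d := -1) (by simp) h6 h72 fun p hp hd =>
        absurd (isUnit_of_dvd_unit hd isUnit_one.neg) hp.not_isUnit,
      chi_congr (pow_ne_zero 2 hr0) h6 h72 fun p hp hd =>
        (((hp.dvd_of_dvd_pow hd).trans hr).trans (dvd_mul_left _ _)).trans hn]
  · rw [Par.ph, Par.ph, if_neg h1, if_neg fun h2 => h1 (key (dvd_sub_comm.1 hn) h2)]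

/-- For `m` with `ph (m c³) ≠ 0` (then `m` is primary): `tau_mul_cube`, `ang_mul`, `sym_mul_left`, `W_cut`
(`G = c³`) give `Ath (m c³) = u √N c · N(c³)^{-s} ∑_I b_I ∑_{I₂} b_{I₂} 1_{∏I₂ ∣ m} tt m φ(m) conj χ_m(k)
N m^{-s} gw(…)` with `u = ang(c³) conj χ_{c³}(k)`.  If `c ∉ 𝒫₀` then `ph (m c³) = 0` for all `m`;
otherwise `‖u‖ ≤ 1`.  `Finset.sum_image` with `pr_injOn`, `filter_dvd_pr`; exchange of finite sums and
series by `summable_blks`. -/
theorem Par.OK.norm_Tc_le (h : π.OK Q J0 E) (r k : O) {c : O} (hc : Prim c) :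
    ‖π.Tc Q r k c‖ ≤ (N c)⁻¹ * ∑ I ∈ marks π.S π.J (c ^ 3), ‖π.Fc Q r k c I‖ := by
  by_cases hc0 : P0 Q c
  swap
  · have h0 : ∀ m, π.ph Q r (m * c ^ 3) = 0 := fun m => by_contra fun hm =>
      hc0 (fmcube2_supp hc hm).2.1
    simp only [Par.Tc, Par.Ath, h0, mul_zero, zero_mul, tsum_zero, norm_zero]
    exact mul_nonneg (inv_nonneg.2 (N_nonneg c)) (Finset.sum_nonneg fun _ _ => norm_nonneg _)
  have hc3 : c ^ 3 ≠ 0 := pow_ne_zero 3 hc.ne_zero
  have hA : PolyBd fun m => tt m * π.ph Q r (m * c ^ 3) * conj (chi m k) := by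
    refine ⟨1, 1, fun m hm => ?_⟩
    by_cases h0 : π.ph Q r (m * c ^ 3) = 0
    · simpa [h0] using N_nonneg m
    have h1 := (fmcube2_supp hc h0).1.1
    rw [norm_mul, norm_mul, tt, norm_mul, norm_ang hm, mul_one, RCLike.norm_conj, pow_one, one_mul]
    refine (mul_le_of_le_one_right (by positivity) (fmcube2_chi_le h1.isCoprime_six k)).trans ?_
    refine (mul_le_of_le_one_right (norm_nonneg _) (h.norm_ph_le r _)).trans ?_
    exact (norm_tau_le h1.1).trans (Real.rpow_le_self_of_one_le (one_le_N hm) (by norm_num))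
  have hA0 : (fun m => tt m * π.ph Q r (m * c ^ 3) * conj (chi m k)) 0 = 0 := by
    simp [tt, ang]
  have h1 := (hasSum_sum (s := marks π.S π.J (c ^ 3)) fun I _ =>
    (fmcube2_hasSum (h.cut (c ^ 3) I) hA hA0 π.t).mul_left (∏ p ∈ I, π.b p)).mul_left
    (ang (c ^ 3) * conj (chi (c ^ 3) k) *
      ((Real.sqrt (N c) : ℂ) * (N (c ^ 3) : ℂ) ^ (-(1 / 2 + π.t * Complex.I))))
  have h2 : π.Tc Q r k c = _ := (h1.congr_fun fun m => ?_).tsum_eq
  · rw [h2]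
    refine fmcube2_bound h hc.ne_zero ?_ _
    rw [norm_mul, norm_ang hc3, one_mul, RCLike.norm_conj]
    exact fmcube2_chi_le hc0.isCoprime_six.pow_left k
  · by_cases h0 : π.ph Q r (m * c ^ 3) = 0
    · simp [Par.Ath, h0]
    have hm := (fmcube2_supp hc h0).1.1.1
    rw [Par.Ath, tt, tau_mul_cube hm hc, ang_mul, chi, sym_mul_left 6 hm.ne_zero hc3, map_mul,
      fmcube2_cpow, mul_comm m (c ^ 3), W_cut h.primes _ _ _ hc3 hm.ne_zero, mul_comm (c ^ 3) m,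
      Finset.mul_sum, Finset.mul_sum]
    refine Finset.sum_congr rfl fun I _ => ?_
    simp only [Par.cut, tt, chi]
    ring

/-- If `c ∉ 𝒫₀` or `c` is not coprime to `H` then `Rc = 0`.  Otherwise for squarefree `m ∈ 𝒫₀` coprime to
`H`: `f1_mul`, `sgc_eq`, `key_identity` (backwards) give
`Ath (m c³) = u √N c · N(c³)^{-s} ∑_I b_I · (π.cube Q c I).al m χ_m(r²) gt m conj χ_m(k)` with
`u = ang(c³) χ_{c³}(-1) f1(c³) ν(c³) χ_{c³}(r²) conj χ_{c³}(k)`, `‖u‖ ≤ 1`; for all other `m` both sides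
vanish. -/
theorem Par.OK.norm_Rc_le (h : π.OK Q J0 E) (r k : O) {c : O} (hc : Prim c) :
    ‖π.Rc Q r k c‖ ≤ (N c)⁻¹ * ∑ I ∈ marks π.S π.J (c ^ 3), ‖(π.cube Q c I).Ds r k‖ := by
  by_cases hc0 : P0 Q c ∧ IsCoprime c π.H
  swap
  · have h0 : ∀ m, π.ph Q r (m * c ^ 3) = 0 := fun m => by_contra fun hm =>
      hc0 (fmcube2_supp hc hm).2
    simp only [Par.Rc, Par.Ath, h0, mul_zero, zero_mul, ite_self, tsum_zero, norm_zero]
    exact mul_nonneg (inv_nonneg.2 (N_nonneg c)) (Finset.sum_nonneg fun _ _ => norm_nonneg _)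
  have hc3 : c ^ 3 ≠ 0 := pow_ne_zero 3 hc.ne_zero
  have hc6 : IsCoprime (c ^ 3) 6 := hc0.1.isCoprime_six.pow_left
  have hS : ∀ I, HasSum (fun m => (π.cube Q c I).al m * chi m (r ^ 2) * gt m * conj (chi m k))
      ((π.cube Q c I).Ds r k) := fun I => by
    refine Summable.hasSum (((h.cube c I).summable_mul
      (u := fun m => chi m (r ^ 2) * gt m * conj (chi m k)) fun m hm hs => ?_).congr fun m => by ring)
    rw [norm_mul, norm_mul, norm_gt hm.isCoprime_six hs, mul_one, RCLike.norm_conj]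
    exact mul_le_one₀ (fmcube2_chi_le hm.isCoprime_six _) (norm_nonneg _)
      (fmcube2_chi_le hm.isCoprime_six _)
  have h1 := (hasSum_sum (s := marks π.S π.J (c ^ 3)) fun I _ =>
    (hS I).mul_left (∏ p ∈ I, π.b p)).mul_left
    (ang (c ^ 3) * chi (c ^ 3) (-1) * f1 (c ^ 3) * π.ν (c ^ 3) * chi (c ^ 3) (r ^ 2) *
      conj (chi (c ^ 3) k) *
      ((Real.sqrt (N c) : ℂ) * (N (c ^ 3) : ℂ) ^ (-(1 / 2 + π.t * Complex.I))))
  have h2 : π.Rc Q r k c = _ := (h1.congr_fun fun m => ?_).tsum_eq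
  · rw [h2]
    refine fmcube2_bound h hc.ne_zero ?_ _
    simp only [norm_mul, norm_ang hc3, norm_f1 hc6, one_mul, mul_one, RCLike.norm_conj]
    exact mul_le_one₀ (mul_le_one₀ (mul_le_one₀ (fmcube2_chi_le hc6 _) (norm_nonneg _)
      (norm_hchar_le Q h.hν _)) (norm_nonneg _) (fmcube2_chi_le hc6 _)) (norm_nonneg _)
      (fmcube2_chi_le hc6 _)
  · by_cases hm : P0 Q m ∧ Squarefree m ∧ IsCoprime m π.H
    swap
    · have h3 : ∀ I, (π.cube Q c I).al m = 0 := fun I => by_contra fun h3 => hm ((h.cube c I).supp h3)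
      simp only [h3, zero_mul, mul_zero, Finset.sum_const_zero]
      split_ifs with hs
      · have h0 : π.ph Q r (m * c ^ 3) = 0 := by_contra fun h0 =>
          hm ⟨(fmcube2_supp hc h0).1.1, hs, (fmcube2_supp hc h0).1.2⟩
        simp [Par.Ath, h0]
      · rfl
    obtain ⟨hm, hs, hH⟩ := hm
    have hm0 := hm.1.ne_zero
    have hk := key_identity hm.1 hm.isCoprime_two hs
    have hph : π.ph Q r (m * c ^ 3) = chi m (-1) * chi (c ^ 3) (-1) *
        (f1 m * f1 (c ^ 3) * sg m (c ^ 3)) * (π.ν m * π.ν (c ^ 3)) *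
        (chi m (r ^ 2) * chi (c ^ 3) (r ^ 2)) := by
      rw [Par.ph, if_pos ⟨hm.mul ⟨hc.pow 3, hc0.1.2.pow_left⟩, hH.mul_left hc0.2.pow_left⟩,
        f1_mul hm.isCoprime_six hc6, ((mem_hchars Q.ne).1 h.hν).1.mul]
      simp only [chi, sym_mul_left 6 hm0 hc3]
    rw [if_pos hs, Par.Ath, hph, tt, tau_mul_cube hm.1 hc, ang_mul, chi.eq_1 (m * c ^ 3),
      sym_mul_left 6 hm0 hc3, map_mul, fmcube2_cpow, mul_comm m (c ^ 3),
      W_cut h.primes _ _ _ hc3 hm0, Finset.mul_sum, Finset.mul_sum]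
    refine Finset.sum_congr rfl fun I _ => ?_
    have hal : (π.cube Q c I).al m = mu m * (π.ν m * sg m (c ^ 3)) *
        (N m : ℂ) ^ (-(1 / 2 + π.t * Complex.I)) * W (π.S.filter (fun p => ¬ p ∣ c ^ 3))
          (π.J - I.card) π.b (π.y - Real.log (N (c ^ 3)) + Real.log (N (pr I))) m := by
      rw [← sgc_eq Q hc0.1 hm]
      exact if_pos ⟨hm.1, hH⟩
    rw [hal]
    rw [tt] at hk
    simp only [chi] at hk ⊢
    linear_combination (-(ang (c ^ 3) * sym 6 (c ^ 3) (-1) * f1 (c ^ 3) * π.ν (c ^ 3) *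
      sym 6 (c ^ 3) (r ^ 2) * conj (sym 6 (c ^ 3) k) *
      ((Real.sqrt (N c) : ℂ) * (N (c ^ 3) : ℂ) ^ (-(1 / 2 + π.t * Complex.I))) *
      (∏ p ∈ I, π.b p) * (π.ν m * sg m (c ^ 3)) * (N m : ℂ) ^ (-(1 / 2 + π.t * Complex.I)) *
      W (π.S.filter (fun p => ¬ p ∣ c ^ 3)) (π.J - I.card) π.b
        (π.y - Real.log (N (c ^ 3)) + Real.log (N (pr I))) m *
      sym 6 m (r ^ 2) * conj (sym 6 m k))) * hk

/-- `chi_congr` (`d = -1` and `d = r²`), `f1_congr`, periodicity of `ν`, of `P0 Q` and of coprimality -/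
theorem Par.OK.ph_per (h : π.OK Q J0 E) {r : O} (hr : r ∣ π.H) (c : O) :
    Per (Q.q * π.H) (fun m => π.ph Q r (m * c ^ 3)) :=
  fun x t => fmcube2_congr h hr ⟨t * c ^ 3, by ring⟩

theorem Par.OK.ph_supp (h : π.OK Q J0 E) (r : O) {c : O} (hc : Prim c) (m : O)
    (hm : π.ph Q r (m * c ^ 3) ≠ 0) : Prim m ∧ IsCoprime m (Q.q * π.H) :=
  have h1 := (fmcube2_supp hc hm).1
  ⟨h1.1.1, h1.1.2.mul_right h1.2⟩

theorem Par.OK.mem_Ls (h : π.OK Q J0 E) {l : O} (hl : l ∈ π.Ls) :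
    Prim l ∧ Squarefree l ∧ IsCoprime l (Q.q * π.H) ∧ N l ≤ π.L := by
  obtain ⟨I, hI, rfl⟩ := Finset.mem_image.1 hl
  obtain ⟨h1, h2⟩ := Finset.mem_powersetCard.1 hI
  refine ⟨pr_prim h.primes h1, pr_squarefree h.primes h1, pr_isCoprime h.primes h1 fun p hp hd => ?_,
    ?_⟩
  · obtain ⟨a, -, b, -⟩ := h.hS p (h1 hp)
    exact (a.dvd_or_dvd hd).elim b (h.hSH p (h1 hp))
  · rw [Par.L, ← h2]
    exact N_pr_le fun p hp => (h.hS p (h1 hp)).2.2.2.2

theorem Par.OK.norm_aL_le (h : π.OK Q J0 E) (l : O) : ‖π.aL l‖ ≤ 1 := by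
  rw [Par.aL, norm_prod]
  exact Finset.prod_le_one (fun _ _ => norm_nonneg _) fun p hp => h.hb p (Finset.mem_filter.1 hp).1

end Crest.Agent.R17.FM
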