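import Crest.Agent.R17.FMoment_BackS

/-!
# R17 / FMoment / DD1 : the two applications of the backward step

Definitions in `FMoment_Defs.lean`.  Prefix helper lemmas with `fmdd1_`.
-/

set_option autoImplicit false

noncomputable section

open scoped Classical ComplexConjugate
open MeasureTheory

namespace Crest.Agent.R17.FM

variable {π : Par} {Q : Lev} {J0 : ℕ} {E : ℝ}


theorem fmdd1_Ds {π π' : Par} {r k : O} (h : ∀ n, π.al n * chi n (r ^ 2) = π'.al n * chi n (r ^ 2)) :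
    π.Ds r k = π'.Ds r k := by
  unfold Par.Ds
  exact tsum_congr fun m => by rw [h m]

theorem fmdd1_dvd {g r p : O} (hp : Prime p) (hr : ¬ p ∣ r ^ 2) : p ∣ g * r ↔ p ∣ g := by
  constructor
  · intro h
    rcases hp.dvd_or_dvd h with h | h
    · exact h
    · exact absurd (h.trans (dvd_pow_self r two_ne_zero)) hr
  · exact fun h => h.mul_right r

theorem fmdd1_dvdH {H g r p : O} (hp : Prime p) (hr : ¬ p ∣ r ^ 2) :
    p ∣ H * (g * r) ↔ p ∣ H * g := by
  rw [← mul_assoc]; exact fmdd1_dvd hp hr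
/-- `al_relax` with `ρ = r²` -/
theorem Par.OK.Ds_dil (h : π.OK Q J0 E) {g r : O} (hg : Prim g) (hr : Prim r) (I : Finset O) (k : O) :
    (π.dil (g * r) I).Ds r k =
      ((π.excl g).set (π.dil (g * r) I).J (π.dil (g * r) I).y).Ds r k := by
  refine fmdd1_Ds fun n => ?_
  refine (h.dil (hg.mul hr) I).al_relax
    ((h.excl hg).set (le_trans (Nat.sub_le _ _) h.hJ) _) rfl rfl rfl rfl rfl ?_ ?_ n
  · intro p hp
    change p ∈ π.S.filter (fun p => ¬ p ∣ g * r) ↔ p ∈ π.S.filter (fun p => ¬ p ∣ g)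
    simp only [Finset.mem_filter]
    refine and_congr_right fun hpS => ?_
    rw [fmdd1_dvd (h.primes p hpS).1 hp]
  · intro p hp hr
    exact fmdd1_dvdH hp hr

/-- `al_relax` with `ρ = r²` -/
theorem Par.OK.Ds_cube (h : π.OK Q J0 E) {g r : O} (hg : Prim g) (hr : Prim r) (c : O)
    (I I' : Finset O) (k : O) :
    ((π.dil (g * r) I).cube Q c I').Ds r k =
      (((π.excl g).cube Q c ∅).set ((π.dil (g * r) I).cube Q c I').J
        ((π.dil (g * r) I).cube Q c I').y).Ds r k := by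
  refine fmdd1_Ds fun n => ?_
  refine ((h.dil (hg.mul hr) I).cube c I').al_relax
    (((h.excl hg).cube c ∅).set
      (le_trans (Nat.sub_le _ _) (le_trans (Nat.sub_le _ _) h.hJ)) _) rfl rfl rfl rfl rfl ?_ ?_ n
  · intro p hp
    change p ∈ (π.S.filter (fun p => ¬ p ∣ g * r)).filter (fun p => ¬ p ∣ c ^ 3) ↔
      p ∈ (π.S.filter (fun p => ¬ p ∣ g)).filter (fun p => ¬ p ∣ c ^ 3)
    simp only [Finset.mem_filter]
    refine and_congr_left fun _ => and_congr_right fun hpS => ?_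
    rw [fmdd1_dvd (h.primes p hpS).1 hp]
  · intro p hp hr
    exact fmdd1_dvdH hp hr


/-- the fibre of a sigma type over `R` -/
theorem fmdd1_fib {β : Type} (R : Finset O) (t : O → Finset β) (w : O → ℝ) (s : O) :
    ∑ i ∈ (R.sigma t).filter (fun i => i.1 = s), w i.1 =
      if s ∈ R then ((t s).card : ℝ) * w s else 0 := by
  rw [Finset.sum_filter, Finset.sum_sigma]
  simp only
  split_ifs with hs
  · rw [Finset.sum_eq_single s]
    · simp
    · intro b _ hb; simp [hb]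
    · intro h; exact absurd hs h
  · refine Finset.sum_eq_zero fun r hr => Finset.sum_eq_zero fun _ _ => ?_
    rw [if_neg]; rintro rfl; exact hs hr

/-- the divisor bound in the fibre -/
theorem fmdd1_dv {δ C : ℝ} (hδ : 0 < δ) (hC : ∀ n : O, n ≠ 0 → dv n ≤ C * N n ^ (δ / 8))
    {g s : O} (hg : g ≠ 0) (hs : s ≠ 0) :
    dv (g * s) * ((N s)⁻¹ * dv (g * s)) ≤ C ^ 2 * N g ^ (δ / 4) * N s ^ (-1 + δ / 2) := by
  have h1 := hC (g * s) (mul_ne_zero hg hs)
  have h0 := dv_nonneg (g * s)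
  have hNg := N_pos hg
  have hNs := N_pos hs
  have h2 : dv (g * s) * dv (g * s) ≤ (C * N (g * s) ^ (δ / 8)) * (C * N (g * s) ^ (δ / 8)) :=
    mul_le_mul h1 h1 h0 (h0.trans h1)
  have h3 : (C * N (g * s) ^ (δ / 8)) * (C * N (g * s) ^ (δ / 8)) =
      C ^ 2 * N g ^ (δ / 4) * N s ^ (δ / 4) := by
    have : N (g * s) ^ (δ / 8) * N (g * s) ^ (δ / 8) = N g ^ (δ / 4) * N s ^ (δ / 4) := by
      rw [← Real.rpow_add (N_pos (mul_ne_zero hg hs)), N_mul, Real.mul_rpow hNg.le hNs.le]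
      congr 2 <;> ring
    calc _ = C ^ 2 * (N (g * s) ^ (δ / 8) * N (g * s) ^ (δ / 8)) := by ring
      _ = _ := by rw [this]; ring
  have h4 : N s ^ (δ / 4) ≤ N s ^ (δ / 2) :=
    Real.rpow_le_rpow_of_exponent_le (one_le_N hs) (by linarith)
  have h5 : N s ^ (-1 + δ / 2) = (N s)⁻¹ * N s ^ (δ / 2) := by
    rw [Real.rpow_add hNs, Real.rpow_neg_one]
  rw [h5]
  have h6 : 0 ≤ C ^ 2 * N g ^ (δ / 4) := by positivity
  calc dv (g * s) * ((N s)⁻¹ * dv (g * s)) = (N s)⁻¹ * (dv (g * s) * dv (g * s)) := by ring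
    _ ≤ (N s)⁻¹ * (C ^ 2 * N g ^ (δ / 4) * N s ^ (δ / 2)) := by
        refine mul_le_mul_of_nonneg_left ?_ (by positivity)
        rw [h3] at h2
        exact h2.trans (mul_le_mul_of_nonneg_left h4 h6)
    _ = _ := by ring

theorem fmdd1_D {δ X' X0 D G0 : ℝ} (h : π.OK Q J0 E) (hs : π.SH δ E X' X0 D G0) : X0 ≤ D := by
  have := h.one_le_L
  have h1 := hs.hX0
  have h2 := hs.h2
  nlinarith

theorem fmdd1_E2 {δ X' X0 D G0 : ℝ} (hδ : 0 < δ) (h : π.OK Q J0 E) (hs : π.SH δ E X' X0 D G0) :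
    D ^ δ ≤ E ^ 2 := by
  have hD := fmdd1_D h hs
  have h1 := hs.hX0
  calc D ^ δ ≤ (X0 ^ 2) ^ δ := Real.rpow_le_rpow (by linarith) hs.hD hδ.le
    _ = (X0 ^ δ) ^ 2 := by
        rw [sq, sq, Real.mul_rpow (by linarith) (by linarith)]
    _ ≤ E ^ 2 := pow_le_pow_left₀ (Real.rpow_nonneg (by linarith) _) hs.hE1 2

theorem fmdd1_h1 {δ X' X0 D G0 : ℝ} (hs : π.SH δ E X' X0 D G0) :
    Real.exp 1 * (X0 / G0) ≤ X' := by
  have hG : 0 < G0 := (Real.exp_pos 1).trans_le hs.hG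
  rw [← mul_div_assoc, div_le_iff₀ hG, mul_comm X']
  exact hs.h1

theorem fmdd1_h2 {δ X' X0 D G0 : ℝ} (h : π.OK Q J0 E) (hs : π.SH δ E X' X0 D G0) :
    Real.exp 1 * (X0 / G0) * π.L ≤ D := by
  have hG : 0 < G0 := (Real.exp_pos 1).trans_le hs.hG
  have h1 : Real.exp 1 * (X0 / G0) ≤ X0 := by
    rw [← mul_div_assoc, div_le_iff₀ hG, mul_comm X0]
    exact mul_le_mul_of_nonneg_right hs.hG (by linarith [hs.hX0])
  exact (mul_le_mul_of_nonneg_right h1 (by linarith [h.one_le_L])).trans hs.h2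

/-- the final numerical identity (`n = N g`, `κ = N c ^ 3`) -/
theorem fmdd1_num {δ C C1 E M X0 D n κ v u : ℝ} (hX0 : 0 < X0) (hD : 0 < D) (hn : 0 < n)
    (hκ : 0 < κ) :
    C * (C1 ^ 2 * n ^ (δ / 4) * v) * (2 * E) * E ^ 8 * M * n ^ (δ / 2) *
        (X0 ^ 2 * E / (n ^ 2 * D) * D / (κ * (X0 / (n * κ)))) * (X0 / (n * κ)) ^ δ * u =
      2 * C * C1 ^ 2 * E ^ 10 * M * n ^ (-1 - δ / 4) * X0 ^ δ * u * X0 * (v * κ ^ (-δ)) := by
  have h1 : X0 ^ 2 * E / (n ^ 2 * D) * D / (κ * (X0 / (n * κ))) = X0 * E * n⁻¹ := by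
    field_simp
  have h2 : (X0 / (n * κ)) ^ δ = X0 ^ δ * (n ^ (-δ) * κ ^ (-δ)) := by
    rw [Real.div_rpow hX0.le (by positivity), Real.mul_rpow hn.le hκ.le, Real.rpow_neg hn.le,
      Real.rpow_neg hκ.le, div_eq_mul_inv, mul_inv]
  have h3 : n ^ (-1 - δ / 4) = n ^ (δ / 4) * n ^ (δ / 2) * n⁻¹ * n ^ (-δ) := by
    rw [← Real.rpow_neg_one, ← Real.rpow_add hn, ← Real.rpow_add hn, ← Real.rpow_add hn]
    congr 1; ring
  rw [h1, h2, h3]; ring
/-- `backsum` for `π.excl g`, `T = R.sigma (marks …)`, `ω = (N r)⁻¹ dv (g r)`, `κ = 1`, `X1 = X0/N g`,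
`X2 = X0/G0`, `Λ = 2E`, `m0 = C N g^{δ/4}` (fibre sum `≤ (N r)⁻¹ dv(g r)²`, `card_marks_le`, `dv_le` with
`θ = δ/8`); `len_cut_le`, `le_low_cut`; `D^δ ≤ (X0²)^δ ≤ E²`; `Kg · D = X0² E/N g²`. -/
theorem DD_large (Q : Lev) (J0 B : ℕ) {δ : ℝ} (hδ : 0 < δ) (hδ1 : δ ≤ 1 / 8) : ∃ C, 0 ≤ C ∧
    ∀ (E M X' : ℝ), 1 ≤ M → BndK Q J0 δ E M B X' → ∀ π : Par, π.OK Q J0 E →
    ∀ X0 D G0 : ℝ, π.SH δ E X' X0 D G0 → ∀ g : O, Prim g → ∀ R : Finset O,
    (∀ r ∈ R, Prim r ∧ G0 < N r) →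
      π.DD g (Kg E X0 D g) R (fun π' r k => ‖π'.Ds r k‖ ^ 2) ≤
        C * E ^ 10 * M * N g ^ (-1 - δ / 4) * X0 ^ δ * (1 + |π.t|) ^ (B + 2) * X0 := by
  obtain ⟨C, hC0, hC⟩ := backsum Q J0 B hδ hδ1
  obtain ⟨C1, hC1, hdv⟩ := dv_le (θ := δ / 8) (by linarith)
  refine ⟨2 * C * C1 ^ 2, by positivity, ?_⟩
  intro E M X' hM hB π h X0 D G0 hs g hg R hR
  have hX0 := hs.hX0
  have hX0D := fmdd1_D h hs
  have hD : 0 < D := by linarith
  have hE := h.one_le_E
  have hg0 := hg.ne_zero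
  have hNg := one_le_N hg0
  have hG : 0 < G0 := (Real.exp_pos 1).trans_le hs.hG
  have hlow := h.low_pos
  have hH : N (π.excl g).H = N g := by
    change N (π.H * g) = N g
    rw [hs.hH, one_mul]
  have key := hC E M X' hM hB (π.excl g) (h.excl hg) (Σ _ : O, Finset O)
    (R.sigma (fun r => marks π.S π.J (g * r))) (fun i => i.1)
    (fun i => (π.dil (g * i.1) i.2).J) (fun i => (π.dil (g * i.1) i.2).y)
    (fun i => (N i.1)⁻¹ * dv (g * i.1)) D 1 (X0 / (N g * 1)) (X0 / G0) (2 * E)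
    (C1 ^ 2 * N g ^ (δ / 4) * 1) ?_ (Kg E X0 D g) ?_ ?_
  · rw [hH] at key
    unfold Kg at key
    rw [fmdd1_num (by linarith) hD (by linarith) one_pos, Real.one_rpow, mul_one, mul_one] at key
    refine le_trans (le_of_eq ?_) key
    unfold Par.DD Kg
    rw [Finset.sum_sigma]
    refine Finset.sum_congr rfl fun r hr => ?_
    rw [Finset.mul_sum]
    refine Finset.sum_congr rfl fun I _ => ?_
    congr 1
    refine Finset.sum_congr rfl fun k _ => ?_
    beta_reduce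
    rw [h.Ds_dil hg (hR r hr).1]
  · have hX1 : X0 / (N g * 1) ≤ X0 := div_le_self (by linarith) (by linarith)
    refine ⟨le_rfl, by positivity, by positivity, by linarith, by positivity, ?_,
      fmdd1_E2 hδ h hs, fmdd1_h1 hs, (fmdd1_h2 h hs :), by linarith, hs.h4, ?_, ?_, ?_, ?_, ?_, ?_, ?_⟩
    · exact (Real.rpow_le_rpow (by positivity) hX1 hδ.le).trans hs.hE1
    · intro i hi
      exact (hR _ (Finset.mem_sigma.1 hi).1).1
    · intro i _
      exact Nat.sub_le _ _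
    · intro i _
      exact mul_nonneg (inv_nonneg.2 (N_nonneg _)) (dv_nonneg _)
    · intro i hi
      obtain ⟨hr, hI⟩ := Finset.mem_sigma.1 hi
      have hr0 := (hR _ hr).1.ne_zero
      have h1 := h.len_cut_le (mul_ne_zero hg0 hr0) hI
      have hNr := N_pos hr0
      refine le_trans h1 ?_
      rw [N_mul, mul_one, div_div]
      exact div_le_div_of_nonneg_right hs.up (by positivity)
    · intro i hi
      obtain ⟨hr, hI⟩ := Finset.mem_sigma.1 hi
      have hr0 := (hR _ hr).1.ne_zero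
      have h1 := h.len_cut_le (mul_ne_zero hg0 hr0) hI
      have hNr := N_pos hr0
      refine le_trans h1 ?_
      rw [N_mul]
      refine div_le_div₀ (by linarith) hs.up hG ?_
      have := (hR _ hr).2
      nlinarith
    · intro i hi
      obtain ⟨hr, hI⟩ := Finset.mem_sigma.1 hi
      have hr0 := (hR _ hr).1.ne_zero
      have h1 := h.le_low_cut (mul_ne_zero hg0 hr0) hI
      have hNr := N_pos hr0
      refine le_trans ?_ h1
      rw [N_mul, mul_one, div_div, div_le_div_iff₀ (by positivity) (by positivity)]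
      have := mul_le_mul_of_nonneg_right hs.lo (show 0 ≤ N g * N i.1 by positivity)
      linarith
    · intro s
      rw [fmdd1_fib R (fun r => marks π.S π.J (g * r)) (fun r => (N r)⁻¹ * dv (g * r)) s]
      split_ifs with hsR
      · have hs0 := (hR _ hsR).1.ne_zero
        rw [mul_one]
        refine le_trans ?_ (fmdd1_dv hδ hdv hg0 hs0)
        exact mul_le_mul_of_nonneg_right (card_marks_le h.primes _ (mul_ne_zero hg0 hs0))
          (mul_nonneg (inv_nonneg.2 (N_nonneg _)) (dv_nonneg _))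
      · have := Real.rpow_nonneg (N_nonneg s) (-1 + δ / 2)
        positivity
  · unfold Kg; positivity
  · unfold Kg
    refine le_of_eq ?_
    field_simp

/-- `backsum` for `(π.excl g).cube Q c ∅`, `T` = triples `(r, I, I')`, `ω = (N r)⁻¹ dv (g r)`, `κ = N c³`,
`X1 = X0/(N g N c³)`, `X2 = X0/G0` (`G0 < N c ≤ N c³`), `Λ = 2E`, `m0 = C N g^{δ/4} dv (c³)`. -/
theorem DD_cube (Q : Lev) (J0 B : ℕ) {δ : ℝ} (hδ : 0 < δ) (hδ1 : δ ≤ 1 / 8) : ∃ C, 0 ≤ C ∧
    ∀ (E M X' : ℝ), 1 ≤ M → BndK Q J0 δ E M B X' → ∀ π : Par, π.OK Q J0 E →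
    ∀ X0 D G0 : ℝ, π.SH δ E X' X0 D G0 → ∀ g : O, Prim g → ∀ R : Finset O, (∀ r ∈ R, Prim r) →
    ∀ c : O, Prim c → G0 < N c →
      π.DD g (Kg E X0 D g) R
          (fun π' r k => ∑ I' ∈ marks π'.S π'.J (c ^ 3), ‖(π'.cube Q c I').Ds r k‖ ^ 2) ≤
        C * E ^ 10 * M * N g ^ (-1 - δ / 4) * X0 ^ δ * (1 + |π.t|) ^ (B + 2) * X0 *
          (dv (c ^ 3) * N c ^ (-(3 * δ))) := by
  obtain ⟨C, hC0, hC⟩ := backsum Q J0 B hδ hδ1
  obtain ⟨C1, hC1, hdv⟩ := dv_le (θ := δ / 8) (by linarith)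
  refine ⟨2 * C * C1 ^ 2, by positivity, ?_⟩
  intro E M X' hM hB π h X0 D G0 hs g hg R hR c hc hcG
  have hX0 := hs.hX0
  have hX0D := fmdd1_D h hs
  have hD : 0 < D := by linarith
  have hE := h.one_le_E
  have hg0 := hg.ne_zero
  have hNg := one_le_N hg0
  have hc0 := hc.ne_zero
  have hc3 : c ^ 3 ≠ 0 := pow_ne_zero 3 hc0
  have hNc := one_le_N hc0
  have hκ : 1 ≤ N c ^ 3 := one_le_pow₀ hNc
  have hκc : N c ≤ N c ^ 3 := le_self_pow₀ hNc (by norm_num)
  have hG : 0 < G0 := (Real.exp_pos 1).trans_le hs.hG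
  have hlow := h.low_pos
  have hdc := dv_nonneg (c ^ 3)
  have hH : N ((π.excl g).cube Q c ∅).H = N g := by
    change N (π.H * g) = N g
    rw [hs.hH, one_mul]
  have hL : ((π.excl g).cube Q c ∅).L = π.L := rfl
  have hlen : ∀ r ∈ R, ∀ I ∈ marks π.S π.J (g * r),
      ∀ I' ∈ marks (π.dil (g * r) I).S (π.dil (g * r) I).J (c ^ 3),
      ((π.dil (g * r) I).cube Q c I').len ≤ X0 / (N g * N c ^ 3) / N r := by
    intro r hr I hI I' hI'
    have hr0 := (hR _ hr).ne_zero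
    have hNr := N_pos hr0
    have h1 := h.len_cut_le (mul_ne_zero hg0 hr0) hI
    have h2 := (h.dil (hg.mul (hR _ hr)) I).len_cut_le hc3 hI'
    refine le_trans h2 ?_
    rw [N_pow]
    refine le_trans (div_le_div_of_nonneg_right h1 (by positivity)) ?_
    rw [N_mul, div_div, div_div, mul_right_comm]
    exact div_le_div_of_nonneg_right hs.up (by positivity)
  have key := hC E M X' hM hB ((π.excl g).cube Q c ∅) ((h.excl hg).cube c ∅)
    (Σ _ : O, Σ _ : Finset O, Finset O)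
    (R.sigma (fun r => (marks π.S π.J (g * r)).sigma
      (fun I => marks (π.dil (g * r) I).S (π.dil (g * r) I).J (c ^ 3)))) (fun i => i.1)
    (fun i => ((π.dil (g * i.1) i.2.1).cube Q c i.2.2).J)
    (fun i => ((π.dil (g * i.1) i.2.1).cube Q c i.2.2).y)
    (fun i => (N i.1)⁻¹ * dv (g * i.1)) D (N c ^ 3) (X0 / (N g * N c ^ 3)) (X0 / G0) (2 * E)
    (C1 ^ 2 * N g ^ (δ / 4) * dv (c ^ 3)) ?_ (Kg E X0 D g) ?_ ?_
  · rw [hH] at key
    unfold Kg at key
    rw [fmdd1_num (by linarith) hD (by linarith) (by linarith)] at key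
    have h3 : (N c ^ 3) ^ (-δ) = N c ^ (-(3 * δ)) := by
      rw [← Real.rpow_natCast, ← Real.rpow_mul (by linarith)]
      congr 1; push_cast; ring
    rw [h3] at key
    refine le_trans (le_of_eq ?_) key
    unfold Par.DD Kg
    rw [Finset.sum_sigma]
    refine Finset.sum_congr rfl fun r hr => ?_
    rw [Finset.mul_sum, Finset.sum_sigma]
    refine Finset.sum_congr rfl fun I _ => ?_
    rw [Finset.sum_comm, Finset.mul_sum]
    refine Finset.sum_congr rfl fun I' _ => ?_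
    congr 1
    refine Finset.sum_congr rfl fun k _ => ?_
    rw [h.Ds_cube hg (hR r hr)]
  · have hX1 : X0 / (N g * N c ^ 3) ≤ X0 := div_le_self (by linarith) (by nlinarith)
    refine ⟨hκ, by positivity, by positivity, by linarith, by positivity, ?_,
      fmdd1_E2 hδ h hs, fmdd1_h1 hs, (fmdd1_h2 h hs :), ?_, hs.h4, ?_, ?_, ?_, ?_, ?_, ?_, ?_⟩
    · exact (Real.rpow_le_rpow (by positivity) hX1 hδ.le).trans hs.hE1
    · have : N c ^ 3 * (X0 / (N g * N c ^ 3)) = X0 / N g := by field_simp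
      rw [this]
      exact (div_le_self (by linarith) hNg).trans hX0D
    · intro i hi
      exact hR _ (Finset.mem_sigma.1 hi).1
    · intro i _
      exact le_trans (Nat.sub_le _ _) (Nat.sub_le _ _)
    · intro i _
      exact mul_nonneg (inv_nonneg.2 (N_nonneg _)) (dv_nonneg _)
    · intro i hi
      obtain ⟨hr, hI⟩ := Finset.mem_sigma.1 hi
      obtain ⟨hI, hI'⟩ := Finset.mem_sigma.1 hI
      exact hlen _ hr _ hI _ hI'
    · intro i hi
      obtain ⟨hr, hI⟩ := Finset.mem_sigma.1 hi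
      obtain ⟨hI, hI'⟩ := Finset.mem_sigma.1 hI
      refine le_trans (hlen _ hr _ hI _ hI') ?_
      have hNr := one_le_N (hR _ hr).ne_zero
      refine le_trans (div_le_self (by positivity) hNr) ?_
      refine div_le_div_of_nonneg_left (by linarith) hG ?_
      nlinarith
    · intro i hi
      obtain ⟨hr, hI⟩ := Finset.mem_sigma.1 hi
      obtain ⟨hI, hI'⟩ := Finset.mem_sigma.1 hI
      have hr0 := (hR _ hr).ne_zero
      have hNr := N_pos hr0
      have h1 := h.le_low_cut (mul_ne_zero hg0 hr0) hI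
      have h2 := (h.dil (hg.mul (hR _ hr)) i.2.1).le_low_cut hc3 hI'
      refine le_trans ?_ h2
      rw [N_pow]
      refine le_trans ?_ (div_le_div_of_nonneg_right h1 (by positivity))
      rw [N_mul, div_div, div_div, div_le_div_iff₀ (by positivity) (by positivity)]
      have := mul_le_mul_of_nonneg_right hs.lo (show 0 ≤ N g * N i.1 * N c ^ 3 by positivity)
      linarith
    · intro s
      rw [fmdd1_fib R (fun r => (marks π.S π.J (g * r)).sigma
        (fun I => marks (π.dil (g * r) I).S (π.dil (g * r) I).J (c ^ 3)))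
        (fun r => (N r)⁻¹ * dv (g * r)) s]
      split_ifs with hsR
      · have hs0 := (hR _ hsR).ne_zero
        have hcard : (((marks π.S π.J (g * s)).sigma
            (fun I => marks (π.dil (g * s) I).S (π.dil (g * s) I).J (c ^ 3))).card : ℝ) ≤
            dv (g * s) * dv (c ^ 3) := by
          rw [Finset.card_sigma]
          push_cast
          refine le_trans (Finset.sum_le_card_nsmul _ _ (dv (c ^ 3)) fun I _ =>
            card_marks_le (h.dil (hg.mul (hR _ hsR)) I).primes _ hc3) ?_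
          rw [nsmul_eq_mul]
          exact mul_le_mul_of_nonneg_right (card_marks_le h.primes _ (mul_ne_zero hg0 hs0)) hdc
        have h1 := mul_le_mul_of_nonneg_right (fmdd1_dv hδ hdv hg0 hs0) hdc
        have h2 := mul_le_mul_of_nonneg_right hcard
          (mul_nonneg (inv_nonneg.2 (N_nonneg s)) (dv_nonneg (g * s)))
        linarith
      · have := Real.rpow_nonneg (N_nonneg s) (-1 + δ / 2)
        positivity
  · unfold Kg; positivity
  · unfold Kg
    refine le_of_eq ?_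
    field_simp

end Crest.Agent.R17.FM
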