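import Crest.Agent.R17.FMoment_Cube2

/-!
# R17 / FMoment / Theta : the theta-complete part

Definitions in `FMoment_Defs.lean`.  Prefix helper lemmas with `fmtheta_`.
-/

set_option autoImplicit false

noncomputable section

open scoped Classical ComplexConjugate
open MeasureTheory

namespace Crest.Agent.R17.FM

/-- `thetaNorm` with `A = 1`, `ε = δ` applied to `Fc` (`ph_per`, `norm_ph_le`, `ph_supp`, `mem_Ls` and
`norm_aL_le` for `π.cut (c³) I`, `L_cut_le`, `y_cut`); then `e^{y'} ≥ e^y / N c³`, `e^{y'/4} ≤ e^{y/4}`. -/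
theorem theta1 : ∃ B0 : ℕ, ∀ δ : ℝ, 0 < δ → ∃ (C : ℝ) (B : ℕ), 0 ≤ C ∧
    ∀ (Q : Lev) (J0 : ℕ) (E : ℝ) (π : Par), π.OK Q J0 E → ∀ r c : O, r ∣ π.H → Prim c →
    ∀ I ∈ marks π.S π.J (c ^ 3), ∀ Z L K : ℝ, 3 ≤ Z → N Q.q * N π.H ≤ Z → π.L ≤ L → L ≤ Z →
      1 ≤ K → K ≤ Z → Real.exp π.y ≤ Z → N c ^ 3 ≤ Z * Real.exp π.y →
      ∑ k ∈ ball K, ‖π.Fc Q r k c I‖ ^ 2 ≤ C * Z ^ δ * (N Q.q * N π.H) ^ B0 * (1 + |π.t|) ^ B *
        (K + N c ^ 3 * K ^ 2 * L / Real.exp π.y + L ^ 3 +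
          Real.sqrt K * L * Real.exp (π.y / 4)) := by
  obtain ⟨B0, hB0⟩ := thetaNorm
  refine ⟨B0, fun δ hδ => ?_⟩
  obtain ⟨C, B, h⟩ := hB0 1 δ hδ
  refine ⟨|C|, B, abs_nonneg C, fun Q J0 E π hπ r c hr hc I hI Z L K hZ hQ hL hLZ hK hKZ hy hcZ => ?_⟩
  have hc3 : c ^ 3 ≠ 0 := pow_ne_zero _ hc.ne_zero
  have hπ' := hπ.cut (c ^ 3) I
  obtain ⟨y1, y2⟩ := hπ.y_cut hc3 hI
  have hN := N_pos hc3
  have hZ0 : 0 < Z := by linarith
  have hL1 : 1 ≤ L := hπ.one_le_L.trans hL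
  have e1 : π.y ≤ Real.log Z := (Real.le_log_iff_exp_le hZ0).2 hy
  have e2 : Real.log (N (c ^ 3)) ≤ Real.log Z + π.y := by
    rw [← Real.log_exp π.y, ← Real.log_mul hZ0.ne' (Real.exp_pos _).ne']
    exact Real.log_le_log hN (by rwa [N_pow])
  have key := h Z hZ (Q.q * π.H) (mul_ne_zero Q.ne hπ.hH.ne_zero) (Q.dvd.mul_right _)
    (by rwa [N_mul, Real.rpow_one]) _ (hπ.ph_per hr c) (fun m => hπ.norm_ph_le r _)
    (hπ.ph_supp r hc) (π.cut (c ^ 3) I).Ls (π.cut (c ^ 3) I).aL L K (π.cut (c ^ 3) I).y π.t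
    (fun l hl => by
      obtain ⟨a1, a2, a3, a4⟩ := hπ'.mem_Ls hl
      exact ⟨a1, a2, a3, a4.trans ((hπ.L_cut_le _ _).trans hL)⟩)
    hπ'.norm_aL_le hL1 (by rwa [Real.rpow_one]) hK (by rwa [Real.rpow_one])
    (abs_le.2 ⟨by linarith, by linarith⟩)
  rw [N_mul] at key
  refine key.trans ?_
  have e3 : K ^ 2 * L / Real.exp (π.cut (c ^ 3) I).y ≤ N c ^ 3 * K ^ 2 * L / Real.exp π.y := by
    calc _ ≤ K ^ 2 * L / Real.exp (π.y - Real.log (N (c ^ 3))) := by gcongr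
      _ = _ := by
        rw [Real.exp_sub, Real.exp_log hN, N_pow]
        field_simp
  have n1 := N_nonneg Q.q
  have n2 := N_nonneg π.H
  gcongr
  exact le_abs_self C

/-- The numerical part.  `Y = e^y`, `Y' = e^{y'}`: `K ≤ X0² E/D ≤ X0 E`;
`G³ K² L/Y' ≤ G³ X0⁴ E² L · 2 E L G²/(D² X0) ≤ 2 E³ G⁵ X0`; `L³ ≤ X0` as `L⁶ ≤ D ≤ X0²`;
`(√K L Y'^{1/4})⁴ ≤ X0⁴ E² D⁻² L⁴ X0/L ≤ X0⁴ E²` as `L³ X0 ≤ D²`. -/
theorem theta_num {X0 D E G L K y' n : ℝ} (hX0 : 1 ≤ X0) (hE : 1 ≤ E) (hG : 1 ≤ G) (hL : 1 ≤ L)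
    (hD : D ≤ X0 ^ 2) (h2 : X0 * L ≤ D) (h4 : L ^ 6 ≤ D) (hK0 : 0 ≤ K) (hK : K ≤ X0 ^ 2 * E / D)
    (hn0 : 0 ≤ n) (hn : n ≤ G) (hy1 : Real.exp y' * L ≤ X0)
    (hy2 : X0 ≤ 2 * E * L * G ^ 2 * Real.exp y') :
    K + n ^ 3 * K ^ 2 * L / Real.exp y' + L ^ 3 + Real.sqrt K * L * Real.exp (y' / 4) ≤
      5 * E ^ 3 * G ^ 5 * X0 := by
  have hY := Real.exp_pos y'
  have hXD : X0 ≤ D := le_trans (le_mul_of_one_le_right (by linarith) hL) h2
  have hD0 : 0 < D := by linarith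
  have hKD : K * D ≤ X0 ^ 2 * E := (le_div_iff₀ hD0).1 hK
  have h1 : K * L ≤ X0 * E := by
    refine le_of_mul_le_mul_left ?_ (by linarith : 0 < X0)
    calc X0 * (K * L) = K * (X0 * L) := by ring
      _ ≤ K * D := by gcongr
      _ ≤ _ := by linarith
  have t1 : K ≤ X0 * E := (le_mul_of_one_le_right hK0 hL).trans h1
  have t2 : n ^ 3 * K ^ 2 * L / Real.exp y' ≤ 2 * E ^ 3 * G ^ 5 * X0 := by
    rw [div_le_iff₀ hY]
    refine le_of_mul_le_mul_left ?_ (by linarith : 0 < X0)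
    calc X0 * (n ^ 3 * K ^ 2 * L) ≤ (2 * E * L * G ^ 2 * Real.exp y') * (G ^ 3 * K ^ 2 * L) := by gcongr
      _ = 2 * E * G ^ 5 * Real.exp y' * (K * L) ^ 2 := by ring
      _ ≤ 2 * E * G ^ 5 * Real.exp y' * (X0 * E) ^ 2 := by gcongr
      _ = _ := by ring
  have t3 : L ^ 3 ≤ X0 := by
    refine le_of_sq_le_sq ?_ (by linarith)
    rw [← pow_mul]
    exact h4.trans hD
  have t4 : Real.sqrt K * L * Real.exp (y' / 4) ≤ X0 * E := by
    refine le_of_pow_le_pow_left₀ (n := 4) (by norm_num) (by positivity) ?_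
    have a1 : Real.sqrt K ^ 4 = K ^ 2 := by
      rw [show 4 = 2 * 2 by norm_num, pow_mul, Real.sq_sqrt hK0]
    have a2 : Real.exp (y' / 4) ^ 4 = Real.exp y' := by
      rw [← Real.exp_nat_mul]
      congr 1
      push_cast
      ring
    have a3 : L ^ 3 ≤ D := (pow_le_pow_right₀ hL (by norm_num)).trans h4
    rw [mul_pow, mul_pow, a1, a2]
    calc K ^ 2 * L ^ 4 * Real.exp y' = K ^ 2 * L ^ 3 * (Real.exp y' * L) := by ring
      _ ≤ K ^ 2 * D * D := by gcongr; exact hy1.trans hXD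
      _ = (K * D) ^ 2 := by ring
      _ ≤ (X0 ^ 2 * E) ^ 2 := by gcongr
      _ = X0 ^ 4 * E ^ 2 := by ring
      _ ≤ X0 ^ 4 * E ^ 4 := by gcongr; norm_num
      _ = _ := by ring
  have b1 : 1 ≤ G ^ 5 := one_le_pow₀ hG
  have b2 : E ≤ E ^ 3 := le_self_pow₀ hE (by norm_num)
  have b3 : X0 * E ≤ E ^ 3 * G ^ 5 * X0 := by
    calc X0 * E = E * 1 * X0 := by ring
      _ ≤ _ := by gcongr
  have b4 : X0 ≤ X0 * E := le_mul_of_one_le_right (by linarith) hE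
  linarith

theorem fmtheta_Th {Q : Lev} {J0 : ℕ} {E : ℝ} {π : Par} (h : π.OK Q J0 E) (r : O) {G K M : ℝ}
    (hG : 1 ≤ G) (hM : 0 ≤ M) (hb : ∀ c, Prim c → N c ≤ G → ∀ I ∈ marks π.S π.J (c ^ 3),
      ∑ k ∈ ball K, ‖π.Fc Q r k c I‖ ^ 2 ≤ M) :
    ∑ k ∈ ball K, ‖π.Th Q r k G‖ ^ 2 ≤ (18 * G) ^ 2 * (G ^ 3) ^ 2 * M := by
  have h1 : (((ball G).filter Prim).card : ℝ) ≤ 18 * G :=
    (Nat.cast_le.2 (Finset.card_filter_le _ _)).trans (card_ball_le (by linarith))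
  have h2 : ∀ c ∈ (ball G).filter Prim, ∑ k ∈ ball K, ‖mu c * π.Tc Q r k c‖ ^ 2 ≤ (G ^ 3) ^ 2 * M := by
    intro c hc
    obtain ⟨a1, a2⟩ := Finset.mem_filter.1 hc
    have a3 := (mem_ball.1 a1).2
    have hc3 : c ^ 3 ≠ 0 := pow_ne_zero _ a2.ne_zero
    have a4 : ((marks π.S π.J (c ^ 3)).card : ℝ) ≤ G ^ 3 := by
      refine (card_marks_le h.primes _ hc3).trans ((dv_le_N hc3).trans ?_)
      rw [N_pow]
      exact pow_le_pow_left₀ (N_nonneg c) a3 3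
    have a5 : ∀ k, ‖mu c * π.Tc Q r k c‖ ^ 2 ≤
        G ^ 3 * ∑ I ∈ marks π.S π.J (c ^ 3), ‖π.Fc Q r k c I‖ ^ 2 := fun k => by
      have b1 : ‖mu c * π.Tc Q r k c‖ ≤ ∑ I ∈ marks π.S π.J (c ^ 3), ‖π.Fc Q r k c I‖ := by
        rw [norm_mul]
        refine (mul_le_of_le_one_left (norm_nonneg _) (norm_mu_le c)).trans
          ((h.norm_Tc_le r k a2).trans (mul_le_of_le_one_left
            (Finset.sum_nonneg fun _ _ => norm_nonneg _) ?_))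
        exact inv_le_one_of_one_le₀ (one_le_N a2.ne_zero)
      refine (pow_le_pow_left₀ (norm_nonneg _) b1 2).trans (sq_sum_le_card_mul_sum_sq.trans ?_)
      exact mul_le_mul_of_nonneg_right a4 (Finset.sum_nonneg fun _ _ => sq_nonneg _)
    refine (Finset.sum_le_sum fun k _ => a5 k).trans ?_
    rw [← Finset.mul_sum, Finset.sum_comm, sq, mul_assoc]
    refine mul_le_mul_of_nonneg_left ?_ (by positivity)
    refine (Finset.sum_le_card_nsmul _ _ M (hb c a2 a3)).trans ?_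
    rw [nsmul_eq_mul]
    exact mul_le_mul_of_nonneg_right a4 hM
  refine (Finset.sum_le_sum fun k _ => norm_sum_sq_le _ _).trans ?_
  rw [← Finset.mul_sum, Finset.sum_comm]
  have h3 := Finset.sum_le_card_nsmul _ _ _ h2
  rw [nsmul_eq_mul] at h3
  calc _ ≤ (18 * G) * ((18 * G) * ((G ^ 3) ^ 2 * M)) := by
        refine mul_le_mul h1 (h3.trans ?_)
          (Finset.sum_nonneg fun _ _ => Finset.sum_nonneg fun _ _ => sq_nonneg _) (by positivity)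
        gcongr
    _ = _ := by ring

/-- If `Kg < 1` the ball is empty.  `‖Th‖² ≤ #c · ∑_c ‖Tc‖²`, `‖Tc‖² ≤ dv(c³) ∑_I ‖Fc‖²`
(`norm_sum_sq_le`, `norm_Tc_le`, `card_marks_le`), `theta1` for `π' = π.dil (g r) I` (`H' = 1 * (g r)`,
`y_cut`) with `L = π.L`, `Z = 3 N q · G0⁵ X0 E`, `Z^δ ≤ 3 N q · G0 · E²`, and `theta_num`.  Crude counts:
`card_ball_le`, `dv_le_N`; e.g. `c = 2 B0 + 20`. -/
theorem DD_theta : ∃ c : ℕ, ∀ (Q : Lev) (δ : ℝ), 0 < δ → δ ≤ 1 / 8 → ∃ (C : ℝ) (B : ℕ), 0 ≤ C ∧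
    ∀ (J0 : ℕ) (E : ℝ) (π : Par), π.OK Q J0 E → ∀ X' X0 D G0 : ℝ, π.SH δ E X' X0 D G0 →
    ∀ g : O, Prim g → N g ≤ G0 → ∀ R : Finset O, (∀ r ∈ R, Prim r ∧ N r ≤ G0) →
      π.DD g (Kg E X0 D g) R (fun π' r k => ‖π'.Th Q r k G0‖ ^ 2) ≤
        C * G0 ^ c * E ^ 5 * (1 + |π.t|) ^ B * X0 := by
  obtain ⟨B0, hB0⟩ := theta1
  refine ⟨2 * B0 + 23, fun Q δ hδ hδ1 => ?_⟩
  obtain ⟨C, B, hC, h⟩ := hB0 δ hδ
  have hq := one_le_N Q.ne
  refine ⟨18 ^ 3 * 15 * C * N Q.q ^ (B0 + 1), B, by positivity,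
    fun J0 E π hπ X' X0 D G0 hS g hg hgG R hR => ?_⟩
  have hE := hπ.one_le_E
  have hL := hπ.one_le_L
  have hX := hS.hX0
  have hG : 1 ≤ G0 := (one_le_N hg.ne_zero).trans hgG
  unfold Par.DD
  by_cases hK : 1 ≤ Kg E X0 D g
  swap
  · have : ball (Kg E X0 D g) = ∅ := Finset.eq_empty_of_forall_notMem fun k hk =>
      hK ((one_le_N (mem_ball.1 hk).1).trans (mem_ball.1 hk).2)
    simp only [this, Finset.sum_empty, Finset.sum_const_zero, mul_zero]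
    positivity
  have hXD : X0 ≤ D := le_trans (le_mul_of_one_le_right (by linarith) hL) hS.h2
  have hD0 : 0 < D := by linarith
  have hK1 : Kg E X0 D g ≤ X0 ^ 2 * E / D := by
    unfold Kg
    gcongr
    exact le_mul_of_one_le_left hD0.le (one_le_pow₀ (one_le_N hg.ne_zero))
  have hK2 : X0 ^ 2 * E / D ≤ X0 * E := by
    rw [div_le_iff₀ hD0]
    calc X0 ^ 2 * E = X0 * E * X0 := by ring
      _ ≤ _ := by gcongr
  have hLX : π.L ≤ X0 := by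
    refine le_of_sq_le_sq ?_ (by linarith)
    exact (pow_le_pow_right₀ hL (by norm_num)).trans (hS.h4.trans hS.hD)
  set Z := 3 * N Q.q * G0 ^ 5 * X0 * E with hZ
  have g5 : 1 ≤ G0 ^ 5 := one_le_pow₀ hG
  have z0 : 3 ≤ 3 * N Q.q * G0 ^ 5 := by nlinarith
  have z1 : X0 * E ≤ Z := by
    calc X0 * E = 1 * X0 * E := by ring
      _ ≤ _ := by rw [hZ]; gcongr; linarith
  have z2 : X0 ≤ Z := (le_mul_of_one_le_right (by linarith) hE).trans z1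
  have z3 : 3 * N Q.q * G0 ^ 5 ≤ Z := by
    calc 3 * N Q.q * G0 ^ 5 = 3 * N Q.q * G0 ^ 5 * 1 * 1 := by ring
      _ ≤ _ := by rw [hZ]; gcongr
  have z4 : Z ^ δ ≤ 3 * N Q.q * G0 ^ 5 * E * E := by
    rw [hZ, Real.mul_rpow (by positivity) (by linarith), Real.mul_rpow (by positivity) (by linarith)]
    have a1 : (3 * N Q.q * G0 ^ 5) ^ δ ≤ 3 * N Q.q * G0 ^ 5 :=
      Real.rpow_le_self_of_one_le (by linarith) (by linarith)
    have a2 : E ^ δ ≤ E := Real.rpow_le_self_of_one_le hE (by linarith)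
    have a3 := hS.hE1
    gcongr
  set M := C * (3 * N Q.q * G0 ^ 5 * E * E) * (N Q.q * G0 ^ 2) ^ B0 * (1 + |π.t|) ^ B *
    (5 * E ^ 3 * G0 ^ 5 * X0) with hM
  have hM0 : 0 ≤ M := by positivity
  have key : ∀ r ∈ R, (N r)⁻¹ * dv (g * r) * ∑ I ∈ marks π.S π.J (g * r), ∑ k ∈ ball (Kg E X0 D g),
      ‖(π.dil (g * r) I).Th Q r k G0‖ ^ 2 ≤
      1 * G0 ^ 2 * (G0 ^ 2 * ((18 * G0) ^ 2 * (G0 ^ 3) ^ 2 * M)) := by
    intro r hr
    obtain ⟨r1, r2⟩ := hR r hr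
    have hgr := hg.mul r1
    have n1 : N (g * r) ≤ G0 ^ 2 := by
      rw [N_mul, sq]
      exact mul_le_mul hgG r2 (N_nonneg r) (by linarith)
    have n2 := (dv_le_N hgr.ne_zero).trans n1
    have n3 := (card_marks_le hπ.primes π.J hgr.ne_zero).trans n2
    refine mul_le_mul (mul_le_mul (inv_le_one_of_one_le₀ (one_le_N r1.ne_zero)) n2 (dv_nonneg _)
      zero_le_one) ?_ (Finset.sum_nonneg fun _ _ => Finset.sum_nonneg fun _ _ => sq_nonneg _)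
      (by positivity)
    refine (Finset.sum_le_card_nsmul _ _ ((18 * G0) ^ 2 * (G0 ^ 3) ^ 2 * M) fun I hI => ?_).trans ?_
    swap
    · rw [nsmul_eq_mul]
      exact mul_le_mul_of_nonneg_right n3 (by positivity)
    have hπ' := hπ.dil hgr I
    refine fmtheta_Th hπ' r hG hM0 fun c hc hcG I' hI' => ?_
    have eH : (π.dil (g * r) I).H = g * r := by
      change π.H * (g * r) = _
      rw [hS.hH, one_mul]
    obtain ⟨y1, y2⟩ := hπ.y_cut hgr.ne_zero hI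
    change π.y - _ ≤ (π.dil (g * r) I).y at y1
    change (π.dil (g * r) I).y ≤ _ at y2
    have hY := Real.exp_pos (π.dil (g * r) I).y
    have u1 : Real.exp (π.dil (g * r) I).y * π.L ≤ X0 := by
      refine le_trans ?_ hS.up
      change _ ≤ Real.exp π.y * π.L
      gcongr
    have u2 : X0 ≤ 2 * E * π.L * G0 ^ 2 * Real.exp (π.dil (g * r) I).y := by
      have a1 : Real.exp π.y ≤ G0 ^ 2 * Real.exp (π.dil (g * r) I).y := by
        calc Real.exp π.y ≤ Real.exp (Real.log (N (g * r)) + (π.dil (g * r) I).y) :=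
              Real.exp_le_exp.2 (by linarith)
          _ = N (g * r) * Real.exp (π.dil (g * r) I).y := by
              rw [Real.exp_add, Real.exp_log (N_pos hgr.ne_zero)]
          _ ≤ _ := by gcongr
      calc X0 ≤ 2 * E * π.low := hS.lo
        _ ≤ 2 * E * (Real.exp π.y * π.L) := by gcongr; exact hπ.low_le_len
        _ ≤ 2 * E * (G0 ^ 2 * Real.exp (π.dil (g * r) I).y * π.L) := by gcongr
        _ = _ := by ring
    have u3 : N c ^ 3 ≤ Z * Real.exp (π.dil (g * r) I).y := by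
      have a1 : 1 ≤ 2 * E * X0 * G0 ^ 2 * Real.exp (π.dil (g * r) I).y :=
        hX.trans (u2.trans (by gcongr))
      have a2 := N_nonneg c
      calc N c ^ 3 ≤ G0 ^ 3 * 1 := by rw [mul_one]; gcongr
        _ ≤ G0 ^ 3 * (2 * E * X0 * G0 ^ 2 * Real.exp (π.dil (g * r) I).y) := by gcongr
        _ = 2 * 1 * G0 ^ 5 * X0 * E * Real.exp (π.dil (g * r) I).y := by ring
        _ ≤ _ := by rw [hZ]; gcongr; norm_num
    have u4 : N Q.q * N (π.dil (g * r) I).H ≤ N Q.q * G0 ^ 2 := by rw [eH]; gcongr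
    have u5 : N Q.q * G0 ^ 2 ≤ Z := by
      refine le_trans ?_ z3
      calc N Q.q * G0 ^ 2 = 1 * N Q.q * G0 ^ 2 := by ring
        _ ≤ _ := by gcongr <;> norm_num
    have u6 := theta_num hX hE hG hL hS.hD hS.h2 hS.h4 (by linarith) hK1 (N_nonneg c) hcG u1 u2
    refine (h Q J0 E _ hπ' r c (by rw [eH]; exact dvd_mul_left r g) hc I' hI' Z π.L _ (z0.trans z3) (u4.trans u5)
      (hπ.L_cut_le (g * r) I) (hLX.trans z2) hK (hK1.trans (hK2.trans z1))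
      (((le_mul_of_one_le_right hY.le hL).trans u1).trans z2) u3).trans ?_
    have u7 := mul_nonneg (N_nonneg Q.q) (N_nonneg (π.dil (g * r) I).H)
    have u8 := N_nonneg c
    have u9 : 0 ≤ Kg E X0 D g := by linarith
    rw [hM]
    change C * Z ^ δ * _ ^ B0 * (1 + |π.t|) ^ B * _ ≤ _
    gcongr
  have hc : (R.card : ℝ) ≤ 18 * G0 :=
    (Nat.cast_le.2 (Finset.card_le_card fun r hr =>
      mem_ball.2 ⟨(hR r hr).1.ne_zero, (hR r hr).2⟩)).trans (card_ball_le (by linarith))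
  refine (Finset.sum_le_card_nsmul _ _ _ key).trans ?_
  rw [nsmul_eq_mul]
  calc _ ≤ 18 * G0 * (1 * G0 ^ 2 * (G0 ^ 2 * ((18 * G0) ^ 2 * (G0 ^ 3) ^ 2 * M))) := by gcongr
    _ = _ := by rw [hM]; ring

end Crest.Agent.R17.FM
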