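import Crest.Agent.R17.FMoment_DD1
import Crest.Agent.R17.FMoment_Cube1
import Crest.Agent.R17.FMoment_Theta

/-!
# R17 / FMoment / DD2 : the dual sums: remainder of the cube removal, total

Definitions in `FMoment_Defs.lean`.  Prefix helper lemmas with `fmdd2_`.
-/

set_option autoImplicit false

noncomputable section

open scoped Classical ComplexConjugate
open MeasureTheory

namespace Crest.Agent.R17.FM

theorem fmdd2_eq (π : Par) (g : O) (K : ℝ) (R : Finset O) (Φ : Par → O → O → ℝ) :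
    π.DD g K R Φ = ∑ i ∈ R.sigma (fun r => marks π.S π.J (g * r) ×ˢ ball K),
      ((N i.1)⁻¹ * dv (g * i.1)) * Φ (π.dil (g * i.1) i.2.1) i.1 i.2.2 := by
  rw [Finset.sum_sigma, Par.DD]
  refine Finset.sum_congr rfl fun r _ => ?_
  rw [Finset.sum_product]
  simp only [Finset.mul_sum]

theorem fmdd2_w (g r : O) : 0 ≤ (N r)⁻¹ * dv (g * r) :=
  mul_nonneg (inv_nonneg.2 (N_nonneg r)) (dv_nonneg _)

theorem fmdd2_num {δ C n d1 d3 : ℝ} (hn : 0 < n) (h10 : 0 ≤ d1) (h30 : 0 ≤ d3)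
    (h1 : d1 ≤ C * n ^ (δ / 8)) (h3 : d3 ≤ C * (n ^ 3) ^ (δ / 8)) :
    d1 ^ 2 * (n⁻¹ ^ 2 * d3) * (d3 * n ^ (-(3 * δ))) ≤ (C ^ 2 * n ^ (-1 - δ)) ^ 2 := by
  obtain ⟨u, hu⟩ : ∃ u, u = n ^ (δ / 8) := ⟨_, rfl⟩
  have hu0 : 0 < u := hu ▸ Real.rpow_pos_of_pos hn _
  have e : ∀ k : ℕ, u ^ k = n ^ (δ / 8 * k) := fun k => by
    rw [hu, Real.rpow_mul_natCast hn.le]
  have e1 : (n ^ 3) ^ (δ / 8) = u ^ 3 := by
    rw [e, ← Real.rpow_natCast, ← Real.rpow_mul hn.le, mul_comm]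
  have e2 : n ^ (-(3 * δ)) = (u ^ 24)⁻¹ := by
    rw [e, ← Real.rpow_neg hn.le]; congr 1; push_cast; ring
  have e3 : n ^ (-1 - δ) = n⁻¹ * (u ^ 8)⁻¹ := by
    rw [e, ← Real.rpow_neg hn.le, ← Real.rpow_neg_one, ← Real.rpow_add hn]; congr 1; push_cast; ring
  rw [← hu] at h1
  rw [e1] at h3
  rw [e2, e3]
  have hC : 0 ≤ C * u ^ 3 := h30.trans h3
  calc _ ≤ (C * u) ^ 2 * (n⁻¹ ^ 2 * (C * u ^ 3)) * (C * u ^ 3 * (u ^ 24)⁻¹) := by gcongr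
    _ = _ := by field_simp

/-- `minkowski` over `c` for the family of triples `(r, I, k)` with `hasSum_rem`;
`‖lamG G0 c · Rc c‖² ≤ dv c² (N c)⁻² dv(c³) ∑_{I'} ‖Ds‖²` (`norm_lamG_le`, `norm_Rc_le`, `norm_sum_sq_le`,
`card_marks_le`), `DD_cube`; `e c = dv c · dv(c³) · N c^{-1-3δ/2} ≤ C N c^{-1-δ}` on primary `c` with
`G0 < N c`, else `0` (`dv_le` with `θ = δ/8`, `sum_N_rpow_le`). -/
theorem DD_rem (Q : Lev) (J0 B : ℕ) {δ : ℝ} (hδ : 0 < δ) (hδ1 : δ ≤ 1 / 8) : ∃ C, 0 ≤ C ∧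
    ∀ (E M X' : ℝ), 1 ≤ M → BndK Q J0 δ E M B X' → ∀ π : Par, π.OK Q J0 E →
    ∀ X0 D G0 : ℝ, π.SH δ E X' X0 D G0 → ∀ g : O, Prim g → ∀ R : Finset O, (∀ r ∈ R, Prim r) →
      π.DD g (Kg E X0 D g) R (fun π' r k => ‖π'.Th Q r k G0 - π'.Ds r k‖ ^ 2) ≤
        C * E ^ 10 * M * N g ^ (-1 - δ / 4) * X0 ^ δ * (1 + |π.t|) ^ (B + 2) * X0 := by
  obtain ⟨C1, hC1, h1⟩ := DD_cube Q J0 B hδ hδ1
  obtain ⟨C2, hC2, h2⟩ := dv_le (θ := δ / 8) (by positivity)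
  obtain ⟨C3, hC3, h3⟩ := sum_N_rpow_le hδ
  refine ⟨C1 * (C2 ^ 2 * C3) ^ 2, by positivity, fun E M X' hM hB π hπ X0 D G0 hS g hg R hR => ?_⟩
  have hE := hπ.one_le_E
  have hX := hS.hX0
  have hG : 1 ≤ G0 := (Real.one_le_exp zero_le_one).trans hS.hG
  have hg0 := Real.rpow_nonneg (N_nonneg g) (-1 - δ / 4)
  obtain ⟨V, hV⟩ : ∃ V, V = C1 * E ^ 10 * M * N g ^ (-1 - δ / 4) * X0 ^ δ *
    (1 + |π.t|) ^ (B + 2) * X0 := ⟨_, rfl⟩
  have hV0 : 0 ≤ V := by rw [hV]; positivity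
  have hok : ∀ i ∈ R.sigma (fun r => marks π.S π.J (g * r) ×ˢ ball (Kg E X0 D g)),
      (π.dil (g * i.1) i.2.1).OK Q J0 E := fun i hi =>
    hπ.dil (hg.mul (hR _ (Finset.mem_sigma.1 hi).1)) _
  have key := minkowski (R.sigma (fun r => marks π.S π.J (g * r) ×ˢ ball (Kg E X0 D g)))
    (ω := fun i => (N i.1)⁻¹ * dv (g * i.1)) (fun i _ => fmdd2_w g i.1)
    (fun i hi => (hok i hi).hasSum_rem i.1 i.2.2 hG)
    (e := fun c : O => if Prim c ∧ G0 < N c then C2 ^ 2 * N c ^ (-1 - δ) else 0)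
    (fun c => by
      have := Real.rpow_nonneg (N_nonneg c) (-1 - δ)
      split_ifs <;> positivity) hV0 (C := C2 ^ 2 * C3)
    (fun P => by
      refine le_trans ?_ (mul_le_mul_of_nonneg_left (h3 P) (by positivity))
      rw [Finset.mul_sum]
      refine Finset.sum_le_sum fun c _ => ?_
      have := Real.rpow_nonneg (N_nonneg c) (-1 - δ)
      split_ifs
      · exact le_rfl
      · positivity)
    (fun c => by
      by_cases hc : Prim c ∧ G0 < N c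
      swap
      · simp [hc]
      simp only [if_pos hc]
      have hc3 : c ^ 3 ≠ 0 := pow_ne_zero 3 hc.1.ne_zero
      have a1 := h1 E M X' hM hB π hπ X0 D G0 hS g hg R hR c hc.1 hc.2
      rw [← hV, fmdd2_eq] at a1
      have a2 := fmdd2_num (N_pos hc.1.ne_zero) (dv_nonneg c) (dv_nonneg (c ^ 3))
        (h2 c hc.1.ne_zero) (by rw [← N_pow]; exact h2 _ hc3)
      have a3 : 0 ≤ dv c ^ 2 * ((N c)⁻¹ ^ 2 * dv (c ^ 3)) := by
        have := dv_nonneg (c ^ 3)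
        positivity
      refine le_trans ?_ (mul_le_mul_of_nonneg_left a2 hV0)
      rw [mul_left_comm]
      refine le_trans ?_ (mul_le_mul_of_nonneg_left a1 a3)
      rw [Finset.mul_sum]
      refine Finset.sum_le_sum fun i hi => ?_
      rw [mul_left_comm]
      refine mul_le_mul_of_nonneg_left ?_ (fmdd2_w g i.1)
      rw [norm_mul, mul_pow, mul_assoc]
      refine mul_le_mul (pow_le_pow_left₀ (norm_nonneg _) (norm_lamG_le G0 c) 2) ?_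
        (by positivity) (by positivity)
      refine (pow_le_pow_left₀ (norm_nonneg _) ((hok i hi).norm_Rc_le i.1 i.2.2 hc.1) 2).trans ?_
      rw [mul_pow, mul_assoc]
      refine mul_le_mul_of_nonneg_left (sq_sum_le_card_mul_sum_sq.trans ?_) (by positivity)
      exact mul_le_mul_of_nonneg_right (card_marks_le (hok i hi).primes _ hc3)
        (Finset.sum_nonneg fun _ _ => by positivity))
  rw [fmdd2_eq]
  refine key.trans (le_of_eq ?_)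
  rw [hV]; ring

/-- Split `R` into `G0 < N r` (`DD_large`) and `N r ≤ G0`, where `‖Ds‖² ≤ 2‖Th‖² + 2‖Th - Ds‖²`
(`DD_theta`, `DD_rem`); `B' = max B₁ (B+2)`. -/
theorem DD_total : ∃ c : ℕ, ∀ (Q : Lev) (J0 B : ℕ) (δ : ℝ), 0 < δ → δ ≤ 1 / 8 →
    ∃ (C : ℝ) (B' : ℕ), 0 ≤ C ∧
    ∀ (E M X' : ℝ), 1 ≤ M → BndK Q J0 δ E M B X' → ∀ π : Par, π.OK Q J0 E →
    ∀ X0 D G0 : ℝ, π.SH δ E X' X0 D G0 → ∀ g : O, Prim g → N g ≤ G0 → ∀ R : Finset O,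
    (∀ r ∈ R, Prim r) →
      π.DD g (Kg E X0 D g) R (fun π' r k => ‖π'.Ds r k‖ ^ 2) ≤
        C * E ^ 10 * (G0 ^ c + M * N g ^ (-1 - δ / 4) * X0 ^ δ) * (1 + |π.t|) ^ B' * X0 := by
  obtain ⟨c, hc⟩ := DD_theta
  refine ⟨c, fun Q J0 B δ hδ hδ1 => ?_⟩
  obtain ⟨C1, B1, hC1, h1⟩ := hc Q δ hδ hδ1
  obtain ⟨C2, hC2, h2⟩ := DD_rem Q J0 B hδ hδ1
  obtain ⟨C3, hC3, h3⟩ := DD_large Q J0 B hδ hδ1
  refine ⟨2 * C1 + 2 * C2 + C3, B1 + (B + 2), by positivity,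
    fun E M X' hM hB π hπ X0 D G0 hS g hg hgG R hR => ?_⟩
  have hE := hπ.one_le_E
  have hX := hS.hX0
  have hG : 1 ≤ G0 := (Real.one_le_exp zero_le_one).trans hS.hG
  have hg0 := Real.rpow_nonneg (N_nonneg g) (-1 - δ / 4)
  have ht : 1 ≤ 1 + |π.t| := by linarith [abs_nonneg π.t]
  have a1 := h1 J0 E π hπ X' X0 D G0 hS g hg hgG (R.filter fun r => ¬ G0 < N r)
    (fun r hr => ⟨hR r (Finset.mem_filter.1 hr).1, not_lt.1 (Finset.mem_filter.1 hr).2⟩)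
  have a2 := h2 E M X' hM hB π hπ X0 D G0 hS g hg (R.filter fun r => ¬ G0 < N r)
    (fun r hr => hR r (Finset.mem_filter.1 hr).1)
  have a3 := h3 E M X' hM hB π hπ X0 D G0 hS g hg (R.filter fun r => G0 < N r)
    (fun r hr => ⟨hR r (Finset.mem_filter.1 hr).1, (Finset.mem_filter.1 hr).2⟩)
  have b1 : π.DD g (Kg E X0 D g) R (fun π' r k => ‖π'.Ds r k‖ ^ 2) =
      π.DD g (Kg E X0 D g) (R.filter fun r => G0 < N r) (fun π' r k => ‖π'.Ds r k‖ ^ 2) +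
      π.DD g (Kg E X0 D g) (R.filter fun r => ¬ G0 < N r) (fun π' r k => ‖π'.Ds r k‖ ^ 2) :=
    (Finset.sum_filter_add_sum_filter_not _ _ _).symm
  have b2 : π.DD g (Kg E X0 D g) (R.filter fun r => ¬ G0 < N r) (fun π' r k => ‖π'.Ds r k‖ ^ 2) ≤
      2 * π.DD g (Kg E X0 D g) (R.filter fun r => ¬ G0 < N r)
        (fun π' r k => ‖π'.Th Q r k G0‖ ^ 2) +
      2 * π.DD g (Kg E X0 D g) (R.filter fun r => ¬ G0 < N r)
        (fun π' r k => ‖π'.Th Q r k G0 - π'.Ds r k‖ ^ 2) := by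
    simp only [fmdd2_eq, Finset.mul_sum, ← Finset.sum_add_distrib]
    refine Finset.sum_le_sum fun i _ => ?_
    have hab : ∀ a b : ℂ, ‖b‖ ^ 2 ≤ 2 * ‖a‖ ^ 2 + 2 * ‖a - b‖ ^ 2 := fun a b => by
      have : ‖b‖ ≤ ‖a‖ + ‖a - b‖ := by simpa using norm_sub_le a (a - b)
      nlinarith [norm_nonneg b, sq_nonneg (‖a‖ - ‖a - b‖)]
    refine (mul_le_mul_of_nonneg_left (hab ((π.dil (g * i.1) i.2.1).Th Q i.1 i.2.2 G0) _)
      (fmdd2_w g i.1)).trans (le_of_eq ?_)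
    ring
  obtain ⟨U, hU⟩ : ∃ U, U = E ^ 10 * (G0 ^ c + M * N g ^ (-1 - δ / 4) * X0 ^ δ) *
    (1 + |π.t|) ^ (B1 + (B + 2)) * X0 := ⟨_, rfl⟩
  have p1 : 0 ≤ M * N g ^ (-1 - δ / 4) * X0 ^ δ := by positivity
  have p2 : 0 ≤ G0 ^ c := by positivity
  have c1 : G0 ^ c * E ^ 5 * (1 + |π.t|) ^ B1 * X0 ≤ U := by
    rw [hU, mul_comm (G0 ^ c)]
    gcongr <;> first | omega | linarith
  have c2 : E ^ 10 * (M * N g ^ (-1 - δ / 4) * X0 ^ δ) * (1 + |π.t|) ^ (B + 2) * X0 ≤ U := by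
    have : (1 + |π.t|) ^ (B + 2) ≤ (1 + |π.t|) ^ (B1 + (B + 2)) := pow_le_pow_right₀ ht (by omega)
    rw [hU]
    gcongr ?_ * ?_ * ?_ * ?_ <;> linarith
  have d1 := mul_le_mul_of_nonneg_left c1 hC1
  have d2 := mul_le_mul_of_nonneg_left c2 hC2
  have d3 := mul_le_mul_of_nonneg_left c2 hC3
  have e : (2 * C1 + 2 * C2 + C3) * E ^ 10 * (G0 ^ c + M * N g ^ (-1 - δ / 4) * X0 ^ δ) *
    (1 + |π.t|) ^ (B1 + (B + 2)) * X0 = 2 * (C1 * U) + 2 * (C2 * U) + C3 * U := by rw [hU]; ring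
  rw [e]
  linarith

end Crest.Agent.R17.FM
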