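import Crest.Agent.R17.ThetaNorm
import Crest.Agent.R17.Back
import Crest.Agent.R17.Block

/-!
# R17 / FMoment : definitions (sub-lead helper34).  Definitions only, namespace `Crest.Agent.R17.FM`.

A *standard sequence* is `π.al n = 1_{n primary, (n,H)=1} μ(n) ν(n) N(n)^{-1/2-it} W(n)` with the marked
weight `W(n) = ∑_{I ⊆ S, |I| = J, ∏I ∣ n} (∏_{p ∈ I} b p) gw(log N n - y - log N ∏I)`;
`π.F d = ∑' n, π.al n χ_n(d)` is the marked Möbius block `Mk` (file `Link`).  `π.L = P2^J`,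
`π.len = e^y P2^J` (total length), `π.low = e^y P1^J`.

**Claim** `Bnd M B X`: `len ≤ X`, `len · L ≤ D`, `L⁶ ≤ D` ⇒ `Mo π.al D ≤ M (1+|t|)^B D len^δ`.
The factor `len^δ` makes all sums over dilations converge.  `E` bounds `P2`, `(P2/P1)^J0`, `X^δ`.
`step`: `Bnd M B (X/G) → Bnd (C E^c (G^c + M)) B' X`.

Order of files: Defs, Abs, SupA, W, Al, Triv, Link, H, K, Sup, Large, Cube1, Cube2, Theta, Twist,
BackI, BackS, DD1, DD2, Small, Step, Ind, F1, F5, `FMoment`.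
-/

set_option autoImplicit false

noncomputable section

open scoped Classical ComplexConjugate

namespace Crest.Agent.R17.FM

/-- product of a set of marks -/
abbrev pr (I : Finset O) : O := ∏ p ∈ I, p

/-- number of primary divisors -/
def dv (n : O) : ℝ := ((pdiv n).card : ℝ)

/-- the marked weight -/
def W (S : Finset O) (J : ℕ) (b : O → ℂ) (y : ℝ) (n : O) : ℂ :=
  ∑ I ∈ (S.powersetCard J).filter (fun I => pr I ∣ n),
    (∏ p ∈ I, b p) * (gw (Real.log (N n) - (y + Real.log (N (pr I)))) : ℂ)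

/-- sets of at most `J` marks dividing `G` -/
def marks (S : Finset O) (J : ℕ) (G : O) : Finset (Finset O) :=
  ((S.filter (fun p => p ∣ G)).powerset).filter (fun I => I.card ≤ J)

/-- parameters of a standard sequence -/
structure Par where
  ν : O → ℂ
  S : Finset O
  J : ℕ
  b : O → ℂ
  H : O
  y : ℝ
  t : ℝ
  P1 : ℝ
  P2 : ℝ

/-- the Hecke character `m ↦ sg m (c³)` of level `Q` (for odd `c`) -/
def sgc (Q : Lev) (c : O) : O → ℂ :=
  if h : IsCoprime (c ^ 3) 2 then (exists_hchar_sg Q h).choose else one0 Q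

/-- coefficient in the cube removal -/
def lamG (G : ℝ) (c : O) : ℂ := ∑ e ∈ (pdiv c).filter (fun e => N e ≤ G), mu e

/-- the second moment with the row weight `Om` -/
def Mo (α : O → ℂ) (D : ℝ) : ℝ := ∑' d : O, Om (N d / D) * ‖∑' n, α n * chi n d‖ ^ 2

namespace Par

/-- admissible parameters -/
structure OK (π : Par) (Q : Lev) (J0 : ℕ) (E : ℝ) : Prop where
  hν : π.ν ∈ hchars Q.q
  hS : IsSlot Q π.S π.P1 π.P2
  hJ : π.J ≤ J0
  hb : ∀ p ∈ π.S, ‖π.b p‖ ≤ 1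
  hH : Prim π.H
  hSH : ∀ p ∈ π.S, ¬ p ∣ π.H
  h1 : 1 ≤ π.P1
  h12 : π.P1 ≤ π.P2
  h2 : π.P2 ≤ E
  hE : (π.P2 / π.P1) ^ J0 ≤ E

variable (π : Par)

/-- the standard sequence -/
def al (n : O) : ℂ :=
  if Prim n ∧ IsCoprime n π.H then
    mu n * π.ν n * (N n : ℂ) ^ (-(1 / 2 + π.t * Complex.I)) * W π.S π.J π.b π.y n else 0

/-- the marked Möbius block on the row `d` -/
def F (d : O) : ℂ := ∑' n, π.al n * chi n d

/-- the dual sum -/
def Ds (r k : O) : ℂ := ∑' m, π.al m * chi m (r ^ 2) * gt m * conj (chi m k)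

def L : ℝ := π.P2 ^ π.J
def len : ℝ := Real.exp π.y * π.P2 ^ π.J
def low : ℝ := Real.exp π.y * π.P1 ^ π.J

/-- change the number of marks and the length -/
def set (j : ℕ) (y : ℝ) : Par := { π with J := j, y := y }
/-- exclude the primes of `r` -/
def excl (r : O) : Par := { π with S := π.S.filter (fun p => ¬ p ∣ r), H := π.H * r }
/-- dilation of the weight by `G`, the marks `I` dividing `G` -/
def cut (G : O) (I : Finset O) : Par :=
  { π with S := π.S.filter (fun p => ¬ p ∣ G), J := π.J - I.card,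
           y := π.y - Real.log (N G) + Real.log (N (pr I)) }
/-- dilation of the sequence by `G` -/
def dil (G : O) (I : Finset O) : Par := { π.cut G I with H := π.H * G }
/-- twist by a character -/
def tw (ν' : O → ℂ) : Par := { π with ν := fun n => π.ν n * ν' n }
/-- dilation by a cube on the theta side -/
def cube (Q : Lev) (c : O) (I : Finset O) : Par := (π.cut (c ^ 3) I).tw (sgc Q c)
/-- absorbing the weight `N(n)^{x+iτ}` -/
def shift (x τ : ℝ) : Par :=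
  { π with b := fun p => π.b p * (((N p / π.P1) ^ x : ℝ) : ℂ), y := π.y + x / 2, t := π.t - τ }
/-- moving `(y,t)` with fixed coefficients of the marks in the block form -/
def mv (y t : ℝ) : Par :=
  { π with b := fun p => π.b p * (N p : ℂ) ^ ((t - π.t : ℝ) * Complex.I), y := y, t := t }
/-- dropping the coprimality condition, length shortened by `f` -/
def drop (f : O) : Par := { π with H := 1, y := π.y - Real.log (N f) }

/-- coefficient of a dilation -/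
def cf (G : O) (I : Finset O) : ℂ :=
  if IsCoprime G π.H then
    mu G * π.ν G * (N G : ℂ) ^ (-(1 / 2 + π.t * Complex.I)) * ∏ p ∈ I, π.b p else 0

/-- value of the mark `p` on the row `d` -/
def xp (d p : O) : ℂ := -(π.b p * π.ν p * chi p d * (N p : ℂ) ^ (-(1 / 2 + π.t * Complex.I)))

/-- the sequence whose block is `π.F d` -/
def sq (d m : O) : ℂ :=
  ∑ I ∈ π.S.powersetCard π.J, (∏ p ∈ I, π.xp d p) *
    (if Prim m ∧ IsCoprime m (π.H * pr I) then mu m * π.ν m * chi m d else 0)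

/-- the periodic factor on the theta side -/
def ph (Q : Lev) (r n : O) : ℂ :=
  if P0 Q n ∧ IsCoprime n π.H then chi n (-1) * f1 n * π.ν n * chi n (r ^ 2) else 0

/-- the summand on the theta side -/
def Ath (Q : Lev) (r k n : O) : ℂ :=
  tt n * π.ph Q r n * conj (chi n k) * (N n : ℂ) ^ (-(1 / 2 + π.t * Complex.I)) *
    W π.S π.J π.b π.y n

def Tc (Q : Lev) (r k c : O) : ℂ := ∑' m, π.Ath Q r k (m * c ^ 3)
def Rc (Q : Lev) (r k c : O) : ℂ := ∑' m, if Squarefree m then π.Ath Q r k (m * c ^ 3) else 0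
/-- the theta-complete part of `Ds` -/
def Th (Q : Lev) (r k : O) (G : ℝ) : ℂ := ∑ c ∈ (ball G).filter Prim, mu c * π.Tc Q r k c

/-- marks as elements -/
def Ls : Finset O := (π.S.powersetCard π.J).image pr
def aL (l : O) : ℂ := ∏ p ∈ π.S.filter (fun p => p ∣ l), π.b p
/-- the theta sum attached to `c` and the marks `I` dividing `c` -/
def Fc (Q : Lev) (r k c : O) (I : Finset O) : ℂ :=
  Fth (fun m => π.ph Q r (m * c ^ 3)) (π.cut (c ^ 3) I).Ls (π.cut (c ^ 3) I).aL k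
    (π.cut (c ^ 3) I).y π.t

/-- weighted sum over `r`, the marks dividing `g r` and the dual rows of a quantity `Φ` -/
def DD (g : O) (K : ℝ) (R : Finset O) (Φ : Par → O → O → ℝ) : ℝ :=
  ∑ r ∈ R, (N r)⁻¹ * dv (g * r) * ∑ I ∈ marks π.S π.J (g * r), ∑ k ∈ ball K,
    Φ (π.dil (g * r) I) r k

/-- hypotheses of the backward step for a weighted family `(r i, j i, y i)` -/
structure BH (δ E X' : ℝ) {ι : Type} (T : Finset ι) (r : ι → O) (j : ι → ℕ) (y ω : ι → ℝ)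
    (D κ X1 X2 Λ m0 : ℝ) : Prop where
  hκ : 1 ≤ κ
  hX1 : 0 < X1
  hX2 : 0 < X2
  hΛ : 1 ≤ Λ
  hm : 0 ≤ m0
  hE1 : X1 ^ δ ≤ E
  hE2 : D ^ δ ≤ E ^ 2
  h1 : Real.exp 1 * X2 ≤ X'
  h2 : Real.exp 1 * X2 * π.L ≤ D
  h3 : κ * X1 ≤ D
  h4 : π.L ^ 6 ≤ D
  hr : ∀ i ∈ T, Prim (r i)
  hj : ∀ i ∈ T, j i ≤ π.J
  hω : ∀ i ∈ T, 0 ≤ ω i
  up1 : ∀ i ∈ T, (π.set (j i) (y i)).len ≤ X1 / N (r i)
  up2 : ∀ i ∈ T, (π.set (j i) (y i)).len ≤ X2
  lo : ∀ i ∈ T, X1 / (Λ * N (r i)) ≤ (π.set (j i) (y i)).low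
  fib : ∀ s : O, ∑ i ∈ T.filter (fun i => r i = s), ω i ≤ m0 * N s ^ (-1 + δ / 2)

/-- the setting of the induction step (`π` is the sequence after the first shift, `X0` the original
length) -/
structure SH (δ E X' X0 D G0 : ℝ) : Prop where
  hH : π.H = 1
  up : π.len ≤ X0
  lo : X0 ≤ 2 * E * π.low
  hX0 : 1 ≤ X0
  hE1 : X0 ^ δ ≤ E
  hD : D ≤ X0 ^ 2
  h2 : X0 * π.L ≤ D
  h4 : π.L ^ 6 ≤ D
  hG : Real.exp 1 ≤ G0
  h1 : Real.exp 1 * X0 ≤ G0 * X'

end Par

/-- length of the dual sum after the first Poisson step -/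
def Kg (E X0 D : ℝ) (g : O) : ℝ := X0 ^ 2 * E / (N g ^ 2 * D)

/-- the induction claim -/
def Bnd (Q : Lev) (J0 : ℕ) (δ E M : ℝ) (B : ℕ) (X : ℝ) : Prop :=
  ∀ π : Par, π.OK Q J0 E → π.H = 1 → ∀ D : ℝ, π.len ≤ X → π.len * π.L ≤ D → π.L ^ 6 ≤ D →
    Mo π.al D ≤ M * (1 + |π.t|) ^ B * D * π.len ^ δ

/-- the claim with a coprimality condition -/
def BndH (Q : Lev) (J0 : ℕ) (δ E M : ℝ) (B : ℕ) (X : ℝ) : Prop :=
  ∀ π : Par, π.OK Q J0 E → ∀ D : ℝ, π.len ≤ X → π.len * π.L ≤ D → π.L ^ 6 ≤ D →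
    Mo π.al D ≤ M * N π.H ^ (δ / 2) * (1 + |π.t|) ^ B * D * π.len ^ δ

/-- the claim for the shorter range of rows `D/κ²` -/
def BndK (Q : Lev) (J0 : ℕ) (δ E M : ℝ) (B : ℕ) (X : ℝ) : Prop :=
  ∀ π : Par, π.OK Q J0 E → ∀ D κ : ℝ, 1 ≤ κ → κ ^ 2 ≤ D → π.len ≤ X → π.len * π.L ≤ D →
    κ * π.len ≤ 3 * D → π.L ^ 6 ≤ D →
    κ * Mo π.al (D / κ ^ 2) ≤ M * N π.H ^ (δ / 2) * (1 + |π.t|) ^ B * D * π.len ^ δ

end Crest.Agent.R17.FM
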