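import Crest.Agent.R17.FMoment_Link

/-!
# R17 / FMoment / H : removing a coprimality condition

Definitions in `FMoment_Defs.lean`.  Prefix helper lemmas with `fmh_`.
-/

set_option autoImplicit false

noncomputable section

open scoped Classical ComplexConjugate
open MeasureTheory

namespace Crest.Agent.R17.FM

variable {π : Par} {Q : Lev} {J0 : ℕ} {E : ℝ}

theorem fmh_norm_le (h : π.OK Q J0 E) {n : O} (hn : Prim n) (d : O) :
    ‖π.ν n * chi n d * (N n : ℂ) ^ (-(1 / 2 + π.t * Complex.I))‖ ≤ N n ^ (-(1 / 2 : ℝ)) := by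
  have hN := N_pos hn.ne_zero
  by_cases h0 : π.ν n = 0
  · rw [h0, zero_mul, zero_mul, norm_zero]
    exact Real.rpow_nonneg hN.le _
  have hc : IsCoprime n Q.q := by
    by_contra hc
    exact h0 ((((mem_hchars Q.ne).1 h.hν).1.zero_iff n).2 hc)
  have h6 : IsCoprime n 6 := P0.isCoprime_six ⟨hn, hc⟩
  have h1 : ‖chi n d‖ ≤ 1 := norm_sym_le (k := 6) (by norm_num) (by exact_mod_cast h6) d
  have h2 := norm_hchar_le Q h.hν n
  have h3 : (-(1 / 2 + π.t * Complex.I) : ℂ).re = -(1 / 2 : ℝ) := by simp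
  rw [norm_mul, norm_mul, Complex.norm_cpow_eq_rpow_re_of_pos hN, h3]
  exact mul_le_of_le_one_left (Real.rpow_nonneg hN.le _) (mul_le_one₀ h2 (norm_nonneg _) h1)

theorem fmh_W (h : π.OK Q J0 E) {f m : O} (hf : f ≠ 0) (hm : m ≠ 0) (hs : ∃ j : ℕ, f ∣ π.H ^ j) :
    W π.S π.J π.b π.y (f * m) = W π.S π.J π.b (π.y - Real.log (N f)) m := by
  obtain ⟨j, hj⟩ := hs
  have hnd : ∀ p ∈ π.S, ¬ p ∣ f := fun p hp hpf =>
    h.hSH p hp ((h.primes p hp).1.dvd_of_dvd_pow (hpf.trans hj))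
  have h1 : marks π.S π.J f = {∅} := by
    unfold marks
    rw [Finset.filter_false_of_mem hnd, Finset.powerset_empty, Finset.filter_singleton]
    simp
  have h2 : π.S.filter (fun p => ¬ p ∣ f) = π.S := Finset.filter_true_of_mem hnd
  rw [W_cut h.primes π.J π.b π.y hf hm, h1, h2]
  simp

theorem fmh_len (π : Par) {f : O} (hf : f ≠ 0) : (π.drop f).len = π.len / N f := by
  simp only [Par.len, Par.drop, Real.exp_sub, Real.exp_log (N_pos hf)]
  ring

/-- the family summed in `F_expand` -/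
def fmhG (π : Par) (d : O) (x : O × O) : ℂ :=
  if Prim x.1 ∧ x.2 ∈ (pdiv x.1).filter (fun f => ∃ j : ℕ, f ∣ π.H ^ j) then
    mu (x.1 / x.2) * (π.ν x.1 * chi x.1 d * (N x.1 : ℂ) ^ (-(1 / 2 + π.t * Complex.I)) *
      W π.S π.J π.b π.y x.1) else 0

theorem fmh_summable (h : π.OK Q J0 E) (d : O) : Summable (fmhG π d) := by
  obtain ⟨C, -, hC⟩ := mom_gw J0 (x := 1 / 2) (by norm_num)
  have hz : ∀ n, ∀ f ∉ pdiv n, ‖fmhG π d (n, f)‖ = 0 := fun n f hf => by
    unfold fmhG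
    rw [if_neg fun hh => hf (Finset.mem_filter.1 hh.2).1, norm_zero]
  refine Summable.of_norm ((summable_prod_of_nonneg fun _ => norm_nonneg _).2
    ⟨fun n => summable_of_ne_finset_zero (hz n), ?_⟩)
  refine Summable.of_nonneg_of_le (fun n => tsum_nonneg fun _ => norm_nonneg _) (fun n => ?_)
    (hC Q E π h).1
  rw [tsum_eq_sum (hz n)]
  by_cases hn : Prim n
  · have hN := N_pos hn.ne_zero
    rw [if_neg hn.ne_zero]
    set Z := ∑ I ∈ (π.S.powersetCard π.J).filter (fun I => pr I ∣ n),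
      gw (Real.log (N n) - (π.y + Real.log (N (pr I)))) with hZ
    have hZ0 : 0 ≤ Z := Finset.sum_nonneg fun _ _ => (gw_pos _).le
    have hp : 0 ≤ N n ^ (-(1 / 2 : ℝ)) := Real.rpow_nonneg hN.le _
    have h1 : ∀ f ∈ pdiv n, ‖fmhG π d (n, f)‖ ≤ N n ^ (-(1 / 2 : ℝ)) * Z := fun f _ => by
      unfold fmhG
      split_ifs
      · rw [norm_mul, norm_mul]
        refine (mul_le_of_le_one_left (by positivity) (norm_mu_le _)).trans ?_
        exact mul_le_mul (fmh_norm_le h hn d) (norm_W_le h.hb _ _ _) (norm_nonneg _) hp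
      · rw [norm_zero]; positivity
    refine (Finset.sum_le_card_nsmul _ _ _ h1).trans ?_
    rw [nsmul_eq_mul, ← mul_assoc]
    refine mul_le_mul_of_nonneg_right ?_ hZ0
    calc ((pdiv n).card : ℝ) * N n ^ (-(1 / 2 : ℝ)) ≤ N n ^ (1 : ℝ) * N n ^ (-(1 / 2 : ℝ)) := by
          rw [Real.rpow_one]
          exact mul_le_mul_of_nonneg_right (card_pdiv_le_N hn.ne_zero) hp
      _ = N n ^ (1 / 2 : ℝ) := by rw [← Real.rpow_add hN]; norm_num
  · have h1 : ∀ f ∈ pdiv n, ‖fmhG π d (n, f)‖ = 0 := fun f _ => by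
      unfold fmhG
      rw [if_neg fun hh => hn hh.1, norm_zero]
    rw [Finset.sum_eq_zero h1]
    split_ifs
    · exact le_rfl
    · exact mul_nonneg (Real.rpow_nonneg (N_nonneg n) _)
        (Finset.sum_nonneg fun _ _ => (gw_pos _).le)

theorem fmh_row (h : π.OK Q J0 E) (d n : O) :
    HasSum (fun f => fmhG π d (n, f)) (π.al n * chi n d) := by
  by_cases hn : Prim n
  · have h1 := hasSum_sum_of_ne_finset_zero (L := SummationFilter.unconditional O)
      (s := (pdiv n).filter (fun f => ∃ j : ℕ, f ∣ π.H ^ j)) (f := fun f => fmhG π d (n, f))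
      (fun f hf => by unfold fmhG; rw [if_neg fun hh => hf hh.2])
    convert h1 using 1
    rw [Finset.sum_congr rfl (g := fun f => mu (n / f) * (π.ν n * chi n d *
      (N n : ℂ) ^ (-(1 / 2 + π.t * Complex.I)) * W π.S π.J π.b π.y n))
      (fun f hf => by unfold fmhG; rw [if_pos ⟨hn, hf⟩]), ← Finset.sum_mul,
      ← mu_coprime_expand hn h.hH.ne_zero]
    unfold Par.al
    by_cases hc : IsCoprime n π.H
    · rw [if_pos ⟨hn, hc⟩, if_pos hc]; ring
    · rw [if_neg fun hh => hc hh.2, if_neg hc, zero_mul, zero_mul]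
  · have h1 : (fun f => fmhG π d (n, f)) = fun _ => 0 := by
      funext f
      unfold fmhG
      rw [if_neg fun hh => hn hh.1]
    have h2 : π.al n = 0 := by
      unfold Par.al
      rw [if_neg fun hh => hn hh.1]
    rw [h1, h2, zero_mul]
    exact hasSum_zero

theorem fmh_col (h : π.OK Q J0 E) (d f : O) :
    ∑' n, fmhG π d (n, f) = if Prim f ∧ (∃ j : ℕ, f ∣ π.H ^ j) then
      π.ν f * chi f d * (N f : ℂ) ^ (-(1 / 2 + π.t * Complex.I)) * (π.drop f).F d else 0 := by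
  split_ifs with hf
  · have h1 : ∀ n, fmhG π d (n, f) = if Prim n ∧ f ∣ n then mu (n / f) * (π.ν n * chi n d *
        (N n : ℂ) ^ (-(1 / 2 + π.t * Complex.I)) * W π.S π.J π.b π.y n) else 0 := fun n => by
      unfold fmhG
      refine if_congr (and_congr_right fun hn => ?_) rfl rfl
      rw [Finset.mem_filter, mem_pdiv hn.ne_zero]
      exact ⟨fun hh => hh.1.2, fun hh => ⟨⟨hf.1, hh⟩, hf.2⟩⟩
    rw [tsum_congr h1, tsum_prim_dvd hf.1, Par.F, ← tsum_mul_left]
    refine tsum_congr fun m => ?_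
    unfold Par.al
    by_cases hm : Prim m
    · have hf0 := hf.1.ne_zero
      have hm0 := hm.ne_zero
      rw [if_pos hm, if_pos ⟨hm, isCoprime_one_right⟩, mul_div_cancel_left₀ m hf0,
        ((mem_hchars Q.ne).1 h.hν).1.mul, fmh_W h hf0 hm0 hf.2, N_mul, Complex.ofReal_mul,
        Complex.mul_cpow_ofReal_nonneg (N_nonneg f) (N_nonneg m)]
      have h2 : chi (f * m) d = chi f d * chi m d := sym_mul_left 6 hf0 hm0 d
      rw [h2]
      simp only [Par.drop]
      ring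
    · rw [if_neg hm, if_neg fun hh => hm hh.1, zero_mul, mul_zero]
  · have h1 : ∀ n, fmhG π d (n, f) = 0 := fun n => by
      unfold fmhG
      refine if_neg fun hh => hf ?_
      have h2 := Finset.mem_filter.1 hh.2
      exact ⟨((mem_pdiv hh.1.ne_zero).1 h2.1).1, h2.2⟩
    simp [h1]

/-- `mu_coprime_expand`: for primary `n`,
`al π n χ_n(d) = ∑_{f ∣ n, f ∣ H^∞} ν(f) χ_f(d) N f^{-s} · al (π.drop f) (n/f) χ_{n/f}(d)`
(`W_cut` with `G = f`: no mark divides `f`, so `marks = {∅}` and the filter is all of `S`; if `ν f ≠ 0`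
or not, `χ` and `ν` are multiplicative in `n`).  The family
`(f, m) ↦ 1_{f primary, f ∣ H^∞} ν χ N f^{-s} al (π.drop f) m χ_m(d)` is summable on `O × O` (partial sums
are at most `∑_n dv n · N n^{-1/2} ‖W n‖`, or use `mom_al` with `j = 0` for `π.drop f`, whose length is
`len / N f`, so the `f`-th term is `≤ C √len / N f`, and `sum_smooth_le`); sum it along the fibres of
`(f,m) ↦ f m` and along the fibres of `fst` (`HasSum.sigma`, `HasSum.prod_fiberwise`). -/
theorem Par.OK.F_expand (h : π.OK Q J0 E) (d : O) :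
    HasSum (fun f : O => if Prim f ∧ (∃ j : ℕ, f ∣ π.H ^ j) then
      π.ν f * chi f d * (N f : ℂ) ^ (-(1 / 2 + π.t * Complex.I)) * (π.drop f).F d else 0)
      (π.F d) := by
  have hs := fmh_summable h d
  have h1 : π.F d = ∑' x, fmhG π d x := (hs.hasSum.prod_fiberwise (fmh_row h d)).tsum_eq
  have h2 : HasSum (fun x : O × O => fmhG π d x.swap) (∑' x, fmhG π d x) :=
    (Equiv.prodComm O O).hasSum_iff.2 hs.hasSum
  rw [h1]
  refine h2.prod_fiberwise fun f => ?_
  rw [← fmh_col h d f]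
  exact (h2.summable.prod_factor f).hasSum

/-- `Mo_le_of_sum_le`, `minkowski` with `e f = N f^{-1/2}` on primary `f ∣ H^∞` (if `ν f ≠ 0` then `f` is
coprime to `6` and `‖χ_f(d)‖ ≤ 1`), `sum_smooth_le` with `σ = 1/2`, `ε = δ/4`; the hypotheses of `Bnd`
hold for `π.drop f` because its length is `len / N f ≤ len`; `sum_le_Mo`. -/
theorem toH {δ : ℝ} (hδ : 0 < δ) : ∃ C, 1 ≤ C ∧ ∀ (Q : Lev) (J0 : ℕ) (E M : ℝ) (B : ℕ) (X : ℝ),
    0 ≤ M → Bnd Q J0 δ E M B X → BndH Q J0 δ E (C * M) B X := by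
  obtain ⟨C0, hC0⟩ := sum_smooth_le (σ := 1 / 2) (ε := δ / 4) (by norm_num) (by positivity)
  refine ⟨1 + C0 ^ 2, by nlinarith [sq_nonneg C0], fun Q J0 E M B X hM hB π h D h1 h2 h3 => ?_⟩
  have hL := h.one_le_L
  have hD : 0 < D := lt_of_lt_of_le (by positivity) h3
  have hlen := h.len_pos
  have hH := N_pos h.hH.ne_zero
  obtain ⟨𝓔, h𝓔⟩ : ∃ 𝓔, 𝓔 = M * (1 + |π.t|) ^ B * D * π.len ^ δ := ⟨_, rfl⟩
  have h𝓔0 : 0 ≤ 𝓔 := by rw [h𝓔]; positivity
  have hOm : ∀ d : O, 0 ≤ Om (N d / D) := fun d => (Real.exp_pos _).le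
  refine (Mo_le_of_sum_le (B := 𝓔 * (C0 * N π.H ^ (δ / 4)) ^ 2) fun T => ?_).trans ?_
  · refine minkowski T (fun d _ => hOm d) (fun d _ => h.F_expand d)
      (e := fun f => if Prim f ∧ (∃ j : ℕ, f ∣ π.H ^ j) then N f ^ (-(1 / 2 : ℝ)) else 0)
      (fun f => ?_) h𝓔0 (fun P => ?_) (fun f => ?_)
    · split_ifs
      · exact Real.rpow_nonneg (N_nonneg f) _
      · exact le_rfl
    · rw [← Finset.sum_filter]
      exact hC0 π.H h.hH.ne_zero _ fun f hf => (Finset.mem_filter.1 hf).2.2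
    · by_cases hf : Prim f ∧ (∃ j : ℕ, f ∣ π.H ^ j)
      · simp only [if_pos hf]
        have hf0 := hf.1.ne_zero
        have h' := h.drop f
        have hl : (π.drop f).len ≤ π.len := by
          rw [fmh_len π hf0]
          exact div_le_self hlen.le (one_le_N hf0)
        have hL' : (π.drop f).L = π.L := rfl
        have h4 := hB (π.drop f) h' rfl D (hl.trans h1)
          (le_trans (by rw [hL']; gcongr) h2) (by rw [hL']; exact h3)
        have h5 : Mo (π.drop f).al D ≤ 𝓔 := by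
          refine h4.trans ?_
          have := h'.len_pos
          rw [h𝓔, show (π.drop f).t = π.t from rfl]
          gcongr
        have h6 := (sum_le_Mo h'.rapid h'.supp6 hD T).trans h5
        calc ∑ d ∈ T, Om (N d / D) * ‖π.ν f * chi f d *
              (N f : ℂ) ^ (-(1 / 2 + π.t * Complex.I)) * (π.drop f).F d‖ ^ 2
            ≤ ∑ d ∈ T, Om (N d / D) * ‖(π.drop f).F d‖ ^ 2 * (N f ^ (-(1 / 2 : ℝ))) ^ 2 := by
              refine Finset.sum_le_sum fun d _ => ?_
              rw [norm_mul, mul_pow, mul_comm (_ ^ 2), ← mul_assoc]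
              have := hOm d
              have := fmh_norm_le h hf.1 d
              gcongr
          _ ≤ 𝓔 * (N f ^ (-(1 / 2 : ℝ))) ^ 2 := by
              rw [← Finset.sum_mul]
              exact mul_le_mul_of_nonneg_right h6 (sq_nonneg _)
      · simp [if_neg hf]
  · have h4 : (N π.H ^ (δ / 4)) ^ 2 = N π.H ^ (δ / 2) := by
      rw [← Real.rpow_natCast, ← Real.rpow_mul hH.le]
      congr 1
      push_cast
      ring
    have h5 : 0 ≤ 𝓔 * N π.H ^ (δ / 2) := mul_nonneg h𝓔0 (Real.rpow_nonneg hH.le _)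
    calc 𝓔 * (C0 * N π.H ^ (δ / 4)) ^ 2 = C0 ^ 2 * (𝓔 * N π.H ^ (δ / 2)) := by
          rw [mul_pow, h4]; ring
      _ ≤ (1 + C0 ^ 2) * (𝓔 * N π.H ^ (δ / 2)) := by gcongr; linarith
      _ = _ := by rw [h𝓔]; ring

end Crest.Agent.R17.FM
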