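import Crest.Agent.R17.FMoment_Link

/-!
# R17 / FMoment / K : pulling marks out

Definitions in `FMoment_Defs.lean`.  Prefix helper lemmas with `fmk_`.
-/

set_option autoImplicit false

noncomputable section

open scoped Classical ComplexConjugate
open MeasureTheory

namespace Crest.Agent.R17.FM

variable {π : Par} {Q : Lev} {J0 : ℕ} {E : ℝ}

theorem fmk_W {S I : Finset O} (hS : ∀ p ∈ S, Prime p ∧ Prim p) (hI : I ⊆ S) (j : ℕ) (b : O → ℂ)
    (y : ℝ) {m : O} (hm : m ≠ 0) :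
    W (S \ I) j b (y + Real.log (N (pr I))) (pr I * m) = W (S \ I) j b y m := by
  have hG : pr I ≠ 0 := (pr_prim hS hI).ne_zero
  unfold W
  refine Finset.sum_congr (Finset.filter_congr fun K hK => ?_) fun K _ => ?_
  · have hK' : K ⊆ S \ I := (Finset.mem_powersetCard.1 hK).1
    have hKS : K ⊆ S := hK'.trans Finset.sdiff_subset
    rw [pr_dvd_iff hS hKS, pr_dvd_iff hS hKS]
    refine forall₂_congr fun p hp => ?_
    rw [(hS p (hKS hp)).1.dvd_mul, dvd_pr_iff hS hI (hKS hp)]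
    exact or_iff_right (Finset.mem_sdiff.1 (hK' hp)).2
  · rw [N_mul, Real.log_mul (N_pos hG).ne' (N_pos hm).ne']
    congr 3
    ring

theorem fmk_cpow_prod (I : Finset O) (s : ℂ) :
    (N (pr I) : ℂ) ^ s = ∏ p ∈ I, (N p : ℂ) ^ s := by
  induction I using Finset.induction_on with
  | empty => simp
  | insert q I hq ih =>
    rw [Finset.prod_insert hq, ← ih, pr, Finset.prod_insert hq, N_mul, Complex.ofReal_mul,
      Complex.mul_cpow_ofReal_nonneg (N_nonneg _) (N_nonneg _)]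

theorem fmk_char_prod {q : O} {ν : O → ℂ} (hν : IsChar q ν) (I : Finset O) :
    ν (pr I) = ∏ p ∈ I, ν p := by
  induction I using Finset.induction_on with
  | empty => simpa using hν.one
  | insert q I hq ih => rw [Finset.prod_insert hq, ← ih, pr, Finset.prod_insert hq, hν.mul]

/-- the summand after pulling the marks `I` -/
def fmkG (π : Par) (I : Finset O) (d n : O) : ℂ :=
  (if Prim n ∧ IsCoprime n π.H then
    mu n * π.ν n * (N n : ℂ) ^ (-(1 / 2 + π.t * Complex.I)) *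
      ((∏ p ∈ I, π.b p) * W (π.S \ I) (π.J - I.card) π.b (π.y + Real.log (N (pr I))) n)
  else 0) * chi n d

theorem fmk_term (h : π.OK Q J0 E) {I : Finset O} (hI : I ⊆ π.S) (d m : O) :
    fmkG π I d (pr I * m) = (∏ p ∈ I, π.xp d p) * ((π.dil (pr I) I).al m * chi m d) := by
  have hS := h.primes
  have hG : Prim (pr I) := pr_prim hS hI
  have hGH : IsCoprime (pr I) π.H := pr_isCoprime hS hI fun p hp => h.hSH p (hI hp)
  have hν : IsChar Q.q π.ν := ((mem_hchars Q.ne).1 h.hν).1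
  have e1 : (π.dil (pr I) I).al m = if Prim m ∧ IsCoprime m (π.H * pr I) then
      mu m * π.ν m * (N m : ℂ) ^ (-(1 / 2 + π.t * Complex.I)) *
        W (π.S \ I) (π.J - I.card) π.b π.y m else 0 := by
    rw [← filter_not_dvd_pr hS hI]
    simp only [Par.al, Par.dil, Par.cut, sub_add_cancel]
  rw [e1, fmkG]
  by_cases hm : Prim m ∧ IsCoprime m π.H
  · have hm0 := hm.1.ne_zero
    rw [if_pos ⟨hG.mul hm.1, hGH.mul_left hm.2⟩]
    by_cases hc : IsCoprime (pr I) m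
    · rw [if_pos ⟨hm.1, hm.2.mul_right hc.symm⟩, fmk_W hS hI _ _ _ hm0, mu_mul hc, hν.mul, N_mul,
        Complex.ofReal_mul, Complex.mul_cpow_ofReal_nonneg (N_nonneg _) (N_nonneg _),
        fmk_cpow_prod, fmk_char_prod hν, mu_prod_primes fun p hp => hS p (hI hp)]
      have e2 : chi (pr I * m) d = (∏ p ∈ I, chi p d) * chi m d := by
        unfold chi
        rw [sym_mul_left 6 hG.ne_zero hm0,
          sym_prod_left 6 (fun p hp => (hS p (hI hp)).1.ne_zero)]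
      rw [e2]
      simp only [Par.xp, Finset.prod_neg, Finset.prod_mul_distrib]
      ring
    · rw [if_neg fun h' => hc h'.2.of_mul_right_right.symm,
        mu_eq_zero fun hs => hc (squarefree_mul_iff.1 hs).1.isCoprime]
      simp
  · rw [if_neg fun h' => hm ⟨h'.1.of_mul_left hG, h'.2.of_mul_left_right⟩,
      if_neg fun h' => hm ⟨h'.1, h'.2.of_mul_right_left⟩]
    simp

theorem fmk_summable (h : π.OK Q J0 E) (d : O) : Summable fun m => π.al m * chi m d := by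
  refine h.summable_mul fun m hm _ => norm_sym_le (k := 6) (by norm_num) ?_ d
  refine IsCoprime.of_isCoprime_of_dvd_right hm.2 (Dvd.dvd.trans ⟨12, by norm_num⟩ Q.dvd)

/-- `W_pull`, exchange of the finite sum with the series, `n = (∏ I) m` (`tsum_dvd`); then `W_cut` for
`S \ I` (no mark divides `∏ I`) or directly the definition of `W`; `filter_not_dvd_pr`,
`mu_prod_primes`.  Note `(π.dil (pr I) I).y = y - log N + log N`. -/
theorem Par.OK.F_pull (h : π.OK Q J0 E) {i : ℕ} (hi : i ≤ π.J) (d : O) :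
    (π.J.choose i : ℂ) * π.F d =
      ∑ I ∈ π.S.powersetCard i, (∏ p ∈ I, π.xp d p) * (π.dil (pr I) I).F d := by
  have hS := h.primes
  have h1 : ∀ I ∈ π.S.powersetCard i, HasSum (fun n => if pr I ∣ n then fmkG π I d n else 0)
      ((∏ p ∈ I, π.xp d p) * (π.dil (pr I) I).F d) := by
    intro I hI
    have hIS := (Finset.mem_powersetCard.1 hI).1
    have hG : Prim (pr I) := pr_prim hS hIS
    rw [← (mul_right_injective₀ hG.ne_zero).hasSum_iff fun n hn => if_neg fun ⟨m, hm⟩ =>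
      hn ⟨m, hm.symm⟩]
    have h2 := ((fmk_summable (h.dil hG I) d).hasSum).mul_left (∏ p ∈ I, π.xp d p)
    refine h2.congr_fun fun m => ?_
    simp only [Function.comp_apply]
    rw [if_pos (dvd_mul_right _ _), fmk_term h hIS]
  rw [← (hasSum_sum h1).tsum_eq, Par.F, ← tsum_mul_left]
  refine tsum_congr fun n => ?_
  rw [← Finset.sum_filter]
  unfold fmkG Par.al
  split_ifs with hn
  · have h3 := W_pull hS hi π.b π.y n
    rw [← Finset.sum_mul, ← Finset.mul_sum]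
    rw [Finset.sum_congr rfl fun I hI => by
      rw [(Finset.mem_powersetCard.1 (Finset.mem_filter.1 hI).1).2], ← h3]
    ring
  · simp

/-- Minkowski over the pulled marks -/
theorem fmk_mink (h : π.OK Q J0 E) {i : ℕ} (hi : i ≤ π.J) {D 𝓔 : ℝ} (hD : 0 < D) (h𝓔 : 0 ≤ 𝓔)
    (hb : ∀ I ∈ π.S.powersetCard i, Mo (π.dil (pr I) I).al D ≤ 𝓔) :
    Mo π.al D ≤ 𝓔 * ((∑ p ∈ π.S, N p ^ (-(1 / 2 : ℝ))) ^ i) ^ 2 := by
  refine Mo_le_of_sum_le fun T => ?_
  have hOm : ∀ d : O, 0 ≤ Om (N d / D) := fun d => (Real.exp_pos _).le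
  have he : ∀ I : Finset O, 0 ≤ ∏ p ∈ I, N p ^ (-(1 / 2 : ℝ)) := fun I =>
    Finset.prod_nonneg fun p _ => Real.rpow_nonneg (N_nonneg p) _
  have h1 := minkowski_fin T (π.S.powersetCard i) (ω := fun d => Om (N d / D)) (fun d _ => hOm d)
    (fun d I => (∏ p ∈ I, π.xp d p) * (π.dil (pr I) I).F d)
    (e := fun I => ∏ p ∈ I, N p ^ (-(1 / 2 : ℝ))) (fun I _ => he I) h𝓔 (fun I hI => by
      have hIS := (Finset.mem_powersetCard.1 hI).1
      have h' := h.dil (pr_prim h.primes hIS) I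
      refine le_trans ?_ (mul_le_mul_of_nonneg_right
        ((sum_le_Mo h'.rapid h'.supp6 hD T).trans (hb I hI)) (sq_nonneg _))
      rw [Finset.sum_mul]
      refine Finset.sum_le_sum fun d _ => ?_
      rw [mul_assoc]
      refine mul_le_mul_of_nonneg_left ?_ (hOm d)
      rw [norm_mul, mul_pow, mul_comm]
      refine mul_le_mul_of_nonneg_left (pow_le_pow_left₀ (norm_nonneg _) ?_ 2) (sq_nonneg _)
      rw [norm_prod]
      exact Finset.prod_le_prod (fun p _ => norm_nonneg _) fun p hp => h.norm_xp_le d (hIS hp))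
  refine le_trans (Finset.sum_le_sum fun d _ => ?_) (h1.trans (mul_le_mul_of_nonneg_left
    (pow_le_pow_left₀ (Finset.sum_nonneg fun I _ => he I)
      (sum_powersetCard_prod_le _ _ fun p _ => Real.rpow_nonneg (N_nonneg p) _) 2) h𝓔))
  refine mul_le_mul_of_nonneg_left (pow_le_pow_left₀ (norm_nonneg _) ?_ 2) (hOm d)
  rw [← h.F_pull hi d, norm_mul, Complex.norm_natCast]
  have h2 : (1 : ℝ) ≤ (π.J.choose i : ℕ) := by exact_mod_cast Nat.choose_pos hi
  exact le_mul_of_one_le_left (norm_nonneg _) h2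

theorem fmk_ineq {P κ D a : ℝ} {i j : ℕ} (hP : 1 ≤ P) (hκ : 1 ≤ κ) (hκD : κ ^ 2 ≤ D) (ha : 0 < a)
    (h1 : a * P ^ (i + j) * P ^ (i + j) ≤ D) (h2 : κ * (a * P ^ (i + j)) ≤ 3 * D)
    (h3 : (P ^ (i + j)) ^ 6 ≤ D) (h4 : j = 0 ∨ κ < P ^ (i + 1)) :
    a * P ^ j * P ^ j ≤ 3 * P * D / (κ * P ^ i) ∧ (P ^ j) ^ 6 ≤ 3 * P * D / (κ * P ^ i) := by
  have hD : 1 ≤ D := (one_le_pow₀ hκ).trans hκD
  have hi : 1 ≤ P ^ i := one_le_pow₀ hP
  have hj : 1 ≤ P ^ j := one_le_pow₀ hP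
  have hp : 0 < κ * P ^ i := by positivity
  have hPD : D ≤ P * D := le_mul_of_one_le_left (by linarith) hP
  rw [le_div_iff₀ hp, le_div_iff₀ hp]
  rcases h4 with rfl | h4
  · simp only [add_zero, pow_zero, mul_one, one_pow, one_mul] at *
    refine ⟨by linarith, ?_⟩
    have h5 : (κ * P ^ i) ^ 2 ≤ D ^ 2 := by
      rw [mul_pow, sq D]
      exact mul_le_mul hκD ((pow_le_pow_right₀ hi (by norm_num)).trans h3) (by positivity)
        (by linarith)
    have h6 := (pow_le_pow_iff_left₀ hp.le (by linarith) two_ne_zero).1 h5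
    linarith
  · have h5 : κ * P ^ i ≤ P * (P ^ i) ^ 2 := by
      rw [pow_succ] at h4
      nlinarith
    rw [pow_add] at h1 h3
    constructor
    · calc a * P ^ j * P ^ j * (κ * P ^ i) ≤ a * P ^ j * P ^ j * (P * (P ^ i) ^ 2) :=
            mul_le_mul_of_nonneg_left h5 (by positivity)
        _ = P * (a * (P ^ i * P ^ j) * (P ^ i * P ^ j)) := by ring
        _ ≤ P * D := mul_le_mul_of_nonneg_left h1 (by linarith)
        _ ≤ 3 * P * D := by nlinarith
    · calc (P ^ j) ^ 6 * (κ * P ^ i) ≤ (P ^ j) ^ 6 * (P * (P ^ i) ^ 6) :=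
            mul_le_mul_of_nonneg_left (h5.trans (mul_le_mul_of_nonneg_left
              (pow_le_pow_right₀ hi (by norm_num)) (by linarith))) (by positivity)
        _ = P * (P ^ i * P ^ j) ^ 6 := by ring
        _ ≤ P * D := mul_le_mul_of_nonneg_left h3 (by linarith)
        _ ≤ 3 * P * D := by nlinarith

/-- Let `i ≤ J` be maximal with `P2^i ≤ κ` (`Nat.findGreatest`), `D' = 3 P2 D/(κ P2^i) ≥ D/κ²`
(`Mo_mono`).  For `|I| = i` the sequence `π.dil (pr I) I` has `L' = P2^{J-i}`, `len' = len/P2^i` and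
satisfies `len' L' ≤ D'`, `L'^6 ≤ D'`: if `i = J` use `κ len ≤ 3D` and `κ P2^J ≤ D^{1/2} D^{1/6} ≤ D`
(square: `κ² L² ≤ D · L⁶ ≤ D²`); if `i < J` use `κ < P2^{i+1}`.  `F_pull`, `1 ≤ choose`,
`minkowski_fin` with `e I = ∏_{p∈I} N p^{-1/2}` (`norm_xp_le`), `N (H ∏I)^{δ/2} len'^δ ≤ N H^{δ/2} len^δ`,
`∑_I e I ≤ (C √P2)^i` (`sum_powersetCard_prod_le`, `sum_ball_rpow`).  So
`κ Mo ≤ κ C^{2i} P2^i D' (…) = 3 C^{2i} P2 D (…)`, `P2 ≤ E`. -/
theorem toK (J0 : ℕ) {δ : ℝ} (hδ : 0 < δ) : ∃ C, 1 ≤ C ∧ ∀ (Q : Lev) (E M : ℝ) (B : ℕ) (X : ℝ),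
    0 ≤ M → BndH Q J0 δ E M B X → BndK Q J0 δ E (C * E * M) B X := by
  obtain ⟨C0, hC0⟩ := sum_ball_rpow (σ := 1 / 2) (by norm_num)
  set C1 := max C0 1 with hC1
  have hC1' : 1 ≤ C1 := le_max_right _ _
  refine ⟨3 * C1 ^ (2 * J0), by have := one_le_pow₀ (n := 2 * J0) hC1'; linarith, ?_⟩
  intro Q E M B X hM hB π h D κ hκ hκD hX h1 h2 h3
  have hP : 1 ≤ π.P2 := h.h1.trans h.h12
  have hD : 1 ≤ D := (one_le_pow₀ hκ).trans hκD
  obtain ⟨i, hi, hiκ, hi'⟩ : ∃ i ≤ π.J, π.P2 ^ i ≤ κ ∧ (i = π.J ∨ κ < π.P2 ^ (i + 1)) := by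
    refine ⟨Nat.findGreatest (fun i => π.P2 ^ i ≤ κ) π.J, Nat.findGreatest_le _,
      Nat.findGreatest_spec (P := fun i => π.P2 ^ i ≤ κ) (Nat.zero_le _) (by simpa using hκ), ?_⟩
    rcases (Nat.findGreatest_le (P := fun i => π.P2 ^ i ≤ κ) π.J).eq_or_lt with h4 | h4
    · exact Or.inl h4
    · exact Or.inr (not_le.1 (Nat.findGreatest_is_greatest (P := fun i => π.P2 ^ i ≤ κ)
        (Nat.lt_succ_self _) h4))
  obtain ⟨j, hj⟩ := Nat.exists_eq_add_of_le hi
  have hPi : 1 ≤ π.P2 ^ i := one_le_pow₀ hP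
  have hp : 0 < κ * π.P2 ^ i := by positivity
  set D' := 3 * π.P2 * D / (κ * π.P2 ^ i) with hD'
  have hD'0 : 0 < D' := by positivity
  have hlen := h.len_pos
  have hineq : Real.exp π.y * π.P2 ^ j * π.P2 ^ j ≤ D' ∧ (π.P2 ^ j) ^ 6 ≤ D' := by
    unfold Par.len Par.L at *
    rw [hj] at h1 h2 h3
    exact fmk_ineq hP hκ hκD (Real.exp_pos _) h1 h2 h3 (hi'.imp (fun h4 => by omega) id)
  have hle : D / κ ^ 2 ≤ D' := by
    rw [hD', div_le_div_iff₀ (by positivity) hp]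
    calc D * (κ * π.P2 ^ i) ≤ D * (κ * κ) := by gcongr
      _ = 1 * 1 * D * κ ^ 2 := by ring
      _ ≤ 3 * π.P2 * D * κ ^ 2 := by gcongr; norm_num
  have hNH : 0 ≤ N π.H ^ (δ / 2) := Real.rpow_nonneg (N_nonneg _) _
  set 𝓔 := M * N π.H ^ (δ / 2) * (1 + |π.t|) ^ B * D' * π.len ^ δ with h𝓔
  have h𝓔0 : 0 ≤ 𝓔 := by positivity
  have hb : ∀ I ∈ π.S.powersetCard i, Mo (π.dil (pr I) I).al D' ≤ 𝓔 := by
    intro I hI
    obtain ⟨hIS, hIc⟩ := Finset.mem_powersetCard.1 hI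
    have hG := pr_prim h.primes hIS
    have eL : (π.dil (pr I) I).L = π.P2 ^ j := by
      simp only [Par.L, Par.dil, Par.cut, hIc, hj, Nat.add_sub_cancel_left]
    have el : (π.dil (pr I) I).len = Real.exp π.y * π.P2 ^ j := by
      simp only [Par.len, Par.dil, Par.cut, hIc, hj, Nat.add_sub_cancel_left, sub_add_cancel]
    have el' : π.len = Real.exp π.y * π.P2 ^ j * π.P2 ^ i := by
      rw [Par.len, hj, pow_add]
      ring
    have h0 : 0 < Real.exp π.y * π.P2 ^ j := by positivity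
    have h5 := hB _ (h.dil hG I) D'
      (by rw [el]; exact (le_mul_of_one_le_right h0.le hPi).trans (el' ▸ hX))
      (by rw [el, eL]; exact hineq.1) (by rw [eL]; exact hineq.2)
    refine h5.trans ?_
    have h6 : N (pr I) ^ (δ / 2) * (Real.exp π.y * π.P2 ^ j) ^ δ ≤ π.len ^ δ := by
      rw [el', Real.mul_rpow h0.le (by positivity), mul_comm]
      refine mul_le_mul_of_nonneg_left ?_ (by positivity)
      have h7 : N (pr I) ≤ π.P2 ^ i := hIc ▸ N_pr_le fun p hp => (h.hS p (hIS hp)).2.2.2.2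
      exact (Real.rpow_le_rpow (N_nonneg _) h7 (by linarith)).trans
        (Real.rpow_le_rpow_of_exponent_le hPi (by linarith))
    rw [el]
    change M * N (π.H * pr I) ^ (δ / 2) * (1 + |π.t|) ^ B * D' * _ ≤ _
    rw [N_mul, Real.mul_rpow (N_nonneg _) (N_nonneg _)]
    calc _ = M * N π.H ^ (δ / 2) * (1 + |π.t|) ^ B * D' *
          (N (pr I) ^ (δ / 2) * (Real.exp π.y * π.P2 ^ j) ^ δ) := by ring
      _ ≤ 𝓔 := mul_le_mul_of_nonneg_left h6 (by positivity)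
  have hs0 : 0 ≤ ∑ p ∈ π.S, N p ^ (-(1 / 2 : ℝ)) :=
    Finset.sum_nonneg fun p _ => Real.rpow_nonneg (N_nonneg p) _
  have hs : (∑ p ∈ π.S, N p ^ (-(1 / 2 : ℝ))) ^ 2 ≤ C1 ^ 2 * π.P2 := by
    have h7 : ∑ p ∈ π.S, N p ^ (-(1 / 2 : ℝ)) ≤ C1 * π.P2 ^ (1 - 1 / 2 : ℝ) :=
      (Finset.sum_le_sum_of_subset_of_nonneg (fun p hp => mem_ball.2
        ⟨(h.hS p hp).1.ne_zero, (h.hS p hp).2.2.2.2⟩)
        fun p _ _ => Real.rpow_nonneg (N_nonneg p) _).trans ((hC0 _ hP).trans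
          (mul_le_mul_of_nonneg_right (le_max_left _ _) (by positivity)))
    refine (pow_le_pow_left₀ hs0 h7 2).trans (le_of_eq ?_)
    rw [mul_pow, ← Real.rpow_natCast (π.P2 ^ _), ← Real.rpow_mul (by linarith)]
    norm_num
  have hs' : ((∑ p ∈ π.S, N p ^ (-(1 / 2 : ℝ))) ^ i) ^ 2 ≤ C1 ^ (2 * J0) * π.P2 ^ i := by
    rw [← pow_mul, mul_comm i 2, pow_mul]
    refine (pow_le_pow_left₀ (sq_nonneg _) hs i).trans ?_
    rw [mul_pow, ← pow_mul]
    exact mul_le_mul_of_nonneg_right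
      (pow_le_pow_right₀ hC1' (by have := h.hJ; omega)) (by positivity)
  have h8 : Mo π.al (D / κ ^ 2) ≤ 𝓔 * (C1 ^ (2 * J0) * π.P2 ^ i) :=
    (Mo_mono h.rapid h.supp6 (by positivity) hle).trans ((fmk_mink h hi hD'0 h𝓔0 hb).trans
      (mul_le_mul_of_nonneg_left hs' h𝓔0))
  calc κ * Mo π.al (D / κ ^ 2) ≤ κ * (𝓔 * (C1 ^ (2 * J0) * π.P2 ^ i)) :=
        mul_le_mul_of_nonneg_left h8 (by linarith)
    _ = 3 * C1 ^ (2 * J0) * π.P2 * M * N π.H ^ (δ / 2) * (1 + |π.t|) ^ B * D * π.len ^ δ := by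
        rw [h𝓔, hD']
        field_simp
    _ ≤ _ := by
        have := h.h2
        gcongr

end Crest.Agent.R17.FM
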