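import Crest.Agent.R17.FMoment_Link

/-!
# R17 / FMoment / Large : large gcd

Definitions in `FMoment_Defs.lean`.  Prefix helper lemmas with `fmlarge_`.
-/

set_option autoImplicit false

noncomputable section

open scoped Classical ComplexConjugate
open MeasureTheory

namespace Crest.Agent.R17.FM

theorem fmlarge_dil {Q : Lev} {J0 : ℕ} {E : ℝ} {π : Par} (hπ : π.OK Q J0 E) {G : O} (hG : Prim G)
    {D K : ℝ} (hD : 0 < D) (hK : 0 ≤ K)
    (h : ∀ I ∈ marks π.S π.J G, Mo (π.dil G I).al D ≤ K) :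
    Mo (fun m => π.al (G * m)) D ≤ dv G ^ 2 * N G ^ (-1 : ℝ) * K := by
  have hN := N_pos hG.ne_zero
  have hc := card_marks_le hπ.primes π.J hG.ne_zero
  refine Mo_le_of_sum_le fun T => ?_
  calc _ ≤ ∑ d ∈ T, (marks π.S π.J G).card * ∑ I ∈ marks π.S π.J G, N G ^ (-1 : ℝ) *
        (Om (N d / D) * ‖∑' m, (π.dil G I).al m * chi m d‖ ^ 2) := by
        refine Finset.sum_le_sum fun d _ => ?_
        have h1 : ∑' m, π.al (G * m) * chi m d =
            ∑ I ∈ marks π.S π.J G, π.cf G I * ∑' m, (π.dil G I).al m * chi m d := by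
          have h2 : ∀ I ∈ marks π.S π.J G,
              Summable (fun m => π.cf G I * ((π.dil G I).al m * chi m d)) := fun I _ =>
            ((hπ.dil hG I).summable_mul (u := fun m => chi m d) fun m hm _ =>
              norm_sym_le (Or.inr (Or.inr rfl)) (by simpa using hm.isCoprime_six) d).mul_left _
          simp only [← tsum_mul_left]
          rw [← Summable.tsum_finsetSum h2]
          refine tsum_congr fun m => ?_
          rw [hπ.al_dil hG, Finset.sum_mul]
          exact Finset.sum_congr rfl fun I _ => mul_assoc _ _ _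
        rw [h1]
        refine (mul_le_mul_of_nonneg_left (norm_sum_sq_le _ _) (Om_pos _).le).trans ?_
        rw [mul_left_comm, Finset.mul_sum]
        refine mul_le_mul_of_nonneg_left (Finset.sum_le_sum fun I hI => ?_) (Nat.cast_nonneg _)
        rw [mul_left_comm, norm_mul, mul_pow]
        refine mul_le_mul_of_nonneg_left (mul_le_mul_of_nonneg_right ?_ (sq_nonneg _))
          (Om_pos _).le
        refine (pow_le_pow_left₀ (norm_nonneg _)
          (hπ.norm_cf_le hG.ne_zero (mem_marks.1 hI).1) 2).trans (le_of_eq ?_)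
        rw [← Real.rpow_natCast, ← Real.rpow_mul hN.le]
        norm_num
    _ ≤ (marks π.S π.J G).card * ∑ _I ∈ marks π.S π.J G, N G ^ (-1 : ℝ) * K := by
        rw [← Finset.mul_sum, Finset.sum_comm]
        refine mul_le_mul_of_nonneg_left (Finset.sum_le_sum fun I hI => ?_) (Nat.cast_nonneg _)
        rw [← Finset.mul_sum]
        exact mul_le_mul_of_nonneg_left
          ((sum_le_Mo (hπ.dil hG I).rapid (hπ.dil hG I).supp6 hD T).trans (h I hI))
          (by positivity)
    _ ≤ _ := by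
        rw [Finset.sum_const, nsmul_eq_mul, ← mul_assoc, ← pow_two, mul_assoc]
        exact mul_le_mul_of_nonneg_right (pow_le_pow_left₀ (Nat.cast_nonneg _) hc 2)
          (by positivity)

/-- For primary `G`: `al_dil`, so `∑' m, al (G m) χ_m(d) = ∑_I cf G I · (π.dil G I).F d`
(`summable_mul`, `tsum_finsetSum`), `norm_sum_sq_le`, `norm_cf_le`, `card_marks_le`: the `G`-th term is at
most `dv G ³ (N G)⁻¹ · M N G^{δ/2} (1+|t|)^B D (len/N G)^δ` (`len_cut_le`, `L_cut_le`;
`len / N G ≤ len/G0 ≤ X'`; use `Mo_le_of_sum_le`, `sum_le_Mo`).  `dv_le` with `θ = δ/12`,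
`sum_N_rpow_le` with `θ = δ/4`, `Real.tsum_le_of_sum_le`. -/
theorem large {δ : ℝ} (hδ : 0 < δ) : ∃ C, 0 ≤ C ∧ ∀ (Q : Lev) (J0 : ℕ) (E M : ℝ) (B : ℕ) (X' : ℝ),
    0 ≤ M → BndH Q J0 δ E M B X' → ∀ π : Par, π.OK Q J0 E → π.H = 1 → ∀ D G0 : ℝ, 0 < G0 →
    π.len ≤ G0 * X' → π.len * π.L ≤ D → π.L ^ 6 ≤ D →
    ∑' G : O, (if Prim G ∧ G0 < N G then ((pdiv G).card : ℝ) *
        ∑' d : O, Om (N d / D) * ‖∑' m, π.al (G * m) * chi m d‖ ^ 2 else 0) ≤
      C * M * (1 + |π.t|) ^ B * D * π.len ^ δ := by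
  obtain ⟨C1, hC1, h1⟩ := dv_le (θ := δ / 12) (by linarith)
  obtain ⟨C2, hC2, h2⟩ := sum_N_rpow_le (θ := δ / 4) (by linarith)
  refine ⟨C1 ^ 3 * C2, by positivity, fun Q J0 E M B X' hM hB π hπ hH D G0 hG0 hX hD hL => ?_⟩
  have hL1 := hπ.one_le_L
  have hlen := hπ.len_pos
  have hD0 : 0 < D := lt_of_lt_of_le (by positivity) hL
  obtain ⟨K, hK⟩ : ∃ K, K = M * (1 + |π.t|) ^ B * D * π.len ^ δ := ⟨_, rfl⟩
  have hK0 : 0 ≤ K := by rw [hK]; positivity
  have key : ∀ G : O, (if Prim G ∧ G0 < N G then ((pdiv G).card : ℝ) *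
      ∑' d : O, Om (N d / D) * ‖∑' m, π.al (G * m) * chi m d‖ ^ 2 else 0) ≤
      C1 ^ 3 * K * N G ^ (-1 - δ / 4) := by
    intro G
    split_ifs with hG
    · have hN := N_pos hG.1.ne_zero
      have hN1 := one_le_N hG.1.ne_zero
      have h3 := fmlarge_dil hπ hG.1 hD0 (K := K * N G ^ (-(δ / 2))) (by positivity) (by
        intro I hI
        have a1 : (π.dil G I).len ≤ π.len / N G := hπ.len_cut_le hG.1.ne_zero hI
        have a2 : (π.dil G I).L ≤ π.L := hπ.L_cut_le G I
        have a3 := (hπ.dil hG.1 I).len_pos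
        have a4 := (hπ.dil hG.1 I).one_le_L
        have a5 : π.len / N G ≤ X' := by
          refine (div_le_div_of_nonneg_left hlen.le hG0 hG.2.le).trans ?_
          rw [div_le_iff₀ hG0, mul_comm]
          exact hX
        have a6 := hB (π.dil G I) (hπ.dil hG.1 I) D (a1.trans a5)
          ((mul_le_mul (a1.trans (div_le_self hlen.le hN1)) a2 (by linarith) hlen.le).trans hD)
          ((pow_le_pow_left₀ (by linarith) a2 6).trans hL)
        have a7 : (π.dil G I).H = G := by
          change π.H * G = G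
          rw [hH, one_mul]
        have a8 : (π.dil G I).t = π.t := rfl
        rw [a7, a8] at a6
        refine a6.trans ((mul_le_mul_of_nonneg_left (Real.rpow_le_rpow a3.le a1 hδ.le)
          (by positivity)).trans (le_of_eq ?_))
        have a9 : N G ^ (-(δ / 2)) = N G ^ (δ / 2) / N G ^ δ := by
          rw [← Real.rpow_sub hN]
          congr 1
          ring
        rw [hK, Real.div_rpow hlen.le hN.le, a9]
        ring)
      have h4 := h1 G hG.1.ne_zero
      have h5 := dv_nonneg G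
      calc _ ≤ dv G * (dv G ^ 2 * N G ^ (-1 : ℝ) * (K * N G ^ (-(δ / 2)))) :=
            mul_le_mul_of_nonneg_left h3 h5
        _ = dv G ^ 3 * (N G ^ (-1 : ℝ) * (K * N G ^ (-(δ / 2)))) := by ring
        _ ≤ (C1 * N G ^ (δ / 12)) ^ 3 * (N G ^ (-1 : ℝ) * (K * N G ^ (-(δ / 2)))) :=
            mul_le_mul_of_nonneg_right (pow_le_pow_left₀ h5 h4 3) (by positivity)
        _ = _ := by
            have e : N G ^ (-1 - δ / 4) =
                (N G ^ (δ / 12)) ^ 3 * N G ^ (-1 : ℝ) * N G ^ (-(δ / 2)) := by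
              rw [← Real.rpow_natCast, ← Real.rpow_mul hN.le, ← Real.rpow_add hN,
                ← Real.rpow_add hN]
              congr 1
              push_cast
              ring
            rw [e]
            ring
    · have := Real.rpow_nonneg (N_nonneg G) (-1 - δ / 4)
      positivity
  refine Real.tsum_le_of_sum_le (fun G => ?_) fun T => ?_
  · simp only [Pi.zero_apply]
    split_ifs
    · exact mul_nonneg (Nat.cast_nonneg _) (Mo_nonneg (fun m => π.al (G * m)) D)
    · exact le_rfl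
  · refine (Finset.sum_le_sum fun G _ => key G).trans ?_
    rw [← Finset.mul_sum]
    refine (mul_le_mul_of_nonneg_left (h2 T) (by positivity)).trans (le_of_eq ?_)
    rw [hK]
    ring

end Crest.Agent.R17.FM
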