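import Crest.Agent.R17.FMoment_Triv

/-!
# R17 / FMoment / Link : standard sequences and blocks

Definitions in `FMoment_Defs.lean`.  Prefix helper lemmas with `fmlink_`.
-/

set_option autoImplicit false

noncomputable section

open scoped Classical ComplexConjugate
open MeasureTheory

namespace Crest.Agent.R17.FM

variable {π : Par} {Q : Lev} {J0 : ℕ} {E : ℝ}

theorem fmlink_norm_le {ν : O → ℂ} (hν : ν ∈ hchars Q.q) (d m : O) (c : Prop) [Decidable c] :
    ‖(if c then mu m * ν m * chi m d else 0)‖ ≤ 1 := by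
  split_ifs
  · by_cases h0 : ν m = 0
    · simp [h0]
    · have hc : IsCoprime m Q.q := by
        by_contra hc
        exact h0 ((((mem_hchars Q.ne).1 hν).1.zero_iff m).2 hc)
      have h6 : IsCoprime m 6 := hc.of_isCoprime_of_dvd_right (Dvd.dvd.trans ⟨12, by norm_num⟩ Q.dvd)
      have h1 : ‖chi m d‖ ≤ 1 := norm_sym_le (k := 6) (by simp) (by simpa using h6) d
      rw [norm_mul, norm_mul]
      exact mul_le_one₀ (mul_le_one₀ (norm_mu_le m) (norm_nonneg _) (norm_hchar_le Q hν m))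
        (norm_nonneg _) h1
  · simp

theorem fmlink_polyBd_smul (c : ℂ) {a : O → ℂ} (h : ∀ n, ‖a n‖ ≤ 1) : PolyBd fun n => c * a n :=
  ⟨‖c‖, 0, fun n _ => by
    rw [norm_mul, pow_zero]
    exact mul_le_mul_of_nonneg_left (h n) (norm_nonneg _)⟩

theorem fmlink_char_prod {q : O} {ν : O → ℂ} (hν : IsChar q ν) (I : Finset O) :
    ν (pr I) = ∏ p ∈ I, ν p := by
  induction I using Finset.induction_on with
  | empty => simpa using hν.one
  | insert a s ha ih =>
    unfold pr at ih ⊢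
    rw [Finset.prod_insert ha, Finset.prod_insert ha, hν.mul, ih]

theorem fmlink_cpow_prod (I : Finset O) (s : ℂ) :
    (N (pr I) : ℂ) ^ s = ∏ p ∈ I, (N p : ℂ) ^ s := by
  induction I using Finset.induction_on with
  | empty => simp
  | insert a s ha ih =>
    unfold pr at ih ⊢
    rw [Finset.prod_insert ha, Finset.prod_insert ha, N_mul, Complex.ofReal_mul,
      Complex.mul_cpow_ofReal_nonneg (N_nonneg _) (N_nonneg _), ih]

theorem fmlink_dil (h : π.OK Q J0 E) (d : O) {I : Finset O} (hI : I ⊆ π.S) (m : O) :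
    (if Prim (pr I * m) ∧ IsCoprime (pr I * m) π.H then
        mu (pr I * m) * π.ν (pr I * m) * chi (pr I * m) d else 0) =
      ((-1) ^ I.card * (∏ p ∈ I, π.ν p) * ∏ p ∈ I, chi p d) *
        (if Prim m ∧ IsCoprime m (π.H * pr I) then mu m * π.ν m * chi m d else 0) := by
  have hp := pr_prim h.primes hI
  have hH : IsCoprime (pr I) π.H := pr_isCoprime h.primes hI fun p hp => h.hSH p (hI hp)
  have hν := ((mem_hchars Q.ne).1 h.hν).1
  by_cases hm : Prim m ∧ IsCoprime m (π.H * pr I)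
  · have h1 := hm.2.of_mul_right_left
    have h2 := hm.2.of_mul_right_right
    rw [if_pos hm, if_pos ⟨hp.mul hm.1, hH.mul_left h1⟩, mu_mul h2.symm, hν.mul,
      fmlink_char_prod hν, mu_prod_primes fun p hp => h.primes p (hI hp)]
    unfold chi
    rw [sym_mul_left 6 hp.ne_zero hm.1.ne_zero,
      sym_prod_left 6 fun p hp => (h.primes p (hI hp)).1.ne_zero]
    ring
  · rw [if_neg hm, mul_zero]
    split_ifs with h1
    · have h2 : Prim m := h1.1.of_mul_left hp
      have h3 : IsCoprime m π.H := h1.2.of_mul_left_right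
      have h4 : ¬ IsCoprime (pr I) m := fun h4 => hm ⟨h2, h3.mul_right h4.symm⟩
      have h5 : ¬ Squarefree (pr I * m) := fun h5 =>
        h4 (squarefree_mul_iff.1 h5).1.isCoprime
      rw [mu_eq_zero h5, zero_mul, zero_mul]
    · rfl

theorem fmlink_prod_xp (π : Par) (d : O) (I : Finset O) :
    ∏ p ∈ I, π.xp d p = (∏ p ∈ I, π.b p) * ((N (pr I) : ℂ) ^ (-(1 / 2 + π.t * Complex.I)) *
      ((-1) ^ I.card * (∏ p ∈ I, π.ν p) * ∏ p ∈ I, chi p d)) := by
  unfold Par.xp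
  rw [fmlink_cpow_prod, Finset.prod_neg, Finset.prod_mul_distrib, Finset.prod_mul_distrib,
    Finset.prod_mul_distrib]
  ring

theorem fmlink_blk_sq (h : π.OK Q J0 E) (d : O) (y t : ℝ) :
    blk (π.sq d) y t = ∑ I ∈ π.S.powersetCard π.J, (∏ p ∈ I, π.xp d p) *
      blk (fun m => if Prim m ∧ IsCoprime m (π.H * pr I) then mu m * π.ν m * chi m d else 0)
        y t := by
  unfold blk
  rw [show π.sq d = fun m => ∑ I ∈ π.S.powersetCard π.J, (∏ p ∈ I, π.xp d p) *
    (if Prim m ∧ IsCoprime m (π.H * pr I) then mu m * π.ν m * chi m d else 0) from rfl,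
    blks_sum _ fun I _ => fmlink_polyBd_smul _ fun m => fmlink_norm_le h.hν d m _]
  exact Finset.sum_congr rfl fun I _ => blks_smul _ _ _ _

theorem Par.OK.polyBd_sq (h : π.OK Q J0 E) (d : O) : PolyBd (π.sq d) := by
  refine ⟨∑ I ∈ π.S.powersetCard π.J, ‖∏ p ∈ I, π.xp d p‖, 0, fun n _ => ?_⟩
  rw [pow_zero, mul_one]
  refine (norm_sum_le _ _).trans (Finset.sum_le_sum fun I _ => ?_)
  rw [norm_mul]
  exact mul_le_of_le_one_right (norm_nonneg _) (fmlink_norm_le h.hν d n _)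

/-- Expand `W`, exchange the finite sum over `I` with the series (summable by `summable_mul` /
`summable_gw_rpow`), substitute `n = (∏ I) m` (`tsum_dvd`), use `mu_prod_primes`, `mu_mul`,
`sym_mul_left`, `sym_prod_left`, `N_prod`; `blks_sum`, `blks_smul`. -/
theorem Par.OK.F_eq_blk (h : π.OK Q J0 E) (d : O) : π.F d = blk (π.sq d) π.y π.t := by
  set A : O → ℂ := fun n => if Prim n ∧ IsCoprime n π.H then mu n * π.ν n * chi n d else 0 with hA
  have hA1 : ∀ (I : Finset O) (n : O), ‖(if pr I ∣ n then A n else 0)‖ ≤ 1 := by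
    intro I n
    split_ifs
    · exact fmlink_norm_le h.hν d n _
    · simp
  have e1 : π.F d = ∑ I ∈ π.S.powersetCard π.J,
      blks (fun n => (∏ p ∈ I, π.b p) * if pr I ∣ n then A n else 0)
        (π.y + Real.log (N (pr I))) (1 / 2 + π.t * Complex.I) := by
    unfold blks Par.F
    rw [← Summable.tsum_finsetSum fun I _ =>
      (summable_blks (fmlink_polyBd_smul _ (hA1 I)) _ _).of_norm]
    refine tsum_congr fun n => ?_
    unfold Par.al W
    by_cases hn : Prim n ∧ IsCoprime n π.H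
    · rw [if_pos hn, Finset.sum_filter, Finset.mul_sum, Finset.sum_mul]
      refine Finset.sum_congr rfl fun I _ => ?_
      rw [if_neg hn.1.ne_zero]
      simp only [hA, if_pos hn]
      split_ifs
      · ring
      · simp
    · rw [if_neg hn, zero_mul]
      refine (Finset.sum_eq_zero fun I _ => ?_).symm
      simp only [hA, if_neg hn]
      simp
  rw [e1, fmlink_blk_sq h]
  refine Finset.sum_congr rfl fun I hI => ?_
  have hI' : I ⊆ π.S := (Finset.mem_powersetCard.1 hI).1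
  rw [blks_smul, blks_dvd (pr_prim h.primes hI').ne_zero, add_sub_cancel_right, fmlink_prod_xp]
  simp only [hA, fmlink_dil h d hI']
  rw [blks_smul]
  unfold blk
  ring

/-- `xp` does not change under `mv` (for `p ∈ S`) -/
theorem Par.OK.sq_mv (h : π.OK Q J0 E) (y t : ℝ) (d : O) : (π.mv y t).sq d = π.sq d := by
  unfold Par.sq
  funext m
  refine Finset.sum_congr rfl fun I hI => ?_
  have hI' : I ⊆ π.S := (Finset.mem_powersetCard.1 hI).1
  congr 1
  refine Finset.prod_congr rfl fun p hp => ?_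
  have h0 : (N p : ℂ) ≠ 0 := by exact_mod_cast (N_pos (h.primes p (hI' hp)).1.ne_zero).ne'
  have e : (N p : ℂ) ^ (((t - π.t : ℝ) : ℂ) * Complex.I) * (N p : ℂ) ^ (-(1 / 2 + t * Complex.I)) =
      (N p : ℂ) ^ (-(1 / 2 + π.t * Complex.I)) := by
    rw [← Complex.cpow_add _ _ h0]
    congr 1
    push_cast
    ring
  simp only [Par.xp, Par.mv]
  rw [← e]
  ring

theorem Par.OK.F_mv (h : π.OK Q J0 E) (y t : ℝ) (d : O) : (π.mv y t).F d = blk (π.sq d) y t := by
  rw [(h.mv y t).F_eq_blk, h.sq_mv]; rfl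

theorem F_set (h : π.OK Q J0 E) {j : ℕ} (hj : j ≤ J0) (y y' : ℝ) (d : O) :
    (π.set j y).F d = blk ((π.set j y').sq d) y π.t := (h.set hj y).F_eq_blk d

/-- the parameters attached to `Mk` -/
def mkPar (ν : O → ℂ) (S : Finset O) (J : ℕ) (a : O → ℂ) (y t P1 P2 : ℝ) : Par :=
  ⟨ν, S, J, fun p => -(a p * conj (ν p) * (N p : ℂ) ^ ((t : ℂ) * Complex.I)), 1, y, t, P1, P2⟩

theorem mkPar_ok {ν : O → ℂ} (hν : ν ∈ hchars Q.q) {S : Finset O} {P1 P2 : ℝ}
    (hS : IsSlot Q S P1 P2) (h1 : 1 ≤ P1) (h12 : P1 ≤ P2) (h2 : P2 ≤ E) (hE : (P2 / P1) ^ J0 ≤ E)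
    {J : ℕ} (hJ : J ≤ J0) {a : O → ℂ} (ha : ∀ p ∈ S, ‖a p‖ ≤ 1) (y t : ℝ) :
    (mkPar ν S J a y t P1 P2).OK Q J0 E := by
  refine ⟨hν, hS, hJ, fun p hp => ?_, Prim.one, fun p hp hd => ?_, h1, h12, h2, hE⟩
  · have h0 := N_pos (hS p hp).1.ne_zero
    show ‖-(a p * conj (ν p) * (N p : ℂ) ^ ((t : ℂ) * Complex.I))‖ ≤ 1
    rw [norm_neg, norm_mul, norm_mul, Complex.norm_cpow_eq_rpow_re_of_pos h0, Complex.norm_conj]
    simp only [Complex.mul_re, Complex.ofReal_re, Complex.I_re, mul_zero, Complex.ofReal_im,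
      Complex.I_im, sub_self, Real.rpow_zero, mul_one]
    exact mul_le_one₀ (ha p hp) (norm_nonneg _) (norm_hchar_le Q hν p)
  · exact (hS p hp).1.not_isUnit (isUnit_of_dvd_one hd)

/-- `|ν p| = 1` for `p ∤ q` -/
theorem xp_mkPar {ν : O → ℂ} (hν : ν ∈ hchars Q.q) {S : Finset O} {P1 P2 : ℝ}
    (hS : IsSlot Q S P1 P2) (J : ℕ) (a : O → ℂ) (y t : ℝ) (d : O) {p : O} (hp : p ∈ S) :
    (mkPar ν S J a y t P1 P2).xp d p = a p * chi p d / (Real.sqrt (N p) : ℂ) := by
  obtain ⟨hp1, -, hp2, -⟩ := hS p hp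
  have h0 := N_pos hp1.ne_zero
  have h0' : (N p : ℂ) ≠ 0 := by exact_mod_cast h0.ne'
  have h1 : ‖ν p‖ = 1 := ((mem_hchars Q.ne).1 hν).1.norm_eq_one Q.ne (hp1.coprime_iff_not_dvd.2 hp2)
  have h2 : conj (ν p) * ν p = 1 := by
    rw [mul_comm, Complex.mul_conj, Complex.normSq_eq_norm_sq, h1]; simp
  have e : (N p : ℂ) ^ ((t : ℂ) * Complex.I) * (N p : ℂ) ^ (-(1 / 2 + t * Complex.I)) =
      ((Real.sqrt (N p) : ℝ) : ℂ)⁻¹ := by
    rw [← Complex.cpow_add _ _ h0', Real.sqrt_eq_rpow, Complex.ofReal_cpow h0.le,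
      ← Complex.cpow_neg]
    congr 1
    push_cast
    ring
  simp only [Par.xp, mkPar]
  rw [div_eq_mul_inv (a p * chi p d), ← e]
  linear_combination (a p * chi p d * (N p : ℂ) ^ ((t : ℂ) * Complex.I) *
    (N p : ℂ) ^ (-(1 / 2 + t * Complex.I))) * h2

theorem Mk_eq_F {ν : O → ℂ} {S : Finset O} {J : ℕ} {a : O → ℂ} {y t P1 P2 : ℝ}
    (h : (mkPar ν S J a y t P1 P2).OK Q J0 E) (d : O) :
    Mk ν S J a d y t = (mkPar ν S J a y t P1 P2).F d := by
  rw [h.F_eq_blk, fmlink_blk_sq h]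
  unfold Mk
  refine Finset.sum_congr rfl fun I hI => ?_
  have hI' : I ⊆ S := (Finset.mem_powersetCard.1 hI).1
  congr 1
  · exact Finset.prod_congr rfl fun p hp => (xp_mkPar h.hν h.hS J a y t d (hI' hp)).symm
  · unfold pb
    congr 1
    funext m
    simp only [prim, mm, rc, mkPar, one_mul, pr]
    by_cases h1 : Prim m <;> by_cases h2 : IsCoprime m (∏ p ∈ I, p) <;> simp [h1, h2, mul_assoc]

theorem pb_eq_F {ν : O → ℂ} {S : Finset O} {a : O → ℂ} {y t P1 P2 : ℝ}
    (h : (mkPar ν S 0 a y t P1 P2).OK Q J0 E) (d : O) :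
    pb (mm (rc ν d)) y t = (mkPar ν S 0 a y t P1 P2).F d := by
  rw [← Mk_eq_F h]
  simp [Mk, isCoprime_one_right]

end Crest.Agent.R17.FM
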