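import Crest.Agent.R17.FMoment_DD2

/-!
# R17 / FMoment / Small : small gcd

Definitions in `FMoment_Defs.lean`.  Prefix helper lemmas with `fmsmall_`.
-/

set_option autoImplicit false

noncomputable section

open scoped Classical ComplexConjugate
open MeasureTheory

namespace Crest.Agent.R17.FM


theorem fmsmall_mom {α : O → ℂ} (hα : Rapid α) {g : O} (hg : g ≠ 0) (j : ℕ) :
    N g ^ j * mom (fun m => α (g * m)) j ≤ mom α j := by
  refine le_trans (le_of_eq ?_) (Bk.tsum_dilate_le hα hg j).2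
  unfold mom
  rw [← tsum_mul_left]
  refine tsum_congr fun m => ?_
  rw [N_mul, mul_pow]; ring

/-- the tail term -/
theorem fmsmall_tail {X E D n C m δ : ℝ} {A : ℕ} (hX : 1 ≤ X) (hE : 1 ≤ E) (hD : 0 < D)
    (hn : 0 < n) (hm : 0 ≤ m) (h1 : n ^ A * m ≤ C * X ^ ((A : ℝ) + 1 / 2))
    (h2 : E * (E ^ A)⁻¹ * X ^ 5 ≤ X ^ δ) :
    (D * (X ^ 2 * E / (n ^ 2 * D))) * ((D * (X ^ 2 * E / (n ^ 2 * D))) ^ A)⁻¹ * m ^ 2 ≤
      C ^ 2 * X ^ δ * n ^ (-1 - 1 : ℝ) := by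
  have hX0 : 0 < X := by linarith
  have e1 : D * (X ^ 2 * E / (n ^ 2 * D)) = X ^ 2 * E / n ^ 2 := by field_simp
  have e2 : n ^ (-1 - 1 : ℝ) = (n ^ 2)⁻¹ := by
    rw [show (-1 - 1 : ℝ) = -((2 : ℕ) : ℝ) by norm_num, Real.rpow_neg hn.le, Real.rpow_natCast]
  have h3 : (n ^ A * m) ^ 2 ≤ (C * X ^ ((A : ℝ) + 1 / 2)) ^ 2 :=
    pow_le_pow_left₀ (by positivity) h1 2
  have e3 : (X ^ ((A : ℝ) + 1 / 2)) ^ 2 = (X ^ A) ^ 2 * X := by
    rw [← Real.rpow_natCast, ← Real.rpow_mul hX0.le, ← pow_mul, ← pow_succ, ← Real.rpow_natCast]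
    congr 1; push_cast; ring
  rw [mul_pow C, e3] at h3
  have e4 : X ^ 2 * E / n ^ 2 * ((X ^ 2 * E / n ^ 2) ^ A)⁻¹ * m ^ 2 =
      (X ^ 2 * E * (E ^ A)⁻¹ * ((X ^ A) ^ 2)⁻¹ * (n ^ 2)⁻¹) * (n ^ A * m) ^ 2 := by
    rw [div_pow, mul_pow, mul_pow, ← pow_mul, ← pow_mul, ← pow_mul, ← pow_mul, mul_comm A 2]
    field_simp
  rw [e1, e2, e4]
  refine le_trans (mul_le_mul_of_nonneg_left h3 (by positivity)) ?_
  have e5 : (X ^ 2 * E * (E ^ A)⁻¹ * ((X ^ A) ^ 2)⁻¹ * (n ^ 2)⁻¹) * (C ^ 2 * ((X ^ A) ^ 2 * X)) =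
      C ^ 2 * (E * (E ^ A)⁻¹ * X ^ 3) * (n ^ 2)⁻¹ := by
    field_simp
  rw [e5]
  refine mul_le_mul_of_nonneg_right (mul_le_mul_of_nonneg_left (le_trans ?_ h2) (by positivity))
    (by positivity)
  exact mul_le_mul_of_nonneg_left (pow_le_pow_right₀ hX (by norm_num)) (by positivity)

theorem fmsmall_low {π : Par} {Q : Lev} {J0 : ℕ} {E δ : ℝ} (h : π.OK Q J0 E) (hδ : 0 < δ)
    (hE : π.len ^ δ ≤ E) : π.low ^ (2 * δ - 1) * π.len ≤ E ^ 3 := by
  have h0 := h.low_pos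
  have h1 := h.low_le_len
  have h2 := h.len_le_low
  have hE1 := h.one_le_E
  have h3 : π.low ^ δ ≤ E := (Real.rpow_le_rpow h0.le h1 hδ.le).trans hE
  have h4 : π.low ^ (2 * δ - 1) * π.low = (π.low ^ δ) ^ 2 := by
    rw [← Real.rpow_add_one h0.ne', ← Real.rpow_natCast, ← Real.rpow_mul h0.le]
    congr 1; push_cast; ring
  have h5 : (π.low ^ δ) ^ 2 ≤ E ^ 2 := pow_le_pow_left₀ (Real.rpow_nonneg h0.le _) h3 2
  calc π.low ^ (2 * δ - 1) * π.len ≤ π.low ^ (2 * δ - 1) * (E * π.low) :=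
        mul_le_mul_of_nonneg_left h2 (Real.rpow_nonneg h0.le _)
    _ = E * (π.low ^ δ) ^ 2 := by rw [← h4]; ring
    _ ≤ E * E ^ 2 := mul_le_mul_of_nonneg_left h5 (by linarith)
    _ = E ^ 3 := by ring

/-- the main term for one `g` -/
theorem fmsmall_main {π : Par} {Q : Lev} {J0 : ℕ} {E δ D U : ℝ} (h : π.OK Q J0 E) (hδ : 0 < δ)
    (hδ1 : δ ≤ 1 / 8) (hD : 1 ≤ D) {g : O} (hg : Prim g) {ν : O → ℂ} (hν : ν ∈ hchars Q.q) (τ : ℝ)
    (P : Finset O) (hP : ∀ r ∈ P, Prim r) :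
    ∑ r ∈ P, ∑ k ∈ ball U, (D * N k) ^ (-δ) * ‖Tsum (fun m => π.al (g * m)) ν r 1 k δ τ‖ ^ 2 ≤
      2 * π.low ^ (2 * δ - 1) *
        ((π.shift (δ - 1 / 2) τ).tw ν).DD g U P (fun π' r k => ‖π'.Ds r k‖ ^ 2) := by
  unfold Par.DD
  rw [Finset.mul_sum]
  refine Finset.sum_le_sum fun r hr => ?_
  rw [Finset.sum_comm, Finset.mul_sum, Finset.mul_sum]
  refine Finset.sum_le_sum fun k hk => ?_
  have h1 : (D * N k) ^ (-δ) ≤ 1 := by
    have := one_le_N (mem_ball.1 hk).1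
    exact Real.rpow_le_one_of_one_le_of_nonpos (by nlinarith) (by linarith)
  refine le_trans (mul_le_of_le_one_left (by positivity) h1) ?_
  exact h.Tsum_le hg (hP r hr) hν hδ.le (by linarith) τ k
/-- Put `X0 = π.len` (`1 ≤ X0` because `1 ≤ L⁶ ≤ D ≤ X0²`).  `pstep` (`σ = δ`, `A0` from `exists_A0`) for
`α_g = al (g ·)` (`SuppSq.dilate`, `Rapid.dilate`) with `U = Kg E X0 D g`.
First term: `∑_g ‖al g‖² ≤ C X0^δ` (`l2_al`).  Tail: `mom α_g A0 ≤ mom al A0 / N g^{A0}`,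
`D U = X0² E/N g²`, so it is `≤ C E E^{-A0} X0³ / N g² ≤ C X0^δ / N g²`.
Main term: `pack` with `T = ` the `g`'s, `ω = 1`, `p = Prim`: for fixed `ν', τ`, `(D N k)^{-δ} ≤ 1`,
`Tsum_le`, `low^{2δ-1} ≤ E³/X0` (`len_le_low`, `low_le_len`), and `DD_total` for
`π₀ = (π.shift (δ - 1/2) τ).tw ν'`, which satisfies `SH` (`len_shift_le`, `le_low_shift`);
`∑_g (G0^c + M N g^{-1-δ/4} X0^δ) ≤ 18 G0^{c+1} + C M X0^δ`. -/
theorem small : ∃ c : ℕ, ∀ (Q : Lev) (J0 B : ℕ) (δ : ℝ), 0 < δ → δ ≤ 1 / 8 →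
    ∃ (C : ℝ) (B' : ℕ), 0 ≤ C ∧
    ∀ (E M X' : ℝ), 1 ≤ M → BndK Q J0 δ E M B X' → ∀ π : Par, π.OK Q J0 E → π.H = 1 →
    ∀ D G0 : ℝ, π.len ^ δ ≤ E → D ≤ π.len ^ 2 → π.len * π.L ≤ D → π.L ^ 6 ≤ D →
    Real.exp 1 ≤ G0 → Real.exp 1 * π.len ≤ G0 * X' →
      ∑ g ∈ (ball G0).filter Prim, ‖Qform (fun m => π.al (g * m)) 1 D‖ ≤
        C * E ^ 13 * (G0 ^ c + M) * (1 + |π.t|) ^ B' * D * π.len ^ δ := by
  obtain ⟨c, hc⟩ := DD_total
  refine ⟨c + 1, fun Q J0 B δ hδ hδ1 => ?_⟩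
  obtain ⟨A0, hA0, hA⟩ := exists_A0 hδ hδ1
  obtain ⟨C0, hC0⟩ := pstep Q hδ (by linarith) hA0
  obtain ⟨C2, hC2, hl2⟩ := l2_al J0 hδ
  obtain ⟨C3, hC3, hmom⟩ := mom_al J0 A0
  obtain ⟨C5, B', hC5, hDD⟩ := hc Q J0 B δ hδ hδ1
  obtain ⟨C4, hC4, hpack⟩ := pack hδ B'
  obtain ⟨C6, hC6, hs6⟩ := sum_N_rpow_le (θ := δ / 4) (by linarith)
  obtain ⟨C7, hC7, hs7⟩ := sum_N_rpow_le (θ := 1) one_pos
  set C1 := max C0 0 with hC1d
  have hC1 : 0 ≤ C1 := le_max_right _ _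
  have hC01 : C0 ≤ C1 := le_max_left _ _
  set V : ℝ := ((hchars Q.q).card : ℝ) with hV
  have hV0 : 0 ≤ V := Nat.cast_nonneg _
  refine ⟨C1 * C2 + C1 * (C4 * V * (2 * C5 * (18 + C6))) + C1 * (C3 ^ 2 * C7), B', by positivity, ?_⟩
  intro E M X' hM hB π h hH D G0 hE1 hDX h2 h4 hG h1
  have hE := h.one_le_E
  have hL := h.one_le_L
  have hlen := h.len_pos
  have hD : 1 ≤ D := (one_le_pow₀ hL).trans h4
  have hX : 1 ≤ π.len := by
    by_contra hlt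
    push Not at hlt
    nlinarith
  have hG1 : 1 ≤ G0 := (Real.one_le_exp zero_le_one).trans hG
  have hXδ : 1 ≤ π.len ^ δ := Real.one_le_rpow hX hδ.le
  set T := (ball G0).filter Prim with hT
  have hTP : ∀ g ∈ T, Prim g := fun g hg => (Finset.mem_filter.1 hg).2
  have hTN : ∀ g ∈ T, N g ≤ G0 := fun g hg => (mem_ball.1 (Finset.mem_filter.1 hg).1).2
  set f : O → O → (O → ℂ) → ℝ → ℝ := fun g r ν τ =>
    ∑ k ∈ ball (Kg E π.len D g), (D * N k) ^ (-δ) *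
      ‖Tsum (fun m => π.al (g * m)) ν r 1 k δ τ‖ ^ 2 with hf
  have hf0 : ∀ g r ν τ, 0 ≤ f g r ν τ := fun g r ν τ =>
    Finset.sum_nonneg fun k _ => mul_nonneg
      (Real.rpow_nonneg (mul_nonneg (by linarith) (N_nonneg _)) _) (by positivity)
  set Y : ℝ := E ^ 13 * (G0 ^ (c + 1) + M) * π.len ^ δ with hY
  have hGc : 1 ≤ G0 ^ (c + 1) := one_le_pow₀ hG1
  have hY1 : π.len ^ δ ≤ Y := by
    have : 1 ≤ E ^ 13 * (G0 ^ (c + 1) + M) :=
      one_le_mul_of_one_le_of_one_le (one_le_pow₀ hE) (by linarith)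
    rw [hY]
    exact le_mul_of_one_le_left (by linarith) this
  -- the main term
  have hmain := hpack O O (O → ℂ) T (hchars Q.q) Prim (fun _ => 1) f (2 * C5 * (18 + C6) * Y) π.t
    (fun _ _ => zero_le_one) hf0 (by have : 0 ≤ Y := by linarith
                                     positivity) (by
      intro ν hν τ P hP
      have hx : δ - 1 / 2 ≤ 0 := by linarith
      have hπ0 : ((π.shift (δ - 1 / 2) τ).tw ν).OK Q J0 E := (h.shift hx τ).tw hν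
      have hSH : ((π.shift (δ - 1 / 2) τ).tw ν).SH δ E X' π.len D G0 := by
        refine ⟨hH, h.len_shift_le hx τ, ?_, hX, hE1, hDX, h2, h4, hG, h1⟩
        have h5 := h.le_low_shift (x := δ - 1 / 2) (by linarith) τ
        have h6 := h.len_le_low
        have h7 := mul_le_mul_of_nonneg_left h5 (show 0 ≤ E by linarith)
        change π.len ≤ 2 * E * (π.shift (δ - 1 / 2) τ).low
        linarith
      have hlow := fmsmall_low h hδ hE1
      have hl0 : 0 ≤ π.low ^ (2 * δ - 1) := Real.rpow_nonneg h.low_pos.le _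
      set u : ℝ := (1 + |π.t - τ|) ^ B' with hu
      have hu0 : 0 ≤ u := by positivity
      have hg1 : ∀ g ∈ T, 1 * ∑ r ∈ P, f g r ν τ ≤
          2 * C5 * E ^ 13 * u * (G0 ^ c + M * π.len ^ δ * N g ^ (-1 - δ / 4)) := by
        intro g hg
        rw [one_mul]
        refine le_trans (fmsmall_main h hδ hδ1 hD (hTP g hg) hν τ P hP) ?_
        have h8 := hDD E M X' hM hB _ hπ0 π.len D G0 hSH g (hTP g hg) (hTN g hg) P hP
        change _ ≤ C5 * E ^ 10 * (G0 ^ c + M * N g ^ (-1 - δ / 4) * π.len ^ δ) * u * π.len at h8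
        refine le_trans (mul_le_mul_of_nonneg_left h8 (by positivity)) ?_
        have h9 : 0 ≤ N g ^ (-1 - δ / 4) := Real.rpow_nonneg (N_nonneg _) _
        have h10 : 0 ≤ 2 * C5 * E ^ 10 * u * (G0 ^ c + M * π.len ^ δ * N g ^ (-1 - δ / 4)) := by
          positivity
        have h11 := mul_le_mul_of_nonneg_left hlow h10
        refine le_trans (le_of_eq ?_) (le_trans h11 (le_of_eq ?_)) <;> ring
      refine le_trans (Finset.sum_le_sum hg1) ?_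
      rw [← Finset.mul_sum, Finset.sum_add_distrib, ← Finset.mul_sum, Finset.sum_const,
        nsmul_eq_mul]
      have hcard : (T.card : ℝ) ≤ 18 * G0 :=
        le_trans (by exact_mod_cast Finset.card_filter_le _ _) (card_ball_le (by linarith))
      have h12 : (T.card : ℝ) * G0 ^ c ≤ 18 * G0 ^ (c + 1) * π.len ^ δ := by
        have h13 : (T.card : ℝ) * G0 ^ c ≤ 18 * G0 ^ (c + 1) := by
          rw [pow_succ]
          have := mul_le_mul_of_nonneg_right hcard (show 0 ≤ G0 ^ c by positivity)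
          linarith
        exact h13.trans (le_mul_of_one_le_right (by positivity) hXδ)
      have h14 : M * π.len ^ δ * ∑ g ∈ T, N g ^ (-1 - δ / 4) ≤ M * π.len ^ δ * C6 :=
        mul_le_mul_of_nonneg_left (hs6 T) (by positivity)
      have h15 : (T.card : ℝ) * G0 ^ c + M * π.len ^ δ * ∑ g ∈ T, N g ^ (-1 - δ / 4) ≤
          (18 + C6) * ((G0 ^ (c + 1) + M) * π.len ^ δ) := by
        have h16 : 0 ≤ C6 * G0 ^ (c + 1) * π.len ^ δ := by positivity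
        have h17 : 0 ≤ M * π.len ^ δ := by positivity
        nlinarith
      refine le_trans (mul_le_mul_of_nonneg_left h15 (by positivity)) (le_of_eq ?_)
      rw [hY]; ring)
  simp only [one_mul] at hmain
  -- one `g`
  have hone : ∀ g ∈ T, ‖Qform (fun m => π.al (g * m)) 1 D‖ ≤
      C1 * D * ‖π.al g‖ ^ 2 +
      C1 * D * (∑' r : O, if Prim r then ∑ ν ∈ hchars Q.q, ∫ τ, Gm δ τ * f g r ν τ else 0) +
      C1 * (C3 ^ 2 * π.len ^ δ * N g ^ (-1 - 1 : ℝ)) := by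
    intro g hg
    have hg0 := (hTP g hg).ne_zero
    have hNg := N_pos hg0
    have hU : 0 < Kg E π.len D g := by unfold Kg; positivity
    have h5 := hC0 _ (h.suppSq.dilate (hTP g hg)) (h.rapid.dilate hg0) D _ (by linarith) hU
    refine le_trans h5 ?_
    have h6 := fmsmall_tail (δ := δ) hX hE (by linarith : 0 < D) hNg (Bk.mom_nonneg _ _)
      ((fmsmall_mom h.rapid hg0 A0).trans (hmom Q E π h)) (hA _ _ hlen hE hE1)
    have h7 : 0 ≤ ∑' r : O, if Prim r then ∑ ν ∈ hchars Q.q, ∫ τ, Gm δ τ * f g r ν τ else 0 := by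
      refine tsum_nonneg fun r => ?_
      split_ifs
      · exact Finset.sum_nonneg fun ν _ => integral_nonneg fun τ =>
          mul_nonneg (Bk.Gm_nonneg _ _) (hf0 _ _ _ _)
      · exact le_rfl
    have hD0 : 0 ≤ D := by linarith
    refine add_le_add (add_le_add ?_ ?_) ?_
    · rw [mul_one]
      exact mul_le_mul_of_nonneg_right (mul_le_mul_of_nonneg_right hC01 hD0) (by positivity)
    · exact mul_le_mul_of_nonneg_right (mul_le_mul_of_nonneg_right hC01 hD0) h7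
    · rw [mul_assoc, mul_assoc, ← mul_assoc (D * _)]
      refine mul_le_mul hC01 h6 (by positivity) hC1
  refine le_trans (Finset.sum_le_sum hone) ?_
  rw [Finset.sum_add_distrib, Finset.sum_add_distrib, ← Finset.mul_sum, ← Finset.mul_sum,
    ← Finset.mul_sum, ← Finset.mul_sum]
  obtain ⟨hsum, hl⟩ := hl2 Q E π h
  have h5 : ∑ g ∈ T, ‖π.al g‖ ^ 2 ≤ C2 * π.len ^ δ :=
    (hsum.sum_le_tsum T fun _ _ => by positivity).trans hl
  set u : ℝ := (1 + |π.t|) ^ B' with hu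
  have hu1 : 1 ≤ u := one_le_pow₀ (by linarith [abs_nonneg π.t])
  have hD0 : 0 ≤ D := by linarith
  have hY0 : 0 ≤ Y := by linarith
  have hZ : π.len ^ δ ≤ Y * u := hY1.trans (le_mul_of_one_le_right hY0 hu1)
  have h6 : C1 * D * ∑ g ∈ T, ‖π.al g‖ ^ 2 ≤ C1 * C2 * (Y * u * D) := by
    have := mul_le_mul_of_nonneg_left (h5.trans (mul_le_mul_of_nonneg_left hZ hC2))
      (mul_nonneg hC1 hD0)
    linarith
  have h7 := mul_le_mul_of_nonneg_left hmain (mul_nonneg hC1 hD0)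
  have h8 : C1 * (C3 ^ 2 * π.len ^ δ * ∑ g ∈ T, N g ^ (-1 - 1 : ℝ)) ≤
      C1 * (C3 ^ 2 * C7) * (Y * u * D) := by
    have h9 : π.len ^ δ ≤ Y * u * D := hZ.trans (le_mul_of_one_le_right (by positivity) hD)
    have h10 : C3 ^ 2 * π.len ^ δ * ∑ g ∈ T, N g ^ (-1 - 1 : ℝ) ≤ C3 ^ 2 * (Y * u * D) * C7 :=
      mul_le_mul (mul_le_mul_of_nonneg_left h9 (by positivity)) (hs7 T)
        (Finset.sum_nonneg fun g _ => Real.rpow_nonneg (N_nonneg _) _) (by positivity)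
    have := mul_le_mul_of_nonneg_left h10 hC1
    linarith
  refine le_trans (add_le_add (add_le_add h6 h7) h8) (le_of_eq ?_)
  rw [hY]; ring

end Crest.Agent.R17.FM
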