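import Crest.Agent.R17.FMoment_Small
import Crest.Agent.R17.FMoment_Large
import Crest.Agent.R17.FMoment_H
import Crest.Agent.R17.FMoment_K

/-!
# R17 / FMoment / Step : the induction step

Definitions in `FMoment_Defs.lean`.  Prefix helper lemmas with `fmstep_`.
-/

set_option autoImplicit false

noncomputable section

open scoped Classical ComplexConjugate
open MeasureTheory

namespace Crest.Agent.R17.FM

theorem fmstep_split {f : O → ℝ} (hs : Summable (fun g : O => if Prim g then f g else 0))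
    (hf : ∀ g, 0 ≤ f g) (G0 : ℝ) :
    ∑' g : O, (if Prim g then f g else 0) =
      ∑ g ∈ (ball G0).filter Prim, f g + ∑' g : O, (if Prim g ∧ G0 < N g then f g else 0) := by
  have h1 : HasSum (fun g : O => if g ∈ (ball G0).filter Prim then f g else 0)
      (∑ g ∈ (ball G0).filter Prim, f g) := by
    have := hasSum_sum_of_ne_finset_zero (s := (ball G0).filter Prim)
      (f := fun g : O => if g ∈ (ball G0).filter Prim then f g else 0) (L := .unconditional O)
      (fun g hg => if_neg hg)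
    rwa [Finset.sum_congr rfl fun g hg => if_pos hg] at this
  have h2 : Summable (fun g : O => if Prim g ∧ G0 < N g then f g else 0) := by
    refine Summable.of_nonneg_of_le (fun g => ?_) (fun g => ?_) hs
    · split_ifs
      · exact hf g
      · exact le_rfl
    · by_cases hg : Prim g
      · rw [if_pos hg]
        split_ifs
        · exact le_rfl
        · exact hf g
      · rw [if_neg hg, if_neg fun h => hg h.1]
  rw [← h1.tsum_eq, ← h1.summable.tsum_add h2]
  refine tsum_congr fun g => ?_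
  by_cases hg : Prim g
  · by_cases h : G0 < N g
    · rw [if_pos hg, if_pos (⟨hg, h⟩ : Prim g ∧ G0 < N g), if_neg, zero_add]
      intro h'
      exact absurd (mem_ball.1 (Finset.mem_filter.1 h').1).2 (not_le.2 h)
    · rw [if_pos hg, if_neg fun h' : Prim g ∧ G0 < N g => h h'.2, if_pos, add_zero]
      exact Finset.mem_filter.2 ⟨mem_ball.2 ⟨hg.ne_zero, not_lt.1 h⟩, hg⟩
  · rw [if_neg hg, if_neg fun h' : Prim g ∧ G0 < N g => hg h'.1,
      if_neg fun h' => hg (Finset.mem_filter.1 h').2, add_zero]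

/-- If `len² ≤ D` use `short` (with `G = 1`).  Otherwise `gcd_split`, split the series at
`N g ≤ G0 = e G`: `small` (with `toH`, `toK`: `M_K = C E · C M`) and `gcd_large`, `large`. -/
theorem step : ∃ c : ℕ, ∀ (Q : Lev) (J0 B : ℕ) (δ : ℝ), 0 < δ → δ ≤ 1 / 8 →
    ∃ (C : ℝ) (B' : ℕ), 1 ≤ C ∧ ∀ E G M X : ℝ, 1 ≤ G → 1 ≤ M → X ^ δ ≤ E →
      Bnd Q J0 δ E M B (X / G) → Bnd Q J0 δ E (C * E ^ c * (G ^ c + M)) B' X := by
  obtain ⟨c, hc⟩ := small
  refine ⟨c + 14, fun Q J0 B δ hδ hδ1 => ?_⟩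
  obtain ⟨C1, B1, hC1, h1⟩ := hc Q J0 B δ hδ hδ1
  obtain ⟨CH, hCH, hH⟩ := toH hδ
  obtain ⟨CK, hCK, hK⟩ := toK J0 hδ
  obtain ⟨CL, hCL, hL⟩ := large hδ
  obtain ⟨CS, hCS, hS⟩ := short J0 hδ hδ1
  have he : (1 : ℝ) ≤ Real.exp 1 := Real.one_le_exp zero_le_one
  have hec : (1 : ℝ) ≤ Real.exp 1 ^ c := one_le_pow₀ he
  refine ⟨CS + C1 * (Real.exp 1 ^ c * (CK * CH)) + CL * CH, B1 + B, ?_, ?_⟩
  · have : 0 ≤ C1 * (Real.exp 1 ^ c * (CK * CH)) := by positivity
    have : 0 ≤ CL * CH := by positivity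
    linarith
  intro E G M X hG hM hX hB π hπ hH1 D hlen h2 h4
  have hE := hπ.one_le_E
  have hL1 := hπ.one_le_L
  have hl0 := hπ.len_pos
  have hD1 : 1 ≤ D := (one_le_pow₀ hL1).trans h4
  have hlδ : 0 ≤ π.len ^ δ := Real.rpow_nonneg hl0.le _
  have ht : 1 ≤ 1 + |π.t| := by linarith [abs_nonneg π.t]
  have hW : 1 ≤ E ^ (c + 14) * (G ^ (c + 14) + M) * (1 + |π.t|) ^ (B1 + B) := by
    refine one_le_mul_of_one_le_of_one_le (one_le_mul_of_one_le_of_one_le (one_le_pow₀ hE) ?_)
      (one_le_pow₀ ht)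
    have : 0 ≤ G ^ (c + 14) := by positivity
    linarith
  obtain ⟨V, hV⟩ : ∃ V, V = E ^ (c + 14) * (G ^ (c + 14) + M) * (1 + |π.t|) ^ (B1 + B) *
    (D * π.len ^ δ) := ⟨_, rfl⟩
  have hV0 : D * π.len ^ δ ≤ V := by
    rw [hV]; exact le_mul_of_one_le_left (by positivity) hW
  have hV1 : 0 ≤ V := le_trans (by positivity) hV0
  have goal : (CS + C1 * (Real.exp 1 ^ c * (CK * CH)) + CL * CH) * E ^ (c + 14) *
      (G ^ (c + 14) + M) * (1 + |π.t|) ^ (B1 + B) * D * π.len ^ δ =
      CS * V + C1 * (Real.exp 1 ^ c * (CK * CH)) * V + CL * CH * V := by rw [hV]; ring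
  rw [goal]
  have hA : 0 ≤ C1 * (Real.exp 1 ^ c * (CK * CH)) * V := by positivity
  have hB' : 0 ≤ CL * CH * V := by positivity
  have hC' : 0 ≤ CS * V := by positivity
  rcases le_total (π.len ^ 2) D with h | h
  · have := hS Q E π hπ D 1 hD1 le_rfl (Or.inr h)
    have h3 : CS * 1 ^ 2 * D * π.len ^ δ ≤ CS * V := by
      rw [one_pow, mul_one, mul_assoc]
      exact mul_le_mul_of_nonneg_left hV0 (by linarith)
    linarith
  have hBH := hH Q J0 E M B (X / G) (by linarith) hB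
  have hBK := hK Q E (CH * M) B (X / G) (by positivity) hBH
  have hG0 : 0 < G := by linarith
  have e1 : Real.exp 1 * G * (X / G) = Real.exp 1 * X := by field_simp
  have hMK : 1 ≤ CK * E * (CH * M) :=
    one_le_mul_of_one_le_of_one_le (one_le_mul_of_one_le_of_one_le hCK hE)
      (one_le_mul_of_one_le_of_one_le hCH hM)
  have s1 := h1 E _ (X / G) hMK hBK π hπ hH1 D (Real.exp 1 * G)
    ((Real.rpow_le_rpow hl0.le hlen hδ.le).trans hX) h h2 h4
    (le_mul_of_one_le_right (by positivity) hG)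
    (by rw [e1]; exact mul_le_mul_of_nonneg_left hlen (by positivity))
  have s2 := hL Q J0 E (CH * M) B (X / G) (by positivity) hBH π hπ hH1 D (Real.exp 1 * G)
    (by positivity) (by rw [e1]; exact hlen.trans (le_mul_of_one_le_left (hl0.le.trans hlen) he))
    h2 h4
  obtain ⟨g1, g2⟩ := gcd_split Q hπ.suppSq hπ.rapid (D := D) (by linarith)
  have g3 := gcd_large Q hπ.suppSq hπ.rapid (D := D) (by linarith) (Real.exp 1 * G)
  rw [fmstep_split g1 (fun _ => norm_nonneg _) (Real.exp 1 * G)] at g2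
  have t1 : C1 * E ^ 13 * ((Real.exp 1 * G) ^ c + CK * E * (CH * M)) * (1 + |π.t|) ^ B1 * D *
      π.len ^ δ ≤ C1 * (Real.exp 1 ^ c * (CK * CH)) * V := by
    have a1 : (Real.exp 1 * G) ^ c + CK * E * (CH * M) ≤
        Real.exp 1 ^ c * (CK * CH) * E * (G ^ (c + 14) + M) := by
      have b1 : G ^ c ≤ G ^ (c + 14) := pow_le_pow_right₀ hG (by omega)
      have b2 : 1 ≤ CK * CH * E :=
        one_le_mul_of_one_le_of_one_le (one_le_mul_of_one_le_of_one_le hCK hCH) hE
      have b3 : (Real.exp 1 * G) ^ c ≤ Real.exp 1 ^ c * (CK * CH) * E * G ^ (c + 14) := by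
        rw [mul_pow]
        calc Real.exp 1 ^ c * G ^ c ≤ Real.exp 1 ^ c * (CK * CH * E * G ^ (c + 14)) := by
              refine mul_le_mul_of_nonneg_left (b1.trans ?_) (by positivity)
              exact le_mul_of_one_le_left (by positivity) b2
          _ = _ := by ring
      have b4 : CK * E * (CH * M) ≤ Real.exp 1 ^ c * (CK * CH) * E * M := by
        calc CK * E * (CH * M) = 1 * (CK * CH * E * M) := by ring
          _ ≤ Real.exp 1 ^ c * (CK * CH * E * M) :=
            mul_le_mul_of_nonneg_right hec (by positivity)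
          _ = _ := by ring
      rw [mul_add]; linarith
    have a2 : E ^ 13 * E ≤ E ^ (c + 14) := by
      rw [← pow_succ]; exact pow_le_pow_right₀ hE (by omega)
    have a3 : (1 + |π.t|) ^ B1 ≤ (1 + |π.t|) ^ (B1 + B) := pow_le_pow_right₀ ht (by omega)
    calc _ ≤ C1 * E ^ 13 * (Real.exp 1 ^ c * (CK * CH) * E * (G ^ (c + 14) + M)) *
          (1 + |π.t|) ^ (B1 + B) * D * π.len ^ δ := by gcongr
      _ = C1 * (Real.exp 1 ^ c * (CK * CH)) * ((E ^ 13 * E) * (G ^ (c + 14) + M) *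
          (1 + |π.t|) ^ (B1 + B) * (D * π.len ^ δ)) := by ring
      _ ≤ _ := by rw [hV]; gcongr
  have t2 : CL * (CH * M) * (1 + |π.t|) ^ B * D * π.len ^ δ ≤ CL * CH * V := by
    have a1 : M ≤ E ^ (c + 14) * (G ^ (c + 14) + M) := by
      have : 0 ≤ G ^ (c + 14) := by positivity
      exact le_trans (by linarith) (le_mul_of_one_le_left (by linarith) (one_le_pow₀ hE))
    have a3 : (1 + |π.t|) ^ B ≤ (1 + |π.t|) ^ (B1 + B) := pow_le_pow_right₀ ht (by omega)
    calc _ = CL * CH * (M * (1 + |π.t|) ^ B * (D * π.len ^ δ)) := by ring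
      _ ≤ _ := by rw [hV]; gcongr
  unfold Mo
  linarith

end Crest.Agent.R17.FM
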