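import Crest.Agent.R17.FMoment_Al

/-!
# R17 / FMoment / Triv : trivial bounds and the short case

Definitions in `FMoment_Defs.lean`.  Prefix helper lemmas with `fmtriv_`.
-/

set_option autoImplicit false

noncomputable section

open scoped Classical ComplexConjugate
open MeasureTheory

namespace Crest.Agent.R17.FM

theorem fmtriv_dvd {e : O} (he : e ≠ 0) (x y : ℝ) :
    ∑' n : O, (if e ∣ n then (if n = 0 then 0 else
      N n ^ x * gw (Real.log (N n) - (y + Real.log (N e)))) else 0) =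
      N e ^ x * ∑' m : O, (if m = 0 then 0 else N m ^ x * gw (Real.log (N m) - y)) := by
  have hi : Function.Injective (fun m : O => e * m) := mul_right_injective₀ he
  rw [← hi.tsum_eq, ← tsum_mul_left]
  · refine tsum_congr fun m => ?_
    rw [if_pos (dvd_mul_right _ _)]
    by_cases hm : m = 0
    · simp [hm]
    · rw [if_neg (mul_ne_zero he hm), if_neg hm, N_mul, Real.mul_rpow (N_nonneg _) (N_nonneg _),
        Real.log_mul (N_pos he).ne' (N_pos hm).ne', mul_assoc]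
      congr 3
      ring
  · intro n hn
    have h : e ∣ n := by
      by_contra h
      exact hn (if_neg h)
    obtain ⟨m, rfl⟩ := h
    exact ⟨m, rfl⟩

/-- `norm_W_le`, then for each `I` put `n = (∏ I) m` (`tsum_dvd`): `N(∏I)^x · C e^{(x+1) y}` by
`tsum_gw_rpow`; `∑_I N(∏ I)^x ≤ (∑_{p ∈ S} N p^x)^J ≤ (C P2^{x+1})^J` (`sum_powersetCard_prod_le`,
`sum_ball_rpow` with `σ = -x`, `S ⊆ ball P2`). -/
theorem mom_gw (J0 : ℕ) {x : ℝ} (hx : -1 < x) : ∃ C, 0 ≤ C ∧ ∀ (Q : Lev) (E : ℝ) (π : Par),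
    π.OK Q J0 E →
    Summable (fun n : O => if n = 0 then 0 else N n ^ x *
      ∑ I ∈ (π.S.powersetCard π.J).filter (fun I => pr I ∣ n),
        gw (Real.log (N n) - (π.y + Real.log (N (pr I))))) ∧
    ∑' n : O, (if n = 0 then 0 else N n ^ x *
      ∑ I ∈ (π.S.powersetCard π.J).filter (fun I => pr I ∣ n),
        gw (Real.log (N n) - (π.y + Real.log (N (pr I))))) ≤ C * π.len ^ (x + 1) := by
  obtain ⟨C1, hC1⟩ := tsum_gw_rpow x
  obtain ⟨C2, hC2⟩ := sum_ball_rpow (σ := -x) (by linarith)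
  refine ⟨max C1 0 * max C2 1 ^ J0, by positivity, fun Q E π h => ?_⟩
  set g : Finset O → O → ℝ := fun I n => if pr I ∣ n then (if n = 0 then 0 else
    N n ^ x * gw (Real.log (N n) - (π.y + Real.log (N (pr I))))) else 0 with hg
  have hgs : ∀ I ∈ π.S.powersetCard π.J, Summable (g I) := by
    intro I _
    refine Summable.of_nonneg_of_le (fun n => ?_) (fun n => ?_)
      (summable_gw_rpow x (π.y + Real.log (N (pr I))))
    · simp only [hg]
      split_ifs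
      · exact le_rfl
      · exact mul_nonneg (Real.rpow_nonneg (N_nonneg _) _) (gw_pos _).le
      · exact le_rfl
    · simp only [hg]
      by_cases h1 : pr I ∣ n
      · rw [if_pos h1]
      · rw [if_neg h1]
        exact bl1_nonneg _ _ _
  have he : (fun n : O => if n = 0 then 0 else N n ^ x *
      ∑ I ∈ (π.S.powersetCard π.J).filter (fun I => pr I ∣ n),
        gw (Real.log (N n) - (π.y + Real.log (N (pr I))))) =
      fun n => ∑ I ∈ π.S.powersetCard π.J, g I n := by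
    funext n
    simp only [hg]
    rw [← Finset.sum_filter]
    by_cases hn : n = 0
    · simp [hn]
    · simp only [hn, if_false, Finset.mul_sum]
  rw [he]
  refine ⟨summable_sum hgs, ?_⟩
  rw [Summable.tsum_finsetSum hgs]
  have hP : 0 < π.P2 := by linarith [h.h1, h.h12]
  have h1 : ∀ I ∈ π.S.powersetCard π.J, ∑' n, g I n ≤
      (∏ p ∈ I, N p ^ x) * (max C1 0 * Real.exp ((x + 1) * π.y)) := by
    intro I hI
    have hI' := (Finset.mem_powersetCard.mp hI).1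
    simp only [hg]
    rw [fmtriv_dvd (pr_prim h.primes hI').ne_zero, N_prod,
      Real.finsetProd_rpow _ _ (fun p _ => N_nonneg p)]
    refine mul_le_mul_of_nonneg_left (le_trans (hC1 _) ?_)
      (Real.rpow_nonneg (Finset.prod_nonneg fun p _ => N_nonneg p) _)
    exact mul_le_mul_of_nonneg_right (le_max_left _ _) (Real.exp_pos _).le
  refine le_trans (Finset.sum_le_sum h1) ?_
  rw [← Finset.sum_mul]
  have h2 := sum_powersetCard_prod_le π.S π.J (f := fun p => N p ^ x)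
    fun p _ => Real.rpow_nonneg (N_nonneg _) _
  have h3 : ∑ p ∈ π.S, N p ^ x ≤ max C2 1 * π.P2 ^ (x + 1) := by
    have a1 : π.S ⊆ ball π.P2 := fun p hp =>
      mem_ball.mpr ⟨(h.hS p hp).1.ne_zero, (h.hS p hp).2.2.2.2⟩
    have a2 := hC2 π.P2 (le_trans h.h1 h.h12)
    rw [neg_neg, show 1 - -x = x + 1 by ring] at a2
    refine le_trans (Finset.sum_le_sum_of_subset_of_nonneg a1
      fun p _ _ => Real.rpow_nonneg (N_nonneg _) _) (le_trans a2 ?_)
    exact mul_le_mul_of_nonneg_right (le_max_left _ _) (Real.rpow_nonneg hP.le _)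
  have h4 : (∑ p ∈ π.S, N p ^ x) ^ π.J ≤ max C2 1 ^ J0 * (π.P2 ^ (x + 1)) ^ π.J := by
    refine le_trans (pow_le_pow_left₀
      (Finset.sum_nonneg fun p _ => Real.rpow_nonneg (N_nonneg _) _) h3 _) ?_
    rw [mul_pow]
    exact mul_le_mul_of_nonneg_right (pow_le_pow_right₀ (le_max_right _ _) h.hJ) (by positivity)
  have h5 : π.len ^ (x + 1) = (π.P2 ^ (x + 1)) ^ π.J * Real.exp ((x + 1) * π.y) := by
    unfold Par.len
    rw [Real.mul_rpow (Real.exp_pos _).le (by positivity), ← Real.exp_mul, mul_comm π.y,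
      Real.rpow_pow_comm hP.le, mul_comm]
  rw [h5]
  calc _ ≤ max C2 1 ^ J0 * (π.P2 ^ (x + 1)) ^ π.J * (max C1 0 * Real.exp ((x + 1) * π.y)) :=
        mul_le_mul_of_nonneg_right (le_trans h2 h4) (by positivity)
    _ = _ := by ring

variable {π : Par} {Q : Lev} {J0 : ℕ} {E : ℝ}

/-- the majorant of `mom_gw` -/
def fmtriv_G (π : Par) (x : ℝ) (n : O) : ℝ := if n = 0 then 0 else N n ^ x *
  ∑ I ∈ (π.S.powersetCard π.J).filter (fun I => pr I ∣ n),
    gw (Real.log (N n) - (π.y + Real.log (N (pr I))))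

theorem fmtriv_summ (h : π.OK Q J0 E) {x : ℝ} (hx : -1 < x) : Summable (fmtriv_G π x) := by
  obtain ⟨C, -, hC⟩ := mom_gw J0 hx
  exact (hC Q E π h).1

theorem fmtriv_al_zero (h : π.OK Q J0 E) : π.al 0 = 0 := by
  by_contra h0
  exact (h.supp h0).1.1.ne_zero rfl

theorem fmtriv_al_le (h : π.OK Q J0 E) (x : ℝ) (n : O) :
    ‖π.al n‖ * N n ^ x ≤ fmtriv_G π (x - 1 / 2) n := by
  unfold fmtriv_G
  by_cases hn : n = 0
  · rw [if_pos hn, hn, fmtriv_al_zero h, norm_zero, zero_mul]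
  · rw [if_neg hn, sub_eq_add_neg, Real.rpow_add (N_pos hn), mul_comm, mul_assoc]
    refine mul_le_mul_of_nonneg_left (le_trans (h.norm_al_le n) ?_) (Real.rpow_nonneg (N_nonneg _) _)
    exact mul_le_mul_of_nonneg_left (norm_W_le h.hb _ _ _) (Real.rpow_nonneg (N_nonneg _) _)

theorem fmtriv_ph_le (h : π.OK Q J0 E) (r n : O) : ‖π.ph Q r n‖ ≤ 1 := by
  unfold Par.ph
  split_ifs with h1
  · have h6 := h1.1.isCoprime_six
    rw [norm_mul, norm_mul, norm_mul, norm_f1 h6]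
    have a1 := TL.norm_chi_le h6 (-1)
    have a2 := norm_hchar_le Q h.hν n
    have a3 := TL.norm_chi_le h6 (r ^ 2)
    rw [mul_one]
    exact mul_le_one₀ (mul_le_one₀ a1 (norm_nonneg _) a2) (norm_nonneg _) a3
  · simp

theorem Par.OK.rapid (h : π.OK Q J0 E) : Rapid π.al := by
  intro j
  have hj : (0 : ℝ) ≤ j := Nat.cast_nonneg j
  refine Summable.of_nonneg_of_le (fun n => mul_nonneg (norm_nonneg _) (pow_nonneg (N_nonneg _) _))
    (fun n => ?_) (fmtriv_summ h (x := j - 1 / 2) (by linarith))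
  rw [← Real.rpow_natCast]
  exact fmtriv_al_le h j n
theorem Par.OK.summable (h : π.OK Q J0 E) : Summable (fun n => ‖π.al n‖) := by
  exact TL.summ_norm h.rapid
/-- summability of `al` against a function bounded on the support -/
theorem Par.OK.summable_mul (h : π.OK Q J0 E) {u : O → ℂ}
    (hu : ∀ m, P0 Q m → Squarefree m → ‖u m‖ ≤ 1) : Summable (fun m => π.al m * u m) := by
  refine Summable.of_norm_bounded h.summable fun m => ?_
  by_cases h0 : π.al m = 0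
  · simp [h0]
  · rw [norm_mul]
    exact mul_le_of_le_one_right (norm_nonneg _) (hu m (h.supp h0).1 (h.supp h0).2.1)
/-- `‖tt n‖ ≤ N n^{1/6}` (`norm_tau_le`, `norm_ang`), `‖ph‖ ≤ 1`, `ph n ≠ 0 → P0 Q n` -/
theorem Par.OK.summable_Ath (h : π.OK Q J0 E) (r k : O) :
    Summable (fun n => ‖π.Ath Q r k n‖) := by
  refine Summable.of_nonneg_of_le (fun _ => norm_nonneg _) (fun n => ?_)
    (fmtriv_summ h (x := 1 / 6 + -(1 / 2)) (by norm_num))
  have hs : 0 ≤ ∑ I ∈ (π.S.powersetCard π.J).filter (fun I => pr I ∣ n),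
      gw (Real.log (N n) - (π.y + Real.log (N (pr I)))) := Finset.sum_nonneg fun _ _ => (gw_pos _).le
  unfold fmtriv_G Par.Ath
  by_cases h0 : π.ph Q r n = 0
  · rw [h0]
    simp only [mul_zero, zero_mul, norm_zero]
    split_ifs
    · exact le_rfl
    · exact mul_nonneg (Real.rpow_nonneg (N_nonneg _) _) hs
  · have h1 : P0 Q n := by
      by_contra h1
      exact h0 (if_neg fun h2 => h1 h2.1)
    have hn := h1.1.ne_zero
    have a1 : ‖tt n‖ ≤ N n ^ (1 / 6 : ℝ) := by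
      rw [tt, norm_mul, norm_ang hn, mul_one]
      exact norm_tau_le h1.1
    have a2 := fmtriv_ph_le h r n
    have a3 := TL.norm_chi_le h1.isCoprime_six k
    have a4 : ‖(N n : ℂ) ^ (-(1 / 2 + π.t * Complex.I))‖ = N n ^ (-(1 / 2) : ℝ) := by
      rw [Complex.norm_cpow_eq_rpow_re_of_pos (N_pos hn)]
      congr 1
      simp
    have a5 := norm_W_le h.hb π.J π.y n
    have a6 := Real.rpow_nonneg (N_nonneg n) (1 / 6)
    have a7 := Real.rpow_nonneg (N_nonneg n) (-(1 / 2))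
    rw [if_neg hn, norm_mul, norm_mul, norm_mul, norm_mul, Complex.norm_conj, a4,
      Real.rpow_add (N_pos hn)]
    set s := ∑ I ∈ (π.S.powersetCard π.J).filter (fun I => pr I ∣ n),
      gw (Real.log (N n) - (π.y + Real.log (N (pr I))))
    calc _ ≤ N n ^ (1 / 6 : ℝ) * 1 * 1 * N n ^ (-(1 / 2) : ℝ) * s := by gcongr
      _ = _ := by ring
theorem Par.OK.norm_ph_le (h : π.OK Q J0 E) (r n : O) : ‖π.ph Q r n‖ ≤ 1 := by
  exact fmtriv_ph_le h r n

theorem mom_al (J0 j : ℕ) : ∃ C, 0 ≤ C ∧ ∀ (Q : Lev) (E : ℝ) (π : Par), π.OK Q J0 E →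
    mom π.al j ≤ C * π.len ^ ((j : ℝ) + 1 / 2) := by
  have hj : (0 : ℝ) ≤ j := Nat.cast_nonneg j
  obtain ⟨C, hC0, hC⟩ := mom_gw J0 (x := j - 1 / 2) (by linarith)
  refine ⟨C, hC0, fun Q E π h => ?_⟩
  obtain ⟨h1, h2⟩ := hC Q E π h
  rw [show (j : ℝ) - 1 / 2 + 1 = j + 1 / 2 by ring] at h2
  refine le_trans (Summable.tsum_le_tsum (fun n => ?_) (h.rapid j) h1) h2
  rw [← Real.rpow_natCast]
  exact fmtriv_al_le h j n

/-- `‖W n‖² ≤ dv n · ∑_I gw² ≤ C N n^δ ∑_I gw` (`card_filter_pr_le`, `gw_le_one`), `mom_gw` with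
`x = -1 + δ` -/
theorem l2_al (J0 : ℕ) {δ : ℝ} (hδ : 0 < δ) : ∃ C, 0 ≤ C ∧ ∀ (Q : Lev) (E : ℝ) (π : Par),
    π.OK Q J0 E → Summable (fun n => ‖π.al n‖ ^ 2) ∧ ∑' n, ‖π.al n‖ ^ 2 ≤ C * π.len ^ δ := by
  obtain ⟨C, hC0, hC⟩ := mom_gw J0 (x := -1 + δ) (by linarith)
  obtain ⟨Cd, hCd1, hCd⟩ := dv_le hδ
  refine ⟨Cd * C, by positivity, fun Q E π h => ?_⟩
  obtain ⟨h1, h2⟩ := hC Q E π h
  rw [show -1 + δ + 1 = δ by ring] at h2
  have hs := TL.summ_sq h.summable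
  refine ⟨hs, ?_⟩
  rw [mul_assoc]
  refine le_trans ?_ (mul_le_mul_of_nonneg_left h2 (by linarith))
  rw [← tsum_mul_left]
  refine Summable.tsum_le_tsum (fun n => ?_) hs (h1.mul_left _)
  by_cases hn : n = 0
  · rw [if_pos hn, hn, fmtriv_al_zero h]
    simp
  · rw [if_neg hn]
    set s := ∑ I ∈ (π.S.powersetCard π.J).filter (fun I => pr I ∣ n),
      gw (Real.log (N n) - (π.y + Real.log (N (pr I)))) with hsdef
    have hs0 : 0 ≤ s := Finset.sum_nonneg fun _ _ => (gw_pos _).le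
    have a1 : s ≤ Cd * N n ^ δ := by
      refine le_trans (Finset.sum_le_card_nsmul _ _ 1 fun I _ => gw_le_one _) ?_
      rw [nsmul_eq_mul, mul_one]
      exact le_trans (card_filter_pr_le h.primes _ hn) (hCd n hn)
    have a2 : ‖π.al n‖ ≤ N n ^ (-(1 / 2 : ℝ)) * s := le_trans (h.norm_al_le n)
      (mul_le_mul_of_nonneg_left (norm_W_le h.hb _ _ _) (Real.rpow_nonneg (N_nonneg _) _))
    have a3 : N n ^ (-1 + δ) = N n ^ (-(1 / 2 : ℝ)) * N n ^ (-(1 / 2 : ℝ)) * N n ^ δ := by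
      rw [← Real.rpow_add (N_pos hn), ← Real.rpow_add (N_pos hn)]
      congr 1
      ring
    have a4 := Real.rpow_nonneg (N_nonneg n) (-(1 / 2 : ℝ))
    calc _ ≤ (N n ^ (-(1 / 2 : ℝ)) * s) ^ 2 := pow_le_pow_left₀ (norm_nonneg _) a2 2
      _ = N n ^ (-(1 / 2 : ℝ)) * N n ^ (-(1 / 2 : ℝ)) * s * s := by ring
      _ ≤ N n ^ (-(1 / 2 : ℝ)) * N n ^ (-(1 / 2 : ℝ)) * s * (Cd * N n ^ δ) := by gcongr
      _ = _ := by
        rw [a3]
        ring

/-- `tls` with `j = 1`: `‖al‖² ≤ C len^δ`, `∑ ‖al n‖ √N n ≤ C len` (`mom_gw` with `x = 0`), and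
`len² ≤ G² D len^δ` (if `len ≤ 1` then `len² ≤ len^δ`; otherwise `1 ≤ len^δ`). -/
theorem short (J0 : ℕ) {δ : ℝ} (hδ : 0 < δ) (hδ1 : δ ≤ 1 / 8) : ∃ C, 1 ≤ C ∧
    ∀ (Q : Lev) (E : ℝ) (π : Par), π.OK Q J0 E → ∀ D G : ℝ, 1 ≤ D → 1 ≤ G →
      (π.len ≤ G ∨ π.len ^ 2 ≤ D) → Mo π.al D ≤ C * G ^ 2 * D * π.len ^ δ := by
  obtain ⟨C0, hC0⟩ := tls
  obtain ⟨C1, hC10, hC1⟩ := l2_al J0 hδ
  obtain ⟨C2, hC20, hC2⟩ := mom_gw J0 (x := 1 / 2 - 1 / 2) (by norm_num)
  have hm : 0 ≤ max C0 0 := le_max_right _ _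
  refine ⟨max C0 0 * (2 * C1 + C2 ^ 2) + 1, le_add_of_nonneg_left (by positivity),
    fun Q E π h D G hD hG hl => ?_⟩
  have h1 := hC0 1 (by norm_num) π.al
    (fun n hn => ⟨(h.supp hn).1.1, (h.supp hn).2.1, (h.supp hn).1.isCoprime_two⟩) h.rapid D
    (by linarith)
  simp only [pow_one] at h1
  have h2 := (hC1 Q E π h).2
  obtain ⟨h3, h4⟩ := hC2 Q E π h
  have hl0 := h.len_pos
  have h5 : ∑' n, ‖π.al n‖ * Real.sqrt (N n) ≤ C2 * π.len := by
    rw [show (1 : ℝ) / 2 - 1 / 2 + 1 = 1 by ring, Real.rpow_one] at h4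
    have b : ∀ n, ‖π.al n‖ * Real.sqrt (N n) ≤ fmtriv_G π (1 / 2 - 1 / 2) n := fun n => by
      rw [Real.sqrt_eq_rpow]
      exact fmtriv_al_le h (1 / 2) n
    exact le_trans (Summable.tsum_le_tsum b
      (Summable.of_nonneg_of_le (fun n => by positivity) b h3) h3) h4
  have hp : 0 < π.len ^ δ := Real.rpow_pos_of_pos hl0 _
  have hG2 : 1 ≤ G ^ 2 := one_le_pow₀ hG
  have hGD : 1 ≤ G ^ 2 * D := one_le_mul_of_one_le_of_one_le hG2 hD
  have h6 : π.len ^ 2 ≤ G ^ 2 * D * π.len ^ δ := by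
    rcases le_total π.len 1 with h7 | h7
    · have h8 : π.len ^ 2 ≤ π.len ^ δ := by
        rw [← Real.rpow_two]
        exact Real.rpow_le_rpow_of_exponent_ge hl0 h7 (by linarith)
      exact le_trans h8 (le_mul_of_one_le_left hp.le hGD)
    · have h8 : π.len ^ 2 ≤ G ^ 2 * D := by
        rcases hl with h9 | h9
        · exact le_trans (pow_le_pow_left₀ hl0.le h9 2) (le_mul_of_one_le_right (by positivity) hD)
        · exact le_trans h9 (le_mul_of_one_le_left (by linarith) hG2)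
      exact le_trans h8 (le_mul_of_one_le_right (by positivity) (Real.one_le_rpow h7 hδ.le))
  have p1 : 0 ≤ ∑' n, ‖π.al n‖ ^ 2 := tsum_nonneg fun n => by positivity
  have p2 : 0 ≤ ∑' n, ‖π.al n‖ * Real.sqrt (N n) := tsum_nonneg fun n => by positivity
  have h7 : (1 + D) * ∑' n, ‖π.al n‖ ^ 2 ≤ 2 * C1 * (G ^ 2 * D * π.len ^ δ) := by
    calc _ ≤ (2 * (G ^ 2 * D)) * (C1 * π.len ^ δ) := by
          refine mul_le_mul ?_ h2 p1 (by positivity)
          nlinarith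
      _ = _ := by ring
  have h8 : (∑' n, ‖π.al n‖ * Real.sqrt (N n)) ^ 2 ≤ C2 ^ 2 * (G ^ 2 * D * π.len ^ δ) := by
    refine le_trans (pow_le_pow_left₀ p2 h5 2) ?_
    rw [mul_pow]
    gcongr
  refine le_trans h1 ?_
  calc _ ≤ max C0 0 * ((1 + D) * ∑' n, ‖π.al n‖ ^ 2 + (∑' n, ‖π.al n‖ * Real.sqrt (N n)) ^ 2) :=
        mul_le_mul_of_nonneg_right (le_max_left _ _) (by positivity)
    _ ≤ max C0 0 * (2 * C1 * (G ^ 2 * D * π.len ^ δ) + C2 ^ 2 * (G ^ 2 * D * π.len ^ δ)) := by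
        gcongr
    _ = max C0 0 * (2 * C1 + C2 ^ 2) * (G ^ 2 * D * π.len ^ δ) := by ring
    _ ≤ (max C0 0 * (2 * C1 + C2 ^ 2) + 1) * (G ^ 2 * D * π.len ^ δ) := by
        gcongr
        linarith
    _ = _ := by ring

end Crest.Agent.R17.FM
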