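import Crest.Agent.R17.FMoment_Triv

/-!
# R17 / FMoment / Twist : the sums produced by the Poisson steps

Definitions in `FMoment_Defs.lean`.  Prefix helper lemmas with `fmtwist_`.
-/

set_option autoImplicit false

noncomputable section

open scoped Classical ComplexConjugate
open MeasureTheory

namespace Crest.Agent.R17.FM

variable {π : Par} {Q : Lev} {J0 : ℕ} {E : ℝ}

/-- `N(r m)^s = N(g r m)^s N(g)^{-s}`, `al_shift`, `al_dil` (for `π.shift x τ`, `G = g r`), `al_tw`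
(`((π.shift x τ).dil G I).tw ν' = ((π.shift x τ).tw ν').dil G I` by `rfl`), `tsum_finsetSum`
(`summable_mul`), `norm_sum_sq_le`, `norm_cf_le`, `card_marks_le`; `N g^{-2x} ≤ N g`, `e^{x²/2} ≤ 2`. -/
theorem Par.OK.twist_le (h : π.OK Q J0 E) {g r : O} (hg : Prim g) (hr : Prim r) {ν' : O → ℂ}
    (hν : ν' ∈ hchars Q.q) {x : ℝ} (hx : -(1 / 2) ≤ x) (hx0 : x ≤ 0) (τ : ℝ) {u : O → ℂ}
    (hu : ∀ m, P0 Q m → Squarefree m → ‖u m‖ ≤ 1) :
    ‖∑' m, π.al (g * r * m) * (N (r * m) : ℂ) ^ ((x : ℂ) + τ * Complex.I) * ν' m * u m‖ ^ 2 ≤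
      2 * π.low ^ (2 * x) * ((N r)⁻¹ * dv (g * r) * ∑ I ∈ marks π.S π.J (g * r),
        ‖∑' m, (((π.shift x τ).tw ν').dil (g * r) I).al m * u m‖ ^ 2) := by
  have h' := h.shift hx0 τ
  have hG := hg.mul hr
  have hg1 := one_le_N hg.ne_zero
  have hg0 := N_pos hg.ne_zero
  have hr0 := N_pos hr.ne_zero
  have hlow := h.low_pos
  have hne : (N g : ℂ) ^ ((x : ℂ) + τ * Complex.I) ≠ 0 := by
    rw [Ne, Complex.cpow_eq_zero_iff, not_and_or]
    exact Or.inl (by exact_mod_cast hg0.ne')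
  have e1 : ∀ m, π.al (g * r * m) * (N (r * m) : ℂ) ^ ((x : ℂ) + τ * Complex.I) * ν' m * u m =
      ((N g : ℂ) ^ ((x : ℂ) + τ * Complex.I))⁻¹ * ((Real.exp (x ^ 2 / 4) * π.low ^ x : ℝ) : ℂ) *
        ∑ I ∈ marks π.S π.J (g * r), (π.shift x τ).cf (g * r) I *
          ((((π.shift x τ).tw ν').dil (g * r) I).al m * u m) := fun m => by
    have a1 := h.al_shift x τ (g * r * m)
    have a2 : (N (g * r * m) : ℂ) ^ ((x : ℂ) + τ * Complex.I) =
        (N g : ℂ) ^ ((x : ℂ) + τ * Complex.I) * (N (r * m) : ℂ) ^ ((x : ℂ) + τ * Complex.I) := by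
      rw [mul_assoc, N_mul g, Complex.ofReal_mul,
        Complex.mul_cpow_ofReal_nonneg (N_nonneg _) (N_nonneg _)]
    have a3 : (π.shift x τ).al (g * r * m) = ∑ I ∈ marks π.S π.J (g * r),
        (π.shift x τ).cf (g * r) I * ((π.shift x τ).dil (g * r) I).al m := h'.al_dil hG m
    have a4 : ∑ I ∈ marks π.S π.J (g * r), (π.shift x τ).cf (g * r) I *
        ((((π.shift x τ).tw ν').dil (g * r) I).al m * u m) =
        (π.shift x τ).al (g * r * m) * (ν' m * u m) := by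
      rw [a3, Finset.sum_mul]
      refine Finset.sum_congr rfl fun I _ => ?_
      have a5 : (((π.shift x τ).tw ν').dil (g * r) I).al m =
          ((π.shift x τ).dil (g * r) I).al m * ν' m := Par.al_tw ((π.shift x τ).dil (g * r) I) ν' m
      rw [a5]
      ring
    rw [a4, mul_assoc (_ : ℂ)⁻¹, ← mul_assoc _ _ (ν' m * u m), ← a1, a2]
    field_simp
  have hs : ∀ I ∈ marks π.S π.J (g * r), Summable fun m => (π.shift x τ).cf (g * r) I *
      ((((π.shift x τ).tw ν').dil (g * r) I).al m * u m) := fun I _ =>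
    (((h'.tw hν).dil hG I).summable_mul hu).mul_left _
  rw [tsum_congr e1, tsum_mul_left, Summable.tsum_finsetSum hs]
  simp only [tsum_mul_left]
  have b1 : ‖((N g : ℂ) ^ ((x : ℂ) + τ * Complex.I))⁻¹‖ ^ 2 ≤ N g := by
    rw [norm_inv, Complex.norm_cpow_eq_rpow_re_of_pos hg0, ← Real.rpow_neg hg0.le,
      ← Real.rpow_natCast, ← Real.rpow_mul hg0.le]
    conv_rhs => rw [← Real.rpow_one (N g)]
    refine Real.rpow_le_rpow_of_exponent_le hg1 ?_
    simp
    linarith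
  have b2 : ‖((Real.exp (x ^ 2 / 4) * π.low ^ x : ℝ) : ℂ)‖ ^ 2 ≤ 2 * π.low ^ (2 * x) := by
    rw [Complex.norm_real, Real.norm_eq_abs, sq_abs, mul_pow, mul_comm 2 x, Real.rpow_mul hlow.le,
      Real.rpow_two]
    refine mul_le_mul_of_nonneg_right ?_ (sq_nonneg _)
    rw [← Real.exp_nat_mul, ← Real.le_log_iff_exp_le (by norm_num)]
    have := Real.log_two_gt_d9
    push_cast
    nlinarith
  have b3 : ‖∑ I ∈ marks π.S π.J (g * r), (π.shift x τ).cf (g * r) I *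
      ∑' m, (((π.shift x τ).tw ν').dil (g * r) I).al m * u m‖ ^ 2 ≤
      dv (g * r) * ((N (g * r))⁻¹ * ∑ I ∈ marks π.S π.J (g * r),
        ‖∑' m, (((π.shift x τ).tw ν').dil (g * r) I).al m * u m‖ ^ 2) := by
    refine (norm_sum_sq_le _ _).trans (mul_le_mul (card_marks_le h.primes _ hG.ne_zero) ?_
      (Finset.sum_nonneg fun _ _ => sq_nonneg _) (dv_nonneg _))
    rw [Finset.mul_sum]
    refine Finset.sum_le_sum fun I hI => ?_
    rw [norm_mul, mul_pow]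
    refine mul_le_mul_of_nonneg_right ?_ (sq_nonneg _)
    refine (pow_le_pow_left₀ (norm_nonneg _) (h'.norm_cf_le hG.ne_zero (mem_marks.1 hI).1) 2).trans_eq ?_
    rw [← Real.rpow_natCast, ← Real.rpow_mul (N_nonneg _), ← Real.rpow_neg_one]
    norm_num
  rw [norm_mul, norm_mul, mul_pow, mul_pow]
  refine (mul_le_mul (mul_le_mul b1 b2 (sq_nonneg _) hg0.le) b3 (sq_nonneg _)
    (mul_nonneg hg0.le (by positivity))).trans_eq ?_
  rw [N_mul]
  field_simp

/-- `twist_le` with `x = σ - 1/2`, `u m = χ_m(r²) gt m conj χ_m(k)` (`norm_gt`) -/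
theorem Par.OK.Tsum_le (h : π.OK Q J0 E) {g r : O} (hg : Prim g) (hr : Prim r) {ν' : O → ℂ}
    (hν : ν' ∈ hchars Q.q) {σ : ℝ} (hσ : 0 ≤ σ) (hσ1 : σ ≤ 1 / 2) (τ : ℝ) (k : O) :
    ‖Tsum (fun m => π.al (g * m)) ν' r 1 k σ τ‖ ^ 2 ≤
      2 * π.low ^ (2 * σ - 1) * ((N r)⁻¹ * dv (g * r) * ∑ I ∈ marks π.S π.J (g * r),
        ‖(((π.shift (σ - 1 / 2) τ).tw ν').dil (g * r) I).Ds r k‖ ^ 2) := by
  have hu : ∀ m, P0 Q m → Squarefree m → ‖chi m (r ^ 2) * gt m * conj (chi m k)‖ ≤ 1 :=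
    fun m h1 h2 => by
      have h6 := ChA.chi_isChar h1.isCoprime_six
      rw [norm_mul, norm_mul, norm_gt h1.isCoprime_six h2, mul_one, Complex.norm_conj]
      exact mul_le_one₀ (h6.norm_le h1.1.ne_zero _) (norm_nonneg _) (h6.norm_le h1.1.ne_zero _)
  have key := h.twist_le hg hr hν (x := σ - 1 / 2) (by linarith) (by linarith) τ hu
  have e1 : 2 * (σ - 1 / 2) = 2 * σ - 1 := by ring
  have e2 : ((σ - 1 / 2 : ℝ) : ℂ) + τ * Complex.I = -(1 / 2 : ℂ) + σ + τ * Complex.I := by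
    push_cast
    ring
  rw [e1, e2] at key
  have e3 : Tsum (fun m => π.al (g * m)) ν' r 1 k σ τ =
      ∑' m, π.al (g * r * m) * (N (r * m) : ℂ) ^ (-(1 / 2 : ℂ) + σ + τ * Complex.I) * ν' m *
        (chi m (r ^ 2) * gt m * conj (chi m k)) := by
    refine tsum_congr fun m => ?_
    simp only [one_mul, mul_assoc g]
    ring
  rw [e3]
  simpa only [Par.Ds, mul_assoc] using key

/-- On the support of `al` (coprime to `6`): `χ_{g r' m}(r²) = χ_{g r'}(r²) χ_m(r²)` (pull the constant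
`χ_{g r'}(r²)`, of norm `≤ 1` if `g r'` is coprime to `6`, out of the series; otherwise all terms vanish),
`χ_m(r²) χ_m(d g²) = χ_m(d g² r²)`.  `twist_le` with `u m = χ_m(d g² r²)`, then `al_relax` with
`ρ = d g² r²` replaces `dil (g r') I` by `(excl r').set …`. -/
theorem Par.OK.Bsum_le (h : π.OK Q J0 E) {g r' : O} (hg : Prim g) (hr : Prim r') {ν' : O → ℂ}
    (hν : ν' ∈ hchars Q.q) {σ : ℝ} (hσ : 0 ≤ σ) (hσ1 : σ ≤ 1 / 2) (τ : ℝ) (r d : O) :
    ‖Bsum (fun m => π.al m * chi m (r ^ 2)) ν' g r' (d * g ^ 2) σ τ‖ ^ 2 ≤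
      2 * π.low ^ (2 * σ - 1) * ((N r')⁻¹ * dv (g * r') * ∑ I ∈ marks π.S π.J (g * r'),
        ‖((((π.shift (σ - 1 / 2) τ).tw ν').excl r').set (π.J - I.card)
          (π.y + (σ - 1 / 2) / 2 - Real.log (N (g * r')) + Real.log (N (pr I)))).F
            (d * g ^ 2 * r ^ 2)‖ ^ 2) := by
  have hu : ∀ m, P0 Q m → Squarefree m → ‖chi m (d * g ^ 2 * r ^ 2)‖ ≤ 1 := fun m h1 h2 =>
    (ChA.chi_isChar h1.isCoprime_six).norm_le h1.1.ne_zero _
  have hG := hg.mul hr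
  have key := h.twist_le hg hr hν (x := σ - 1 / 2) (by linarith) (by linarith) τ hu
  have e1 : 2 * (σ - 1 / 2) = 2 * σ - 1 := by ring
  have e2 : ((σ - 1 / 2 : ℝ) : ℂ) + τ * Complex.I = -(1 / 2 : ℂ) + σ + τ * Complex.I := by
    push_cast
    ring
  rw [e1, e2] at key
  have e3 : Bsum (fun m => π.al m * chi m (r ^ 2)) ν' g r' (d * g ^ 2) σ τ = chi (g * r') (r ^ 2) *
      ∑' m, π.al (g * r' * m) * (N (r' * m) : ℂ) ^ (-(1 / 2 : ℂ) + σ + τ * Complex.I) * ν' m *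
        chi m (d * g ^ 2 * r ^ 2) := by
    rw [← tsum_mul_left]
    refine tsum_congr fun m => ?_
    by_cases hm : π.al (g * r' * m) = 0
    · simp [hm]
    have h6 : IsCoprime m 6 := (h.supp6 _ hm).of_mul_left_right
    have hm0 : m ≠ 0 := right_ne_zero_of_mul (h.supp hm).1.1.ne_zero
    have a1 : chi (g * r' * m) (r ^ 2) = chi (g * r') (r ^ 2) * chi m (r ^ 2) :=
      sym_mul_left 6 hG.ne_zero hm0 _
    simp only [a1, (ChA.chi_isChar h6).mul (d * g ^ 2)]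
    ring
  have e4 : ‖Bsum (fun m => π.al m * chi m (r ^ 2)) ν' g r' (d * g ^ 2) σ τ‖ ≤
      ‖∑' m, π.al (g * r' * m) * (N (r' * m) : ℂ) ^ (-(1 / 2 : ℂ) + σ + τ * Complex.I) * ν' m *
        chi m (d * g ^ 2 * r ^ 2)‖ := by
    rw [e3, norm_mul]
    by_cases h6 : IsCoprime (g * r') 6
    · exact mul_le_of_le_one_left (norm_nonneg _) ((ChA.chi_isChar h6).norm_le hG.ne_zero _)
    · have : ∀ m, π.al (g * r' * m) = 0 := fun m =>
        by_contra fun hm => h6 (h.supp6 _ hm).of_mul_left_left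
      simp [this]
  refine (pow_le_pow_left₀ (norm_nonneg _) e4 2).trans (key.trans_eq ?_)
  congr 2
  refine Finset.sum_congr rfl fun I _ => ?_
  have h' := (h.shift (x := σ - 1 / 2) (by linarith) τ).tw hν
  have hp : ∀ p, Prime p → ¬ p ∣ d * g ^ 2 * r ^ 2 → (p ∣ g * r' ↔ p ∣ r') := fun p hp hd =>
    ⟨fun h1 => (hp.dvd_or_dvd h1).resolve_left fun h2 =>
      hd (((h2.trans (dvd_pow_self g two_ne_zero)).mul_left d).mul_right _), fun h1 => h1.mul_left g⟩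
  congr 2
  refine tsum_congr fun m => (h'.dil hG I).al_relax
    ((h'.excl hr).set ((Nat.sub_le _ _).trans h.hJ) _) rfl rfl rfl rfl rfl (fun p hd => ?_)
    (fun p hp' hd => ?_) m
  · change p ∈ π.S.filter (fun p => ¬ p ∣ g * r') ↔ p ∈ π.S.filter (fun p => ¬ p ∣ r')
    simp only [Finset.mem_filter]
    exact and_congr_right fun hS => not_congr (hp p (h.primes p hS).1 hd)
  · change p ∣ π.H * (g * r') ↔ p ∣ π.H * r'
    rw [hp'.dvd_mul, hp p hp' hd, hp'.dvd_mul]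

end Crest.Agent.R17.FM
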