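import Crest.Agent.R17.FMoment_Abs

/-!
# R17 / FMoment / W : combinatorics of the marked weight

Definitions in `FMoment_Defs.lean`.  Prefix helper lemmas with `fmw_`.
-/

set_option autoImplicit false

noncomputable section

open scoped Classical ComplexConjugate
open MeasureTheory

namespace Crest.Agent.R17.FM

variable {S : Finset O}

/-- distinct primary primes are coprime (`Prim.eq_of_associated`); `Finset.prod_dvd_of_coprime` -/
theorem pr_dvd_iff (hS : ∀ p ∈ S, Prime p ∧ Prim p) {I : Finset O} (hI : I ⊆ S) {n : O} :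
    pr I ∣ n ↔ ∀ p ∈ I, p ∣ n :=
  ⟨fun h _ hp => (Finset.dvd_prod_of_mem (fun p => p) hp).trans h, fun h =>
    Finset.prod_dvd_of_coprime (fun p hp q hq hne => Prim.b3_isCoprime_of_ne (hS p (hI hp)).1
      (hS p (hI hp)).2 (hS q (hI hq)).1 (hS q (hI hq)).2 hne) h⟩
theorem dvd_pr_iff (hS : ∀ p ∈ S, Prime p ∧ Prim p) {I : Finset O} (hI : I ⊆ S) {p : O}
    (hp : p ∈ S) : p ∣ pr I ↔ p ∈ I := by
  refine ⟨fun h => ?_, fun h => Finset.dvd_prod_of_mem (fun p => p) h⟩
  obtain ⟨q, hq, hpq⟩ := (hS p hp).1.exists_mem_finset_dvd h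
  rw [(hS p hp).2.eq_of_associated (hS q (hI hq)).2
    ((hS p hp).1.associated_of_dvd (hS q (hI hq)).1 hpq)]
  exact hq
theorem filter_dvd_pr (hS : ∀ p ∈ S, Prime p ∧ Prim p) {I : Finset O} (hI : I ⊆ S) :
    S.filter (fun p => p ∣ pr I) = I := by
  ext p
  rw [Finset.mem_filter]
  exact ⟨fun h => (dvd_pr_iff hS hI h.1).1 h.2, fun h => ⟨hI h, (dvd_pr_iff hS hI (hI h)).2 h⟩⟩
theorem filter_not_dvd_pr (hS : ∀ p ∈ S, Prime p ∧ Prim p) {I : Finset O} (hI : I ⊆ S) :
    S.filter (fun p => ¬ p ∣ pr I) = S \ I := by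
  ext p
  rw [Finset.mem_filter, Finset.mem_sdiff]
  exact and_congr_right fun h => not_congr (dvd_pr_iff hS hI h)
theorem pr_injOn (hS : ∀ p ∈ S, Prime p ∧ Prim p) : Set.InjOn pr {I | I ⊆ S} := by
  intro I hI I' hI' h
  rw [← filter_dvd_pr hS hI, h, filter_dvd_pr hS hI']
theorem pr_prim (hS : ∀ p ∈ S, Prime p ∧ Prim p) {I : Finset O} (hI : I ⊆ S) : Prim (pr I) :=
  Prim.prod fun p hp => (hS p (hI hp)).2
theorem pr_squarefree (hS : ∀ p ∈ S, Prime p ∧ Prim p) {I : Finset O} (hI : I ⊆ S) :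
    Squarefree (pr I) :=
  Finset.squarefree_prod_of_pairwise_isCoprime
    (fun p hp q hq hne => (Prim.b3_isCoprime_of_ne (hS p (hI hp)).1
      (hS p (hI hp)).2 (hS q (hI hq)).1 (hS q (hI hq)).2 hne).isRelPrime)
    fun p hp => (hS p (hI hp)).1.squarefree
theorem pr_isCoprime (hS : ∀ p ∈ S, Prime p ∧ Prim p) {I : Finset O} (hI : I ⊆ S) {H : O}
    (h : ∀ p ∈ I, ¬ p ∣ H) : IsCoprime (pr I) H :=
  IsCoprime.prod_left fun p hp => (hS p (hI hp)).1.coprime_iff_not_dvd.2 (h p hp)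
theorem N_pr_le {I : Finset O} {P : ℝ} (h : ∀ p ∈ I, N p ≤ P) : N (pr I) ≤ P ^ I.card := by
  rw [N_prod, ← Finset.prod_const]
  exact Finset.prod_le_prod (fun p _ => N_nonneg p) h
theorem le_N_pr {I : Finset O} {P : ℝ} (hP : 0 ≤ P) (h : ∀ p ∈ I, P ≤ N p) :
    P ^ I.card ≤ N (pr I) := by
  rw [N_prod, ← Finset.prod_const]
  exact Finset.prod_le_prod (fun _ _ => hP) h

theorem mem_marks {J : ℕ} {G : O} {I : Finset O} :
    I ∈ marks S J G ↔ I ⊆ S ∧ (∀ p ∈ I, p ∣ G) ∧ I.card ≤ J := by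
  simp only [marks, Finset.mem_filter, Finset.mem_powerset, Finset.subset_iff]
  exact ⟨fun h => ⟨fun _ hp => (h.1 hp).1, fun _ hp => (h.1 hp).2, h.2⟩,
    fun h => ⟨fun _ hp => ⟨h.1 hp, h.2.1 _ hp⟩, h.2.2⟩⟩
theorem pr_dvd_of_mem_marks (hS : ∀ p ∈ S, Prime p ∧ Prim p) {J : ℕ} {G : O} {I : Finset O}
    (hI : I ∈ marks S J G) : pr I ∣ G :=
  (pr_dvd_iff hS (mem_marks.1 hI).1).2 (mem_marks.1 hI).2.1
/-- `I ↦ ∏ I` is injective into `pdiv G` -/
theorem card_marks_le (hS : ∀ p ∈ S, Prime p ∧ Prim p) (J : ℕ) {G : O} (hG : G ≠ 0) :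
    ((marks S J G).card : ℝ) ≤ dv G := by
  unfold dv
  exact_mod_cast Finset.card_le_card_of_injOn pr
    (fun I hI => (mem_pdiv hG).2 ⟨pr_prim hS (mem_marks.1 hI).1, pr_dvd_of_mem_marks hS hI⟩)
    fun I hI I' hI' h => pr_injOn hS (mem_marks.1 hI).1 (mem_marks.1 hI').1 h

theorem fmw_log_union (hS : ∀ p ∈ S, Prime p ∧ Prim p) {I I' : Finset O} (hI : I ⊆ S)
    (hI' : I' ⊆ S) (hd : Disjoint I I') :
    Real.log (N (pr (I ∪ I'))) = Real.log (N (pr I)) + Real.log (N (pr I')) := by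
  rw [pr, Finset.prod_union hd, N_mul, Real.log_mul (N_pos (pr_prim hS hI).ne_zero).ne'
    (N_pos (pr_prim hS hI').ne_zero).ne']

/-- Split `I = I₁ ∪ I₂`, `I₁ = I.filter (· ∣ G)`, `I₂ = I.filter (¬ · ∣ G)` (a bijection onto the
pairs, `Finset.sum_sigma'`, `Finset.sum_bij'`); `∏ I ∣ G m ↔ ∏ I₂ ∣ m` by `pr_dvd_iff`. -/
theorem W_cut (hS : ∀ p ∈ S, Prime p ∧ Prim p) (J : ℕ) (b : O → ℂ) (y : ℝ) {G m : O} (hG : G ≠ 0)
    (hm : m ≠ 0) :
    W S J b y (G * m) = ∑ I ∈ marks S J G, (∏ p ∈ I, b p) *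
      W (S.filter (fun p => ¬ p ∣ G)) (J - I.card) b
        (y - Real.log (N G) + Real.log (N (pr I))) m := by
  unfold W
  simp only [Finset.mul_sum]
  rw [Finset.sum_sigma']
  refine Finset.sum_nbij' (fun I => ⟨I.filter (fun p => p ∣ G), I.filter (fun p => ¬ p ∣ G)⟩)
    (fun x => x.1 ∪ x.2) (fun I hI => ?_) (fun x hx => ?_) (fun I _ => ?_) (fun x hx => ?_)
    fun I hI => ?_
  · rw [Finset.mem_filter, Finset.mem_powersetCard] at hI
    obtain ⟨⟨h1, h2⟩, h3⟩ := hI
    have hc := Finset.card_filter_add_card_filter_not (s := I) fun p => p ∣ G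
    rw [Finset.mem_sigma, mem_marks, Finset.mem_filter, Finset.mem_powersetCard]
    refine ⟨⟨(Finset.filter_subset _ _).trans h1, fun p hp => (Finset.mem_filter.1 hp).2,
      by dsimp only; omega⟩, ⟨Finset.filter_subset_filter _ h1, by dsimp only; omega⟩, ?_⟩
    refine (pr_dvd_iff hS ((Finset.filter_subset _ _).trans h1)).2 fun p hp => ?_
    rw [Finset.mem_filter] at hp
    exact ((hS p (h1 hp.1)).1.dvd_or_dvd ((pr_dvd_iff hS h1).1 h3 p hp.1)).resolve_left hp.2
  · rw [Finset.mem_sigma, mem_marks, Finset.mem_filter, Finset.mem_powersetCard] at hx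
    obtain ⟨⟨h1, h2, h3⟩, ⟨h4, h5⟩, h6⟩ := hx
    have h7 : x.2 ⊆ S := h4.trans (Finset.filter_subset _ _)
    have hd : Disjoint x.1 x.2 :=
      Finset.disjoint_left.2 fun p hp hp' => (Finset.mem_filter.1 (h4 hp')).2 (h2 p hp)
    rw [Finset.mem_filter, Finset.mem_powersetCard, Finset.card_union_of_disjoint hd]
    refine ⟨⟨Finset.union_subset h1 h7, by omega⟩,
      (pr_dvd_iff hS (Finset.union_subset h1 h7)).2 fun p hp => ?_⟩
    rcases Finset.mem_union.1 hp with hp | hp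
    · exact (h2 p hp).mul_right _
    · exact ((pr_dvd_iff hS h7).1 h6 p hp).mul_left _
  · exact Finset.filter_union_filter_not_eq _ _
  · rw [Finset.mem_sigma, mem_marks, Finset.mem_filter, Finset.mem_powersetCard] at hx
    obtain ⟨⟨h1, h2, h3⟩, ⟨h4, h5⟩, h6⟩ := hx
    have h7 : ∀ p ∈ x.2, ¬ p ∣ G := fun p hp => (Finset.mem_filter.1 (h4 hp)).2
    obtain ⟨x1, x2⟩ := x
    dsimp only at *
    rw [Finset.filter_union, Finset.filter_union, Finset.filter_true_of_mem h2,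
      Finset.filter_false_of_mem h7, Finset.filter_true_of_mem h7,
      Finset.filter_false_of_mem fun p hp h => h (h2 p hp), Finset.union_empty,
      Finset.empty_union]
  · rw [Finset.mem_filter, Finset.mem_powersetCard] at hI
    have e := fmw_log_union hS ((Finset.filter_subset (fun p => p ∣ G) _).trans hI.1.1)
      ((Finset.filter_subset (fun p => ¬ p ∣ G) _).trans hI.1.1)
      (Finset.disjoint_filter_filter_not _ _ _)
    rw [Finset.filter_union_filter_not_eq] at e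
    dsimp only
    rw [← mul_assoc, Finset.prod_filter_mul_prod_filter_not, e, N_mul,
      Real.log_mul (N_pos hG).ne' (N_pos hm).ne']
    congr 3
    ring

/-- every `I'` of size `J` is `I ∪ I₂` with `|I| = i` in exactly `J.choose i` ways -/
theorem W_pull (hS : ∀ p ∈ S, Prime p ∧ Prim p) {J i : ℕ} (hi : i ≤ J) (b : O → ℂ) (y : ℝ) (n : O) :
    (J.choose i : ℂ) * W S J b y n = ∑ I ∈ (S.powersetCard i).filter (fun I => pr I ∣ n),
      (∏ p ∈ I, b p) * W (S \ I) (J - i) b (y + Real.log (N (pr I))) n := by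
  unfold W
  simp only [Finset.mul_sum]
  rw [Finset.sum_sigma', Finset.sum_congr rfl
    (g := fun I' => ∑ _I ∈ I'.powersetCard i, (∏ p ∈ I', b p) *
      (gw (Real.log (N n) - (y + Real.log (N (pr I')))) : ℂ)) (fun I' hI' => by
      rw [Finset.sum_const, Finset.card_powersetCard, nsmul_eq_mul,
        (Finset.mem_powersetCard.1 (Finset.mem_filter.1 hI').1).2]), Finset.sum_sigma']
  refine Finset.sum_nbij' (fun x => ⟨x.2, x.1 \ x.2⟩) (fun x => ⟨x.1 ∪ x.2, x.1⟩)
    (fun x hx => ?_) (fun x hx => ?_) (fun x hx => ?_) (fun x hx => ?_) fun x hx => ?_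
  · simp only [Finset.mem_sigma, Finset.mem_filter, Finset.mem_powersetCard] at hx ⊢
    obtain ⟨⟨⟨h1, h2⟩, h3⟩, h4, h5⟩ := hx
    refine ⟨⟨⟨h4.trans h1, h5⟩, (Finset.prod_dvd_prod_of_subset _ _ _ h4).trans h3⟩,
      ⟨Finset.sdiff_subset_sdiff h1 le_rfl, by rw [Finset.card_sdiff_of_subset h4, h2, h5]⟩,
      (Finset.prod_dvd_prod_of_subset _ _ _ Finset.sdiff_subset).trans h3⟩
  · simp only [Finset.mem_sigma, Finset.mem_filter, Finset.mem_powersetCard] at hx ⊢
    obtain ⟨⟨⟨h1, h2⟩, h3⟩, ⟨h4, h5⟩, h6⟩ := hx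
    have h7 : x.2 ⊆ S := h4.trans Finset.sdiff_subset
    have hd : Disjoint x.1 x.2 := Finset.disjoint_sdiff.mono_right h4
    refine ⟨⟨⟨Finset.union_subset h1 h7, by rw [Finset.card_union_of_disjoint hd]; omega⟩,
      (pr_dvd_iff hS (Finset.union_subset h1 h7)).2 fun p hp => ?_⟩, Finset.subset_union_left, h2⟩
    rcases Finset.mem_union.1 hp with hp | hp
    · exact (pr_dvd_iff hS h1).1 h3 p hp
    · exact (pr_dvd_iff hS h7).1 h6 p hp
  · simp only [Finset.mem_sigma, Finset.mem_filter, Finset.mem_powersetCard] at hx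
    obtain ⟨x1, x2⟩ := x
    dsimp only at *
    rw [Finset.union_sdiff_of_subset hx.2.1]
  · simp only [Finset.mem_sigma, Finset.mem_filter, Finset.mem_powersetCard] at hx
    obtain ⟨x1, x2⟩ := x
    dsimp only at *
    rw [Finset.union_sdiff_cancel_left (Finset.disjoint_sdiff.mono_right hx.2.1.1)]
  · simp only [Finset.mem_sigma, Finset.mem_filter, Finset.mem_powersetCard] at hx
    obtain ⟨⟨⟨h1, h2⟩, h3⟩, h4, h5⟩ := hx
    have e := fmw_log_union hS (h4.trans h1) ((Finset.sdiff_subset (s := x.1) (t := x.2)).trans h1)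
      Finset.disjoint_sdiff
    rw [Finset.union_sdiff_of_subset h4] at e
    dsimp only
    rw [← mul_assoc, mul_comm (∏ p ∈ x.2, b p), Finset.prod_sdiff h4, e, add_assoc]

theorem norm_W_le {b : O → ℂ} (hb : ∀ p ∈ S, ‖b p‖ ≤ 1) (J : ℕ) (y : ℝ) (n : O) :
    ‖W S J b y n‖ ≤ ∑ I ∈ (S.powersetCard J).filter (fun I => pr I ∣ n),
      gw (Real.log (N n) - (y + Real.log (N (pr I)))) := by
  refine (norm_sum_le _ _).trans (Finset.sum_le_sum fun I hI => ?_)
  have h1 := (Finset.mem_powersetCard.1 (Finset.mem_filter.1 hI).1).1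
  rw [norm_mul, Complex.norm_real, Real.norm_eq_abs, abs_of_pos (gw_pos _), norm_prod]
  exact mul_le_of_le_one_left (gw_pos _).le
    (Finset.prod_le_one (fun _ _ => norm_nonneg _) fun p hp => hb p (h1 hp))

/-- the number of terms of `W` -/
theorem card_filter_pr_le (hS : ∀ p ∈ S, Prime p ∧ Prim p) (J : ℕ) {n : O} (hn : n ≠ 0) :
    (((S.powersetCard J).filter (fun I => pr I ∣ n)).card : ℝ) ≤ dv n := by
  unfold dv
  have h : ∀ I ∈ (S.powersetCard J).filter (fun I => pr I ∣ n), I ⊆ S := fun I hI =>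
    (Finset.mem_powersetCard.1 (Finset.mem_filter.1 hI).1).1
  exact_mod_cast Finset.card_le_card_of_injOn pr
    (fun I hI => (mem_pdiv hn).2 ⟨pr_prim hS (h I hI), (Finset.mem_filter.1 hI).2⟩)
    fun I hI I' hI' e => pr_injOn hS (h I hI) (h I' hI') e

/-- elementary symmetric function `≤` power of the sum (e.g. induction on `S`, or
`Finset.prod_add`-type expansion) -/
theorem sum_powersetCard_prod_le (S : Finset O) (J : ℕ) {f : O → ℝ} (hf : ∀ p ∈ S, 0 ≤ f p) :
    ∑ I ∈ S.powersetCard J, ∏ p ∈ I, f p ≤ (∑ p ∈ S, f p) ^ J := by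
  induction S using Finset.induction_on generalizing J with
  | empty =>
    cases J with
    | zero => simp
    | succ n =>
      rw [Finset.powersetCard_eq_empty.2 (by simp)]
      simp
  | insert x s hx ih =>
    cases J with
    | zero => simp
    | succ n =>
      have hf' : ∀ p ∈ s, 0 ≤ f p := fun p hp => hf p (Finset.mem_insert_of_mem hp)
      have hx0 := hf x (Finset.mem_insert_self _ _)
      have hT := Finset.sum_nonneg hf'
      have hn : ∀ {k : ℕ}, ∀ I ∈ s.powersetCard k, x ∉ I := fun I hI h =>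
        hx ((Finset.mem_powersetCard.1 hI).1 h)
      rw [Finset.powersetCard_succ_insert hx, Finset.sum_union, Finset.sum_image,
        Finset.sum_insert hx, Finset.sum_congr rfl fun I hI => Finset.prod_insert (hn I hI),
        ← Finset.mul_sum]
      · have h1 := ih (n + 1) hf'
        have h2 := mul_le_mul_of_nonneg_left (ih n hf') hx0
        have h3 : (∑ p ∈ s, f p) ^ n ≤ (f x + ∑ p ∈ s, f p) ^ n :=
          pow_le_pow_left₀ hT (le_add_of_nonneg_left hx0) n
        have h4 := mul_le_mul_of_nonneg_right h3 (add_nonneg hx0 hT)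
        rw [pow_succ] at h1 ⊢
        linarith
      · intro I hI I' hI' e
        rw [← Finset.erase_insert (hn I hI), e, Finset.erase_insert (hn I' hI')]
      · refine Finset.disjoint_left.2 fun I hI hI' => hn I hI ?_
        obtain ⟨I', -, rfl⟩ := Finset.mem_image.1 hI'
        exact Finset.mem_insert_self _ _

end Crest.Agent.R17.FM
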