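import Crest.Agent.R17.GMoment_M4

/-!
# R17 / GMoment : fourth moment of character blocks over non-exceptional rows  (PART G)

The formal proof (files `GMoment_*.lean`, overview in `GMoment_Defs.lean`) follows the plan below, with
the moments reduced to the diagonal case by AM-GM and the expansions done by Möbius inversion.

**Structured sequences.** `Z̃₁ Z̃₂ P̃^J = ∑' n, a(n) χ_n(d)`, `a = f₁ * f₂ * b * ⋯ * b` (Dirichlet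
convolution over `𝒫₀` of `k = J+2` factors; `f_i(n) = ν_i(n) N n^{-1/2-it_i} gw(log N n - y_i)`,
`b(p) = ν₃(p) w(p) N p^{-1/2+x+iτ}` on the slot).  Two combinatorial lemmas:
(i) for `(n,G) = 1`, `a(Gn) = ∑_{G₁⋯G_k = G} (f₁(G₁·) * ⋯ * f_k(G_k·))(n)` (`≤ τ(G)^k` terms);
(ii) for any `u`, `1_{u ∣ n₁⋯n_k} = ∑_i ± ∏_j 1_{u_{ij} ∣ n_j}` with `≤ τ(u)^{2k}` terms and
`u ∣ ∏_j u_{ij}` (induction on `k`: `u₁ = gcd(u,n₁)`, Möbius for `(n₁/u₁, u/u₁) = 1`).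
With `μ² = ∑_{h² ∣ n} μ(h)` and `1_{(n,H)=1} = ∑_{e ∣ n, e ∣ H} μ(e)` (`u = lcm(h², e)`) every sum
`∑_{n squarefree, (n,H)=1} a(Gn) N(n)^{-x'+iτ'} ν''(n) χ_n(ρ)` is a linear combination, with coefficients
independent of the lengths `y_i` and of total normalised weight `≲ Z^{ε'} N(G)^{-1/2}`, of products of
complete blocks `blks (prim (rc ν_i' ρ)) (y_i - log N u_i) s_i` and of `Pb`'s (a factor `b(u·)` is `b`
or a single bounded term).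
**Double Poisson (DP).**  Write `n = f s` (`exists_sqfree_powerful`), Minkowski over powerful `f`
(`sum_powerful_le`), `α(s) = a(fs) 1_{(s,f)=1} μ²(s)`; `gcd_split`, `pstep` (`U = N² Z^{ε'}/(N g² D)`,
`N` = total length), `amplify` with parameter `𝒜 ≥ 1`, `back` (`K = U𝒜⁶`).  Result:
`∑_{d} Om |∑ a χ|² ≲ Z^{Cε'} [D + N 𝒜⁵ + 𝒜⁵ ∑_{ρ : N ρ ≤ D Z^{Cε'}/𝒜⁶} F(ρ)]` where rows are
`ρ = d (r e g')²`, explicit weights `1/(N g N r')`, the variables `r, e, g'` are absorbed by the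
multiplicity of `ρ`, and `F(ρ)` is any majorant of the normalised squared products of blocks.
Non-exceptional `ρ`: `local_sup` gives `F(ρ) = log² · ∬∬ |Z̃(y₁',t₁')|² |Z̃(y₂',t₂')|² · (sup|P̃|)^{2J}`.
Exceptional `ρ = e₀a⁶` (`≲ (D/𝒜⁶)^{1/6+ε'}` of them, `card_exc_le`, `rc_exc`): trivially `F ≲ N`.
**Centering.**  On non-exceptional rows `|S|² ≤ 2|S - cS'|² + 2|S'|²`, where `S'` has the lengths
`(y₁',y₂')`, `y₁'+y₂' = y₁+y₂`, `c = exp(i(t₂-t₁)(y₁-y₁'))`.  Apply DP to `a - c a'` on all rows.  By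
`block_asymp` the main terms `M₁M₂ π exp((1-s₁)²/4 + (1-s₂)²/4 + (1-s₁)ŷ₁ + (1-s₂)ŷ₂)` cancel exactly on
exceptional rows (for all dilations `u_i` and common shifts of `s_i`), and the remainder is
`≲ τ(a)⁴ · max side length · L` (error of one block `≲ τ min(e^{-ŷ/2}, e^{ŷ/2}) ≤ τ`).
**gMoment0**: induction on `D ≤ Z^{jη}`: bound `C_j Z^{η+ε'} (1+|t|)^{B_j} D` for all lengths.  First
`reflect` each block with `y_i > log D/2` (Cauchy–Schwarz in the integrals), so `e^{y_i} ≤ √D Z^{ε'}`.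
Base `D ≤ Z^η`-scale: trivial bound.  Step: `𝒜 = Z^{η/6}`; if `y₁+y₂ ≤ (5/6) log D` no centering,
else `y₂' = (5/6) log D`; `S'` is reflected in the second block (total length `≤ D^{1/3+}`) and needs no
centering.  The induction hypothesis on rows `≤ D Z^{Cε'-η}` comes with the gain `𝒜⁵/𝒜⁶`.
**gMoment1**: `L = e^{J yp}`, `𝒜 = L^κ`, one DP step.  Non-exceptional `ρ`: `globalP` gives
`|P̃|^{2J} ≲ Z^{Cη₁} L^κ`, `gMoment0` gives `D/𝒜⁶`.  Diagonal `N 𝒜⁵ ≤ X² L^{1+5κ} ≤ D`.  With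
`L𝒜⁴ ≤ D^{1/4}`: if `e^{y₁+y₂} L𝒜⁴ ≤ D^{5/6}` no centering; else `e^{y₂'} = D^{5/6}/(L𝒜⁴)`
(then `e^{y₁'} ≤ D^{1/6}`, sides `≤ √D ≤ D^{5/6}/(L𝒜⁴)`), and the reflected `S'` has total length
`≤ D^{1/3} L𝒜⁴ Z^{ε'}`, so it satisfies the uncentered conditions up to `Z^{ε'}`.
`(1+|P|)^{2J} ≤ 4^J(1 + |P|^{2J})`.
-/

set_option autoImplicit false

noncomputable section

open scoped Classical ComplexConjugate

namespace Crest.Agent.R17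

theorem gMoment0 (A : ℝ) {ε : ℝ} (hε : 0 < ε) (Q : Lev) : ∃ (C : ℝ) (B : ℕ) (Z0 : ℝ),
    ∀ Z : ℝ, Z0 ≤ Z → ∀ ν1 ∈ hchars Q.q, ∀ ν2 ∈ hchars Q.q, ∀ D y1 y2 t1 t2 : ℝ, 1 ≤ D → D ≤ Z ^ A →
      ∑ d ∈ npball Q D, ‖pb (rc ν1 d) y1 t1‖ ^ 2 * ‖pb (rc ν2 d) y2 t2‖ ^ 2 ≤
        C * Z ^ ε * (1 + |t1| + |t2|) ^ B * D := by
  obtain ⟨C, B, hC, h⟩ := GM.m4 A hε Q
  refine ⟨C, B, 3, fun Z hZ ν1 h1 ν2 h2 D y1 y2 t1 t2 hD hDA => ?_⟩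
  have hD0 : 0 < D := by linarith
  have hZ0 : 0 < Z := by linarith
  have a1 := h Z hZ ν1 h1 D y1 t1 hD0 hDA
  have a2 := h Z hZ ν2 h2 D y2 t2 hD0 hDA
  have b1 : C * Z ^ ε * (1 + |t1|) ^ B * D ≤ C * Z ^ ε * (1 + |t1| + |t2|) ^ B * D := by
    have : 1 + |t1| ≤ 1 + |t1| + |t2| := by linarith [abs_nonneg t2]
    gcongr
  have b2 : C * Z ^ ε * (1 + |t2|) ^ B * D ≤ C * Z ^ ε * (1 + |t1| + |t2|) ^ B * D := by
    have : 1 + |t2| ≤ 1 + |t1| + |t2| := by linarith [abs_nonneg t1]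
    gcongr
  have c : ∑ d ∈ npball Q D, ‖pb (rc ν1 d) y1 t1‖ ^ 2 * ‖pb (rc ν2 d) y2 t2‖ ^ 2 ≤
      (GM.M4 Q ν1 D y1 t1 + GM.M4 Q ν2 D y2 t2) / 2 := by
    unfold GM.M4
    rw [← Finset.sum_add_distrib, Finset.sum_div]
    refine Finset.sum_le_sum fun d _ => ?_
    nlinarith [sq_nonneg (‖pb (rc ν1 d) y1 t1‖ ^ 2 - ‖pb (rc ν2 d) y2 t2‖ ^ 2)]
  linarith

theorem gMoment1 (A : ℝ) {ε : ℝ} (hε : 0 < ε) : ∃ η1 > 0, ∀ β : ℝ, 7 / 8 ≤ β → β ≤ 1 → ZF β →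
    ∀ (Q : Lev) (J0 : ℕ) (ρ : ℝ), 0 < ρ → J0 * ρ ≤ η1 → ∃ (C : ℝ) (B : ℕ) (Z0 : ℝ),
    ∀ Z : ℝ, Z0 ≤ Z → ∀ ν1 ∈ hchars Q.q, ∀ ν2 ∈ hchars Q.q, ∀ ν3 ∈ hchars Q.q, ∀ J ≤ J0,
    ∀ yp x τ D X y1 y2 t1 t2 : ℝ, 0 ≤ yp → yp ≤ η1 * Real.log Z → |x| ≤ η1 → D ≤ Z ^ A → 1 ≤ X →
      Real.exp y1 ≤ X → Real.exp y2 ≤ X →
      X ^ 2 * Real.exp (J * yp * (1 + 5 * (2 * β - 1))) ≤ D →
      Real.exp (4 * J * yp * (1 + 4 * (2 * β - 1))) ≤ D →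
      ∑ d ∈ npball Q D, ‖pb (rc ν1 d) y1 t1‖ ^ 2 * ‖pb (rc ν2 d) y2 t2‖ ^ 2 *
          (1 + ‖Pb Q (rc ν3 d) yp (ρ * Real.log Z) x τ‖) ^ (2 * J) ≤
        C * Z ^ ε * (1 + |t1| + |t2| + |τ|) ^ B * D := by
  obtain ⟨η1, hη, H⟩ := GM.mp A hε
  refine ⟨η1, hη, fun β hβ hβ1 hZF Q J0 ρ hρ hρ1 => ?_⟩
  obtain ⟨C1, B1, Z1, hC1, h1⟩ := H β hβ hβ1 hZF Q J0 ρ hρ hρ1
  obtain ⟨C2, B2, hC2, h2⟩ := GM.m4 A hε Q
  refine ⟨4 ^ J0 * (C1 + C2), B1 + B2, max Z1 3, fun Z hZ ν1 hν1 ν2 hν2 ν3 hν3 J hJ yp x τ D X y1 y2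
    t1 t2 hyp hyp1 hx hD hX hy1 hy2 hD1 hD2 => ?_⟩
  have hZ1 : Z1 ≤ Z := (le_max_left _ _).trans hZ
  have hZ3 : 3 ≤ Z := (le_max_right _ _).trans hZ
  have hZ0 : 0 < Z := by linarith
  have hD0 : 0 < D := lt_of_lt_of_le (Real.exp_pos _) hD2
  set T := 1 + |t1| + |t2| + |τ| with hT
  have a1 := abs_nonneg t1
  have a2 := abs_nonneg t2
  have a3 := abs_nonneg τ
  have hT1 : 1 ≤ T := by linarith
  set P : O → ℝ := fun d => ‖Pb Q (rc ν3 d) yp (ρ * Real.log Z) x τ‖ with hP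
  have hP0 : ∀ d, 0 ≤ P d := fun d => norm_nonneg _
  -- diagonal bound
  have key : ∀ ν ∈ hchars Q.q, ∀ y t : ℝ, Real.exp y ≤ X → 1 + |t| + |τ| ≤ T →
      ∑ d ∈ npball Q D, ‖pb (rc ν d) y t‖ ^ 4 * (1 + P d) ^ (2 * J) ≤
        4 ^ J0 * (C1 + C2) * Z ^ ε * T ^ (B1 + B2) * D := by
    intro ν hν y t hy ht
    have at' := abs_nonneg t
    have m0 : GM.M4 Q ν D y t ≤ C2 * Z ^ ε * T ^ (B1 + B2) * D := by
      refine (h2 Z hZ3 ν hν D y t hD0 hD).trans ?_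
      have : (1 + |t|) ^ B2 ≤ T ^ (B1 + B2) :=
        (pow_le_pow_left₀ (by positivity) (by linarith) _).trans
          (pow_le_pow_right₀ hT1 (Nat.le_add_left _ _))
      gcongr
    have h4 : (1 : ℝ) ≤ 4 ^ J0 := one_le_pow₀ (by norm_num)
    have hW : 0 ≤ Z ^ ε * T ^ (B1 + B2) * D := by positivity
    rcases Nat.eq_zero_or_pos J with rfl | hJ1
    · simp only [mul_zero, pow_zero, mul_one]
      refine m0.trans ?_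
      have : C2 ≤ 4 ^ J0 * (C1 + C2) := by nlinarith
      gcongr
    have m1 : ∑ d ∈ npball Q D, ‖pb (rc ν d) y t‖ ^ 4 * P d ^ (2 * J) ≤
        C1 * Z ^ ε * T ^ (B1 + B2) * D := by
      refine (h1 Z hZ1 ν hν ν3 hν3 J hJ hJ1 yp x τ D X y t hyp hyp1 hx hD hX hy hD1 hD2).trans ?_
      have : (1 + |t| + |τ|) ^ B1 ≤ T ^ (B1 + B2) :=
        (pow_le_pow_left₀ (by positivity) ht _).trans
          (pow_le_pow_right₀ hT1 (Nat.le_add_right _ _))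
      gcongr
    have m2 : ∑ d ∈ npball Q D, ‖pb (rc ν d) y t‖ ^ 4 * (1 + P d) ^ (2 * J) ≤
        4 ^ J0 * (GM.M4 Q ν D y t + ∑ d ∈ npball Q D, ‖pb (rc ν d) y t‖ ^ 4 * P d ^ (2 * J)) := by
      unfold GM.M4
      rw [← Finset.sum_add_distrib, Finset.mul_sum]
      refine Finset.sum_le_sum fun d _ => ?_
      have e1 := add_pow_le zero_le_one (hP0 d) (2 * J)
      have e2 : (2 : ℝ) ^ (2 * J - 1) ≤ 4 ^ J0 := by
        rw [show (4 : ℝ) = 2 ^ 2 by norm_num, ← pow_mul]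
        exact pow_le_pow_right₀ (by norm_num) (by omega)
      have e3 : (1 + P d) ^ (2 * J) ≤ 4 ^ J0 * (1 + P d ^ (2 * J)) := by
        rw [one_pow] at e1
        exact e1.trans (mul_le_mul_of_nonneg_right e2 (by have := hP0 d; positivity))
      calc _ ≤ ‖pb (rc ν d) y t‖ ^ 4 * (4 ^ J0 * (1 + P d ^ (2 * J))) := by gcongr
        _ = _ := by ring
    calc _ ≤ _ := m2
      _ ≤ 4 ^ J0 * (C2 * Z ^ ε * T ^ (B1 + B2) * D + C1 * Z ^ ε * T ^ (B1 + B2) * D) := by gcongr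
      _ = _ := by ring
  have k1 := key ν1 hν1 y1 t1 hy1 (by linarith)
  have k2 := key ν2 hν2 y2 t2 hy2 (by linarith)
  have c : ∑ d ∈ npball Q D, ‖pb (rc ν1 d) y1 t1‖ ^ 2 * ‖pb (rc ν2 d) y2 t2‖ ^ 2 *
      (1 + P d) ^ (2 * J) ≤ (∑ d ∈ npball Q D, ‖pb (rc ν1 d) y1 t1‖ ^ 4 * (1 + P d) ^ (2 * J) +
        ∑ d ∈ npball Q D, ‖pb (rc ν2 d) y2 t2‖ ^ 4 * (1 + P d) ^ (2 * J)) / 2 := by
    rw [← Finset.sum_add_distrib, Finset.sum_div]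
    refine Finset.sum_le_sum fun d _ => ?_
    have w : 0 ≤ (1 + P d) ^ (2 * J) := by have := hP0 d; positivity
    nlinarith [mul_nonneg (sq_nonneg (‖pb (rc ν1 d) y1 t1‖ ^ 2 - ‖pb (rc ν2 d) y2 t2‖ ^ 2)) w]
  linarith

end Crest.Agent.R17
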