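import Crest.Agent.R17.GMoment_Pow

/-!
# R17 / GMoment_Adm : stability of admissibility, norms of the dual coefficients
-/

set_option autoImplicit false

noncomputable section

open scoped Classical ComplexConjugate
open MeasureTheory

namespace Crest.Agent.R17.GM

theorem adm_rapid_of_le {α β : O → ℂ} (h : Rapid β) (hle : ∀ n, ‖α n‖ ≤ ‖β n‖) : Rapid α :=
  fun j => Summable.of_nonneg_of_le
    (fun n => mul_nonneg (norm_nonneg _) (pow_nonneg (N_nonneg n) j))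
    (fun n => mul_le_mul_of_nonneg_right (hle n) (pow_nonneg (N_nonneg n) j)) (h j)

theorem adm_norm_dil_le (f : O) (a : O → ℂ) (s : O) : ‖dil f a s‖ ≤ ‖a (f * s)‖ := by
  unfold dil
  split_ifs
  · exact le_rfl
  · rw [norm_zero]
    exact norm_nonneg _

theorem adm_scale {X y : ℝ} (hX : 0 < X) (hy : 0 < y) (u s : ℝ) :
    y ^ u * (X / y) ^ s = X ^ s * y ^ (u - s) := by
  rw [Real.div_rpow hX.le hy.le, Real.rpow_sub hy]
  ring

theorem adm_dil_dil {f G : O} (a : O → ℂ) (hG : Prim G) (h1 : Squarefree G) (h2 : IsCoprime G f)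
    (m : O) : dil G (dil f a) m = dil (f * G) a m := by
  unfold dil
  by_cases h : Prim m ∧ Squarefree m ∧ IsCoprime m (f * G)
  · obtain ⟨p1, p2, p3⟩ := h
    rw [if_pos ⟨p1, p2, p3.of_mul_right_right⟩, if_pos ⟨hG.mul p1,
      squarefree_mul_iff.2 ⟨p3.of_mul_right_right.symm.isRelPrime, h1, p2⟩,
      h2.mul_left p3.of_mul_right_left⟩, if_pos ⟨p1, p2, p3⟩, mul_assoc]
  · rw [if_neg h]
    split_ifs with p q
    · exact absurd ⟨p.1, p.2.1, q.2.2.of_mul_left_right.mul_right p.2.2⟩ h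
    · rfl
    · rfl

theorem adm_dil_dil_zero {f G : O} (a : O → ℂ) (h : ¬ (Squarefree G ∧ IsCoprime G f)) (m : O) :
    dil G (dil f a) m = 0 := by
  unfold dil
  split_ifs with p q
  · exact absurd ⟨q.2.1.of_mul_left, q.2.2.of_mul_left_left⟩ h
  · rfl
  · rfl

theorem adm_Wsum {f G : O} (a ν : O → ℂ) (hG : Prim G) (h1 : Squarefree G) (h2 : IsCoprime G f)
    (ρ : O) (δ τ : ℝ) : Wsum a (f * G) ν ρ δ τ =
      (N f : ℂ) ^ (-(1 : ℂ) + δ + τ * Complex.I) * Wsum (dil f a) G ν ρ δ τ := by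
  unfold Wsum
  rw [← tsum_mul_left]
  refine tsum_congr fun m => ?_
  rw [adm_dil_dil a hG h1 h2, mul_assoc f, N_mul f, Complex.ofReal_mul,
    Complex.mul_cpow_ofReal_nonneg (N_nonneg _) (N_nonneg _)]
  ring

theorem adm_norm_be1 {Q : Lev} {α ν : O → ℂ} (hα : SuppSq Q 1 α) (hν : ν ∈ hchars Q.q) (r : O)
    (δ τ : ℝ) (m : O) :
    ‖be1 α ν r δ τ m‖ ≤ ‖α (r * m)‖ * N (r * m) ^ (-(1 / 2) + δ / 2) := by
  by_cases h : α (r * m) = 0
  · simp [be1, h]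
  have hP := (hα _ h).1
  have h1 : ‖(N (r * m) : ℂ) ^ (-(1 / 2 : ℂ) + ((δ / 2 : ℝ) : ℂ) + τ * Complex.I)‖ =
      N (r * m) ^ (-(1 / 2) + δ / 2) := by
    rw [Complex.norm_cpow_eq_rpow_re_of_pos (N_pos hP.1.ne_zero)]
    congr 1
    simp
  unfold be1
  rw [norm_mul, norm_mul, norm_mul, h1, mul_assoc]
  exact mul_le_of_le_one_right (mul_nonneg (norm_nonneg _) (Real.rpow_nonneg (N_nonneg _) _))
    (mul_le_one₀ (norm_hchar_le Q hν m) (norm_nonneg _)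
      (TL.norm_chi_le hP.isCoprime_six.of_mul_left_right _))

theorem adm_norm_be2 {Q : Lev} {β ν : O → ℂ} (hβ : ∀ n, β n ≠ 0 → IsCoprime n 6)
    (hν : ν ∈ hchars Q.q) (e m : O) : ‖be2 β ν e m‖ ≤ ‖β (e * m)‖ := by
  by_cases h : β (e * m) = 0
  · simp [be2, h]
  unfold be2
  rw [norm_mul, norm_mul, mul_assoc]
  exact mul_le_of_le_one_right (norm_nonneg _) (mul_le_one₀ (norm_hchar_le Q hν m) (norm_nonneg _)
    (TL.norm_chi_le (hβ _ h).of_mul_left_right _))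

theorem adm_ne_of_be1 {α ν : O → ℂ} {r : O} {δ τ : ℝ} {m : O} (h : be1 α ν r δ τ m ≠ 0) :
    α (r * m) ≠ 0 := fun h0 => h (by simp [be1, h0])

theorem adm_rpow_le {Q : Lev} {α : O → ℂ} (hα : SuppSq Q 1 α) {δ : ℝ} (hδ : δ ≤ 1) (n : O) :
    ‖α n‖ * N n ^ (-(1 / 2) + δ / 2) ≤ ‖α n‖ := by
  by_cases h : α n = 0
  · simp [h]
  exact mul_le_of_le_one_right (norm_nonneg _)
    (Real.rpow_le_one_of_one_le_of_nonpos (one_le_N (hα n h).1.1.ne_zero) (by linarith))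

theorem adm_tsum_le {f : O → ℝ} {B σ : ℝ} (hσ : 1 < σ) (hf : ∀ m, 0 ≤ f m)
    (h : ∀ m, f m ≤ B * N m ^ (-σ)) : ∑' m, f m ≤ (∑' n : O, N n ^ (-σ)) * B := by
  have h1 := (summable_N_rpow hσ).mul_left B
  rw [mul_comm, ← tsum_mul_left]
  exact (Summable.of_nonneg_of_le hf h h1).tsum_le_tsum h h1

theorem adm_h3 {Q : Lev} {δ : ℝ} {j : ℕ} {D' : ℝ} {a : O → ℂ} {Λ X : ℝ} {F : O → ℝ}
    (h : Adm Q δ j D' a Λ X F) (hδ : 0 < δ) {n : O} (hn : n ≠ 0) :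
    ‖a n‖ ≤ Λ * X ^ ((j : ℝ) - 1 / 2) * (N n ^ j)⁻¹ := by
  refine (h.h3 n).trans (mul_le_mul_of_nonneg_left ?_
    (mul_nonneg h.lam (Real.rpow_nonneg h.xpos.le _)))
  rw [← Real.rpow_natCast, ← Real.rpow_neg (N_nonneg n)]
  exact Real.rpow_le_rpow_of_exponent_le (one_le_N hn) (by linarith)

theorem adm_sq {X : ℝ} (hX : 0 < X) (A0 : ℕ) :
    (X ^ (((A0 + 3 : ℕ) : ℝ) - 1 / 2)) ^ 2 = X ^ (2 * A0 + 5) := by
  rw [← Real.rpow_natCast, ← Real.rpow_mul hX.le, ← Real.rpow_natCast]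
  congr 1
  push_cast
  ring

theorem adm_neg_two {m : O} : N m ^ (-(2 : ℝ)) = (N m ^ 2)⁻¹ := by
  rw [Real.rpow_neg (N_nonneg m), Real.rpow_two]

theorem adm_mom_nonneg (α : O → ℂ) (j : ℕ) : 0 ≤ mom α j :=
  tsum_nonneg fun n => mul_nonneg (norm_nonneg _) (pow_nonneg (N_nonneg n) j)

theorem suppSq_dil {Q : Lev} {a : O → ℂ} (hs : ∀ n, a n ≠ 0 → P0 Q n) (f : O) :
    SuppSq Q 1 (dil f a) := by
  intro n hn
  unfold dil at hn
  split_ifs at hn with h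
  · exact ⟨⟨h.1, (hs _ hn).2.of_mul_left_right⟩, h.2.1, isCoprime_one_right⟩
  · exact absurd rfl hn

theorem rapid_dil {a : O → ℂ} (ha : Rapid a) {f : O} (hf : f ≠ 0) : Rapid (dil f a) := by
  exact adm_rapid_of_le (ha.dilate hf) (adm_norm_dil_le f a)

/-- if `α (g m) ≠ 0` then `g m` is primary and squarefree, so `m` is primary (`Prim.of_mul_left`),
squarefree and coprime to `g` -/
theorem dil_eq {Q : Lev} {α : O → ℂ} (hα : SuppSq Q 1 α) {g : O} (hg : Prim g) :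
    (fun m => α (g * m)) = dil g α := by
  funext m
  unfold dil
  split_ifs with h
  · rfl
  · by_contra h0
    obtain ⟨h1, h2, -⟩ := hα _ h0
    exact h ⟨h1.1.of_mul_left hg, h2.of_mul_right,
      (squarefree_mul_iff.1 h2).1.isCoprime.symm⟩

/-- `h1, h2, h3`: `N (f s) = N f · N s`.  `h4`: if `G` is squarefree and coprime to `f` then
`dil G (dil f a) = dil (f G) a` and `N(G m)^s = N(f)^{-s} N(f G m)^s`, `|N f^{-s}|² = N f^{2-2δ} ≤ N f²`;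
otherwise `dil G (dil f a) = 0`. -/
theorem Adm.dil {Q : Lev} {δ : ℝ} {j : ℕ} {D' : ℝ} {a : O → ℂ} {Λ X : ℝ} {F : O → ℝ}
    (h : Adm Q δ j D' a Λ X F) (hδ : 0 < δ) {f : O} (hf : Prim f) :
    Adm Q δ j D' (dil f a) (Λ * N f ^ (-(1 / 2 + δ))) (X / N f)
      (fun ρ => N f ^ (-(1 + 2 * δ)) * F ρ) := by
  have hN := N_pos hf.ne_zero
  have hX := h.xpos
  have hΛ := h.lam
  refine ⟨fun n hn => (suppSq_dil h.supp f n hn).1, rapid_dil h.rapid hf.ne_zero, div_pos hX hN,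
    mul_nonneg hΛ (Real.rpow_nonneg hN.le _), fun n => ?_, fun n => ?_, fun n => ?_,
    fun ρ => mul_nonneg (Real.rpow_nonneg hN.le _) (h.fnn ρ), fun G hG ν hν ρ hρ τ => ?_⟩
  · refine (adm_norm_dil_le f a n).trans ((h.h1 _).trans (le_of_eq ?_))
    rw [N_mul, Real.mul_rpow hN.le (N_nonneg n), mul_assoc]
  · refine (adm_norm_dil_le f a n).trans ((h.h2 _).trans (le_of_eq ?_))
    rw [N_mul, Real.mul_rpow hN.le (N_nonneg n), mul_assoc Λ (N f ^ _), adm_scale hX hN,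
      show -(1 / 2 + δ) - -(1 / 2 : ℝ) = -δ by ring]
    ring
  · refine (adm_norm_dil_le f a n).trans ((h.h3 _).trans (le_of_eq ?_))
    rw [N_mul, Real.mul_rpow hN.le (N_nonneg n), mul_assoc Λ (N f ^ _), adm_scale hX hN,
      show -(1 / 2 + δ) - ((j : ℝ) - 1 / 2) = -(j + δ) by ring]
    ring
  · have hF := h.fnn ρ
    have hNG := N_pos hG.ne_zero
    by_cases hc : Squarefree G ∧ IsCoprime G f
    · have h1 := h.h4 (f * G) (hf.mul hG) ν hν ρ hρ τ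
      have h2 : ‖(N f : ℂ) ^ (-(1 : ℂ) + δ + τ * Complex.I)‖ = N f ^ (-1 + δ) := by
        rw [Complex.norm_cpow_eq_rpow_re_of_pos hN]
        congr 1
        simp
      rw [adm_Wsum a ν hG hc.1 hc.2, norm_mul, h2, mul_pow, N_mul, Real.mul_rpow hN.le hNG.le] at h1
      have h3 : (N f)⁻¹ ≤ N f ^ (-1 + δ) := by
        rw [← Real.rpow_neg_one]
        exact Real.rpow_le_rpow_of_exponent_le (one_le_N hf.ne_zero) (by linarith)
      have h4 := (mul_le_mul_of_nonneg_right (pow_le_pow_left₀ (by positivity) h3 2)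
        (sq_nonneg ‖Wsum (GM.dil f a) G ν ρ δ τ‖)).trans h1
      have h5 := mul_le_mul_of_nonneg_left h4 (sq_nonneg (N f))
      rw [← mul_assoc, ← mul_pow, mul_inv_cancel₀ hN.ne', one_pow, one_mul] at h5
      refine h5.trans (le_of_eq ?_)
      field_simp
    · have h1 : Wsum (GM.dil f a) G ν ρ δ τ = 0 := by
        simp [Wsum, adm_dil_dil_zero a hc]
      rw [h1, norm_zero, zero_pow two_ne_zero]
      positivity

theorem Tsum_eq (α ν : O → ℂ) (r k : O) (δ τ : ℝ) :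
    Tsum α ν r 1 k (δ / 2) τ = ∑' m, be1 α ν r δ τ m * gt m * conj (chi m k) := by
  unfold Tsum be1
  refine tsum_congr fun m => ?_
  rw [one_mul]
  ring

/-- pointwise bound for the amplified coefficients: on the support `r e m ∈ 𝒫₀`, all characters are
bounded by one -/
theorem norm_be2_le {Q : Lev} {α ν1 ν2 : O → ℂ} (hα : SuppSq Q 1 α) (h1 : ν1 ∈ hchars Q.q)
    (h2 : ν2 ∈ hchars Q.q) (r e : O) (δ τ : ℝ) (m : O) :
    ‖be2 (be1 α ν1 r δ τ) ν2 e m‖ ≤ ‖α (r * e * m)‖ * N (r * e * m) ^ (-(1 / 2) + δ / 2) := by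
  rw [mul_assoc]
  exact (adm_norm_be2 (fun n hn => (hα _ (adm_ne_of_be1 hn)).1.isCoprime_six.of_mul_left_right)
    h2 e m).trans (adm_norm_be1 hα h1 r δ τ _)

theorem suppSq_be1 {Q : Lev} {α : O → ℂ} (hα : SuppSq Q 1 α) (ν : O → ℂ) {r : O} (hr : Prim r)
    (δ τ : ℝ) : SuppSq Q 1 (be1 α ν r δ τ) := by
  exact fun n hn => hα.dilate hr n (adm_ne_of_be1 hn)

theorem rapid_be1 {Q : Lev} {α ν : O → ℂ} (hα : SuppSq Q 1 α) (ha : Rapid α) (hν : ν ∈ hchars Q.q)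
    {r : O} (hr : Prim r) {δ : ℝ} (hδ : δ ≤ 1) (τ : ℝ) : Rapid (be1 α ν r δ τ) := by
  exact adm_rapid_of_le (ha.dilate hr.ne_zero) fun n =>
    (adm_norm_be1 hα hν r δ τ n).trans (adm_rpow_le hα hδ _)

theorem suppSq_be2 {Q : Lev} {β : O → ℂ} (hβ : SuppSq Q 1 β) (ν : O → ℂ) {e : O} (he : Prim e) :
    SuppSq Q 1 (be2 β ν e) := by
  exact fun n hn => hβ.dilate he n fun h0 => hn (by simp [be2, h0])

theorem rapid_be2 {Q : Lev} {β ν : O → ℂ} (hβ : SuppSq Q 1 β) (hb : Rapid β) (hν : ν ∈ hchars Q.q)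
    {e : O} (he : Prim e) : Rapid (be2 β ν e) := by
  exact adm_rapid_of_le (hb.dilate he.ne_zero)
    (adm_norm_be2 (fun n hn => (hβ n hn).1.isCoprime_six) hν e)

/-- `ℓ²` norm: `norm_be2_le` and `h2` give `Λ² X⁻¹ N(r e m)^{-1-δ}`; sum over `m` with
`summable_N_rpow` -/
theorem l2_be2 {δ : ℝ} (hδ : 0 < δ) : ∃ C, 0 ≤ C ∧ ∀ (Q : Lev) (j : ℕ) (D' : ℝ) (α : O → ℂ)
    (Λ X : ℝ) (F : O → ℝ), SuppSq Q 1 α → Adm Q δ j D' α Λ X F → ∀ ν1 ∈ hchars Q.q,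
    ∀ ν2 ∈ hchars Q.q, ∀ r e : O, Prim r → Prim e → ∀ τ : ℝ,
      ∑' m, ‖be2 (be1 α ν1 r δ τ) ν2 e m‖ ^ 2 ≤
        C * (Λ ^ 2 * X⁻¹ * (N r ^ (-(1 + δ)) * N e ^ (-(1 + δ)))) := by
  refine ⟨∑' n : O, N n ^ (-(1 + δ)), tsum_nonneg fun n => Real.rpow_nonneg (N_nonneg n) _,
    fun Q j D' α Λ X F hα h ν1 h1 ν2 h2 r e hr he τ => ?_⟩
  refine adm_tsum_le (by linarith) (fun m => sq_nonneg _) fun m => ?_
  have hX := h.xpos
  have hΛ := h.lam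
  have hNr := N_pos hr.ne_zero
  have hNe := N_pos he.ne_zero
  have hNm := N_nonneg m
  have h3 := norm_be2_le hα h1 h2 r e δ τ m
  by_cases h0 : α (r * e * m) = 0
  · rw [h0, norm_zero, zero_mul] at h3
    rw [le_antisymm h3 (norm_nonneg _), zero_pow two_ne_zero]
    positivity
  have hn := N_pos (hα _ h0).1.1.ne_zero
  have h4 := h3.trans (mul_le_mul_of_nonneg_right (h.h2 _) (Real.rpow_nonneg hn.le _))
  refine (pow_le_pow_left₀ (norm_nonneg _) h4 2).trans (le_of_eq ?_)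
  have h5 : (X ^ (-(1 / 2 : ℝ))) ^ 2 = X⁻¹ := by
    rw [← Real.rpow_natCast, ← Real.rpow_mul hX.le, ← Real.rpow_neg_one]
    norm_num
  have h6 : (N (r * e * m) ^ (-δ) * N (r * e * m) ^ (-(1 / 2) + δ / 2)) ^ 2 =
      N r ^ (-(1 + δ)) * N e ^ (-(1 + δ)) * N m ^ (-(1 + δ)) := by
    rw [← Real.rpow_add hn, ← Real.rpow_natCast, ← Real.rpow_mul hn.le,
      ← Real.mul_rpow hNr.le hNe.le, ← Real.mul_rpow (by positivity) hNm, ← N_mul, ← N_mul]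
    congr 1
    push_cast
    ring
  rw [mul_assoc (Λ * _), mul_pow, mul_pow, h5, h6]
  ring

/-- moments: `norm_be2_le` (the power of `N(r e m) ≥ 1` is `≤ 1`) and `h3` with `j = A0 + 3` give
`Λ X^{A0+5/2} N(r e)^{-(A0+3)} ∑_m N m^{-2}` -/
theorem mom_be2 : ∃ C, 0 ≤ C ∧ ∀ (Q : Lev) (δ : ℝ) (A0 : ℕ) (D' : ℝ) (α : O → ℂ)
    (Λ X : ℝ) (F : O → ℝ), 0 < δ → δ ≤ 1 → SuppSq Q 1 α → Adm Q δ (A0 + 3) D' α Λ X F →
    ∀ ν1 ∈ hchars Q.q, ∀ ν2 ∈ hchars Q.q, ∀ r e : O, Prim r → Prim e → ∀ τ : ℝ,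
      mom (be2 (be1 α ν1 r δ τ) ν2 e) (A0 + 1) ^ 2 ≤
        C * (Λ ^ 2 * X ^ (2 * A0 + 5) * ((N r * N e) ^ (2 * A0 + 6))⁻¹) := by
  refine ⟨(∑' n : O, N n ^ (-(2 : ℝ))) ^ 2, sq_nonneg _,
    fun Q δ A0 D' α Λ X F hδ hδ1 hα h ν1 h1 ν2 h2 r e hr he τ => ?_⟩
  have hX := h.xpos
  have hΛ := h.lam
  have hNr := N_pos hr.ne_zero
  have hNe := N_pos he.ne_zero
  have h3 : mom (be2 (be1 α ν1 r δ τ) ν2 e) (A0 + 1) ≤ (∑' n : O, N n ^ (-(2 : ℝ))) *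
      (Λ * X ^ (((A0 + 3 : ℕ) : ℝ) - 1 / 2) * ((N r * N e) ^ (A0 + 3))⁻¹) := by
    refine adm_tsum_le (by norm_num)
      (fun m => mul_nonneg (norm_nonneg _) (pow_nonneg (N_nonneg m) _)) fun m => ?_
    rw [adm_neg_two]
    by_cases hm : m = 0
    · simp [hm]
    have hNm := N_pos hm
    have h4 := ((norm_be2_le hα h1 h2 r e δ τ m).trans (adm_rpow_le hα hδ1 _)).trans
      (adm_h3 h hδ (mul_ne_zero (hr.mul he).ne_zero hm))
    refine (mul_le_mul_of_nonneg_right h4 (pow_nonneg hNm.le _)).trans (le_of_eq ?_)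
    rw [N_mul, N_mul]
    field_simp
    ring
  refine (pow_le_pow_left₀ (adm_mom_nonneg _ _) h3 2).trans (le_of_eq ?_)
  rw [mul_pow, mul_pow, mul_pow, adm_sq hX, inv_pow, ← pow_mul,
    show (A0 + 3) * 2 = 2 * A0 + 6 by ring]

/-- `h3` with `j = A0 + 3` (`N n ≥ 1` on the support) -/
theorem mom_adm : ∃ C, 0 ≤ C ∧ ∀ (Q : Lev) (δ : ℝ) (A0 : ℕ) (D' : ℝ) (α : O → ℂ)
    (Λ X : ℝ) (F : O → ℝ), 0 < δ → Adm Q δ (A0 + 3) D' α Λ X F →
      mom α A0 ^ 2 ≤ C * (Λ ^ 2 * X ^ (2 * A0 + 5)) := by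
  refine ⟨(∑' n : O, N n ^ (-(2 : ℝ))) ^ 2, sq_nonneg _, fun Q δ A0 D' α Λ X F hδ h => ?_⟩
  have hX := h.xpos
  have hΛ := h.lam
  have h3 : mom α A0 ≤ (∑' n : O, N n ^ (-(2 : ℝ))) * (Λ * X ^ (((A0 + 3 : ℕ) : ℝ) - 1 / 2)) := by
    refine adm_tsum_le (by norm_num)
      (fun m => mul_nonneg (norm_nonneg _) (pow_nonneg (N_nonneg m) _)) fun m => ?_
    rw [adm_neg_two]
    by_cases h0 : α m = 0
    · rw [h0, norm_zero, zero_mul]
      positivity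
    have hm := (h.supp m h0).1.ne_zero
    have hNm := N_pos hm
    refine (mul_le_mul (adm_h3 h hδ hm) (pow_le_pow_right₀ (one_le_N hm) (Nat.le_add_right A0 1))
      (pow_nonneg hNm.le _) (by positivity)).trans (le_of_eq ?_)
    field_simp
    ring
  refine (pow_le_pow_left₀ (adm_mom_nonneg _ _) h3 2).trans (le_of_eq ?_)
  rw [mul_pow, mul_pow, adm_sq hX]

end Crest.Agent.R17.GM
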