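import Crest.Agent.R17.GMoment_Pow

/-!
# R17 / GMoment_Back : the backward step with a majorant
-/

set_option autoImplicit false

noncomputable section

open scoped Classical ComplexConjugate
open MeasureTheory

namespace Crest.Agent.R17.GM

/-- Apply `back` with `σ = δ/2`.  For primary `g, r` and `ν`: `(K N d)^{-σ} ≤ 1`, so by
`integral_Gm_le` the integral is `≤ C N r^{-(1+δ)} ∑_{d ∈ ball (U/N g²)} F (d g²)`.  The `tsum` over
`(g,r)` has non-negative terms; bound every finite partial sum (`Real.tsum_le_of_sum_le` /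
`tsum_le_of_sum_le'`; a finite set of pairs lies in `S₁ ×ˢ S₂`) by `sum_sq_mult` in `g` and
`summable_N_rpow` in `r`. -/
theorem back1 (Q : Lev) {δ : ℝ} (hδ : 0 < δ) (hδ1 : δ ≤ 1) {A0 : ℕ} (hA0 : 2 ≤ A0) :
    ∃ C, 0 ≤ C ∧ ∀ β : O → ℂ, SuppSq Q 1 β → Rapid β → ∀ K U T : ℝ, 1 ≤ K → 0 < U → 0 ≤ T →
    (∀ ρ ∈ ball U, ((pdiv ρ).card : ℝ) ≤ T) → ∀ F : O → ℝ, (∀ ρ, 0 ≤ F ρ) →
    (∀ g r : O, Prim g → Prim r → ∀ ν ∈ hchars Q.q, ∀ d ∈ ball (U / N g ^ 2), ∀ τ : ℝ,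
      ‖Bsum β ν g r (d * g ^ 2) (δ / 2) τ‖ ^ 2 ≤
        N r ^ (-(1 + δ)) * Real.exp (|τ| / 2) * F (d * g ^ 2)) →
    ∑ k ∈ ball K, ‖∑' m, β m * gt m * conj (chi m k)‖ ^ 2 ≤ C * K * ∑' m, ‖β m‖ ^ 2 +
      C * K * T * ∑ ρ ∈ ball U, F ρ + C * (K * U) * ((K * U) ^ A0)⁻¹ * mom β (A0 + 1) ^ 2 := by
  obtain ⟨C0, H0⟩ := back Q (σ := δ / 2) (half_pos hδ) (by linarith) hA0
  obtain ⟨C1, hC1, H1⟩ := integral_Gm_le (half_pos hδ)
  have sZ := summable_N_rpow (σ := 1 + δ) (by linarith)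
  have nZ : ∀ r : O, 0 ≤ N r ^ (-(1 + δ)) := fun r => Real.rpow_nonneg (N_nonneg _) _
  set W : ℝ := (hchars Q.q).card * C1 * ∑' r : O, N r ^ (-(1 + δ)) with hW
  have hW0 : 0 ≤ W := mul_nonneg (by positivity) (tsum_nonneg nZ)
  refine ⟨|C0| * (1 + W), by positivity, fun β hs hβ K U T hK hU hT hρ F hF hB => ?_⟩
  have K0 : 0 < K := by linarith
  have nF : ∀ S : Finset O, ∀ g : O, 0 ≤ ∑ d ∈ S, F (d * g ^ 2) := fun S g =>
    Finset.sum_nonneg fun _ _ => hF _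
  have nS : 0 ≤ T * ∑ ρ ∈ ball U, F ρ := mul_nonneg hT (Finset.sum_nonneg fun _ _ => hF _)
  have ng : ∀ (x : O × O) (ν : O → ℂ) (τ : ℝ), 0 ≤ ∑ d ∈ ball (U / N x.1 ^ 2),
      (K * N d) ^ (-(δ / 2)) * ‖Bsum β ν x.1 x.2 (d * x.1 ^ 2) (δ / 2) τ‖ ^ 2 := fun x ν τ =>
    Finset.sum_nonneg fun d _ => mul_nonneg (Real.rpow_nonneg (mul_nonneg K0.le (N_nonneg _)) _)
      (sq_nonneg _)
  set f : O × O → ℝ := fun x => if Prim x.1 ∧ Prim x.2 then
    ∑ ν ∈ hchars Q.q, ∫ τ : ℝ, Gm (δ / 2) τ * ∑ d ∈ ball (U / N x.1 ^ 2),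
      (K * N d) ^ (-(δ / 2)) * ‖Bsum β ν x.1 x.2 (d * x.1 ^ 2) (δ / 2) τ‖ ^ 2 else 0 with hf
  have f0 : ∀ x, 0 ≤ f x := fun x => by
    simp only [hf]
    split_ifs
    · exact Finset.sum_nonneg fun ν _ => integral_nonneg fun τ =>
        mul_nonneg (norm_nonneg _) (ng x ν τ)
    · exact le_rfl
  have f1 : ∀ x, f x ≤ (if Prim x.1 then ∑ d ∈ ball (U / N x.1 ^ 2), F (d * x.1 ^ 2) else 0) *
      ((hchars Q.q).card * C1 * N x.2 ^ (-(1 + δ))) := by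
    intro x
    have := nZ x.2
    have := nF (ball (U / N x.1 ^ 2)) x.1
    simp only [hf]
    by_cases h : Prim x.1 ∧ Prim x.2
    · rw [if_pos h, if_pos h.1]
      refine (Finset.sum_le_card_nsmul _ _ _ fun ν hν => H1 _
        (N x.2 ^ (-(1 + δ)) * ∑ d ∈ ball (U / N x.1 ^ 2), F (d * x.1 ^ 2)) (by positivity)
        (ng x ν) fun τ => ?_).trans_eq (by rw [nsmul_eq_mul]; ring)
      rw [Finset.mul_sum, Finset.mul_sum]
      refine Finset.sum_le_sum fun d hd => ?_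
      refine (mul_le_of_le_one_left (sq_nonneg _) (Real.rpow_le_one_of_one_le_of_nonpos
        (one_le_mul_of_one_le_of_one_le hK (one_le_N (mem_ball.1 hd).1)) (by linarith))).trans
        ((hB _ _ h.1 h.2 ν hν d hd τ).trans_eq (by ring))
    · rw [if_neg h]
      split_ifs
      · positivity
      · simp
  have f2 : ∑' x, f x ≤ W * (T * ∑ ρ ∈ ball U, F ρ) := by
    refine Real.tsum_le_of_sum_le f0 fun S => ?_
    refine (Finset.sum_le_sum_of_subset_of_nonneg Finset.subset_product fun x _ _ => f0 x).trans ?_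
    refine (Finset.sum_le_sum fun x _ => f1 x).trans ?_
    rw [Finset.sum_product, mul_comm W]
    simp only [← Finset.mul_sum, ← Finset.sum_mul]
    rw [← Finset.sum_filter]
    exact mul_le_mul (sum_sq_mult hρ hF _ fun r hr => (Finset.mem_filter.1 hr).2)
      (mul_le_mul_of_nonneg_left (sZ.sum_le_tsum _ fun r _ => nZ r) (by positivity))
      (mul_nonneg (by positivity) (Finset.sum_nonneg fun r _ => nZ r)) nS
  refine (H0 β hs hβ K U K0 hU).trans ?_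
  have a1 : 0 ≤ K * ∑' m, ‖β m‖ ^ 2 := mul_nonneg K0.le (tsum_nonneg fun _ => sq_nonneg _)
  have a2 : 0 ≤ K * U * ((K * U) ^ A0)⁻¹ * mom β (A0 + 1) ^ 2 := by positivity
  have a3 : 0 ≤ K * ∑' x, f x := mul_nonneg K0.le (tsum_nonneg f0)
  have a4 := mul_le_mul_of_nonneg_left f2 K0.le
  have a5 := mul_nonneg K0.le nS
  have b0 := abs_nonneg C0
  have b1 := le_abs_self C0
  have b2 : |C0| ≤ |C0| * (1 + W) := le_mul_of_one_le_right b0 (by linarith)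
  have c1 := mul_le_mul_of_nonneg_right (b1.trans b2) a1
  have c2 := mul_le_mul_of_nonneg_right (b1.trans b2) a2
  have c3 := (mul_le_mul_of_nonneg_right b1 a3).trans (mul_le_mul_of_nonneg_left a4 b0)
  have c4 := mul_nonneg b0 a5
  change C0 * K * _ + C0 * K * ∑' x, f x + _ ≤ _
  linarith

end Crest.Agent.R17.GM
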