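import Crest.Agent.R17.GMoment_Adm

/-!
# R17 / GMoment_Bsum : `Bsum` of the amplified coefficients is a multiple of `Wsum`
-/

set_option autoImplicit false

noncomputable section

open scoped Classical ComplexConjugate
open MeasureTheory

namespace Crest.Agent.R17.GM

theorem bsum_chi_mul {m : O} (hm : IsCoprime m 6) (a b : O) : chi m (a * b) = chi m a * chi m b :=
  (sym_isChar (k := 6) (by simp) (by simpa using hm)).mul a b

theorem bsum_chi_le {m : O} (hm : IsCoprime m 6) (a : O) : ‖chi m a‖ ≤ 1 :=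
  norm_sym_le (k := 6) (by simp) (by simpa using hm) a

theorem bsum_eq {Q : Lev} {α ν1 ν2 : O → ℂ} (ν : O → ℂ) (hα : SuppSq Q 1 α) (h1 : ν1 ∈ hchars Q.q)
    (h2 : ν2 ∈ hchars Q.q) {r e g r' : O} (hr : Prim r) (he : Prim e)
    (hg : Prim g) (hr' : Prim r') (d : O) (δ τ τ' : ℝ) :
    Bsum (be2 (be1 α ν1 r δ τ) ν2 e) ν g r' (d * g ^ 2) (δ / 2) τ' =
      (ν1 (e * g * r') * chi (e * g * r') (r ^ 2) * ν2 (g * r') * chi (g * r') (e ^ 2) *
        (N (r * e * g) : ℂ) ^ (-(-(1 / 2 : ℂ) + ((δ / 2 : ℝ) : ℂ) + τ' * Complex.I))) *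
      Wsum α (r * e * g * r') (fun n => ν1 n * ν2 n * ν n) (d * g ^ 2 * e ^ 2 * r ^ 2) δ (τ + τ') := by
  have hG : Prim (r * e * g * r') := ((hr.mul he).mul hg).mul hr'
  unfold Bsum Wsum
  rw [← tsum_mul_left, ← dil_eq hα hG]
  refine tsum_congr fun m => ?_
  unfold be2 be1
  have e1 : r * (e * (g * r' * m)) = r * e * g * r' * m := by ring
  rw [e1]
  by_cases h0 : α (r * e * g * r' * m) = 0
  · simp only [h0, zero_mul, mul_zero]
  have h6 := (hα _ h0).1.isCoprime_six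
  have hne := (hα _ h0).1.1.ne_zero
  have hm0 : m ≠ 0 := right_ne_zero_of_mul hne
  have hm6 : IsCoprime m 6 := h6.of_mul_left_right
  have e2 : e * (g * r' * m) = e * g * r' * m := by ring
  have e3 : chi (e * g * r' * m) (r ^ 2) = chi (e * g * r') (r ^ 2) * chi m (r ^ 2) :=
    sym_mul_left 6 ((he.mul hg).mul hr').ne_zero hm0 _
  have e4 : chi (g * r' * m) (e ^ 2) = chi (g * r') (e ^ 2) * chi m (e ^ 2) :=
    sym_mul_left 6 (hg.mul hr').ne_zero hm0 _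
  have e5 : (N (r * e * g * r' * m) : ℂ) ^ (-(1 / 2 : ℂ) + ((δ / 2 : ℝ) : ℂ) + τ * Complex.I) *
      (N (r' * m) : ℂ) ^ (-(1 / 2 : ℂ) + ((δ / 2 : ℝ) : ℂ) + τ' * Complex.I) =
      (N (r * e * g) : ℂ) ^ (-(-(1 / 2 : ℂ) + ((δ / 2 : ℝ) : ℂ) + τ' * Complex.I)) *
      (N (r * e * g * r' * m) : ℂ) ^ (-(1 : ℂ) + δ + ((τ + τ' : ℝ) : ℂ) * Complex.I) := by
    have a1 := ((hr.mul he).mul hg).ne_zero
    have a2 := mul_ne_zero hr'.ne_zero hm0
    rw [bk2_cpow hne, bk2_cpow hne, bk2_cpow a1, bk2_cpow a2, ← Complex.exp_add, ← Complex.exp_add,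
      mul_assoc (r * e * g), N_mul (r * e * g), Real.log_mul (N_pos a1).ne' (N_pos a2).ne']
    congr 1
    push_cast
    ring
  rw [e2, e3, e4, ((mem_hchars Q.ne).1 h1).1.mul, ((mem_hchars Q.ne).1 h2).1.mul (g * r'),
    bsum_chi_mul hm6 _ (r ^ 2), bsum_chi_mul hm6 _ (e ^ 2)]
  linear_combination (α (r * e * g * r' * m) * ν1 (e * g * r') * ν1 m * chi (e * g * r') (r ^ 2) *
    chi m (r ^ 2) * ν2 (g * r') * ν2 m * chi (g * r') (e ^ 2) * chi m (e ^ 2) * ν m *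
    chi m (d * g ^ 2)) * e5

/-- With `G = r e g r'` the `m`-th term of `Bsum` is `κ` times the `m`-th term of `Wsum`, where
`κ = ν₁(e g r') χ_{e g r'}(r²) ν₂(g r') χ_{g r'}(e²) N(r e g)^{1/2 - δ/2 - iτ'}`
(`α (G m) = dil G α m` by `dil_eq`; if it is non-zero then `m`, `e g r'` are coprime to `6` and
non-zero: `sym_mul_left`, `(sym_isChar ..).mul`, `N(r' m) = N(G m)/N(r e g)`).  `|κ|² ≤ N(r e g)` if
`G` is coprime to `6`; otherwise all terms vanish. -/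
theorem bsum_le {Q : Lev} {α ν1 ν2 ν : O → ℂ} (hα : SuppSq Q 1 α) (h1 : ν1 ∈ hchars Q.q)
    (h2 : ν2 ∈ hchars Q.q) (h3 : ν ∈ hchars Q.q) {r e g r' : O} (hr : Prim r) (he : Prim e)
    (hg : Prim g) (hr' : Prim r') (d : O) {δ : ℝ} (hδ : 0 ≤ δ) (τ τ' : ℝ) :
    ‖Bsum (be2 (be1 α ν1 r δ τ) ν2 e) ν g r' (d * g ^ 2) (δ / 2) τ'‖ ^ 2 ≤
      N (r * e * g) * ‖Wsum α (r * e * g * r') (fun n => ν1 n * ν2 n * ν n)
        (d * g ^ 2 * e ^ 2 * r ^ 2) δ (τ + τ')‖ ^ 2 := by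
  by_cases h6 : IsCoprime (r * e * g * r') 6
  · rw [bsum_eq ν hα h1 h2 hr he hg hr', norm_mul, mul_pow]
    refine mul_le_mul_of_nonneg_right ?_ (sq_nonneg _)
    have a1 := ((hr.mul he).mul hg).ne_zero
    have b1 := ((mem_hchars Q.ne).1 h1).1.norm_le Q.ne (e * g * r')
    have b2 := ((mem_hchars Q.ne).1 h2).1.norm_le Q.ne (g * r')
    have b3 := bsum_chi_le (m := e * g * r')
      (h6.of_isCoprime_of_dvd_left ⟨r, by ring⟩) (r ^ 2)
    have b4 := bsum_chi_le (m := g * r') (h6.of_isCoprime_of_dvd_left ⟨r * e, by ring⟩) (e ^ 2)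
    have b5 : ‖(N (r * e * g) : ℂ) ^ (-(-(1 / 2 : ℂ) + ((δ / 2 : ℝ) : ℂ) + τ' * Complex.I))‖ ≤
        Real.sqrt (N (r * e * g)) := by
      rw [Complex.norm_cpow_eq_rpow_re_of_pos (N_pos a1), Real.sqrt_eq_rpow]
      refine Real.rpow_le_rpow_of_exponent_le (one_le_N a1) ?_
      simp
      linarith
    simp only [norm_mul]
    calc _ ≤ (1 * 1 * 1 * 1 * Real.sqrt (N (r * e * g))) ^ 2 := by gcongr
      _ = _ := by rw [mul_one, mul_one, mul_one, one_mul, Real.sq_sqrt (N_nonneg _)]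
  · have h0 : Bsum (be2 (be1 α ν1 r δ τ) ν2 e) ν g r' (d * g ^ 2) (δ / 2) τ' = 0 := by
      unfold Bsum be2 be1
      have : ∀ m, α (r * (e * (g * r' * m))) = 0 := fun m => by
        by_contra h
        exact h6 ((hα _ h).1.isCoprime_six.of_isCoprime_of_dvd_left ⟨m, by ring⟩)
      simp only [this, zero_mul, tsum_zero]
    rw [h0, norm_zero, zero_pow two_ne_zero]
    exact mul_nonneg (N_nonneg _) (sq_nonneg _)

/-- the hypothesis of `back1` for the amplified coefficients (`bsum_le`, `Adm.h4`,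
`mul_mem_hchars`; the row `d g² e² r²` lies in `ball D'`; `N(r e g) N(r e g r')^{-1-2δ} ≤ N r'^{-1-δ}`,
`|τ + τ'| ≤ |τ| + |τ'|`) -/
theorem bsum_adm {Q : Lev} {δ : ℝ} {j : ℕ} {D' : ℝ} {α : O → ℂ} {Λ X : ℝ} {F : O → ℝ}
    (hα : SuppSq Q 1 α) (h : Adm Q δ j D' α Λ X F) (hδ : 0 < δ) {ν1 ν2 ν : O → ℂ}
    (h1 : ν1 ∈ hchars Q.q) (h2 : ν2 ∈ hchars Q.q) (h3 : ν ∈ hchars Q.q) {r e g r' : O}
    (hr : Prim r) (he : Prim e) (hg : Prim g) (hr' : Prim r') {d : O}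
    (hd : d ∈ ball (D' / N r ^ 2 / N e ^ 2 / N g ^ 2)) (τ τ' : ℝ) :
    ‖Bsum (be2 (be1 α ν1 r δ τ) ν2 e) ν g r' (d * g ^ 2) (δ / 2) τ'‖ ^ 2 ≤
      N r' ^ (-(1 + δ)) * Real.exp (|τ'| / 2) *
        ((X ^ 2)⁻¹ * Real.exp (|τ| / 2) * F (d * g ^ 2 * e ^ 2 * r ^ 2)) := by
  have hG : Prim (r * e * g * r') := ((hr.mul he).mul hg).mul hr'
  have a1 := ((hr.mul he).mul hg).ne_zero
  have n1 := N_pos hr.ne_zero
  have n2 := N_pos he.ne_zero
  have n3 := N_pos hg.ne_zero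
  have n4 := N_pos hr'.ne_zero
  have n5 := N_pos a1
  obtain ⟨hd0, hd1⟩ := mem_ball.1 hd
  have hρ : d * g ^ 2 * e ^ 2 * r ^ 2 ∈ ball D' := by
    refine mem_ball.2 ⟨mul_ne_zero (mul_ne_zero (mul_ne_zero hd0 (pow_ne_zero _ hg.ne_zero))
      (pow_ne_zero _ he.ne_zero)) (pow_ne_zero _ hr.ne_zero), ?_⟩
    rw [le_div_iff₀ (by positivity), le_div_iff₀ (by positivity), le_div_iff₀ (by positivity)] at hd1
    simpa only [N_mul, N_pow] using hd1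
  have h4 := h.h4 _ hG _ (mul_mem_hchars Q (mul_mem_hchars Q h1 h2) h3) _ hρ (τ + τ')
  refine (bsum_le hα h1 h2 h3 hr he hg hr' d hδ.le τ τ').trans ?_
  refine (mul_le_mul_of_nonneg_left h4 n5.le).trans ?_
  have b1 : N (r * e * g) * N (r * e * g * r') ^ (-(1 + 2 * δ)) ≤ N r' ^ (-(1 + δ)) := by
    rw [N_mul _ r', Real.mul_rpow n5.le n4.le, ← mul_assoc]
    have c1 : N (r * e * g) * N (r * e * g) ^ (-(1 + 2 * δ)) ≤ 1 := by
      rw [mul_comm, ← Real.rpow_add_one n5.ne']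
      exact Real.rpow_le_one_of_one_le_of_nonpos (one_le_N a1) (by linarith)
    have c2 : N r' ^ (-(1 + 2 * δ)) ≤ N r' ^ (-(1 + δ)) :=
      Real.rpow_le_rpow_of_exponent_le (one_le_N hr'.ne_zero) (by linarith)
    exact (mul_le_of_le_one_left (by positivity) c1).trans c2
  have b2 : Real.exp (|τ + τ'| / 2) ≤ Real.exp (|τ'| / 2) * Real.exp (|τ| / 2) := by
    rw [← Real.exp_add]
    exact Real.exp_le_exp.2 (by linarith [abs_add_le τ τ'])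
  have b3 := h.fnn (d * g ^ 2 * e ^ 2 * r ^ 2)
  calc _ = (N (r * e * g) * N (r * e * g * r') ^ (-(1 + 2 * δ))) * Real.exp (|τ + τ'| / 2) *
        ((X ^ 2)⁻¹ * F (d * g ^ 2 * e ^ 2 * r ^ 2)) := by ring
    _ ≤ N r' ^ (-(1 + δ)) * (Real.exp (|τ'| / 2) * Real.exp (|τ| / 2)) *
        ((X ^ 2)⁻¹ * F (d * g ^ 2 * e ^ 2 * r ^ 2)) := by gcongr
    _ = _ := by ring

end Crest.Agent.R17.GM
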