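import Crest.Agent.R17.GMoment_Expand

/-!
# R17 / GMoment_Coef : support of the Möbius coefficients of a test function; the pair bound
-/

set_option autoImplicit false

noncomputable section

open scoped Classical ComplexConjugate
open MeasureTheory

namespace Crest.Agent.R17.GM

theorem coef_comm (ψ Φ : O → ℂ) (u1 u2 : O) : cf ψ Φ u1 u2 = cf ψ Φ u2 u1 := by
  unfold cf
  refine if_congr and_comm ?_ rfl
  rw [Finset.sum_comm]
  refine Finset.sum_congr rfl fun _ _ => Finset.sum_congr rfl fun _ _ => ?_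
  rw [mul_comm (u1 / _)]
  ring

theorem coef_cancel {ψ Ψ : O → ℂ} (hψ : Mult ψ) {p v : O} (hp : Prime p) (hp' : Prim p)
    (hv : Prim v) (hpv : ¬ p ∣ v) (hΨ : ∀ m, Prim m → m ∣ v → Ψ (p * m) = ψ p * Ψ m) :
    ∑ e ∈ pdiv (p * v), mu e * ψ e * Ψ (p * v / e) = 0 := by
  have h1 : pdiv p = {1, p} := by
    have := pdiv_prime_pow hp hp' 1
    rw [pow_one] at this
    rw [this]
    simp [Finset.range_add_one, Finset.pair_comm]
  rw [sum_pdiv_mul hp.ne_zero hv.ne_zero (hp.coprime_iff_not_dvd.2 hpv), h1,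
    Finset.sum_pair hp.ne_one.symm, ← Finset.sum_add_distrib]
  refine Finset.sum_eq_zero fun e he => ?_
  rw [mem_pdiv hv.ne_zero] at he
  obtain ⟨he, w, rfl⟩ := he
  have hw := hv.of_mul_left he
  rw [one_mul, show p * (e * w) = e * (p * w) by ring, mul_div_cancel_left₀ _ he.ne_zero,
    show e * (p * w) = p * e * w by ring, mul_div_cancel_left₀ _ (hp'.mul he).ne_zero,
    hΨ w hw (dvd_mul_left _ _), hψ.mul,
    mu_mul (hp.coprime_iff_not_dvd.2 fun h => hpv (h.mul_right w)), mu_prime hp]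
  ring

theorem coef_zero {ψ Φ : O → ℂ} (hψ : Mult ψ) {G H : O} {M : ℝ} (hΦ : Test ψ G H M Φ) {u1 u2 p : O}
    (h1 : Prim u1) (h2 : Prim u2) (hp : Prime p) (hp' : Prim p) (hH : ¬ p ∣ H) (hd : p ∣ u1)
    (hn : ¬ p ^ 2 ∣ u1 * u2) : cf ψ Φ u1 u2 = 0 := by
  obtain ⟨v, rfl⟩ := hd
  have hv := h1.of_mul_left hp'
  have hn' : ¬ p ∣ v * u2 := fun e => hn (by
    rw [pow_two, mul_assoc]; exact mul_dvd_mul_left p e)
  unfold cf
  rw [if_pos ⟨h1, h2⟩, Finset.sum_comm]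
  refine Finset.sum_eq_zero fun e2 he2 => ?_
  rw [mem_pdiv h2.ne_zero] at he2
  have := coef_cancel (Ψ := fun m => Φ (m * (u2 / e2))) hψ hp hp' hv
    (fun e => hn' (e.mul_right _)) (fun m hm hmv => by
      rw [mul_assoc]
      exact hΦ.mul p _ hp hp' (hm.mul (h2.div he2.1 he2.2))
        (fun e => hn' (e.trans (mul_dvd_mul hmv (EuclideanDomain.div_dvd_of_dvd he2.2)))) hH)
  rw [← mul_zero (mu e2 * ψ e2), ← this, Finset.mul_sum]
  exact Finset.sum_congr rfl fun _ _ => by ring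

/-- `G ∣ u₁u₂` because some term has `Φ((u₁/e₁)(u₂/e₂)) ≠ 0`.  If a prime `p ∤ H` divides `u₁u₂`
exactly once, replace it by its primary associate (`u₁u₂` is primary, so coprime to `3`), say
`u₁ = p v`, `p ∤ v`, `p ∤ u₂` (other case symmetric); `sum_pdiv_mul` with `pdiv p = {1,p}`
(`pdiv_prime_pow`) pairs `e₁` with `p e₁`, and the two terms cancel by `Test.mul`, `mu_mul`,
`mu_prime`. -/
theorem cf_supp {ψ Φ : O → ℂ} (hψ : Mult ψ) {G H : O} {M : ℝ} (hΦ : Test ψ G H M Φ) {u1 u2 : O}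
    (h : cf ψ Φ u1 u2 ≠ 0) :
    Prim u1 ∧ Prim u2 ∧ G ∣ u1 * u2 ∧ ∀ p, Prime p → p ∣ u1 * u2 → p ∣ H ∨ p ^ 2 ∣ u1 * u2 := by
  have hp : Prim u1 ∧ Prim u2 := by
    by_contra hc
    exact h (if_neg hc)
  refine ⟨hp.1, hp.2, ?_, fun p hp0 hd => ?_⟩
  · unfold cf at h
    rw [if_pos hp] at h
    obtain ⟨e1, he1, h⟩ := Finset.exists_ne_zero_of_sum_ne_zero h
    obtain ⟨e2, he2, h⟩ := Finset.exists_ne_zero_of_sum_ne_zero h
    rw [mem_pdiv hp.1.ne_zero] at he1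
    rw [mem_pdiv hp.2.ne_zero] at he2
    refine (hΦ.supp _ ((hp.1.div he1.1 he1.2).mul (hp.2.div he2.1 he2.2))
      (right_ne_zero_of_mul h)).trans (mul_dvd_mul ?_ ?_)
    · exact EuclideanDomain.div_dvd_of_dvd he1.2
    · exact EuclideanDomain.div_dvd_of_dvd he2.2
  · by_contra hc
    rw [not_or] at hc
    obtain ⟨u, hu, hq'⟩ := exists_unit_mul_prim
      ((hp.1.mul hp.2).isCoprime_three.of_isCoprime_of_dvd_left hd)
    have hq : Prime (u * p) := (prime_isUnit_mul hu).2 hp0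
    have hH : ¬ u * p ∣ H := fun e => hc.1 ((dvd_mul_left p u).trans e)
    have h2 : ¬ (u * p) ^ 2 ∣ u1 * u2 := fun e =>
      hc.2 ((pow_dvd_pow_of_dvd (dvd_mul_left p u) 2).trans e)
    rcases hq.dvd_or_dvd ((hu.mul_left_dvd).2 hd) with e | e
    · exact h (coef_zero hψ hΦ hp.1 hp.2 hq hq' hH e h2)
    · rw [coef_comm] at h
      exact h (coef_zero hψ hΦ hp.2 hp.1 hq hq' hH e (by rwa [mul_comm u2]))

/-- Every such `u` is `G w₀ w₁` with `w₀ ∣ H^i` and `w₁` powerful, all primary: `u = G w`, and split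
`w` by induction on primes / `exists_split` with `q = 3H` (then `w₁` is primary, coprime to `H`,
hence to `G`, and `p ∣ w₁ ⇒ p² ∣ u ⇒ p² ∣ w₁`).  So the sum is at most
`N G^{-γ} (∑ N w₀^{-1/2}) (∑ N w₁^{-γ})`: `sum_smooth_le` (for `3H`), `sum_pwf_le`. -/
theorem sum_supp_le {γ δ : ℝ} (hγ : 1 / 2 < γ) (hδ : 0 < δ) : ∃ C, 0 ≤ C ∧ ∀ G H : O, Prim G →
    Prim H → G ∣ H → ∀ S : Finset O,
    (∀ u ∈ S, Prim u ∧ G ∣ u ∧ ∀ p, Prime p → p ∣ u → p ∣ H ∨ p ^ 2 ∣ u) →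
    ∑ u ∈ S, N u ^ (-γ) ≤ C * N G ^ (-γ) * N H ^ δ := by
  obtain ⟨C1, h1⟩ := sum_smooth_le (σ := γ) (by linarith) hδ
  obtain ⟨C2, hC2, h2⟩ := sum_pwf_le (δ := γ - 1 / 2) (by linarith)
  rw [show 1 / 2 + (γ - 1 / 2) = γ by ring] at h2
  refine ⟨|C1| * N 3 ^ δ * C2, by have := N_nonneg 3; positivity, fun G H hG hH hGH S hS => ?_⟩
  have h3H : 3 * H ≠ 0 := mul_ne_zero (by decide) hH.ne_zero
  have hex : ∀ u ∈ S, ∃ w : O × O, (∃ j : ℕ, w.1 ∣ (3 * H) ^ j) ∧ (w.2 ≠ 0 ∧ Pwf w.2) ∧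
      u = G * (w.1 * w.2) := fun u hu => by
    obtain ⟨hu1, ⟨w, rfl⟩, hu3⟩ := hS u hu
    obtain ⟨w0, w1, j, a1, a2, a3, rfl⟩ := exists_split h3H (dvd_mul_right 3 H)
      (right_ne_zero_of_mul hu1.ne_zero)
    refine ⟨(w0, w1), ⟨j, a1⟩, ⟨a2.ne_zero, fun p hp hpw => ?_⟩, rfl⟩
    have hc : IsCoprime p (3 * H) := a3.of_isCoprime_of_dvd_left hpw
    have hc2 : IsCoprime p (G * w0) :=
      IsCoprime.mul_right (hc.of_isCoprime_of_dvd_right (hGH.mul_left 3))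
        (hc.pow_right.of_isCoprime_of_dvd_right a1)
    rcases hu3 p hp ((hpw.mul_left w0).mul_left G) with e | e
    · exact absurd (e.mul_left 3) (hp.coprime_iff_not_dvd.1 hc)
    · rw [← mul_assoc] at e
      exact hc2.pow_left.dvd_of_dvd_mul_left e
  choose! φ hφ using hex
  have hnn : ∀ x : O, 0 ≤ N x ^ (-γ) := fun x => Real.rpow_nonneg (N_nonneg x) _
  have e1 : ∑ u ∈ S, N u ^ (-γ) =
      N G ^ (-γ) * ∑ w ∈ S.image φ, N w.1 ^ (-γ) * N w.2 ^ (-γ) := by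
    rw [Finset.sum_image (fun a ha b hb e => by rw [(hφ a ha).2.2, (hφ b hb).2.2, e]),
      Finset.mul_sum]
    refine Finset.sum_congr rfl fun u hu => ?_
    conv_lhs => rw [(hφ u hu).2.2]
    rw [N_mul, N_mul, Real.mul_rpow (N_nonneg _) (mul_nonneg (N_nonneg _) (N_nonneg _)),
      Real.mul_rpow (N_nonneg _) (N_nonneg _)]
  have e2 : ∑ w ∈ S.image φ, N w.1 ^ (-γ) * N w.2 ^ (-γ) ≤
      (∑ a ∈ S.image (fun u => (φ u).1), N a ^ (-γ)) *
        ∑ b ∈ S.image (fun u => (φ u).2), N b ^ (-γ) := by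
    rw [Finset.sum_mul_sum, ← Finset.sum_product']
    refine Finset.sum_le_sum_of_subset_of_nonneg (fun w hw => ?_)
      fun w _ _ => mul_nonneg (hnn _) (hnn _)
    obtain ⟨u, hu, rfl⟩ := Finset.mem_image.1 hw
    exact Finset.mem_product.2 ⟨Finset.mem_image_of_mem _ hu, Finset.mem_image_of_mem _ hu⟩
  have a1 := h1 (3 * H) h3H (S.image fun u => (φ u).1) fun f hf => by
    obtain ⟨u, hu, rfl⟩ := Finset.mem_image.1 hf
    exact (hφ u hu).1
  have a2 := h2 (S.image fun u => (φ u).2) fun f hf => by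
    obtain ⟨u, hu, rfl⟩ := Finset.mem_image.1 hf
    exact (hφ u hu).2.1
  rw [N_mul, Real.mul_rpow (N_nonneg _) (N_nonneg _)] at a1
  have b0 : 0 ≤ N 3 ^ δ * N H ^ δ :=
    mul_nonneg (Real.rpow_nonneg (N_nonneg _) _) (Real.rpow_nonneg (N_nonneg _) _)
  rw [e1]
  calc _ ≤ N G ^ (-γ) * ((|C1| * (N 3 ^ δ * N H ^ δ)) * C2) := by
        refine mul_le_mul_of_nonneg_left (e2.trans (mul_le_mul
          (a1.trans (mul_le_mul_of_nonneg_right (le_abs_self C1) b0)) a2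
          (Finset.sum_nonneg fun _ _ => hnn _) (mul_nonneg (abs_nonneg _) b0))) (hnn G)
    _ = _ := by ring

/-- group the pairs by `u = u₁u₂`: the fibre has `≤ τ(u)` elements, `τ(u_i) ≤ τ(u)`, and
`τ(u)³ ≤ C N u^δ` (`card_pdiv_le` with `δ/3`); then `sum_supp_le` -/
theorem sum_pair_le {γ δ : ℝ} (hγ : 1 / 2 < γ) (hδ : 0 < δ) : ∃ C, 0 ≤ C ∧ ∀ G H : O, Prim G →
    Prim H → G ∣ H → ∀ S : Finset (O × O),
    (∀ u ∈ S, Prim u.1 ∧ Prim u.2 ∧ G ∣ u.1 * u.2 ∧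
      ∀ p, Prime p → p ∣ u.1 * u.2 → p ∣ H ∨ p ^ 2 ∣ u.1 * u.2) →
    ∑ u ∈ S, ((pdiv u.1).card : ℝ) * (pdiv u.2).card * N (u.1 * u.2) ^ (-(γ + δ)) ≤
      C * N G ^ (-γ) * N H ^ δ := by
  obtain ⟨C1, hC1, h1⟩ := sum_supp_le hγ hδ
  obtain ⟨C2, h2⟩ := card_pdiv_le (ε := δ / 3) (by linarith)
  refine ⟨|C2| ^ 3 * C1, by positivity, fun G H hG hH hGH S hS => ?_⟩
  rw [← Finset.sum_fiberwise_of_maps_to (t := S.image fun x => x.1 * x.2)
    (g := fun x => x.1 * x.2) (fun x hx => Finset.mem_image_of_mem _ hx)]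
  have key := h1 G H hG hH hGH (S.image fun x => x.1 * x.2) fun u hu => by
    obtain ⟨x, hx, rfl⟩ := Finset.mem_image.1 hu
    exact ⟨(hS x hx).1.mul (hS x hx).2.1, (hS x hx).2.2⟩
  rw [mul_assoc, mul_assoc, ← mul_assoc C1]
  refine le_trans ?_ (mul_le_mul_of_nonneg_left key (by positivity))
  rw [Finset.mul_sum]
  refine Finset.sum_le_sum fun u hu => ?_
  have hu' : Prim u := by
    obtain ⟨x, hx, rfl⟩ := Finset.mem_image.1 hu
    exact (hS x hx).1.mul (hS x hx).2.1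
  have hN := N_pos hu'.ne_zero
  have hsub : ∀ a, Prim a → a ∣ u → ((pdiv a).card : ℝ) ≤ (pdiv u).card := fun a ha hau => by
    exact_mod_cast Finset.card_le_card fun e he => (mem_pdiv hu'.ne_zero).2
      ⟨((mem_pdiv ha.ne_zero).1 he).1, ((mem_pdiv ha.ne_zero).1 he).2.trans hau⟩
  have hcard : ((S.filter fun x => x.1 * x.2 = u).card : ℝ) ≤ (pdiv u).card := by
    refine Nat.cast_le.2 (Finset.card_le_card_of_injOn (fun x => x.1) (fun x hx => ?_)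
      fun x hx y hy e => ?_)
    · rw [Finset.mem_coe, Finset.mem_filter] at hx
      exact (mem_pdiv hu'.ne_zero).2 ⟨(hS x hx.1).1, ⟨_, hx.2.symm⟩⟩
    · rw [Finset.mem_coe, Finset.mem_filter] at hx hy
      simp only at e
      refine Prod.ext e (mul_left_cancel₀ (hS x hx.1).1.ne_zero ?_)
      rw [hx.2, e, hy.2]
  have hτ : ((pdiv u).card : ℝ) ≤ |C2| * N u ^ (δ / 3) :=
    (h2 u hu'.ne_zero).trans (mul_le_mul_of_nonneg_right (le_abs_self _) (by positivity))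
  calc _ ≤ ∑ _x ∈ S.filter (fun x => x.1 * x.2 = u),
        ((pdiv u).card : ℝ) * (pdiv u).card * N u ^ (-(γ + δ)) := by
        refine Finset.sum_le_sum fun x hx => ?_
        rw [Finset.mem_filter] at hx
        rw [hx.2]
        have a1 := hsub x.1 (hS x hx.1).1 ⟨_, hx.2.symm⟩
        have a2 := hsub x.2 (hS x hx.1).2.1 ⟨x.1, by rw [← hx.2, mul_comm]⟩
        gcongr
    _ ≤ (pdiv u).card * (((pdiv u).card : ℝ) * (pdiv u).card * N u ^ (-(γ + δ))) := by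
        rw [Finset.sum_const, nsmul_eq_mul]
        exact mul_le_mul_of_nonneg_right hcard (by positivity)
    _ = ((pdiv u).card : ℝ) ^ 3 * N u ^ (-(γ + δ)) := by ring
    _ ≤ (|C2| * N u ^ (δ / 3)) ^ 3 * N u ^ (-(γ + δ)) := by gcongr
    _ = _ := by
        rw [mul_pow, ← Real.rpow_natCast (N u ^ (δ / 3)), ← Real.rpow_mul hN.le, mul_assoc,
          ← Real.rpow_add hN]
        congr 2
        push_cast; ring

/-- subtract the two expansions `conv_expand`; bound the norm of every finite partial sum by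
`norm_cf_le`, `cf_supp`, `sum_pair_le`, and pass to the limit -/
theorem tb_pair {γ δ : ℝ} (hγ : 1 / 2 < γ) (hδ : 0 < δ) : ∃ C, 0 ≤ C ∧ ∀ ψ f1 f2 g1 g2 : O → ℂ,
    Mult ψ → PS f1 → PS f2 → PS g1 → PS g2 → ∀ (c : ℂ) (F : ℝ), 0 ≤ F →
    (∀ u1 u2, Prim u1 → Prim u2 →
      ‖Dl f1 ψ u1 * Dl f2 ψ u2 - c * (Dl g1 ψ u1 * Dl g2 ψ u2)‖ ≤ F * N (u1 * u2) ^ (-(γ + δ))) →
    TB (fun n => conv f1 f2 n - c * conv g1 g2 n) ψ γ δ (C * F) := by
  obtain ⟨C, hC, h⟩ := sum_pair_le hγ hδ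
  refine ⟨C, hC, fun ψ f1 f2 g1 g2 hψ hf1 hf2 hg1 hg2 c F hF hD G H M Φ hΦ => ?_⟩
  have hM : 0 ≤ M := (norm_nonneg _).trans (hΦ.bd 0)
  have s : ∀ {f : O → ℂ}, PS f → Summable fun n => f n * Φ n := fun hf =>
    Summable.of_norm_bounded (hf.summable_norm.mul_right M) fun n => by
      rw [norm_mul]; exact mul_le_mul_of_nonneg_left (hΦ.bd n) (norm_nonneg _)
  have e : ∑' n, (conv f1 f2 n - c * conv g1 g2 n) * Φ n =
      ∑' n, conv f1 f2 n * Φ n - c * ∑' n, conv g1 g2 n * Φ n := by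
    rw [← tsum_mul_left, ← (s (hf1.conv hf2)).tsum_sub ((s (hg1.conv hg2)).mul_left c)]
    exact tsum_congr fun n => by ring
  have hs := (conv_expand hψ hf1 hf2 hΦ.bd).sub ((conv_expand hψ hg1 hg2 hΦ.bd).mul_left c)
  rw [e]
  refine le_of_tendsto' (Filter.Tendsto.norm hs) fun T => (norm_sum_le _ _).trans ?_
  rw [← Finset.sum_filter_of_ne (p := fun u => cf ψ Φ u.1 u.2 ≠ 0) (fun u _ hu hc => hu (by
    rw [hc]; simp))]
  have key := h G H hΦ.primG hΦ.primH hΦ.dvd (T.filter fun u => cf ψ Φ u.1 u.2 ≠ 0)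
    fun u hu => cf_supp hψ hΦ (Finset.mem_filter.1 hu).2
  calc _ ≤ ∑ u ∈ T.filter (fun u => cf ψ Φ u.1 u.2 ≠ 0), M * F *
        (((pdiv u.1).card : ℝ) * (pdiv u.2).card * N (u.1 * u.2) ^ (-(γ + δ))) := by
        refine Finset.sum_le_sum fun u hu => ?_
        have hp := cf_supp hψ hΦ (Finset.mem_filter.1 hu).2
        rw [mul_left_comm c, ← mul_sub, norm_mul]
        refine (mul_le_mul (norm_cf_le hψ hΦ.bd _ _) (hD _ _ hp.1 hp.2.1) (norm_nonneg _)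
          (by positivity)).trans (le_of_eq ?_)
        ring
    _ ≤ M * F * (C * N G ^ (-γ) * N H ^ δ) := by
        rw [← Finset.mul_sum]
        exact mul_le_mul_of_nonneg_left key (by positivity)
    _ = _ := by ring

end Crest.Agent.R17.GM
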