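import Crest.Agent.R17.GMoment_Pow

/-!
# R17 / GMoment_Sup : fourth powers of blocks are bounded by averages
-/

set_option autoImplicit false

noncomputable section

open scoped Classical ComplexConjugate
open MeasureTheory

namespace Crest.Agent.R17.GM

/-- Jensen with a constant: for `λ > 0`, `g ≤ λ + g^k/λ^{k-1}`; with `I = ∫ w g > 0`, `m = ∫ w`
(`m > 0`, else `w = 0` a.e.) take `λ = I/(2m)`.  (Or Hölder / `ConvexOn.map_integral_le`.) -/
theorem pow_integral_le {α : Type*} [MeasurableSpace α] (μ : Measure α) {w g : α → ℝ} {k : ℕ}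
    (hk : 1 ≤ k) (hw : ∀ x, 0 ≤ w x) (hg : ∀ x, 0 ≤ g x) (h0 : Integrable w μ)
    (h1 : Integrable (fun x => w x * g x) μ) (h2 : Integrable (fun x => w x * g x ^ k) μ) :
    (∫ x, w x * g x ∂μ) ^ k ≤ 2 ^ k * (∫ x, w x ∂μ) ^ (k - 1) * ∫ x, w x * g x ^ k ∂μ := by
  obtain ⟨n, rfl⟩ : ∃ n, k = n + 1 := ⟨k - 1, by omega⟩
  have hm : 0 ≤ ∫ x, w x ∂μ := integral_nonneg hw
  have hS : 0 ≤ ∫ x, w x * g x ^ (n + 1) ∂μ :=
    integral_nonneg fun x => mul_nonneg (hw x) (pow_nonneg (hg x) _)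
  have hI0 : 0 ≤ ∫ x, w x * g x ∂μ := integral_nonneg fun x => mul_nonneg (hw x) (hg x)
  rcases hI0.eq_or_lt with hI | hI
  · rw [← hI, zero_pow (by omega)]
    positivity
  have hm' : 0 < ∫ x, w x ∂μ := hm.lt_of_ne' fun h => hI.ne' (integral_eq_zero_of_ae (by
    filter_upwards [(integral_eq_zero_iff_of_nonneg hw h0).1 h] with x hx
    simp [hx]))
  set I := ∫ x, w x * g x ∂μ with hIdef
  set m := ∫ x, w x ∂μ with hmdef
  have hl : 0 < I / (2 * m) := by positivity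
  have h3 : I ≤ I / (2 * m) * m + ((I / (2 * m)) ^ n)⁻¹ * ∫ x, w x * g x ^ (n + 1) ∂μ := by
    conv_rhs => rw [← integral_const_mul, ← integral_const_mul (_⁻¹),
      ← integral_add (h0.const_mul _) (h2.const_mul _)]
    refine integral_mono h1 ((h0.const_mul _).add (h2.const_mul _)) fun x => ?_
    have a1 := hw x
    have a2 := hg x
    beta_reduce
    rcases le_total (g x) (I / (2 * m)) with h | h
    · rw [mul_comm (I / (2 * m))]
      exact le_add_of_le_of_nonneg (mul_le_mul_of_nonneg_left h a1) (by positivity)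
    · refine le_add_of_nonneg_of_le (by positivity) ?_
      rw [le_inv_mul_iff₀ (by positivity), pow_succ]
      exact le_trans (le_of_eq (by ring)) ((mul_le_mul_of_nonneg_left
        (pow_le_pow_left₀ hl.le h n) (mul_nonneg a1 a2)).trans_eq (by ring))
  have h4 : I / (2 * m) * m = I / 2 := by field_simp
  have h5 : I / 2 ≤ ((I / (2 * m)) ^ n)⁻¹ * ∫ x, w x * g x ^ (n + 1) ∂μ := by linarith
  rw [le_inv_mul_iff₀ (by positivity), div_pow, div_mul_div_comm,
    div_le_iff₀ (by positivity)] at h5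
  rw [Nat.add_sub_cancel, pow_succ]
  exact h5.trans_eq (by ring)

theorem continuous_pb {ψ : O → ℂ} (hψ : ∀ n, ‖ψ n‖ ≤ 1) :
    Continuous (fun p : ℝ × ℝ => pb ψ p.1 p.2) :=
  continuous_blk ⟨1, 0, fun n _ => by simpa using refl2_prim_le hψ n⟩

/-- Integrability package for weights `w(t')` that are continuous and integrable: the integrand is
jointly continuous (`continuous_pb`) and dominated by `w(t') (C e^{b/2})^k` for `y' ≤ b` (`pb_triv`);
`continuous_of_dominated`/`continuousAt_of_dominated` for the last part. -/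
theorem integrable_pb_pow {ψ : O → ℂ} (hψ : ∀ n, ‖ψ n‖ ≤ 1) (k : ℕ) {w : ℝ → ℝ} (hw : Continuous w)
    (hw0 : ∀ t, 0 ≤ w t) (hw1 : Integrable w) :
    (∀ y', Integrable (fun t' => w t' * ‖pb ψ y' t'‖ ^ k)) ∧
      Continuous (fun y' => ∫ t', w t' * ‖pb ψ y' t'‖ ^ k) := by
  obtain ⟨C, hC0, hC⟩ := pb_triv
  have hc := continuous_pb hψ
  have h1 : ∀ y', AEStronglyMeasurable (fun t' => w t' * ‖pb ψ y' t'‖ ^ k) volume := fun y' =>
    (hw.mul ((hc.comp (Continuous.prodMk_right y')).norm.pow k)).aestronglyMeasurable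
  have h2 : ∀ b y', y' ≤ b → ∀ᵐ t', ‖w t' * ‖pb ψ y' t'‖ ^ k‖ ≤
      w t' * (C * Real.exp (b / 2)) ^ k := fun b y' h => ae_of_all _ fun t' => by
    rw [Real.norm_of_nonneg (mul_nonneg (hw0 _) (by positivity))]
    exact mul_le_mul_of_nonneg_left (pow_le_pow_left₀ (norm_nonneg _) ((hC ψ hψ y' t').1.trans
      (mul_le_mul_of_nonneg_left (Real.exp_le_exp.2 (by linarith)) hC0)) k) (hw0 _)
  refine ⟨fun y' => (hw1.mul_const _).mono' (h1 y') (h2 y' y' le_rfl),
    continuous_iff_continuousAt.2 fun y0 => continuousAt_of_dominated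
      (Filter.Eventually.of_forall h1) ?_ (hw1.mul_const ((C * Real.exp ((y0 + 1) / 2)) ^ k))
      (ae_of_all _ fun t' => ?_)⟩
  · filter_upwards [Iic_mem_nhds (lt_add_one y0)] with y' hy using h2 _ y' hy
  · exact (continuous_const.mul ((hc.comp (Continuous.prodMk_left t')).norm.pow k)).continuousAt

theorem I4_nonneg (ψ : O → ℂ) (Y t : ℝ) : 0 ≤ I4 ψ Y t :=
  integral_nonneg fun _ => integral_nonneg fun _ => by positivity

theorem sup_cs {f : ℝ → ℝ} (hf : Continuous f) (h0 : ∀ x, 0 ≤ f x) (a : ℝ) :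
    (∫ x in Set.Icc (a - 1) (a + 1), f x) ^ 2 ≤ 8 * ∫ x in Set.Icc (a - 1) (a + 1), f x ^ 2 := by
  have h := pow_integral_le (volume.restrict (Set.Icc (a - 1) (a + 1))) (w := fun _ => 1) (g := f)
    (k := 2) one_le_two (fun _ => zero_le_one) h0 continuous_const.integrableOn_Icc
    (continuous_const.mul hf).integrableOn_Icc (continuous_const.mul (hf.pow 2)).integrableOn_Icc
  have e : a + 1 - (a - 1) = 2 := by ring
  simp only [one_mul, integral_const, MeasurableSet.univ, measureReal_restrict_apply,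
    Set.univ_inter, Real.volume_real_Icc, e, smul_eq_mul] at h
  norm_num at h
  exact h

theorem sup_w (t : ℝ) : Integrable fun t' : ℝ => Real.exp (-(|t' - t| / 8)) := by
  have := (Po.integrable_exp_neg_abs (c := 1 / 8) (by norm_num)).comp_sub_right t
  refine this.congr (ae_of_all _ fun x => ?_)
  beta_reduce
  congr 1
  ring

theorem sup_pack {ψ : O → ℂ} (hψ : ∀ n, ‖ψ n‖ ≤ 1) (t : ℝ) :
    (∀ y', Integrable (fun t' => Real.exp (-(|t' - t| / 8)) * ‖pb ψ y' t'‖ ^ 4)) ∧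
      Continuous (fun y' => ∫ t', Real.exp (-(|t' - t| / 8)) * ‖pb ψ y' t'‖ ^ 4) :=
  integrable_pb_pow hψ 4 (by fun_prop) (fun _ => (Real.exp_pos _).le) (sup_w t)

theorem sup_tri (t u : ℝ) : 1 + |t - u| ≤ (1 + |t|) * (1 + |u|) := by
  nlinarith [abs_sub t u, abs_nonneg t, abs_nonneg u, mul_nonneg (abs_nonneg t) (abs_nonneg u)]

/-- `y ≤ 0`: `pb_triv`.  `0 ≤ y ≤ Y`: `local_sup` at `(y, t - τ)`, Cauchy–Schwarz twice
(`pow_integral_le` with `k = 2`, `w = 1` on the intervals of length two), `1 ≤ e^{(|τ|+1)/8} e^{-|t'-t|/8}`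
on `|t' - (t-τ)| ≤ 1`, enlarge the domains (`integrable_pb_pow`), and
`(1+|t-τ|)⁴ e^{|τ|/8} ≤ C (1+|t|)⁴ e^{|τ|/4}` (`Po.pow_mul_exp_le`). -/
theorem sup4 : ∃ C, 0 ≤ C ∧ ∀ ψ : O → ℂ, (∀ n, ‖ψ n‖ ≤ 1) → ∀ Y y t τ : ℝ, y ≤ Y →
    ‖pb ψ y (t - τ)‖ ^ 4 ≤ C * (1 + |t|) ^ 4 * Real.exp (|τ| / 4) * (1 + I4 ψ Y t) := by
  obtain ⟨C0, hC0, h0⟩ := pb_triv
  obtain ⟨C1, h1⟩ := local_sup
  obtain ⟨C2, hC2, h2⟩ := Po.pow_mul_exp_le 4 (c := 1 / 8) (by norm_num) 1 zero_le_one
  refine ⟨C0 ^ 4 + C1 ^ 2 * 64 * Real.exp (1 / 8) * C2, by positivity, fun ψ hψ Y y t τ hy => ?_⟩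
  have hI := I4_nonneg ψ Y t
  have p1 : 1 ≤ (1 + |t|) ^ 4 := one_le_pow₀ (by linarith [abs_nonneg t])
  have p2 : 1 ≤ Real.exp (|τ| / 4) := Real.one_le_exp (by positivity)
  rcases le_total y 0 with h | h
  · refine (pow_le_pow_left₀ (norm_nonneg _) ((h0 ψ hψ y _).2.trans
      (mul_le_of_le_one_right hC0 (Real.exp_le_one_iff.2 h))) 4).trans ?_
    rw [mul_assoc, mul_assoc]
    exact (le_add_of_nonneg_right (by positivity)).trans (le_mul_of_one_le_right (by positivity)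
      (one_le_mul_of_one_le_of_one_le p1 (one_le_mul_of_one_le_of_one_le p2 (by linarith))))
  obtain ⟨i1, i2⟩ := sup_pack hψ t
  have hc := continuous_pb hψ
  set g : ℝ → ℝ := fun y' => ∫ t' in Set.Icc (t - τ - 1) (t - τ + 1), ‖pb ψ y' t'‖ ^ 2 with hg
  have hgc : Continuous g := continuous_parametric_integral_of_continuous
    (f := fun y' t' => ‖pb ψ y' t'‖ ^ 2) (hc.norm.fun_pow 2) isCompact_Icc
  have h3 : ∀ y', g y' ^ 2 ≤ 8 * Real.exp ((|τ| + 1) / 8) *
      ∫ t', Real.exp (-(|t' - t| / 8)) * ‖pb ψ y' t'‖ ^ 4 := fun y' => by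
    have hc' : Continuous fun t' => ‖pb ψ y' t'‖ ^ 2 :=
      (hc.comp (Continuous.prodMk_right y')).norm.pow 2
    refine (sup_cs hc' (fun _ => by positivity) _).trans ?_
    rw [mul_assoc, ← integral_const_mul (Real.exp _)]
    refine mul_le_mul_of_nonneg_left ((setIntegral_mono_on (hc'.fun_pow 2).integrableOn_Icc
      ((i1 y').const_mul _).integrableOn measurableSet_Icc fun t' ht => ?_).trans
      (setIntegral_le_integral ((i1 y').const_mul _) (ae_of_all _ fun _ => by positivity)))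
      (by norm_num)
    rw [← mul_assoc, ← Real.exp_add, ← pow_mul]
    refine le_mul_of_one_le_left (by positivity) (Real.one_le_exp ?_)
    have : |t' - t| ≤ |τ| + 1 := abs_le.2 ⟨by linarith [ht.1, le_abs_self τ],
      by linarith [ht.2, neg_abs_le τ]⟩
    linarith
  have h4 : (∫ y' in Set.Icc (y - 1) (y + 1), g y') ^ 2 ≤
      8 * (8 * Real.exp ((|τ| + 1) / 8) * I4 ψ Y t) := by
    refine (sup_cs hgc (fun _ => integral_nonneg fun _ => by positivity) _).trans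
      (mul_le_mul_of_nonneg_left ((setIntegral_mono_on (hgc.pow 2).integrableOn_Icc
        (continuous_const.fun_mul i2).integrableOn_Icc measurableSet_Icc fun y' _ => h3 y').trans ?_)
        (by norm_num))
    rw [integral_const_mul]
    exact mul_le_mul_of_nonneg_left (setIntegral_mono_set i2.integrableOn_Icc
      (ae_of_all _ fun _ => integral_nonneg fun _ => by positivity)
      (Set.Icc_subset_Icc (by linarith) (by linarith)).eventuallyLE) (by positivity)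
  have h5 := pow_le_pow_left₀ (by positivity)
    (h1 (prim ψ) ⟨1, 0, fun n _ => by simpa using refl2_prim_le hψ n⟩ y (t - τ)) 2
  rw [← pow_mul, mul_pow, mul_pow, ← pow_mul] at h5
  have h6 : (1 + |t - τ|) ^ (2 * 2) * Real.exp ((|τ| + 1) / 8) ≤
      (1 + |t|) ^ 4 * (C2 * (Real.exp (1 / 8) * Real.exp (|τ| / 4))) := by
    have e : Real.exp ((|τ| + 1) / 8) =
        Real.exp (-(1 / 8 * |τ|)) * (Real.exp (1 / 8) * Real.exp (|τ| / 4)) := by
      simp only [← Real.exp_add]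
      congr 1
      ring
    refine (mul_le_mul_of_nonneg_right (pow_le_pow_left₀ (by positivity) (sup_tri t τ) 4)
      (Real.exp_pos _).le).trans ?_
    rw [mul_pow, mul_assoc, e, ← mul_assoc ((1 + |τ|) ^ 4)]
    exact mul_le_mul_of_nonneg_left (mul_le_mul_of_nonneg_right (h2 _ (abs_nonneg τ))
      (by positivity)) (by positivity)
  have h7 := mul_le_mul_of_nonneg_left h6 (by positivity : 0 ≤ C1 ^ 2 * 64 * I4 ψ Y t)
  have h8 : 0 ≤ C0 ^ 4 * (1 + |t|) ^ 4 * Real.exp (|τ| / 4) * (1 + I4 ψ Y t) := by positivity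
  have h9 : 0 ≤ C1 ^ 2 * 64 * Real.exp (1 / 8) * C2 * (1 + |t|) ^ 4 * Real.exp (|τ| / 4) := by
    positivity
  refine (h5.trans (mul_le_mul_of_nonneg_left h4 (by positivity))).trans ?_
  linarith

/-- `∫ e^{-|t'-t|/8} (1+|t'|)^B dt' ≤ C (1+|t|)^B` (`1+|t'| ≤ (1+|t|)(1+|t'-t|)`) -/
theorem integral_weight_le (B : ℕ) : ∃ C, 0 ≤ C ∧ ∀ t : ℝ,
    Integrable (fun t' : ℝ => Real.exp (-(|t' - t| / 8)) * (1 + |t'|) ^ B) ∧
    ∫ t' : ℝ, Real.exp (-(|t' - t| / 8)) * (1 + |t'|) ^ B ≤ C * (1 + |t|) ^ B := by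
  obtain ⟨C, hC, h⟩ := Po.pow_mul_exp_le B (c := 1 / 16) (by norm_num) 1 zero_le_one
  have hi := Po.integrable_exp_neg_abs (c := 1 / 16) (by norm_num)
  refine ⟨C * ∫ u : ℝ, Real.exp (-(1 / 16 * |u|)),
    mul_nonneg hC (integral_nonneg fun _ => (Real.exp_pos _).le), fun t => ?_⟩
  have hi' := (hi.comp_sub_right t).const_mul ((1 + |t|) ^ B * C)
  have hb : ∀ t' : ℝ, Real.exp (-(|t' - t| / 8)) * (1 + |t'|) ^ B ≤
      (1 + |t|) ^ B * C * Real.exp (-(1 / 16 * |t' - t|)) := fun t' => by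
    have h1 := sup_tri t (t - t')
    rw [sub_sub_cancel, abs_sub_comm] at h1
    have e : Real.exp (-(|t' - t| / 8)) =
        Real.exp (-(1 / 16 * |t' - t|)) * Real.exp (-(1 / 16 * |t' - t|)) := by
      rw [← Real.exp_add]
      congr 1
      ring
    refine (mul_le_mul_of_nonneg_left (pow_le_pow_left₀ (by positivity) h1 B)
      (Real.exp_pos _).le).trans ?_
    rw [e, mul_pow]
    exact le_trans (le_of_eq (by ring)) ((mul_le_mul_of_nonneg_left (h _ (abs_nonneg (t' - t)))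
      (by positivity : 0 ≤ (1 + |t|) ^ B * Real.exp (-(1 / 16 * |t' - t|)))).trans_eq (by ring))
  refine ⟨hi'.mono' (Continuous.aestronglyMeasurable (by fun_prop)) (ae_of_all _ fun t' => ?_),
    (integral_mono_of_nonneg (ae_of_all _ fun _ => by positivity) hi'
      (ae_of_all _ hb)).trans_eq ?_⟩
  · rw [Real.norm_of_nonneg (by positivity)]
    exact hb t'
  · rw [integral_const_mul, integral_sub_right_eq_self fun u => Real.exp (-(1 / 16 * |u|))]
    ring

/-- exchange the finite sum with both integrals (`integral_finset_sum`, `integrable_pb_pow`) -/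
theorem sum_I4 (B : ℕ) : ∃ C, 0 ≤ C ∧ ∀ (S : Finset O) (ψ : O → O → ℂ),
    (∀ ρ ∈ S, ∀ n, ‖ψ ρ n‖ ≤ 1) → ∀ M Y t : ℝ, 0 ≤ M → 0 ≤ Y →
    (∀ y' t', ∑ ρ ∈ S, ‖pb (ψ ρ) y' t'‖ ^ 4 ≤ M * (1 + |t'|) ^ B) →
    ∑ ρ ∈ S, I4 (ψ ρ) Y t ≤ C * (Y + 2) * M * (1 + |t|) ^ B := by
  obtain ⟨C, hC, h⟩ := integral_weight_le B
  refine ⟨C, hC, fun S ψ hψ M Y t hM hY hb => ?_⟩
  unfold I4
  rw [← integral_finsetSum _ fun ρ hρ => (sup_pack (hψ ρ hρ) t).2.integrableOn_Icc]
  refine (refl2_int (K := M * (C * (1 + |t|) ^ B)) (W := Y + 2) (by positivity) (by linarith)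
    (by linarith) (fun _ => Finset.sum_nonneg fun _ _ => integral_nonneg fun _ => by positivity)
    fun y' _ => ?_).trans_eq (by ring)
  rw [← integral_finsetSum _ fun ρ hρ => (sup_pack (hψ ρ hρ) t).1 y']
  refine le_trans ?_ (mul_le_mul_of_nonneg_left (h t).2 hM)
  rw [← integral_const_mul]
  refine integral_mono_of_nonneg (ae_of_all _ fun _ => Finset.sum_nonneg fun _ _ => by positivity)
    ((h t).1.const_mul M) (ae_of_all _ fun t' => ?_)
  beta_reduce
  rw [← Finset.mul_sum, mul_left_comm]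
  exact mul_le_mul_of_nonneg_left (hb y' t') (Real.exp_pos _).le

end Crest.Agent.R17.GM
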