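import Crest.Agent.R17.GMoment_Wsum
import Crest.Agent.R17.GMoment_Sup

/-!
# R17 / GMoment_H4 : the hypothesis `Adm.h4` for structured sequences
-/

set_option autoImplicit false

noncomputable section

open scoped Classical ComplexConjugate
open MeasureTheory

namespace Crest.Agent.R17.GM

theorem h4_sq {W C L Z A η δ X n F0 Pi0 U V : ℝ} {J0 J : ℕ} (hW : 0 ≤ W) (hZ : 0 < Z) (hn : 0 < n)
    (h : W ≤ C * L ^ J0 * Z ^ (A * (η + 13 * δ)) * X⁻¹ * n ^ (-(1 / 2 + δ)) *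
      ((F0 + 1) * (Pi0 + 1) ^ J))
    (h1 : (F0 + 1) ^ 2 ≤ U) (h2 : (Pi0 + 1) ^ (2 * J) ≤ V * Z ^ (A * (2 * (η + δ)))) :
    W ^ 2 ≤ (X ^ 2)⁻¹ * n ^ (-(1 + 2 * δ)) *
      (C ^ 2 * L ^ (2 * J0) * Z ^ (A * (4 * η + 28 * δ)) * (U * V)) := by
  have e1 : (n ^ (-(1 / 2 + δ))) ^ 2 = n ^ (-(1 + 2 * δ)) := by
    rw [sq, ← Real.rpow_add hn]
    congr 1
    ring
  have e2 : Z ^ (A * (4 * η + 28 * δ)) =
      (Z ^ (A * (η + 13 * δ))) ^ 2 * Z ^ (A * (2 * (η + δ))) := by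
    rw [sq, ← Real.rpow_add hZ, ← Real.rpow_add hZ]
    congr 1
    ring
  have hU : 0 ≤ U := (sq_nonneg _).trans h1
  have h3 : (F0 + 1) ^ 2 * (Pi0 + 1) ^ (2 * J) ≤ U * (V * Z ^ (A * (2 * (η + δ)))) :=
    mul_le_mul h1 h2 (by rw [pow_mul]; positivity) hU
  calc W ^ 2 ≤ _ := pow_le_pow_left₀ hW h 2
    _ = (C * L ^ J0 * Z ^ (A * (η + 13 * δ)) * X⁻¹ * n ^ (-(1 / 2 + δ))) ^ 2 *
        ((F0 + 1) ^ 2 * (Pi0 + 1) ^ (2 * J)) := by ring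
    _ ≤ (C * L ^ J0 * Z ^ (A * (η + 13 * δ)) * X⁻¹ * n ^ (-(1 / 2 + δ))) ^ 2 *
        (U * (V * Z ^ (A * (2 * (η + δ))))) := mul_le_mul_of_nonneg_left h3 (sq_nonneg _)
    _ = _ := by
        rw [← e1, e2]
        ring

theorem h4_exp {P : Par} {Z A s : ℝ} (a : ℝ) (hZ : 0 < Z) (hs : 0 ≤ s) (hL : P.L ≤ Z ^ A) :
    Real.exp ((a + s) * P.yp) ^ (2 * P.J) ≤ P.L ^ (2 * a) * Z ^ (A * (2 * s)) := by
  have h0 : 0 < P.L := Real.exp_pos _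
  have e : Real.exp ((a + s) * P.yp) ^ (2 * P.J) = P.L ^ (2 * a) * P.L ^ (2 * s) := by
    rw [← Real.rpow_add h0, Par.L, ← Real.exp_mul, ← Real.exp_nat_mul]
    congr 1
    push_cast
    ring
  rw [e, Real.rpow_mul hZ.le]
  gcongr

theorem h4_four {a b c d e : ℂ} (he : ‖e‖ ≤ 1) :
    ‖a * b - e * (c * d)‖ ^ 2 ≤ ‖a‖ ^ 4 + ‖b‖ ^ 4 + ‖c‖ ^ 4 + ‖d‖ ^ 4 := by
  have h1 : ‖a * b - e * (c * d)‖ ≤ ‖a‖ * ‖b‖ + ‖c‖ * ‖d‖ := by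
    refine (norm_sub_le _ _).trans ?_
    rw [norm_mul, norm_mul, norm_mul]
    exact add_le_add le_rfl (mul_le_of_le_one_left (by positivity) he)
  have h2 := pow_le_pow_left₀ (norm_nonneg _) h1 2
  nlinarith [sq_nonneg (‖a‖ * ‖b‖ - ‖c‖ * ‖d‖), sq_nonneg (‖a‖ ^ 2 - ‖b‖ ^ 2),
    sq_nonneg (‖c‖ ^ 2 - ‖d‖ ^ 2)]

theorem h4_sqrt {x : ℝ} (hx : 0 ≤ x) : (√x + 1) ^ 2 ≤ 2 * x + 2 := by
  nlinarith [Real.sq_sqrt hx, sq_nonneg (√x - 1)]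

theorem h4_poly (n : ℕ) : ∃ C, 0 ≤ C ∧ ∀ t : ℝ, (1 + |t|) ^ n ≤ C * Real.exp (|t| / 4) := by
  obtain ⟨C, hC, h⟩ := Po.pow_mul_exp_le n (c := 1 / 4) (by norm_num) 1 zero_le_one
  refine ⟨C, hC, fun t => ?_⟩
  have h1 := h _ (abs_nonneg t)
  rw [Real.exp_neg, ← div_eq_mul_inv, div_le_iff₀ (Real.exp_pos _)] at h1
  rwa [one_div_mul_eq_div] at h1

theorem h4_log {Z : ℝ} (hZ : 3 ≤ Z) : 1 ≤ Real.log Z :=
  (Real.le_log_iff_exp_le (by linarith)).2 (by linarith [Real.exp_one_lt_d9])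

theorem h4_shift {x η δ a y : ℝ} (hx : |x| ≤ η) (hy : 0 ≤ y) :
    Real.exp ((a + (x - 1 + δ)) * y) ≤ Real.exp ((a + (η + δ)) * y) * Real.exp (-y) := by
  rw [← Real.exp_add]
  exact Real.exp_le_exp.2 (by nlinarith [le_abs_self x])

/-- Non-exceptional rows.  `‖Δ‖² ≤ 2|ab|² + 2|cd|² ≤ |a|⁴+|b|⁴+|c|⁴+|d|⁴`, each bounded by `sup4` with
`Y = A log Z` for the character `rc (ν ν'') ρ` (a single term of the sum over `hchars`); take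
`F₀ = √(…)`, `(F₀+1)² ≤ 2F₀² + 2`; `Π₀ = Π (1+|τ+τ'|)^{B1} e^{(κ/2+η+δ) yp} ≥ 1` from `HP` at
`x - 1 + δ`, so `(Π₀+1)^{2J} ≤ 4^{J0} Π^{2J} (1+|τ|)^{2J0B1} (1+|τ'|)^{2J0B1} L^κ Z^{2A(η+δ)}`;
`(1+|τ'|)^{2J0B1} ≤ C e^{|τ'|/4}` (`Po.pow_mul_exp_le`); square `wsum_le`. -/
theorem h4_np {δ : ℝ} (hδ : 0 < δ) (hδ1 : δ ≤ 1 / 8) (J0 B1 : ℕ) : ∃ (C : ℝ) (B : ℕ), 0 ≤ C ∧
    ∀ (A η Z : ℝ), 0 ≤ A → 0 ≤ η → η ≤ 1 / 2 → 3 ≤ Z → ∀ (Q : Lev) (P : Par), P.OK Q A η Z J0 →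
    ∀ ρ : O, ρ ≠ 0 → ∀ Pi κ : ℝ, 1 ≤ Pi → 0 ≤ κ → HP Q ρ P.yp P.R Pi κ B1 →
    ∀ G : O, Prim G → ∀ ν ∈ hchars Q.q, ∀ τ' : ℝ,
      ‖Wsum (P.a Q) G ν ρ δ τ'‖ ^ 2 ≤ (P.X ^ 2)⁻¹ * N G ^ (-(1 + 2 * δ)) * Real.exp (|τ'| / 2) *
        (C * Real.log Z ^ (4 * J0) * Z ^ (A * (4 * η + 28 * δ)) *
          (1 + |P.t1| + |P.t2| + |P.τ|) ^ B * (Pi ^ (2 * P.J) * P.L ^ κ) *
          (1 + ∑ ν' ∈ hchars Q.q,
            (I4 (rc ν' ρ) (A * Real.log Z) P.t1 + I4 (rc ν' ρ) (A * Real.log Z) P.t2))) := by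
  obtain ⟨C1, hC1, h1⟩ := wsum_le hδ hδ1 J0
  obtain ⟨C2, hC2, h2⟩ := h4_poly (B1 * (2 * J0))
  obtain ⟨C4, hC4, h4⟩ := sup4
  refine ⟨C1 ^ 2 * (8 * C4 + 2) * 2 ^ (2 * J0) * C2, 4 + B1 * (2 * J0), by positivity,
    fun A η Z hA hη hη1 hZ Q P hP ρ hρ Pi κ hPi hκ hHP G hG ν hν τ' => ?_⟩
  have hν1 := mul_mem_hchars Q hP.hν hν
  have hν3 := mul_mem_hchars Q hP.hν3 hν
  have hlog := h4_log hZ
  have hx := abs_le.1 (hP.hx.trans hη1)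
  have hyp := hP.hyp
  have hJ := hP.hJ
  have hL0 : 0 < P.L := Real.exp_pos _
  set S := ∑ ν' ∈ hchars Q.q,
    (I4 (rc ν' ρ) (A * Real.log Z) P.t1 + I4 (rc ν' ρ) (A * Real.log Z) P.t2) with hS
  set T := 1 + |P.t1| + |P.t2| + |P.τ| with hT
  have a1 := abs_nonneg P.t1
  have a2 := abs_nonneg P.t2
  have a3 := abs_nonneg P.τ
  have a4 := abs_nonneg τ'
  have hT1 : 1 ≤ T := by linarith
  have hS1 := Finset.single_le_sum (f := fun ν' =>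
    I4 (rc ν' ρ) (A * Real.log Z) P.t1 + I4 (rc ν' ρ) (A * Real.log Z) P.t2)
    (fun ν' _ => add_nonneg (I4_nonneg _ _ _) (I4_nonneg _ _ _)) hν1
  rw [← hS] at hS1
  clear_value S T
  have b1 := I4_nonneg (rc (fun n => P.ν n * ν n) ρ) (A * Real.log Z) P.t1
  have b2 := I4_nonneg (rc (fun n => P.ν n * ν n) ρ) (A * Real.log Z) P.t2
  have hS0 : 0 ≤ S := by linarith
  have hE : 1 ≤ Real.exp (|τ'| / 4) := Real.one_le_exp (by positivity)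
  have hb : ∀ y t, y ≤ A * Real.log Z → t = P.t1 ∨ t = P.t2 →
      ‖pb (rc (fun n => P.ν n * ν n) ρ) y (t - τ')‖ ^ 4 ≤
        C4 * (T ^ 4 * Real.exp (|τ'| / 4) * (1 + S)) := fun y t hy ht => by
    refine (h4 _ (mult_rc Q hν1 hρ).bd _ y t τ' hy).trans ?_
    have c1 : 1 + |t| ≤ T := by rcases ht with rfl | rfl <;> linarith
    have c2 : I4 (rc (fun n => P.ν n * ν n) ρ) (A * Real.log Z) t ≤ S := by
      rcases ht with rfl | rfl <;> linarith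
    have c3 := I4_nonneg (rc (fun n => P.ν n * ν n) ρ) (A * Real.log Z) t
    rw [← mul_assoc, ← mul_assoc]
    gcongr
  have hM : 1 ≤ T ^ 4 * Real.exp (|τ'| / 4) * (1 + S) :=
    one_le_mul_of_one_le_of_one_le (one_le_mul_of_one_le_of_one_le (one_le_pow₀ hT1) hE)
      (by linarith)
  set M := T ^ 4 * Real.exp (|τ'| / 4) * (1 + S) with hM'
  clear_value M
  have p1 : 1 ≤ (1 + |P.τ + τ'|) ^ B1 := one_le_pow₀ (by linarith [abs_nonneg (P.τ + τ')])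
  have p2 : 1 ≤ Real.exp ((κ / 2 + (η + δ)) * P.yp) := Real.one_le_exp (by positivity)
  have p3 := one_le_mul_of_one_le_of_one_le (one_le_mul_of_one_le_of_one_le hPi p1) p2
  have h5 := h1 A η Z hA hη hη1 hZ Q P hP ν hν ρ hρ τ' (√(4 * C4 * M))
    (Pi * (1 + |P.τ + τ'|) ^ B1 * Real.exp ((κ / 2 + (η + δ)) * P.yp)) (Real.sqrt_nonneg _)
    (by linarith) (fun u1 u2 hu1 hu2 => Real.le_sqrt_of_sq_le ((h4_four hP.hc).trans (by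
      linarith [hb (P.y1 - u1) _ (by linarith [hP.hy1]) (Or.inl rfl),
        hb (P.y2 - u2) _ (by linarith [hP.hy2]) (Or.inr rfl),
        hb (P.z1 - u1) _ (by linarith [hP.hz1]) (Or.inl rfl),
        hb (P.z2 - u2) _ (by linarith [hP.hz2]) (Or.inr rfl)])))
    ((hHP _ hν3 _ _ (abs_le.2 ⟨by linarith, by linarith⟩)).trans (by
      rw [mul_assoc _ (Real.exp _)]
      exact mul_le_mul_of_nonneg_left (h4_shift hP.hx hyp) (by positivity))) G hG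
  have h6 : (Pi * (1 + |P.τ + τ'|) ^ B1 * Real.exp ((κ / 2 + (η + δ)) * P.yp) + 1) ^ (2 * P.J) ≤
      2 ^ (2 * J0) * Pi ^ (2 * P.J) * (T ^ (B1 * (2 * J0)) * (C2 * Real.exp (|τ'| / 4))) *
        P.L ^ κ * Z ^ (A * (2 * (η + δ))) := by
    have q1 := h4_exp (κ / 2) (by linarith : 0 < Z) (by positivity : 0 ≤ η + δ) hP.hL
    rw [mul_div_cancel₀ _ two_ne_zero] at q1
    have q2 : 1 + |P.τ + τ'| ≤ T * (1 + |τ'|) := by nlinarith [abs_add_le P.τ τ']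
    have q3 : (1 + |P.τ + τ'|) ^ (B1 * (2 * P.J)) ≤
        T ^ (B1 * (2 * J0)) * (C2 * Real.exp (|τ'| / 4)) :=
      calc _ ≤ (1 + |P.τ + τ'|) ^ (B1 * (2 * J0)) :=
            pow_le_pow_right₀ (by linarith [abs_nonneg (P.τ + τ')]) (by gcongr)
        _ ≤ (T * (1 + |τ'|)) ^ (B1 * (2 * J0)) := by gcongr
        _ ≤ _ := by
            rw [mul_pow]
            exact mul_le_mul_of_nonneg_left (h2 τ') (by positivity)
    have q4 : (2 : ℝ) ^ (2 * P.J) ≤ 2 ^ (2 * J0) := pow_le_pow_right₀ one_le_two (by omega)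
    calc _ ≤ (2 * (Pi * (1 + |P.τ + τ'|) ^ B1 * Real.exp ((κ / 2 + (η + δ)) * P.yp))) ^ (2 * P.J) :=
          pow_le_pow_left₀ (by linarith) (by linarith) _
      _ = 2 ^ (2 * P.J) * Pi ^ (2 * P.J) * (1 + |P.τ + τ'|) ^ (B1 * (2 * P.J)) *
          Real.exp ((κ / 2 + (η + δ)) * P.yp) ^ (2 * P.J) := by
          rw [mul_pow, mul_pow, mul_pow, ← pow_mul]
          simp only [mul_assoc]
      _ ≤ 2 ^ (2 * J0) * Pi ^ (2 * P.J) * (T ^ (B1 * (2 * J0)) * (C2 * Real.exp (|τ'| / 4))) *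
          (P.L ^ κ * Z ^ (A * (2 * (η + δ)))) := by gcongr
      _ = _ := (mul_assoc _ _ _).symm
  have h7 : (√(4 * C4 * M) + 1) ^ 2 ≤ (8 * C4 + 2) * M :=
    (h4_sqrt (by positivity)).trans (by linarith)
  refine (h4_sq (norm_nonneg _) (by linarith) (N_pos hG.ne_zero) h5 h7 h6).trans ?_
  have h8 : Real.log Z ^ (2 * J0) ≤ Real.log Z ^ (4 * J0) := pow_le_pow_right₀ hlog (by omega)
  have h9 : Real.exp (|τ'| / 2) = Real.exp (|τ'| / 4) * Real.exp (|τ'| / 4) := by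
    rw [← Real.exp_add]
    congr 1
    ring
  have hN := N_nonneg G
  rw [mul_assoc _ (Real.exp _)]
  refine mul_le_mul_of_nonneg_left ?_ (by positivity)
  refine le_trans (mul_le_mul_of_nonneg_right (mul_le_mul_of_nonneg_right
    (mul_le_mul_of_nonneg_left h8 (sq_nonneg _)) (by positivity)) (by positivity)) (le_of_eq ?_)
  rw [h9, hM', pow_add T]
  generalize Real.log Z ^ (4 * J0) = l
  generalize T ^ (B1 * (2 * J0)) = l1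
  generalize Pi ^ (2 * P.J) = l2
  generalize (2 : ℝ) ^ (2 * J0) = l3
  ring

/-- Exceptional rows.  `F₀ = √(E (1+|τ'|)^{B1})`, and `Pb_triv` gives
`Π₀ = 2C log Z · e^{(1/2+η+δ) yp}`, `(Π₀+1)^{2J} ≤ (C' log Z)^{2J0} L Z^{2A(η+δ)}`. -/
theorem h4_exc {δ : ℝ} (hδ : 0 < δ) (hδ1 : δ ≤ 1 / 8) (J0 B1 : ℕ) : ∃ C : ℝ, 0 ≤ C ∧
    ∀ (A η Z : ℝ), 0 ≤ A → 0 ≤ η → η ≤ 1 / 2 → 3 ≤ Z → ∀ (Q : Lev) (P : Par), P.OK Q A η Z J0 →
    ∀ ρ : O, ρ ≠ 0 → ∀ E : ℝ, 0 ≤ E → HE Q P ρ E B1 →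
    ∀ G : O, Prim G → ∀ ν ∈ hchars Q.q, ∀ τ' : ℝ,
      ‖Wsum (P.a Q) G ν ρ δ τ'‖ ^ 2 ≤ (P.X ^ 2)⁻¹ * N G ^ (-(1 + 2 * δ)) * Real.exp (|τ'| / 2) *
        (C * Real.log Z ^ (4 * J0) * Z ^ (A * (4 * η + 28 * δ)) * ((E + 1) * P.L)) := by
  obtain ⟨C1, hC1, h1⟩ := wsum_le hδ hδ1 J0
  obtain ⟨C2, hC2, h2⟩ := h4_poly B1
  obtain ⟨C3, hC3, h3⟩ := Pb_triv
  refine ⟨C1 ^ 2 * (2 * C2) * (2 * C3 + 1) ^ (2 * J0), by positivity,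
    fun A η Z hA hη hη1 hZ Q P hP ρ hρ E hE hHE G hG ν hν τ' => ?_⟩
  have hν1 := mul_mem_hchars Q hP.hν hν
  have hν3 := mul_mem_hchars Q hP.hν3 hν
  have hlog := h4_log hZ
  have hx := abs_le.1 (hP.hx.trans hη1)
  have hyp := hP.hyp
  have hJ := hP.hJ
  have hL0 : 0 < P.L := Real.exp_pos _
  have p1 : 1 ≤ (1 + |τ'|) ^ B1 := one_le_pow₀ (by linarith [abs_nonneg τ'])
  have p2 : 1 ≤ Real.exp ((1 / 2 + (η + δ)) * P.yp) := Real.one_le_exp (by positivity)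
  have h5 := h1 A η Z hA hη hη1 hZ Q P hP ν hν ρ hρ τ' (√(E * (1 + |τ'|) ^ B1))
    (C3 * (2 * Real.log Z) * Real.exp ((1 / 2 + (η + δ)) * P.yp)) (Real.sqrt_nonneg _)
    (by positivity) (fun u1 u2 hu1 hu2 => Real.le_sqrt_of_sq_le (hHE _ hν1 u1 u2 τ' hu1 hu2))
    ((h3 Q _ (mult_rc Q hν3 hρ).bd _ _ _ _ (add_nonneg hyp hP.hR)
      (abs_le.2 ⟨by linarith, by linarith⟩)).trans (by
      rw [mul_assoc _ (Real.exp _)]
      exact mul_le_mul (mul_le_mul_of_nonneg_left hP.hypR hC3) (h4_shift hP.hx hyp)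
        (Real.exp_pos _).le (by positivity))) G hG
  have h6 : (C3 * (2 * Real.log Z) * Real.exp ((1 / 2 + (η + δ)) * P.yp) + 1) ^ (2 * P.J) ≤
      (2 * C3 + 1) ^ (2 * J0) * Real.log Z ^ (2 * J0) * P.L * Z ^ (A * (2 * (η + δ))) := by
    have q1 := h4_exp (1 / 2) (by linarith : 0 < Z) (by positivity : 0 ≤ η + δ) hP.hL
    rw [mul_div_cancel₀ _ two_ne_zero, Real.rpow_one] at q1
    have q2 := one_le_mul_of_one_le_of_one_le hlog p2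
    have q3 : (2 * C3 + 1) ^ (2 * P.J) ≤ (2 * C3 + 1) ^ (2 * J0) :=
      pow_le_pow_right₀ (by linarith) (by omega)
    have q4 : Real.log Z ^ (2 * P.J) ≤ Real.log Z ^ (2 * J0) := pow_le_pow_right₀ hlog (by omega)
    calc _ ≤ ((2 * C3 + 1) * Real.log Z * Real.exp ((1 / 2 + (η + δ)) * P.yp)) ^ (2 * P.J) :=
          pow_le_pow_left₀ (by positivity) (by linarith) _
      _ = (2 * C3 + 1) ^ (2 * P.J) * Real.log Z ^ (2 * P.J) *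
          Real.exp ((1 / 2 + (η + δ)) * P.yp) ^ (2 * P.J) := by rw [mul_pow, mul_pow]
      _ ≤ (2 * C3 + 1) ^ (2 * J0) * Real.log Z ^ (2 * J0) *
          (P.L * Z ^ (A * (2 * (η + δ)))) := by gcongr
      _ = _ := (mul_assoc _ _ _).symm
  have h7 : (√(E * (1 + |τ'|) ^ B1) + 1) ^ 2 ≤ 2 * (E + 1) * (C2 * Real.exp (|τ'| / 2)) :=
    calc _ ≤ 2 * (E + 1) * (1 + |τ'|) ^ B1 := (h4_sqrt (by positivity)).trans (by linarith)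
      _ ≤ 2 * (E + 1) * (C2 * Real.exp (|τ'| / 4)) := by
          gcongr
          exact h2 τ'
      _ ≤ _ := by
          gcongr
          norm_num
  refine (h4_sq (norm_nonneg _) (by linarith) (N_pos hG.ne_zero) h5 h7 h6).trans (le_of_eq ?_)
  rw [show 4 * J0 = 2 * J0 + 2 * J0 by ring, pow_add (Real.log Z)]
  generalize Real.log Z ^ (2 * J0) = l
  generalize (2 * C3 + 1) ^ (2 * J0) = l3
  ring

end Crest.Agent.R17.GM
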