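import Crest.Agent.R17.GMoment_DP
import Crest.Agent.R17.GMoment_H4

/-!
# R17 / GMoment_Core : double Poisson for structured sequences
-/

set_option autoImplicit false

noncomputable section

open scoped Classical ComplexConjugate
open MeasureTheory

namespace Crest.Agent.R17.GM

theorem gcore_exc (Q : Lev) (A : ℝ) {δ : ℝ} (hδ : 0 < δ) : ∃ C, 0 ≤ C ∧ ∀ Z : ℝ, 3 ≤ Z →
    ∀ D 𝒜 : ℝ, 1 ≤ D → D ≤ Z ^ A → 1 ≤ 𝒜 →
      𝒜 ^ 5 * (((ball (D / 𝒜 ^ 6)).filter fun d => Exc Q d).card : ℝ) ≤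
        C * Z ^ (A * δ) * (𝒜 ^ 4 * D ^ (1 / 6 : ℝ)) := by
  obtain ⟨C, H⟩ := card_exc_le Q hδ
  refine ⟨max C 0, le_max_right _ _, fun Z hZ D 𝒜 hD hDA h𝒜 => ?_⟩
  have hm := le_max_right C 0
  rcases lt_or_ge (D / 𝒜 ^ 6) 1 with h | h
  · rw [ball_eq_empty h, Finset.filter_empty, Finset.card_empty, Nat.cast_zero, mul_zero]
    positivity
  have h1 : (D / 𝒜 ^ 6) ^ δ ≤ Z ^ (A * δ) := by
    rw [Real.rpow_mul (by linarith)]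
    exact Real.rpow_le_rpow (by linarith)
      ((div_le_self (by linarith) (one_le_pow₀ h𝒜)).trans hDA) hδ.le
  have h2 : (D / 𝒜 ^ 6) ^ (1 / 6 : ℝ) = D ^ (1 / 6 : ℝ) / 𝒜 := by
    rw [Real.div_rpow (by linarith) (by positivity), ← Real.rpow_natCast,
      ← Real.rpow_mul (by linarith)]
    norm_num
  have h3 := H _ h
  rw [Real.rpow_add (by linarith), h2] at h3
  calc _ ≤ 𝒜 ^ 5 * (max C 0 * (D ^ (1 / 6 : ℝ) / 𝒜 * Z ^ (A * δ))) := by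
        refine mul_le_mul_of_nonneg_left (h3.trans ?_) (by positivity)
        gcongr
        exact le_max_left _ _
    _ = _ := by field_simp

theorem gcore_np (Q : Lev) {A : ℝ} (hA : 0 ≤ A) (B : ℕ) : ∃ C, 0 ≤ C ∧
    ∀ D M l t1 t2 T : ℝ, 0 ≤ D → 0 ≤ M → 1 ≤ l → 1 + |t1| ≤ T → 1 + |t2| ≤ T → HM Q D M B →
      ∑ ρ ∈ (ball D).filter (fun d => ¬ Exc Q d), (1 + ∑ ν' ∈ hchars Q.q,
        (I4 (rc ν' ρ) (A * l) t1 + I4 (rc ν' ρ) (A * l) t2)) ≤ C * l * T ^ B * (M + D) := by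
  obtain ⟨C, hC, H⟩ := sum_I4 B
  refine ⟨18 + (hchars Q.q).card * (2 * (C * (A + 2))), by positivity,
    fun D M l t1 t2 T hD hM hl h1 h2 hH => ?_⟩
  have hT : 1 ≤ T := by linarith [abs_nonneg t1]
  have h3 : ∀ ν ∈ hchars Q.q, ∀ t, 1 + |t| ≤ T → ∑ ρ ∈ (ball D).filter (fun d => ¬ Exc Q d),
      I4 (rc ν ρ) (A * l) t ≤ C * (A + 2) * (l * T ^ B * (M + D)) := fun ν hν t ht => by
    refine (H _ (rc ν) (fun ρ hρ => (mult_rc Q hν (mem_ball.1 (Finset.mem_filter.1 hρ).1).1).bd)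
      M (A * l) t hM (by positivity) (hH ν hν)).trans ?_
    calc _ ≤ C * (A * l + 2 * l) * (M + D) * T ^ B := by gcongr <;> linarith
      _ = _ := by ring
  have h4 : (((ball D).filter fun d => ¬ Exc Q d).card : ℝ) ≤ 18 * (l * T ^ B * (M + D)) := by
    refine ((Nat.cast_le.2 (Finset.card_filter_le _ _)).trans (card_ball_le hD)).trans ?_
    gcongr
    exact (le_add_of_nonneg_left hM).trans (le_mul_of_one_le_left (by positivity)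
      (one_le_mul_of_one_le_of_one_le hl (one_le_pow₀ hT)))
  rw [Finset.sum_add_distrib, Finset.sum_comm, Finset.sum_const, nsmul_eq_mul, mul_one]
  refine (add_le_add h4 (Finset.sum_le_card_nsmul _ _
    (2 * (C * (A + 2) * (l * T ^ B * (M + D)))) fun ν hν => ?_)).trans_eq ?_
  · rw [Finset.sum_add_distrib, two_mul]
    exact add_le_add (h3 ν hν t1 h1) (h3 ν hν t2 h2)
  · rw [nsmul_eq_mul]
    ring

theorem gcore_num {C1 C2 C3 C4 C5 C6 C7 l z e T U a W V S EL n1 n2 : ℝ} {J0 B3 B1 : ℕ}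
    (hC1 : 0 ≤ C1) (hC2 : 0 ≤ C2) (hC3 : 0 ≤ C3) (hC4 : 0 ≤ C4) (hC5 : 0 ≤ C5) (hC6 : 0 ≤ C6)
    (hC7 : 0 ≤ C7) (hl : 1 ≤ l) (hz : 1 ≤ z) (he : 1 ≤ e) (hT : 1 ≤ T) (hU : 0 ≤ U) (ha : 0 ≤ a)
    (hW : 0 ≤ W) (hV : 0 ≤ V) (hS : 0 ≤ S) (hEL : 0 ≤ EL) (h7 : l ^ (4 * J0 + 1) ≤ C7 * e)
    (h4 : z ^ 33 ≤ e) (h5 : a * n1 ≤ C5 * z * S) (h6 : n2 ≤ C6 * l * T ^ B1 * V) :
    C1 * e * ((C2 * l ^ J0 * z ^ 3) ^ 2 * U + a * (n1 * (C4 * l ^ (4 * J0) * z ^ 32 * EL) +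
        C3 * l ^ (4 * J0) * z ^ 32 * T ^ B3 * W * n2)) ≤
      C1 * (C2 ^ 2 + C3 * C6 + C4 * C5) * C7 * e ^ 4 * T ^ (B3 + B1) * (U + a * W * V + S * EL) := by
  obtain ⟨K, hK⟩ : ∃ K, K = l ^ (4 * J0 + 1) * z ^ 33 * T ^ (B3 + B1) := ⟨_, rfl⟩
  have hK0 : 0 ≤ K := hK ▸ by positivity
  have hT1 : 1 ≤ T ^ (B3 + B1) := one_le_pow₀ hT
  have b1 : (C2 * l ^ J0 * z ^ 3) ^ 2 * U ≤ C2 ^ 2 * (K * U) :=
    calc _ = C2 ^ 2 * (l ^ (2 * J0) * z ^ 6 * 1 * U) := by ring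
      _ ≤ _ := by rw [hK]; gcongr <;> omega
  have b2 : a * (n1 * (C4 * l ^ (4 * J0) * z ^ 32 * EL)) ≤ C4 * C5 * (K * (S * EL)) :=
    calc _ = a * n1 * (C4 * l ^ (4 * J0) * z ^ 32 * EL) := by ring
      _ ≤ C5 * z * S * (C4 * l ^ (4 * J0) * z ^ 32 * EL) := by gcongr
      _ = C4 * C5 * (l ^ (4 * J0) * z ^ 33 * 1 * (S * EL)) := by ring
      _ ≤ _ := by rw [hK]; gcongr; omega
  have b3 : a * (C3 * l ^ (4 * J0) * z ^ 32 * T ^ B3 * W * n2) ≤ C3 * C6 * (K * (a * W * V)) :=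
    calc _ ≤ a * (C3 * l ^ (4 * J0) * z ^ 32 * T ^ B3 * W * (C6 * l * T ^ B1 * V)) := by gcongr
      _ = C3 * C6 * (l ^ (4 * J0 + 1) * z ^ 32 * T ^ (B3 + B1) * (a * W * V)) := by ring
      _ ≤ _ := by rw [hK]; gcongr; omega
  have b4 : K ≤ C7 * e * e ^ 2 * T ^ (B3 + B1) := by
    rw [hK]
    gcongr
    exact h4.trans (le_self_pow₀ he two_ne_zero)
  have b5 : U ≤ U + a * W * V + S * EL := by
    rw [add_assoc]
    exact le_add_of_nonneg_right (by positivity)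
  have b6 : a * W * V ≤ U + a * W * V + S * EL :=
    (le_add_of_nonneg_left hU).trans (le_add_of_nonneg_right (by positivity))
  have b7 : S * EL ≤ U + a * W * V + S * EL := le_add_of_nonneg_left (by positivity)
  generalize U + a * W * V + S * EL = R at *
  have hR : 0 ≤ R := hU.trans b5
  rw [mul_add a]
  calc _ ≤ C1 * e * (C2 ^ 2 * (K * U) + (C4 * C5 * (K * (S * EL)) + C3 * C6 * (K * (a * W * V)))) := by
        gcongr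
    _ ≤ C1 * e * (C2 ^ 2 * (C7 * e * e ^ 2 * T ^ (B3 + B1) * R) +
        (C4 * C5 * (C7 * e * e ^ 2 * T ^ (B3 + B1) * R) +
          C3 * C6 * (C7 * e * e ^ 2 * T ^ (B3 + B1) * R))) := by gcongr
    _ = _ := by ring

/-- Choose `η = δ = min (1/8) (ε/(200(A+1)))` (so `32 A δ ≤ ε/4`), `j` from `dp` (with `ε/4`).
`F ρ = if Exc Q ρ then (h4_exc majorant) else (h4_np majorant)`, `Λ` from `Par.pw`
(`w₁ = 1/2, 0, j`); `Adm` holds by `supp_a`, `ps_a`, `pw`, `h4_np`, `h4_exc`.  The left side is the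
left side of `dp` by `Par.row`.  `∑ F`: exceptional rows by `card_exc_le` (`ε' = δ`; if
`D/𝒜⁶ < 1` the ball is empty; `(D/𝒜⁶)^{1/6+δ} ≤ D^{1/6}/𝒜 · Z^{Aδ}`), non-exceptional rows by
`card_ball_le`, `sum_I4` and `HM`; `log_pow_le` for the logarithms. -/
theorem core {A ε : ℝ} (hA : 0 ≤ A) (hε : 0 < ε) : ∃ η : ℝ, 0 < η ∧ η ≤ 1 / 2 ∧
    ∀ (Q : Lev) (J0 B1 : ℕ), ∃ (C : ℝ) (B : ℕ), 0 ≤ C ∧ ∀ Z : ℝ, 3 ≤ Z → ∀ P : Par,
    P.OK Q A η Z J0 → ∀ D 𝒜 M' Pi κ E : ℝ, 1 ≤ D → D ≤ Z ^ A → 1 ≤ 𝒜 → 𝒜 ≤ Z ^ A → 0 ≤ M' →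
    1 ≤ Pi → 0 ≤ κ → 0 ≤ E → HM Q (D / 𝒜 ^ 6) M' B1 →
    (∀ ρ ∈ npball Q (D / 𝒜 ^ 6), HP Q ρ P.yp P.R Pi κ B1) →
    (∀ ρ ∈ ball (D / 𝒜 ^ 6), Exc Q ρ → HE Q P ρ E B1) →
    ∑ d ∈ ball D, ‖P.Δ (rc P.ν d) 0 0 0‖ ^ 2 * ‖Pb Q (rc P.ν3 d) P.yp P.R P.x P.τ‖ ^ (2 * P.J) ≤
      C * Z ^ ε * (1 + |P.t1| + |P.t2| + |P.τ|) ^ B *
        (D + P.X * 𝒜 ^ 5 + 𝒜 ^ 5 * (Pi ^ (2 * P.J) * P.L ^ κ) * (M' + D / 𝒜 ^ 6) +
          𝒜 ^ 4 * D ^ (1 / 6 : ℝ) * ((E + 1) * P.L)) := by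
  obtain ⟨δ, hδ, hδ1, hδε⟩ : ∃ δ : ℝ, 0 < δ ∧ δ ≤ 1 / 8 ∧ A * δ * 33 ≤ ε / 4 := by
    refine ⟨min (1 / 8) (ε / (132 * (A + 1))), by positivity, min_le_left _ _, ?_⟩
    have h1 := (le_div_iff₀ (by positivity)).1 (min_le_right (1 / 8) (ε / (132 * (A + 1))))
    have h2 : 0 < min (1 / 8) (ε / (132 * (A + 1))) := by positivity
    linarith
  have hε4 : 0 < ε / 4 := by positivity
  obtain ⟨j, H1⟩ := dp A hε4 hδ (by linarith)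
  refine ⟨δ, hδ, by linarith, fun Q J0 B1 => ?_⟩
  obtain ⟨C1, hC1, H1⟩ := H1 Q
  obtain ⟨C2, hC2, H2⟩ := Par.pw hδ (by linarith) J0 j
  obtain ⟨C3, B3, hC3, H3⟩ := h4_np hδ hδ1 J0 B1
  obtain ⟨C4, hC4, H4⟩ := h4_exc hδ hδ1 J0 B1
  obtain ⟨C5, hC5, H5⟩ := gcore_exc Q A hδ
  obtain ⟨C6, hC6, H6⟩ := gcore_np Q hA B1
  obtain ⟨C7, hC7, H7⟩ := log_pow_le (4 * J0 + 1) hε4
  refine ⟨C1 * (C2 ^ 2 + C3 * C6 + C4 * C5) * C7, B3 + B1, by positivity, fun Z hZ P hP D 𝒜 M' Pi κ E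
    hD hDA h𝒜 h𝒜A hM hPi hκ hE hHM hHP hHE => ?_⟩
  have hZ0 : 0 < Z := by linarith
  have hZ1 : 1 ≤ Z := by linarith
  have hlog : 1 ≤ Real.log Z := by
    rw [Real.le_log_iff_exp_le hZ0]
    linarith [Real.exp_one_lt_d9]
  have hX : 0 < P.X := mul_pos (Real.exp_pos _) (Real.exp_pos _)
  have hL : 0 < P.L := Real.exp_pos _
  have hν : ∀ n, ‖P.ν n‖ ≤ 1 := ((mem_hchars Q.ne).1 hP.hν).1.norm_le Q.ne
  have hI := fun ρ => Finset.sum_nonneg fun ν' (_ : ν' ∈ hchars Q.q) => add_nonneg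
    (I4_nonneg (rc ν' ρ) (A * Real.log Z) P.t1) (I4_nonneg (rc ν' ρ) (A * Real.log Z) P.t2)
  have h2 := H2 A δ Z hδ.le (by linarith) hZ Q P hP
  have h1 := H1 Z hZ (P.a Q) (C2 * Real.log Z ^ J0 * Z ^ (A * (δ + 2 * δ))) P.X
    (fun ρ => if Exc Q ρ then C4 * Real.log Z ^ (4 * J0) * Z ^ (A * (4 * δ + 28 * δ)) *
      ((E + 1) * P.L) else C3 * Real.log Z ^ (4 * J0) * Z ^ (A * (4 * δ + 28 * δ)) *
        (1 + |P.t1| + |P.t2| + |P.τ|) ^ B3 * (Pi ^ (2 * P.J) * P.L ^ κ) *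
        (1 + ∑ ν' ∈ hchars Q.q,
          (I4 (rc ν' ρ) (A * Real.log Z) P.t1 + I4 (rc ν' ρ) (A * Real.log Z) P.t2))) D 𝒜
    ⟨Par.supp_a hP.hν, (Par.ps_a Q hν).rapid, hX, by positivity,
      (fun n => by
        simpa only [sub_self, Real.rpow_zero, mul_one] using
          (h2 (1 / 2) (by norm_num) (by linarith [Nat.cast_nonneg (α := ℝ) j]) n)),
      (fun n => by simpa only [zero_sub, zero_add] using (h2 0 le_rfl (by positivity) n)),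
      h2 j (by positivity) (by linarith), (fun ρ => by
        have := hI ρ
        split_ifs <;> positivity),
      fun G hG ν hν ρ hρ τ => by
        have h0 := (mem_ball.1 hρ).1
        split_ifs with h
        · exact H4 A δ Z hA hδ.le (by linarith) hZ Q P hP ρ h0 E hE (hHE ρ hρ h) G hG ν hν τ
        · exact H3 A δ Z hA hδ.le (by linarith) hZ Q P hP ρ h0 Pi κ hPi hκ
            (hHP ρ (Finset.mem_filter.2 ⟨hρ, h⟩)) G hG ν hν τ⟩ hP.hX hD hDA h𝒜 h𝒜A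
  rw [Finset.sum_congr rfl fun d hd => by
    rw [Par.row hP.hν hP.hν3 (mem_ball.1 hd).1, norm_mul, mul_pow, norm_pow, ← pow_mul,
      mul_comm P.J, mul_comm], Finset.sum_ite, Finset.sum_const, nsmul_eq_mul,
    ← Finset.mul_sum] at h1
  refine h1.trans ?_
  have h5 := H5 Z hZ D 𝒜 hD hDA h𝒜
  have h6 := H6 (D / 𝒜 ^ 6) M' (Real.log Z) P.t1 P.t2 (1 + |P.t1| + |P.t2| + |P.τ|) (by positivity)
    hM hlog (by linarith [abs_nonneg P.t2, abs_nonneg P.τ])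
    (by linarith [abs_nonneg P.t1, abs_nonneg P.τ]) hHM
  have hT : 1 ≤ 1 + |P.t1| + |P.t2| + |P.τ| := by
    linarith [abs_nonneg P.t1, abs_nonneg P.t2, abs_nonneg P.τ]
  have hp : ∀ i : ℕ, (Z ^ (A * δ)) ^ i = Z ^ (A * δ * i) := fun i =>
    (Real.rpow_mul_natCast hZ0.le _ _).symm
  have hz : 1 ≤ Z ^ (A * δ) := Real.one_le_rpow hZ1 (by positivity)
  have he : 1 ≤ Z ^ (ε / 4) := Real.one_le_rpow hZ1 hε4.le
  have e1 : Z ^ (A * (δ + 2 * δ)) = (Z ^ (A * δ)) ^ 3 := by rw [hp]; congr 1; push_cast; ring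
  have e2 : Z ^ (A * (4 * δ + 28 * δ)) = (Z ^ (A * δ)) ^ 32 := by rw [hp]; congr 1; push_cast; ring
  have e3 : Z ^ ε = (Z ^ (ε / 4)) ^ 4 := by
    rw [← Real.rpow_mul_natCast hZ0.le]; congr 1; push_cast; ring
  have e4 : (Z ^ (A * δ)) ^ 33 ≤ Z ^ (ε / 4) := by
    rw [hp]
    exact Real.rpow_le_rpow_of_exponent_le hZ1 hδε
  rw [e1, e2, e3]
  exact gcore_num hC1 hC2 hC3 hC4 hC5 hC6 hC7 hlog hz he hT (by positivity) (by positivity)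
    (by positivity) (by positivity) (by positivity) (by positivity) (H7 Z hZ) e4 h5 h6

end Crest.Agent.R17.GM
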