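import Crest.Agent.R17.GMoment_Qform

/-!
# R17 / GMoment_DP : the double Poisson inequality
-/

set_option autoImplicit false

noncomputable section

open scoped Classical ComplexConjugate
open MeasureTheory

namespace Crest.Agent.R17.GM

theorem dp_scale {f : O} (hf : Prim f) (δ Λ : ℝ) {X D 𝒜 : ℝ} (hX : 0 < X) (h𝒜 : 1 ≤ 𝒜)
    (F : O → ℝ) (S : Finset O) :
    (Λ * N f ^ (-(1 / 2 + δ))) ^ 2 * (D + X / N f * 𝒜 ^ 5) +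
        𝒜 ^ 5 * ∑ ρ ∈ S, N f ^ (-(1 + 2 * δ)) * F ρ ≤
      N f ^ (-(1 + 2 * δ)) * (Λ ^ 2 * (D + X * 𝒜 ^ 5) + 𝒜 ^ 5 * ∑ ρ ∈ S, F ρ) := by
  have h0 := N_pos hf.ne_zero
  have h1 : (N f ^ (-(1 / 2 + δ))) ^ 2 = N f ^ (-(1 + 2 * δ)) := by
    rw [← Real.rpow_natCast, ← Real.rpow_mul h0.le]
    congr 1
    push_cast
    ring
  have h2 : X / N f * 𝒜 ^ 5 ≤ X * 𝒜 ^ 5 :=
    mul_le_mul_of_nonneg_right (div_le_self hX.le (one_le_N hf.ne_zero)) (by positivity)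
  have h3 : 0 ≤ Λ ^ 2 * N f ^ (-(1 + 2 * δ)) := by positivity
  have h4 := mul_le_mul_of_nonneg_left h2 h3
  rw [mul_pow, h1, ← Finset.mul_sum]
  linarith

theorem dp_nonneg {Q : Lev} {δ : ℝ} {j : ℕ} {D' : ℝ} {a : O → ℂ} {Λ X : ℝ} {F : O → ℝ}
    (h : Adm Q δ j D' a Λ X F) {D 𝒜 : ℝ} (hD : 1 ≤ D) (h𝒜 : 1 ≤ 𝒜) (S : Finset O) :
    0 ≤ Λ ^ 2 * (D + X * 𝒜 ^ 5) + 𝒜 ^ 5 * ∑ ρ ∈ S, F ρ := by
  have h1 := h.xpos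
  have h2 : 0 ≤ ∑ ρ ∈ S, F ρ := Finset.sum_nonneg fun ρ _ => h.fnn ρ
  positivity

/-- squarefree case: `sum_ball_le_tsum` (`summable_moment` with `j = 1`), `gcd_split`, `dil_eq`,
`Adm.dil`, `qform_le` for `dil g α` gives the factor `N g^{-(1+2δ)}` (`X/N g ≤ X`); sum over `g`. -/
theorem dp_sq (A : ℝ) {ε δ : ℝ} (hε : 0 < ε) (hδ : 0 < δ) (hδ1 : δ ≤ 1) : ∃ j : ℕ, ∀ Q : Lev,
    ∃ C, 0 ≤ C ∧ ∀ Z : ℝ, 3 ≤ Z → ∀ (α : O → ℂ) (Λ X : ℝ) (F : O → ℝ) (D 𝒜 : ℝ),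
    SuppSq Q 1 α → Adm Q δ j (D / 𝒜 ^ 6) α Λ X F → X ≤ Z ^ A → 1 ≤ D → D ≤ Z ^ A → 1 ≤ 𝒜 →
    𝒜 ≤ Z ^ A → ∑ d ∈ ball D, ‖∑' n, α n * chi n d‖ ^ 2 ≤
      C * Z ^ ε * (Λ ^ 2 * (D + X * 𝒜 ^ 5) + 𝒜 ^ 5 * ∑ ρ ∈ ball (D / 𝒜 ^ 6), F ρ) := by
  obtain ⟨j, hj⟩ := qform_le A hε hδ hδ1
  refine ⟨j, fun Q => ?_⟩
  obtain ⟨C, hC, H⟩ := hj Q
  have hsum := summable_N_rpow (σ := 1 + 2 * δ) (by linarith)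
  have hS : 0 ≤ ∑' g : O, N g ^ (-(1 + 2 * δ)) :=
    tsum_nonneg fun g => Real.rpow_nonneg (N_nonneg g) _
  refine ⟨Real.exp c0 * ((∑' g : O, N g ^ (-(1 + 2 * δ))) * C), by positivity,
    fun Z hZ α Λ X F D 𝒜 hα hA hX hD hD' h𝒜 h𝒜' => ?_⟩
  have hD0 : 0 < D := by linarith
  have hM := dp_nonneg hA hD h𝒜 (ball (D / 𝒜 ^ 6))
  have hZε : 0 ≤ Z ^ ε := Real.rpow_nonneg (by linarith) _
  have h1 := summable_moment hA.rapid (fun n hn => (hA.supp n hn).isCoprime_six) 1 hD0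
  simp only [pow_one] at h1
  have h2 := sum_ball_le_tsum hD0 (f := fun d => ‖∑' n, α n * chi n d‖ ^ 2)
    (fun d => by positivity) h1
  obtain ⟨h3, h4⟩ := gcd_split Q hα hA.rapid hD0
  generalize hMdef : Λ ^ 2 * (D + X * 𝒜 ^ 5) + 𝒜 ^ 5 * ∑ ρ ∈ ball (D / 𝒜 ^ 6), F ρ = M at hM ⊢
  have h5 : ∀ g : O, (if Prim g then ‖Qform (fun m => α (g * m)) 1 D‖ else 0) ≤
      N g ^ (-(1 + 2 * δ)) * (C * Z ^ ε * M) := by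
    intro g
    have hg0 : 0 ≤ N g ^ (-(1 + 2 * δ)) := Real.rpow_nonneg (N_nonneg g) _
    split_ifs with hg
    · rw [dil_eq hα hg]
      have h6 := H Z hZ (dil g α) _ _ _ D 𝒜 (suppSq_dil hA.supp g) (hA.dil hδ hg)
        ((div_le_self hA.xpos.le (one_le_N hg.ne_zero)).trans hX) hD hD' h𝒜 h𝒜'
      have h7 := dp_scale hg δ Λ (D := D) hA.xpos h𝒜 F (ball (D / 𝒜 ^ 6))
      rw [hMdef] at h7
      refine h6.trans ((mul_le_mul_of_nonneg_left h7 (by positivity)).trans (le_of_eq ?_))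
      ring
    · positivity
  have h6 := h3.tsum_le_tsum h5 (hsum.mul_right _)
  rw [tsum_mul_right] at h6
  refine h2.trans ((mul_le_mul_of_nonneg_left (h4.trans h6) (Real.exp_pos _).le).trans (le_of_eq ?_))
  ring

/-- **Double Poisson.**  `pow_split`, `suppSq_dil`, `Adm.dil`, `dp_sq`. -/
theorem dp (A : ℝ) {ε δ : ℝ} (hε : 0 < ε) (hδ : 0 < δ) (hδ1 : δ ≤ 1) : ∃ j : ℕ, ∀ Q : Lev,
    ∃ C, 0 ≤ C ∧ ∀ Z : ℝ, 3 ≤ Z → ∀ (a : O → ℂ) (Λ X : ℝ) (F : O → ℝ) (D 𝒜 : ℝ),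
    Adm Q δ j (D / 𝒜 ^ 6) a Λ X F → X ≤ Z ^ A → 1 ≤ D → D ≤ Z ^ A → 1 ≤ 𝒜 →
    𝒜 ≤ Z ^ A → ∑ d ∈ ball D, ‖∑' n, a n * chi n d‖ ^ 2 ≤
      C * Z ^ ε * (Λ ^ 2 * (D + X * 𝒜 ^ 5) + 𝒜 ^ 5 * ∑ ρ ∈ ball (D / 𝒜 ^ 6), F ρ) := by
  obtain ⟨j, hj⟩ := dp_sq A hε hδ hδ1
  obtain ⟨C₀, hC₀, H₀⟩ := pow_split hδ
  refine ⟨j, fun Q => ?_⟩
  obtain ⟨C, hC, H⟩ := hj Q
  refine ⟨C₀ * C, by positivity, fun Z hZ a Λ X F D 𝒜 hA hX hD hD' h𝒜 h𝒜' => ?_⟩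
  have hM := dp_nonneg hA hD h𝒜 (ball (D / 𝒜 ^ 6))
  have hZε : 0 ≤ Z ^ ε := Real.rpow_nonneg (by linarith) _
  generalize hMdef : Λ ^ 2 * (D + X * 𝒜 ^ 5) + 𝒜 ^ 5 * ∑ ρ ∈ ball (D / 𝒜 ^ 6), F ρ = M at hM ⊢
  refine (H₀ Q a hA.supp hA.rapid (ball D) (C * Z ^ ε * M) (by positivity) fun f hf _ => ?_).trans
    (le_of_eq (by ring))
  have h6 := H Z hZ (dil f a) _ _ _ D 𝒜 (suppSq_dil hA.supp f) (hA.dil hδ hf)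
    ((div_le_self hA.xpos.le (one_le_N hf.ne_zero)).trans hX) hD hD' h𝒜 h𝒜'
  have h7 := dp_scale hf δ Λ (D := D) hA.xpos h𝒜 F (ball (D / 𝒜 ^ 6))
  rw [hMdef] at h7
  refine h6.trans ((mul_le_mul_of_nonneg_left h7 (by positivity)).trans (le_of_eq ?_))
  ring

end Crest.Agent.R17.GM
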