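import Crest.Agent.R17.Back
import Crest.Agent.R17.Local

/-!
# R17 / GMoment_Defs : definitions and overview for PART G (sub-lead: helper42)

Rows are `d : O`; `S_d(a) = ∑' n, a n * chi n d`.

* **Double Poisson** (`GMoment_Pow, Adm, Back, Bsum, Trow, Qform, DP`): for an admissible sequence
  (`Adm`: three pointwise bounds and a bound for the twisted squarefree sums `Wsum`),
  `∑_{N d ≤ D} |S_d(a)|² ≤ C Z^ε (Λ²(D + X 𝒜⁵) + 𝒜⁵ ∑_{N ρ ≤ D/𝒜⁶} F ρ)`.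
  All auxiliary sums converge absolutely thanks to the extra exponent `δ` (Rankin), and `Adm` is
  stable under the restricted dilation `dil`.
* **Structure** (`GMoment_Mob, Coef, Prime, PW, Pair, Wsum`): the sequence is
  `Par.a = (f₁ * f₂ - c g₁ * g₂) * b * ⋯ * b`.  A two-variable Möbius inversion (`conv_expand`) against
  *test functions* (`Test`) writes `Wsum` through products of complete blocks; the primes are removed
  one at a time (`tb_addP`).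
* **Majorants** (`GMoment_Sup, Exc, H4`): on non-exceptional rows fourth powers of blocks averaged over
  `(y,t)` (`I4`), on exceptional rows the trivial bound (`c = 0`) or cancellation of main terms (`c = 1`).
* **Assembly** (`GMoment_Core, Refl, Step, M4`, `GMoment`).
-/

set_option autoImplicit false

noncomputable section

open scoped Classical ComplexConjugate
open MeasureTheory

namespace Crest.Agent.R17.GM

/-- powerful elements -/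
def Pwf (f : O) : Prop := ∀ p, Prime p → p ∣ f → p ^ 2 ∣ f

/-- restricted dilation: `s ↦ a (f s)` on primary squarefree `s` coprime to `f` -/
def dil (f : O) (a : O → ℂ) (s : O) : ℂ :=
  if Prim s ∧ Squarefree s ∧ IsCoprime s f then a (f * s) else 0

/-- the sums produced by the double Poisson step -/
def Wsum (a : O → ℂ) (G : O) (ν : O → ℂ) (ρ : O) (δ τ : ℝ) : ℂ :=
  ∑' m : O, dil G a m * (N (G * m) : ℂ) ^ (-(1 : ℂ) + δ + τ * Complex.I) * ν m * chi m ρ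

/-- admissible data for the double Poisson step: `X` is the length, `Λ` the amplitude, `F` the
majorant on the rows of norm `≤ D'` -/
structure Adm (Q : Lev) (δ : ℝ) (j : ℕ) (D' : ℝ) (a : O → ℂ) (Λ X : ℝ) (F : O → ℝ) : Prop where
  supp : ∀ n, a n ≠ 0 → P0 Q n
  rapid : Rapid a
  xpos : 0 < X
  lam : 0 ≤ Λ
  h1 : ∀ n, ‖a n‖ ≤ Λ * N n ^ (-(1 / 2 + δ))
  h2 : ∀ n, ‖a n‖ ≤ Λ * X ^ (-(1 / 2 : ℝ)) * N n ^ (-δ)
  h3 : ∀ n, ‖a n‖ ≤ Λ * X ^ ((j : ℝ) - 1 / 2) * N n ^ (-((j : ℝ) + δ))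
  fnn : ∀ ρ, 0 ≤ F ρ
  h4 : ∀ G, Prim G → ∀ ν ∈ hchars Q.q, ∀ ρ ∈ ball D', ∀ τ : ℝ,
    ‖Wsum a G ν ρ δ τ‖ ^ 2 ≤ (X ^ 2)⁻¹ * N G ^ (-(1 + 2 * δ)) * Real.exp (|τ| / 2) * F ρ

/-- the coefficients of `Tsum α ν r 1 k (δ/2) τ` -/
def be1 (α ν : O → ℂ) (r : O) (δ τ : ℝ) (m : O) : ℂ :=
  α (r * m) * (N (r * m) : ℂ) ^ (-(1 / 2 : ℂ) + ((δ / 2 : ℝ) : ℂ) + τ * Complex.I) * ν m *
    chi m (r ^ 2)

/-- the coefficients after `amplify` -/
def be2 (β ν : O → ℂ) (e : O) (m : O) : ℂ := β (e * m) * ν m * chi m (e ^ 2)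

/-- Dirichlet convolution over primary elements -/
def conv (f g : O → ℂ) (n : O) : ℂ := if Prim n then ∑ e ∈ pdiv n, f e * g (n / e) else 0

/-- `a * b * ⋯ * b` (`J` factors `b`, supported on the finite set `S`) -/
def addP (S : Finset O) (b : O → ℂ) : ℕ → (O → ℂ) → O → ℂ
  | 0, a => a
  | J + 1, a => fun n => ∑ p ∈ S, if p ∣ n then b p * addP S b J a (n / p) else 0

/-- twist by `N(n)^s` -/
def tw (s : ℂ) (a : O → ℂ) (n : O) : ℂ := a n * (N n : ℂ) ^ s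

/-- completely multiplicative and bounded by one -/
structure Mult (ψ : O → ℂ) : Prop where
  one : ψ 1 = 1
  mul : ∀ a b, ψ (a * b) = ψ a * ψ b
  bd : ∀ n, ‖ψ n‖ ≤ 1

/-- supported on primary elements and rapidly decreasing -/
structure PS (f : O → ℂ) : Prop where
  supp : ∀ n, f n ≠ 0 → Prim n
  rapid : Rapid f

/-- test functions: supported on multiples of `G`, bounded by `M`, and behaving like `ψ` at primes
not dividing `H` which appear to the first power -/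
structure Test (ψ : O → ℂ) (G H : O) (M : ℝ) (Φ : O → ℂ) : Prop where
  primG : Prim G
  primH : Prim H
  dvd : G ∣ H
  supp : ∀ n, Prim n → Φ n ≠ 0 → G ∣ n
  bd : ∀ n, ‖Φ n‖ ≤ M
  mul : ∀ p n, Prime p → Prim p → Prim n → ¬ p ∣ n → ¬ p ∣ H → Φ (p * n) = ψ p * Φ n

/-- dilated twisted sum -/
def Dl (f ψ : O → ℂ) (u : O) : ℂ := ∑' m : O, f (u * m) * ψ m

/-- two-variable twisted Möbius transform of `(n₁,n₂) ↦ Φ (n₁ n₂)` -/
def cf (ψ Φ : O → ℂ) (u1 u2 : O) : ℂ :=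
  if Prim u1 ∧ Prim u2 then ∑ e1 ∈ pdiv u1, ∑ e2 ∈ pdiv u2,
    mu e1 * ψ e1 * (mu e2 * ψ e2) * Φ (u1 / e1 * (u2 / e2)) else 0

/-- bound for the pairing of `a` with all test functions -/
def TB (a ψ : O → ℂ) (γ δ F : ℝ) : Prop :=
  ∀ (G H : O) (M : ℝ) (Φ : O → ℂ), Test ψ G H M Φ →
    ‖∑' n, a n * Φ n‖ ≤ M * F * N G ^ (-γ) * N H ^ δ

/-- the coefficient sequence of a block -/
def fb (ν : O → ℂ) (y t : ℝ) (n : O) : ℂ :=
  if Prim n then ν n * (N n : ℂ) ^ (-(1 / 2 + t * Complex.I)) * (gw (Real.log (N n) - y) : ℂ) else 0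

/-- the coefficient sequence of a prime block -/
def bP (ν : O → ℂ) (yp x τ : ℝ) (p : O) : ℂ :=
  ν p * (wP yp p : ℂ) * (N p : ℂ) ^ (-(1 / 2 : ℂ) + x + τ * Complex.I)

/-- parameters of a (centered) product of two blocks and `J` prime blocks -/
structure Par where
  ν : O → ℂ
  ν3 : O → ℂ
  y1 : ℝ
  y2 : ℝ
  z1 : ℝ
  z2 : ℝ
  t1 : ℝ
  t2 : ℝ
  c : ℂ
  J : ℕ
  yp : ℝ
  R : ℝ
  x : ℝ
  τ : ℝ

/-- the two-block part of the sequence -/
def Par.a0 (P : Par) (n : O) : ℂ :=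
  conv (fb P.ν P.y1 P.t1) (fb P.ν P.y2 P.t2) n - P.c * conv (fb P.ν P.z1 P.t1) (fb P.ν P.z2 P.t2) n

/-- the structured sequence -/
def Par.a (P : Par) (Q : Lev) : O → ℂ := addP (slot Q P.yp P.R) (bP P.ν3 P.yp P.x P.τ) P.J P.a0

/-- the centered product of dilated and shifted blocks -/
def Par.Δ (P : Par) (ψ : O → ℂ) (u1 u2 τ' : ℝ) : ℂ :=
  pb ψ (P.y1 - u1) (P.t1 - τ') * pb ψ (P.y2 - u2) (P.t2 - τ') -
    P.c * (pb ψ (P.z1 - u1) (P.t1 - τ') * pb ψ (P.z2 - u2) (P.t2 - τ'))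

/-- total length of the primes -/
def Par.L (P : Par) : ℝ := Real.exp (P.J * P.yp)

/-- total length -/
def Par.X (P : Par) : ℝ := Real.exp (P.y1 + P.y2) * P.L

/-- standing assumptions on the parameters -/
structure Par.OK (P : Par) (Q : Lev) (A η Z : ℝ) (J0 : ℕ) : Prop where
  hν : P.ν ∈ hchars Q.q
  hν3 : P.ν3 ∈ hchars Q.q
  sum : P.z1 + P.z2 = P.y1 + P.y2
  hc : ‖P.c‖ ≤ 1
  hy1 : P.y1 ≤ A * Real.log Z
  hy2 : P.y2 ≤ A * Real.log Z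
  hz1 : P.z1 ≤ A * Real.log Z
  hz2 : P.z2 ≤ A * Real.log Z
  hX : P.X ≤ Z ^ A
  hL : P.L ≤ Z ^ A
  hJ : P.J ≤ J0
  hyp : 0 ≤ P.yp
  hR : 0 ≤ P.R
  hypR : P.yp + P.R ≤ 2 * Real.log Z
  hx : |P.x| ≤ η

/-- averaged fourth power of a block -/
def I4 (ψ : O → ℂ) (Y t : ℝ) : ℝ :=
  ∫ y' in Set.Icc (-1) (Y + 1), ∫ t' : ℝ, Real.exp (-(|t' - t| / 8)) * ‖pb ψ y' t'‖ ^ 4

/-- the fourth moment over non-exceptional rows -/
def M4 (Q : Lev) (ν : O → ℂ) (D y t : ℝ) : ℝ := ∑ d ∈ npball Q D, ‖pb (rc ν d) y t‖ ^ 4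

/-- hypothesis: fourth moment on the rows of norm `≤ D'` -/
def HM (Q : Lev) (D' M' : ℝ) (B : ℕ) : Prop :=
  ∀ ν ∈ hchars Q.q, ∀ y t : ℝ, M4 Q ν D' y t ≤ M' * (1 + |t|) ^ B

/-- hypothesis: prime blocks on the non-exceptional row `ρ` -/
def HP (Q : Lev) (ρ : O) (yp R Pi κ : ℝ) (B : ℕ) : Prop :=
  ∀ ν ∈ hchars Q.q, ∀ x τ : ℝ, |x| ≤ 2 →
    ‖Pb Q (rc ν ρ) yp R x τ‖ ≤ Pi * (1 + |τ|) ^ B * Real.exp ((κ / 2 + x) * yp)

/-- hypothesis: the centered product on the (exceptional) row `ρ` -/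
def HE (Q : Lev) (P : Par) (ρ : O) (E : ℝ) (B : ℕ) : Prop :=
  ∀ ν ∈ hchars Q.q, ∀ u1 u2 τ' : ℝ, 0 ≤ u1 → 0 ≤ u2 →
    ‖P.Δ (rc ν ρ) u1 u2 τ'‖ ^ 2 ≤ E * (1 + |τ'|) ^ B

end Crest.Agent.R17.GM
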