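import Crest.Agent.R17.GMoment_Pow

/-!
# R17 / GMoment_Exc : exceptional rows
-/

set_option autoImplicit false

noncomputable section

open scoped Classical ComplexConjugate
open MeasureTheory

namespace Crest.Agent.R17.GM

/-- the main term of a block -/
def exc_E (y t : ℝ) : ℂ := Real.sqrt Real.pi * Complex.exp ((1 / 2 - t * Complex.I) ^ 2 / 4 +
  (1 / 2 - t * Complex.I) * y)

theorem exc_E_norm (y t : ℝ) :
    ‖exc_E y t‖ ≤ Real.sqrt Real.pi * Real.exp (1 / 16) * Real.exp (y / 2) := by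
  have e : ((1 / 2 - t * Complex.I) ^ 2 / 4 + (1 / 2 - t * Complex.I) * y : ℂ) =
      ((1 / 16 - t ^ 2 / 4 + y / 2 : ℝ) : ℂ) + ((-(t / 4) - t * y : ℝ) : ℂ) * Complex.I := by
    push_cast
    linear_combination (t : ℂ) ^ 2 / 4 * Complex.I_sq
  rw [exc_E, norm_mul, Complex.norm_exp, e, Complex.norm_real,
    Real.norm_of_nonneg (Real.sqrt_nonneg _), mul_assoc, ← Real.exp_add]
  refine mul_le_mul_of_nonneg_left (Real.exp_le_exp.2 ?_) (Real.sqrt_nonneg _)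
  rw [Complex.add_re, Complex.ofReal_re, Complex.re_ofReal_mul, Complex.I_re]
  nlinarith [sq_nonneg t]

theorem exc_E_mul {y1 y2 z1 z2 : ℝ} (h : z1 + z2 = y1 + y2) (t : ℝ) :
    exc_E y1 t * exc_E y2 t = exc_E z1 t * exc_E z2 t := by
  have h' : (z1 : ℂ) + z2 = y1 + y2 := by exact_mod_cast h
  unfold exc_E
  rw [mul_mul_mul_comm, ← Complex.exp_add, mul_mul_mul_comm _ (Complex.exp _), ← Complex.exp_add]
  congr 2
  linear_combination (-(1 / 2 - t * Complex.I)) * h'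

theorem exc_alg {M E1 E2 F1 F2 a1 a2 b1 b2 : ℂ} {R S : ℝ} (hS : 1 ≤ S) (hM : ‖M‖ ≤ R)
    (h : E1 * E2 = F1 * F2) (e1 : ‖E1‖ ≤ S) (e2 : ‖E2‖ ≤ S) (f1 : ‖F1‖ ≤ S) (f2 : ‖F2‖ ≤ S)
    (r1 : ‖a1 - M * E1‖ ≤ R) (r2 : ‖a2 - M * E2‖ ≤ R) (s1 : ‖b1 - M * F1‖ ≤ R)
    (s2 : ‖b2 - M * F2‖ ≤ R) : ‖a1 * a2 - b1 * b2‖ ≤ 6 * S * R ^ 2 := by
  have hR : 0 ≤ R := (norm_nonneg _).trans hM
  have e : a1 * a2 - b1 * b2 = M * E1 * (a2 - M * E2) + M * E2 * (a1 - M * E1) +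
      (a1 - M * E1) * (a2 - M * E2) - (M * F1 * (b2 - M * F2) + M * F2 * (b1 - M * F1) +
      (b1 - M * F1) * (b2 - M * F2)) := by
    linear_combination M ^ 2 * h
  have k1 : ∀ E r : ℂ, ‖E‖ ≤ S → ‖r‖ ≤ R → ‖M * E * r‖ ≤ S * R ^ 2 := fun E r h1 h2 => by
    rw [norm_mul, norm_mul]
    calc ‖M‖ * ‖E‖ * ‖r‖ ≤ R * S * R := by gcongr
      _ = _ := by ring
  have k2 : ∀ r s : ℂ, ‖r‖ ≤ R → ‖s‖ ≤ R → ‖r * s‖ ≤ S * R ^ 2 := fun r s h1 h2 => by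
    rw [norm_mul]
    calc ‖r‖ * ‖s‖ ≤ R * R := by gcongr
      _ = 1 * R ^ 2 := by ring
      _ ≤ _ := by gcongr
  rw [e]
  refine (norm_sub_le _ _).trans ((add_le_add (norm_add₃_le) (norm_add₃_le)).trans ?_)
  linarith [k1 _ _ e1 r2, k1 _ _ e2 r1, k1 _ _ f1 s2, k1 _ _ f2 s1, k2 _ _ r1 r2, k2 _ _ s1 s2]

/-- no centering: `pb_triv` (first bound), `mult_rc` -/
theorem exc0 : ∃ C, 0 ≤ C ∧ ∀ (Q : Lev) (P : Par), P.c = 0 → ∀ ρ : O, ρ ≠ 0 →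
    HE Q P ρ (C * Real.exp (P.y1 + P.y2)) 0 := by
  obtain ⟨C, hC, h⟩ := pb_triv
  refine ⟨C ^ 4, by positivity, fun Q P hc ρ hρ ν hν u1 u2 τ' h1 h2 => ?_⟩
  have hb := (mult_rc Q hν hρ).bd
  have k : ∀ y u t : ℝ, 0 ≤ u → ‖pb (rc ν ρ) (y - u) t‖ ≤ C * Real.exp (y / 2) := fun y u t hu =>
    (h _ hb _ _).1.trans (mul_le_mul_of_nonneg_left (Real.exp_le_exp.2 (by linarith)) hC)
  rw [Par.Δ, hc, zero_mul, sub_zero, pow_zero, mul_one, norm_mul]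
  calc (‖pb (rc ν ρ) (P.y1 - u1) (P.t1 - τ')‖ * ‖pb (rc ν ρ) (P.y2 - u2) (P.t2 - τ')‖) ^ 2
      ≤ (C * Real.exp (P.y1 / 2) * (C * Real.exp (P.y2 / 2))) ^ 2 := by
        gcongr
        · exact k _ _ _ h1
        · exact k _ _ _ h2
    _ = C ^ 4 * (Real.exp (P.y1 / 2) * Real.exp (P.y2 / 2)) ^ 2 := by ring
    _ = _ := by
        rw [← Real.exp_add, ← Real.exp_nat_mul]
        congr 2
        push_cast
        ring

/-- Blocks on an exceptional row `ρ = e a⁶` (`exc_iff`, `rc_exc`, `block_asymp`): the error is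
`≤ C (1+|t|)^B τ(a)` for all `y` (for `y ≤ 0` bound block and main term separately, `pb_triv`,
`‖√π exp((1/2 - it)²/4 + (1/2 - it) y)‖ ≤ √π e^{1/16} e^{y/2}`), and `τ(a) ≤ τ(ρ) ≤ C N ρ^ε`. -/
theorem exc_asymp (Q : Lev) {ε : ℝ} (hε : 0 < ε) : ∃ (C : ℝ) (B : ℕ), 0 ≤ C ∧ ∀ ν ∈ hchars Q.q,
    ∀ ρ : O, ρ ≠ 0 → Exc Q ρ → ∃ M : ℂ, ‖M‖ ≤ C * N ρ ^ ε ∧ ∀ y t : ℝ,
      ‖pb (rc ν ρ) y t - M * (Real.sqrt Real.pi * Complex.exp ((1 / 2 - t * Complex.I) ^ 2 / 4 +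
        (1 / 2 - t * Complex.I) * y))‖ ≤ C * (1 + |t|) ^ B * N ρ ^ ε := by
  obtain ⟨C1, hC1, h1⟩ := pb_triv
  obtain ⟨C2, B, h2⟩ := block_asymp Q
  obtain ⟨C3, h3⟩ := card_pdiv_le hε
  set K := Real.sqrt Real.pi * Real.exp (1 / 16) with hK
  have hK0 : 0 ≤ K := by positivity
  have hA : 0 ≤ |C2| * |C3| := by positivity
  refine ⟨C1 + |C2| * |C3| * (K + 1), B, by positivity, fun ν hν ρ hρ hE => ?_⟩
  have hb := (mult_rc Q hν hρ).bd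
  obtain ⟨e, a, j, he, ha, hea⟩ := (exc_iff Q hρ).1 hE
  obtain ⟨ν', hν', -, h4⟩ := rc_exc Q hν he ha
  obtain ⟨M, hM, -, -, h5⟩ := h2 ν' hν' a ha.1
  rw [← funext h4, ← hea] at h5
  have ha0 := ha.1.ne_zero
  have hN : N a ≤ N ρ := N_le_of_dvd hρ (hea ▸ Dvd.dvd.mul_left (dvd_pow_self a (by norm_num)) e)
  have hr : 1 ≤ N ρ ^ ε := Real.one_le_rpow (one_le_N hρ) hε.le
  have h6 : ((pdiv a).card : ℝ) ≤ |C3| * N ρ ^ ε := (h3 a ha0).trans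
    (mul_le_mul (le_abs_self _) (Real.rpow_le_rpow (N_nonneg _) hN hε.le)
      (Real.rpow_nonneg (N_nonneg _) _) (abs_nonneg _))
  have h7 : ‖M‖ ≤ |C2| * |C3| * N ρ ^ ε := by
    rw [mul_assoc]
    exact hM.trans (mul_le_mul (le_abs_self _) h6 (Nat.cast_nonneg _) (abs_nonneg _))
  have hAK : 0 ≤ |C2| * |C3| * K := by positivity
  refine ⟨M, h7.trans (mul_le_mul_of_nonneg_right (by linarith) (by linarith)), fun y t => ?_⟩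
  have ht : 1 ≤ (1 + |t|) ^ B := one_le_pow₀ (by linarith [abs_nonneg t])
  rcases le_total 0 y with hy | hy
  · have h8 : Real.exp (-y / 2) ≤ 1 := Real.exp_le_one_iff.2 (by linarith)
    calc _ ≤ _ := h5 y t
      _ ≤ |C2| * (1 + |t|) ^ B * (|C3| * N ρ ^ ε) * 1 := by
        gcongr
        exact le_abs_self _
      _ = |C2| * |C3| * (1 + |t|) ^ B * N ρ ^ ε := by ring
      _ ≤ _ := by
        gcongr
        linarith
  · have h8 : Real.exp (y / 2) ≤ 1 := Real.exp_le_one_iff.2 (by linarith)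
    have h9 : ‖pb (rc ν ρ) y t‖ ≤ C1 * N ρ ^ ε :=
      (h1 _ hb y t).1.trans (mul_le_mul_of_nonneg_left (h8.trans hr) hC1)
    have h10 : ‖exc_E y t‖ ≤ K := (exc_E_norm y t).trans (mul_le_of_le_one_right hK0 h8)
    have h11 : ‖M * exc_E y t‖ ≤ |C2| * |C3| * N ρ ^ ε * K := by
      rw [norm_mul]
      gcongr
    calc _ ≤ _ := norm_sub_le _ (M * exc_E y t)
      _ ≤ C1 * N ρ ^ ε + |C2| * |C3| * N ρ ^ ε * K := add_le_add h9 h11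
      _ = (C1 + |C2| * |C3| * K) * 1 * N ρ ^ ε := by ring
      _ ≤ _ := by
        gcongr
        linarith

/-- centering: with `E(y) = √π exp((1/2 - it)²/4 + (1/2 - it) y)` (`t = t₁ - τ'`),
`E(y₁-u₁) E(y₂-u₂) = E(z₁-u₁) E(z₂-u₂)`, so `Δ = M(E₁r₂ + E₂r₁ - E₁'r₂' - E₂'r₁') + r₁r₂ - r₁'r₂'`;
`‖E‖ ≤ 2 e^{Y/2}`, `exc_asymp` with `ε/4`, `1 + |t₁ - τ'| ≤ (1+|t₁|)(1+|τ'|)`. -/
theorem exc1 (Q : Lev) {ε : ℝ} (hε : 0 < ε) : ∃ (C : ℝ) (B : ℕ), 0 ≤ C ∧ ∀ P : Par, P.c = 1 →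
    P.t2 = P.t1 → P.z1 + P.z2 = P.y1 + P.y2 → ∀ Y : ℝ, 0 ≤ Y → P.y1 ≤ Y → P.y2 ≤ Y → P.z1 ≤ Y →
    P.z2 ≤ Y → ∀ ρ : O, ρ ≠ 0 → Exc Q ρ →
      HE Q P ρ (C * N ρ ^ ε * (1 + |P.t1|) ^ B * Real.exp Y) B := by
  obtain ⟨C, B, hC, h⟩ := exc_asymp Q (ε := ε / 4) (by positivity)
  set K := Real.sqrt Real.pi * Real.exp (1 / 16) with hK
  have hK0 : 0 ≤ K := by positivity
  refine ⟨36 * (K + 1) ^ 2 * C ^ 4, B * 4, by positivity,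
    fun P hc ht hs Y hY y1 y2 z1 z2 ρ hρ hE ν hν u1 u2 τ' h1 h2 => ?_⟩
  obtain ⟨M, hM, hr⟩ := h ν hν ρ hρ hE
  set t := P.t1 - τ' with htd
  have hY1 : 1 ≤ Real.exp (Y / 2) := Real.one_le_exp (by linarith)
  have hN : 0 ≤ N ρ ^ (ε / 4) := Real.rpow_nonneg (N_nonneg _) _
  have k : ∀ y u : ℝ, y ≤ Y → 0 ≤ u → ‖exc_E (y - u) t‖ ≤ (K + 1) * Real.exp (Y / 2) :=
    fun y u hy hu => (exc_E_norm _ _).trans
      (mul_le_mul (by linarith) (Real.exp_le_exp.2 (by linarith)) (by positivity) (by positivity))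
  have ht1 : 1 ≤ (1 + |t|) ^ B := one_le_pow₀ (by linarith [abs_nonneg t])
  have key := exc_alg (R := C * (1 + |t|) ^ B * N ρ ^ (ε / 4)) (S := (K + 1) * Real.exp (Y / 2))
    (one_le_mul_of_one_le_of_one_le (by linarith) hY1)
    (hM.trans (mul_le_mul_of_nonneg_right (le_mul_of_one_le_right hC ht1) hN))
    (exc_E_mul (y1 := P.y1 - u1) (y2 := P.y2 - u2) (z1 := P.z1 - u1) (z2 := P.z2 - u2)
      (by linarith) t) (k _ _ y1 h1) (k _ _ y2 h2) (k _ _ z1 h1) (k _ _ z2 h2)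
    (hr _ t) (hr _ t) (hr _ t) (hr _ t)
  have h3 : 1 + |t| ≤ (1 + |P.t1|) * (1 + |τ'|) := by
    have := abs_sub P.t1 τ'
    nlinarith [abs_nonneg P.t1, abs_nonneg τ']
  have h4 : Real.exp (Y / 2) ^ 2 = Real.exp Y := by
    rw [← Real.exp_nat_mul]
    congr 1
    push_cast
    ring
  have h5 : (N ρ ^ (ε / 4)) ^ 4 = N ρ ^ ε := by
    rw [← Real.rpow_natCast, ← Real.rpow_mul (N_nonneg _)]
    congr 1
    push_cast
    ring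
  have h6 : 0 ≤ N ρ ^ ε := Real.rpow_nonneg (N_nonneg _) _
  rw [Par.Δ, hc, ht, one_mul]
  calc _ ≤ (6 * ((K + 1) * Real.exp (Y / 2)) * (C * (1 + |t|) ^ B * N ρ ^ (ε / 4)) ^ 2) ^ 2 :=
        pow_le_pow_left₀ (norm_nonneg _) key 2
    _ = 36 * (K + 1) ^ 2 * C ^ 4 * (N ρ ^ (ε / 4)) ^ 4 * Real.exp (Y / 2) ^ 2 *
        (1 + |t|) ^ (B * 4) := by ring
    _ ≤ 36 * (K + 1) ^ 2 * C ^ 4 * N ρ ^ ε * Real.exp Y *
        ((1 + |P.t1|) * (1 + |τ'|)) ^ (B * 4) := by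
        rw [h4, h5]
        gcongr
    _ = _ := by rw [mul_pow]; ring

end Crest.Agent.R17.GM
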