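import Crest.Agent.R17.GMoment_Mob

/-!
# R17 / GMoment_Expand : expansion of a pairing into dilated complete sums
-/

set_option autoImplicit false

noncomputable section

open scoped Classical ComplexConjugate
open MeasureTheory

namespace Crest.Agent.R17.GM

theorem exp_summable_k {f : O → ℂ} (hf : PS f) :
    Summable (fun x : O × O => if Prim x.1 then N x.1 * ‖f (x.1 * x.2)‖ else 0) := by
  let H : O × O → ℝ := fun x => if x.2 ∈ pdiv x.1 then N x.1 * ‖f x.1‖ else 0
  have hH0 : ∀ x, 0 ≤ H x := by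
    intro x
    simp only [H]
    split_ifs
    · exact mul_nonneg (N_nonneg _) (norm_nonneg _)
    · exact le_rfl
  have hH : Summable H := by
    rw [summable_prod_of_nonneg hH0]
    refine ⟨fun n => summable_of_ne_finset_zero (s := pdiv n) fun e he => if_neg he, ?_⟩
    refine Summable.of_nonneg_of_le (fun n => tsum_nonneg fun _ => hH0 _) (fun n => ?_)
      (hf.rapid 2)
    rw [tsum_eq_sum (s := pdiv n) (fun e he => if_neg he),
      Finset.sum_congr rfl (g := fun _ => N n * ‖f n‖) (fun e he => if_pos he), Finset.sum_const,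
      nsmul_eq_mul]
    by_cases hn : n = 0
    · simp [hn]
    · refine (mul_le_mul_of_nonneg_right (card_pdiv_le_N hn)
        (mul_nonneg (N_nonneg _) (norm_nonneg _))).trans (le_of_eq (by ring))
  have hj : Function.Injective
      (fun x : O × O => ((if x.1 = 0 then x.2 else x.1 * x.2, x.1) : O × O)) := by
    rintro ⟨u, m⟩ ⟨u', m'⟩ h
    simp only [Prod.mk.injEq] at h
    obtain ⟨h, rfl⟩ := h
    split_ifs at h with h0
    · rw [h]
    · rw [mul_left_cancel₀ h0 h]
  refine Summable.of_nonneg_of_le (fun x => ?_) (fun x => ?_) (hH.comp_injective hj)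
  · split_ifs
    · exact mul_nonneg (N_nonneg _) (norm_nonneg _)
    · exact le_rfl
  · split_ifs with hx
    · by_cases h0 : f (x.1 * x.2) = 0
      · rw [h0, norm_zero, mul_zero]
        exact hH0 _
      · have h1 := (hf.supp _ h0).ne_zero
        simp only [H, Function.comp_apply, if_neg hx.ne_zero]
        rw [if_pos ((mem_pdiv h1).2 ⟨hx, dvd_mul_right _ _⟩)]
        exact mul_le_mul_of_nonneg_right (N_le_of_dvd h1 (dvd_mul_right _ _)) (norm_nonneg _)
    · exact hH0 _

theorem exp_summable_Dl {ψ f : O → ℂ} (hψ : Mult ψ) (hf : PS f) {u : O} (hu : u ≠ 0) :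
    Summable (fun m => ‖f (u * m) * ψ m‖) := by
  refine Summable.of_nonneg_of_le (fun _ => norm_nonneg _) (fun m => ?_)
    (hf.summable_norm.comp_injective (mul_right_injective₀ hu))
  rw [norm_mul]
  exact mul_le_of_le_one_right (norm_nonneg _) (hψ.bd m)

/-- The four-fold family `h(u₁,u₂,m₁,m₂) = cf(u₁,u₂) f₁(u₁m₁) ψ(m₁) f₂(u₂m₂) ψ(m₂)` is absolutely
summable: its norm is `≤ M · k₁(u₁,m₁) k₂(u₂,m₂)` with `k_i(u,m) = 1_{Prim u} N u ‖f_i(u m)‖`
(`norm_cf_le`, `card_pdiv_le_N`), and `∑ k_i ≤ ∑_n ‖f_i n‖ N n²` (finite partial sums: the fibre of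
`(u,m) ↦ u m` over a primary `n` has `≤ τ(n) ≤ N n` elements).  Summing first over `(m₁,m₂)` gives the
left side (`Summable.tsum_mul_tsum`); summing over the fibres of `(u₁m₁, u₂m₂)` (`hasSum_pdiv` twice,
`mob_two`) gives `∑ f₁(n₁) f₂(n₂) Φ(n₁n₂)`, which is the right side by `tsum_conv`. -/
theorem conv_expand {ψ f1 f2 Φ : O → ℂ} (hψ : Mult ψ) (h1 : PS f1) (h2 : PS f2) {M : ℝ}
    (hΦ : ∀ n, ‖Φ n‖ ≤ M) :
    HasSum (fun u : O × O => cf ψ Φ u.1 u.2 * (Dl f1 ψ u.1 * Dl f2 ψ u.2))
      (∑' n, conv f1 f2 n * Φ n) := by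
  have hM : 0 ≤ M := (norm_nonneg _).trans (hΦ 0)
  let h : (O × O) × (O × O) → ℂ := fun z => cf ψ Φ z.1.1 z.2.1 *
    (f1 (z.1.1 * z.1.2) * ψ z.1.2 * (f2 (z.2.1 * z.2.2) * ψ z.2.2))
  have hcf : ∀ u1 u2, ¬ (Prim u1 ∧ Prim u2) → cf ψ Φ u1 u2 = 0 := fun u1 u2 hu => if_neg hu
  have hsupp : ∀ x y, h (x, y) ≠ 0 → (Prim x.1 ∧ Prim x.2) ∧ Prim y.1 ∧ Prim y.2 := by
    intro x y hz
    have a1 : Prim x.1 ∧ Prim y.1 := by
      by_contra hu
      exact left_ne_zero_of_mul hz (hcf _ _ hu)
    have a2 := right_ne_zero_of_mul hz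
    exact ⟨⟨a1.1, (h1.supp _ (left_ne_zero_of_mul (left_ne_zero_of_mul a2))).of_mul_left a1.1⟩,
      a1.2, (h2.supp _ (left_ne_zero_of_mul (right_ne_zero_of_mul a2))).of_mul_left a1.2⟩
  have hk0 : ∀ (f : O → ℂ) (x : O × O),
      0 ≤ if Prim x.1 then N x.1 * ‖f (x.1 * x.2)‖ else 0 := by
    intro f x
    split_ifs
    · exact mul_nonneg (N_nonneg _) (norm_nonneg _)
    · exact le_rfl
  have hs : Summable h := by
    refine Summable.of_norm_bounded (((exp_summable_k h1).mul_of_nonneg (exp_summable_k h2)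
      (hk0 f1) (hk0 f2)).mul_left M) fun z => ?_
    by_cases hz : h z = 0
    · rw [hz, norm_zero]
      exact mul_nonneg hM (mul_nonneg (hk0 _ _) (hk0 _ _))
    · obtain ⟨⟨a1, -⟩, a2, -⟩ := hsupp z.1 z.2 hz
      rw [if_pos a1, if_pos a2]
      simp only [h, norm_mul]
      have b1 : ‖cf ψ Φ z.1.1 z.2.1‖ ≤ M * N z.1.1 * N z.2.1 :=
        (norm_cf_le hψ hΦ _ _).trans (mul_le_mul (mul_le_mul_of_nonneg_left
          (card_pdiv_le_N a1.ne_zero) hM) (card_pdiv_le_N a2.ne_zero) (Nat.cast_nonneg _)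
          (mul_nonneg hM (N_nonneg _)))
      have b2 := N_nonneg z.1.1
      have b3 := N_nonneg z.2.1
      calc _ ≤ M * N z.1.1 * N z.2.1 * (‖f1 (z.1.1 * z.1.2)‖ * ‖f2 (z.2.1 * z.2.2)‖) :=
            mul_le_mul b1 (mul_le_mul (mul_le_of_le_one_right (norm_nonneg _) (hψ.bd _))
              (mul_le_of_le_one_right (norm_nonneg _) (hψ.bd _)) (by positivity) (norm_nonneg _))
              (by positivity) (by positivity)
        _ = _ := by ring
  have hR : ∑' z, h z = ∑' n, conv f1 f2 n * Φ n := by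
    have a1 := hasSum_pdiv (g := fun x => ∑' y, h (x, y)) (fun x hx => by
      by_contra hne
      refine hx ?_
      have : ∀ y, h (x, y) = 0 := fun y => by
        by_contra h0
        exact hne (hsupp x y h0).1
      simp only [this, tsum_zero]) hs.prod
    have a2 := fun x => hasSum_pdiv (g := fun y => h (x, y)) (fun y hy => (hsupp x y hy).2)
      (hs.prod_factor x)
    rw [hs.tsum_prod, ← a1.tsum_eq, ← (tsum_conv h1 h2 hΦ).tsum_eq,
      (tsum_conv h1 h2 hΦ).summable.tsum_prod]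
    refine tsum_congr fun n1 => ?_
    split_ifs with hn1
    · refine (HasSum.tsum_eq ?_).symm
      have a3 := hasSum_sum (s := pdiv n1) fun e _ => a2 (e, n1 / e)
      refine (show (fun n2 => f1 n1 * f2 n2 * Φ (n1 * n2)) = _ from funext fun n2 => ?_) ▸ a3
      split_ifs with hn2
      · rw [← mob_two hψ Φ hn1 hn2, Finset.mul_sum]
        refine Finset.sum_congr rfl fun e1 he1 => ?_
        rw [Finset.mul_sum]
        refine Finset.sum_congr rfl fun e2 he2 => ?_
        rw [mem_pdiv hn1.ne_zero] at he1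
        rw [mem_pdiv hn2.ne_zero] at he2
        simp only [h]
        rw [EuclideanDomain.mul_div_cancel' he1.1.ne_zero he1.2,
          EuclideanDomain.mul_div_cancel' he2.1.ne_zero he2.2]
        ring
      · have : f2 n2 = 0 := by
          by_contra h0
          exact hn2 (h2.supp _ h0)
        simp [this]
    · have : f1 n1 = 0 := by
        by_contra h0
        exact hn1 (h1.supp _ h0)
      simp [this]
  rw [← hR]
  have hL := (Equiv.prodProdProdComm O O O O).hasSum_iff.2 hs.hasSum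
  refine hL.prod_fiberwise fun u => ?_
  by_cases hu : Prim u.1 ∧ Prim u.2
  · have a1 := exp_summable_Dl hψ h1 hu.1.ne_zero
    have a2 := exp_summable_Dl hψ h2 hu.2.ne_zero
    rw [Dl, Dl, tsum_mul_tsum_of_summable_norm a1 a2]
    have a3 := (summable_mul_of_summable_norm a1 a2).hasSum.mul_left (cf ψ Φ u.1 u.2)
    refine (show (fun c : O × O => (h ∘ Equiv.prodProdProdComm O O O O) (u, c)) = _ from
      funext fun c => ?_) ▸ a3
    simp only [h, Function.comp_apply, Equiv.prodProdProdComm_apply]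
  · have : (fun c : O × O => (h ∘ Equiv.prodProdProdComm O O O O) (u, c)) = fun _ => 0 := by
      funext c
      simp [h, hcf _ _ hu]
    rw [this, hcf _ _ hu, zero_mul]
    exact hasSum_zero

end Crest.Agent.R17.GM
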