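import Crest.Agent.R17.GMoment_Step

/-!
# R17 / GMoment_M4 : the fourth moment by induction on the range of rows
-/

set_option autoImplicit false

noncomputable section

open scoped Classical ComplexConjugate
open MeasureTheory

namespace Crest.Agent.R17.GM

/-- the induction statement -/
def PM (Q : Lev) (η θ : ℝ) : Prop :=
  ∀ ε : ℝ, 0 < ε → ∃ (C : ℝ) (B : ℕ), 0 ≤ C ∧ ∀ Z : ℝ, 3 ≤ Z → ∀ ν ∈ hchars Q.q, ∀ D y t : ℝ,
    0 < D → D < Z ^ θ → M4 Q ν D y t ≤ C * Z ^ (2 * η + ε) * (1 + |t|) ^ B * D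

theorem m4_small (Q : Lev) (ν : O → ℂ) {D : ℝ} (h : D < 1) (y t : ℝ) : M4 Q ν D y t = 0 := by
  rw [M4, npball, ball_eq_empty h, Finset.filter_empty, Finset.sum_empty]

/-- `D < 1`: `ball_eq_empty` -/
theorem pm_zero (Q : Lev) (η : ℝ) : PM Q η 0 :=
  fun _ _ => ⟨0, 0, le_rfl, fun Z _ ν _ D y t _ h => by
    rw [m4_small Q ν (by rwa [Real.rpow_zero] at h)]
    simp⟩

theorem m4_short (Q : Lev) {η θ δ : ℝ} (hη : 0 < η) (hθ : 0 ≤ θ) (h : PM Q η θ) (hδ : 0 < δ)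
    (hδ1 : δ ≤ 1) : ∃ (C : ℝ) (B : ℕ), 0 ≤ C ∧ ∀ Z : ℝ, 3 ≤ Z → ∀ ν ∈ hchars Q.q, ∀ D y t : ℝ,
      1 ≤ D → D < Z ^ (θ + η) → y ≤ Real.log D / 2 + δ * Real.log Z →
      M4 Q ν D y t ≤ C * Z ^ (2 * η + 5 * δ) * (1 + |t|) ^ B * D := by
  obtain ⟨C1, B1, hC1, H1⟩ := h δ hδ
  obtain ⟨η', hη', -, H⟩ := step (A := θ + η + 2) (by positivity) hδ
  obtain ⟨C2, B2, hC2, H2⟩ := H Q 0 B1
  obtain ⟨C3, -, H3⟩ := Pb_triv
  refine ⟨C2 * (C1 + 2), B2, by positivity, fun Z hZ ν hν D y t hD hDZ hy => ?_⟩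
  have hZ1 : 1 ≤ Z := by linarith
  have hZ0 : 0 < Z := by linarith
  have hp : ∀ i j : ℕ, (Z ^ (η / 6)) ^ i * (Z ^ δ) ^ j = Z ^ (η / 6 * i + δ * j) := fun i j => by
    rw [Real.rpow_add hZ0, Real.rpow_mul_natCast hZ0.le, Real.rpow_mul_natCast hZ0.le]
  have ha : 1 ≤ Z ^ (η / 6) := Real.one_le_rpow hZ1 (by positivity)
  have he : 1 ≤ Z ^ δ := Real.one_le_rpow hZ1 hδ.le
  have e1 : Z ^ (2 * η + δ) = (Z ^ (η / 6)) ^ 12 * (Z ^ δ) ^ 1 := by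
    rw [hp]; congr 1; push_cast; ring
  have e2 : Z ^ (2 * η + 5 * δ) = (Z ^ (η / 6)) ^ 12 * (Z ^ δ) ^ 5 := by
    rw [hp]; congr 1; push_cast; ring
  have e3 : Z ^ (θ + η) = Z ^ θ * (Z ^ (η / 6)) ^ 6 := by
    rw [Real.rpow_add hZ0, ← Real.rpow_mul_natCast hZ0.le]; congr 2; push_cast; ring
  have h2 := H2 Z hZ ν hν ν hν 0 le_rfl 0 0 0 0 y t D (Z ^ (η / 6))
    (C1 * Z ^ (2 * η + δ) * (D / (Z ^ (η / 6)) ^ 6)) 1 0 ((Z ^ (η / 6)) ^ 5 * (Z ^ δ) ^ 2) 1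
    le_rfl le_rfl (by linarith [Real.log_nonneg hZ1]) (by simpa using hη'.le) hD
    (hDZ.le.trans (Real.rpow_le_rpow_of_exponent_le hZ1 (by linarith))) ha
    (Real.rpow_le_rpow_of_exponent_le hZ1 (by linarith)) (by positivity) le_rfl le_rfl
    (one_le_mul_of_one_le_of_one_le (one_le_pow₀ ha) (one_le_pow₀ he))
    (by rw [hp]; exact Real.rpow_le_rpow_of_exponent_le hZ1 (by push_cast; linarith)) le_rfl
    (by rwa [one_pow]) ?_ ?_ (fun ν' hν' y' t' => ?_) fun d hd ν' hν' x τ hx => ?_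
  · simp only [mul_zero, pow_zero, mul_one, abs_zero, add_zero, Real.rpow_zero] at h2
    refine h2.trans ?_
    rw [e1, e2]
    generalize Z ^ (η / 6) = a at *
    generalize Z ^ δ = e at *
    calc _ = C2 * e * (1 + |t|) ^ B2 * (a ^ 10 * e ^ 4 + (C1 * (a ^ 11 * e ^ 1) + a⁻¹)) * D := by
          field_simp
      _ ≤ C2 * e * (1 + |t|) ^ B2 * (a ^ 12 * e ^ 4 + (C1 * (a ^ 12 * e ^ 4) + a ^ 12 * e ^ 4)) *
          D := by
          gcongr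
          · norm_num
          · norm_num
          · norm_num
          · exact (inv_le_one_of_one_le₀ ha).trans
              (one_le_mul_of_one_le_of_one_le (one_le_pow₀ ha) (one_le_pow₀ he))
      _ = _ := by ring
  · have h3 : Real.exp (2 * y) ≤ (Z ^ δ) ^ 2 * D := by
      rw [← Real.rpow_mul_natCast hZ0.le, Real.rpow_def_of_pos hZ0,
        ← Real.exp_log (show 0 < D by linarith), ← Real.exp_add, Real.exp_le_exp]
      push_cast
      linarith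
    rw [mul_zero, Real.exp_zero, mul_one, mul_comm, mul_assoc]
    gcongr
  · rw [mul_zero, Real.exp_zero, one_mul, mul_one]
    exact (pow_le_pow_right₀ ha (by norm_num)).trans
      (le_mul_of_one_le_right (by positivity) (one_le_pow₀ he))
  · exact (H1 Z hZ ν' hν' _ y' t' (by positivity)
      ((div_lt_iff₀ (by positivity)).2 (hDZ.trans_eq e3))).trans_eq (mul_right_comm _ _ _)
  · refine (H3 Q _ (mult_rc Q hν' (mem_ball.1 (Finset.mem_filter.1 hd).1).1).bd 0 0 x τ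
      (by simp) hx).trans ?_
    rw [add_zero, mul_zero, zero_mul]
    positivity

/-- Let `ε₁ = min 1 (ε/20)`, `A = θ + η + 2`, `𝒜 = Z^{η/6}`, so `D/𝒜⁶ < Z^θ` and the hypothesis (with
`ε₁`) gives `HM` with `M' = C Z^{2η+ε₁} D/𝒜⁶`.  `D < 1` is trivial.  For
`y ≤ (log D)/2 + ε₁ log Z` use `step` with `J = J0 = 0`, `yp = R = x = τ = 0` (`Pb_triv` shows that the
prime block vanishes, so `HP` holds with `Π = 1`, `κ = 0`), `λ = 1`, `Θ = 𝒜⁵ Z^{2ε₁}`,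
`Θ² ≤ Z^{2η + 4ε₁}`, `𝒜⁵/𝒜⁶ ≤ 1`.  For `y > (log D)/2` use `refl_mom` (`k = 4`, `W = 1`, `T = 0`,
`card_ball_le`) and the first case. -/
theorem pm_step (Q : Lev) {η θ : ℝ} (hη : 0 < η) (hθ : 0 ≤ θ) (h : PM Q η θ) :
    PM Q η (θ + η) := by
  intro ε hε
  obtain ⟨δ, hδ, hδ1, hδε⟩ : ∃ δ : ℝ, 0 < δ ∧ δ ≤ 1 ∧ 13 * δ ≤ ε :=
    ⟨min 1 (ε / 13), by positivity, min_le_left _ _, by linarith [min_le_right 1 (ε / 13)]⟩
  obtain ⟨C1, B1, hC1, H1⟩ := m4_short Q hη hθ h hδ hδ1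
  obtain ⟨C2, B2, hC2, H2⟩ := refl_mom (A := θ + η) (by positivity) hδ Q (k := 4) (by norm_num) B1
  refine ⟨C1 + C2 * (C1 + 18), B1 + B2, by positivity, fun Z hZ ν hν D y t hD hDZ => ?_⟩
  have hZ1 : 1 ≤ Z := by linarith
  have hT : 1 ≤ 1 + |t| := by linarith [abs_nonneg t]
  rcases lt_or_ge D 1 with hD1 | hD1
  · rw [m4_small Q ν hD1]
    positivity
  have hL := mul_nonneg hδ.le (Real.log_nonneg hZ1)
  rcases le_total y (Real.log D / 2) with hy | hy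
  · refine (H1 Z hZ ν hν D y t hD1 hDZ (by linarith)).trans ?_
    gcongr
    · exact le_add_of_nonneg_right (by positivity)
    · linarith
    · omega
  · have h3 := H2 Z hZ ν hν D y t 0 (C1 * Z ^ (2 * η + 5 * δ) * D) (fun _ => 1) hD1 hDZ.le
      (by linarith [Real.log_nonneg hD1]) le_rfl (by positivity) (fun _ => zero_le_one)
      fun y' t' hy' => by
        simp only [mul_one, add_zero]
        exact (H1 Z hZ ν hν D y' t' hD1 hDZ (by linarith)).trans_eq (by ring)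
    simp only [mul_one, add_zero, Finset.sum_const, nsmul_eq_mul] at h3
    have h4 : ((npball Q D).card : ℝ) ≤ 18 * D :=
      (Nat.cast_le.2 (Finset.card_filter_le _ _)).trans (card_ball_le hD.le)
    have h5 : Z ^ (-(((4 : ℕ) : ℝ) * (θ + η))) ≤ Z ^ (2 * η + ε) :=
      Real.rpow_le_rpow_of_exponent_le hZ1 (by push_cast; linarith)
    have h6 : Z ^ (2 * ((4 : ℕ) : ℝ) * δ) * Z ^ (2 * η + 5 * δ) ≤ Z ^ (2 * η + ε) := by
      rw [← Real.rpow_add (by linarith)]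
      exact Real.rpow_le_rpow_of_exponent_le hZ1 (by push_cast; linarith)
    calc _ ≤ _ := h3
      _ = C2 * (1 + |t|) ^ B2 * (C1 * (Z ^ (2 * ((4 : ℕ) : ℝ) * δ) * Z ^ (2 * η + 5 * δ)) * D +
          Z ^ (-(((4 : ℕ) : ℝ) * (θ + η))) * (npball Q D).card) := by ring
      _ ≤ C2 * (1 + |t|) ^ (B1 + B2) * (C1 * Z ^ (2 * η + ε) * D + Z ^ (2 * η + ε) * (18 * D)) := by
        gcongr
        omega
      _ = (0 + C2 * (C1 + 18)) * Z ^ (2 * η + ε) * (1 + |t|) ^ (B1 + B2) * D := by ring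
      _ ≤ _ := by gcongr

/-- `η = ε/3`, iterate `pm_step` until `j η > A` -/
theorem m4 (A : ℝ) {ε : ℝ} (hε : 0 < ε) (Q : Lev) : ∃ (C : ℝ) (B : ℕ), 0 ≤ C ∧ ∀ Z : ℝ, 3 ≤ Z →
    ∀ ν ∈ hchars Q.q, ∀ D y t : ℝ, 0 < D → D ≤ Z ^ A →
      M4 Q ν D y t ≤ C * Z ^ ε * (1 + |t|) ^ B * D := by
  have hη : 0 < ε / 3 := by positivity
  have h1 : ∀ j : ℕ, PM Q (ε / 3) (j * (ε / 3)) := fun j => by
    induction j with
    | zero => simpa using pm_zero Q _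
    | succ j ih => simpa [add_mul] using pm_step Q hη (by positivity) ih
  obtain ⟨j, hj⟩ := exists_nat_gt (A / (ε / 3))
  obtain ⟨C, B, hC, H⟩ := h1 j _ hη
  refine ⟨C, B, hC, fun Z hZ ν hν D y t hD hDA => ?_⟩
  have h2 := H Z hZ ν hν D y t hD (hDA.trans_lt
    (Real.rpow_lt_rpow_of_exponent_lt (by linarith) ((div_lt_iff₀ hη).1 hj)))
  rwa [show 2 * (ε / 3) + ε / 3 = ε by ring] at h2

set_option maxHeartbeats 600000 in
/-- Diagonal marked moment for `J ≥ 1`.  `A' = |A|`, `η₁ = η` from `step` (with `ε/4`).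
`κ = 2β - 1`, `L = e^{J yp}`, `𝒜 = L^κ = e^{κ J yp}`, `Θ = 1`, `λ = L𝒜⁴`, `R = ρ log Z`
(`ρ ≤ J0 ρ ≤ η₁`).  `HM` from `m4` with `M' = C Z^{ε/4} D/𝒜⁶`; `HP` from `globalP` (exponent `A'+1`,
`ε₃ = ε/(8(A'+1))`, `Q' = levd Q d`, `N_levd_le`, `Z ≥ N q`) with `Π = max 1 C · log² Z · e^{ε₃ yp}`,
`Π^{2J} ≤ C log^{4J0} Z · L^{2ε₃}`, `L ≤ D ≤ Z^{A'}`; use `B1 = max` of the two exponents. -/
theorem mp (A : ℝ) {ε : ℝ} (hε : 0 < ε) : ∃ η1 > 0, ∀ β : ℝ, 7 / 8 ≤ β → β ≤ 1 → ZF β →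
    ∀ (Q : Lev) (J0 : ℕ) (ρ : ℝ), 0 < ρ → J0 * ρ ≤ η1 → ∃ (C : ℝ) (B : ℕ) (Z0 : ℝ), 0 ≤ C ∧
    ∀ Z : ℝ, Z0 ≤ Z → ∀ ν ∈ hchars Q.q, ∀ ν3 ∈ hchars Q.q, ∀ J ≤ J0, 1 ≤ J →
    ∀ yp x τ D X y t : ℝ, 0 ≤ yp → yp ≤ η1 * Real.log Z → |x| ≤ η1 → D ≤ Z ^ A → 1 ≤ X →
      Real.exp y ≤ X → X ^ 2 * Real.exp (J * yp * (1 + 5 * (2 * β - 1))) ≤ D →
      Real.exp (4 * J * yp * (1 + 4 * (2 * β - 1))) ≤ D →
      ∑ d ∈ npball Q D, ‖pb (rc ν d) y t‖ ^ 4 *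
          ‖Pb Q (rc ν3 d) yp (ρ * Real.log Z) x τ‖ ^ (2 * J) ≤
        C * Z ^ ε * (1 + |t| + |τ|) ^ B * D := by
  have hA := abs_nonneg A
  have hε4 : 0 < ε / 4 := by positivity
  obtain ⟨η, hη, hη2, H⟩ := step hA hε4
  refine ⟨η, hη, fun β hβ hβ1 hZF Q J0 ρ hρ hρη => ?_⟩
  obtain ⟨C1, B1, hC1, H1⟩ := m4 |A| hε4 Q
  obtain ⟨C4, Z4, B4, H4⟩ := globalP (|A| + 1) (ε := ε / (8 * (|A| + 1))) (by positivity) hρ
  obtain ⟨C5, hC5, H5⟩ := log_pow_le (2 * (2 * J0)) hε4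
  obtain ⟨C2, B2, hC2, H2⟩ := H Q J0 (B1 + B4)
  refine ⟨C2 * (1 + max 1 C4 ^ (2 * J0) * C5 * (C1 + 1)), B2, max (max 3 Z4) (N Q.q),
    by positivity, fun Z hZ ν hν ν3 hν3 J hJ hJ1 yp x τ D X y t hyp hypη hx hDA hX hy hD1 hD2 => ?_⟩
  obtain ⟨hZ', hZq⟩ := max_le_iff.1 hZ
  obtain ⟨hZ3, hZ4⟩ := max_le_iff.1 hZ'
  have hZ1 : 1 ≤ Z := by linarith
  have hlog : 1 ≤ Real.log Z := by
    rw [Real.le_log_iff_exp_le (by linarith)]
    linarith [Real.exp_one_lt_d9]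
  replace hDA := hDA.trans (Real.rpow_le_rpow_of_exponent_le hZ1 (le_abs_self A))
  obtain ⟨κ, hκ⟩ : ∃ κ, κ = 2 * β - 1 := ⟨_, rfl⟩
  rw [← hκ] at hD1 hD2
  have hκ0 : 0 ≤ κ := by linarith
  obtain ⟨u, hu⟩ : ∃ u, u = J * yp := ⟨_, rfl⟩
  have hu0 : 0 ≤ u := hu ▸ by positivity
  have huκ := mul_nonneg hu0 hκ0
  rw [mul_assoc 4, ← hu] at hD2
  rw [← hu] at hD1
  have h1 : ∀ v, v ≤ 4 * u * (1 + 4 * κ) → Real.exp v ≤ D := fun v hv =>
    (Real.exp_le_exp.2 hv).trans hD2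
  have hD : 1 ≤ D := by simpa using h1 0 (by positivity)
  have ha : 1 ≤ Real.exp (u * κ) := Real.one_le_exp huκ
  have ha6 : D / Real.exp (u * κ) ^ 6 ≤ D := div_le_self (by linarith) (one_le_pow₀ ha)
  have hρ1 : ρ ≤ η := le_trans (le_mul_of_one_le_left hρ.le (by exact_mod_cast hJ1.trans hJ)) hρη
  have hm := le_max_left 1 C4
  have hPi : 1 ≤ max 1 C4 * Real.log Z ^ 2 * Real.exp (ε / (8 * (|A| + 1)) * yp) :=
    one_le_mul_of_one_le_of_one_le (one_le_mul_of_one_le_of_one_le hm (one_le_pow₀ hlog))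
      (Real.one_le_exp (by positivity))
  have h2 := H2 Z hZ3 ν hν ν3 hν3 J hJ yp (ρ * Real.log Z) x τ y t D (Real.exp (u * κ))
    (C1 * Z ^ (ε / 4) * (D / Real.exp (u * κ) ^ 6)) _ κ 1 (Real.exp u * Real.exp (u * κ) ^ 4)
    hyp (by positivity) (by nlinarith) hx hD hDA ha ((h1 _ (by linarith)).trans hDA)
    (by positivity) hPi hκ0 le_rfl (hD.trans hDA)
    (one_le_mul_of_one_le_of_one_le (Real.one_le_exp hu0) (one_le_pow₀ ha)) ?_ ?_
    (by rw [← hu, one_mul]) (fun ν' hν' y' t' => ?_) fun d hd ν' hν' x' τ' hx' => ?_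
  · refine h2.trans ?_
    have h3 : u ≤ |A| * Real.log Z := by
      rw [← Real.log_rpow (by linarith), Real.le_log_iff_exp_le (by positivity)]
      exact (h1 u (by linarith)).trans hDA
    have h4 : Real.exp (ε / (8 * (|A| + 1)) * yp) ^ (2 * J) ≤ Z ^ (ε / 4) := by
      rw [← Real.exp_nat_mul, Real.rpow_def_of_pos (by linarith), Real.exp_le_exp]
      calc _ = ε / (4 * (|A| + 1)) * u := by rw [hu]; push_cast; field_simp; ring
        _ ≤ ε / (4 * (|A| + 1)) * ((|A| + 1) * Real.log Z) := by gcongr; nlinarith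
        _ = _ := by field_simp
    have h5 : (max 1 C4 * Real.log Z ^ 2 * Real.exp (ε / (8 * (|A| + 1)) * yp)) ^ (2 * J) ≤
        max 1 C4 ^ (2 * J0) * (C5 * Z ^ (ε / 4)) * Z ^ (ε / 4) := by
      rw [mul_pow, mul_pow, ← pow_mul]
      gcongr
      exact (pow_le_pow_right₀ hlog (by omega)).trans (H5 Z hZ3)
    have h6 : Z ^ ε = (Z ^ (ε / 4)) ^ 4 := by
      rw [← Real.rpow_natCast, ← Real.rpow_mul (by linarith)]
      congr 1
      push_cast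
      ring
    have h7 : 1 ≤ Z ^ (ε / 4) := Real.one_le_rpow hZ1 hε4.le
    rw [← hu, ← Real.exp_mul, h6]
    generalize Z ^ (ε / 4) = e at *
    generalize (max 1 C4 * Real.log Z ^ 2 * Real.exp (ε / (8 * (|A| + 1)) * yp)) ^ (2 * J) = p at *
    calc _ = C2 * e * (1 + |t| + |τ|) ^ B2 * (1 + p * (C1 * e + 1)) * D := by field_simp
      _ ≤ C2 * e * (1 + |t| + |τ|) ^ B2 *
          (e ^ 3 + max 1 C4 ^ (2 * J0) * (C5 * e) * e * (C1 * e + e)) * D := by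
        gcongr
        exact one_le_pow₀ h7
      _ = _ := by ring
  · rw [← Real.exp_nat_mul, ← Real.exp_add, ← Real.exp_nat_mul]
    exact h1 _ (le_of_eq (by push_cast; ring))
  · rw [← hu, one_mul, mul_assoc, ← Real.exp_nat_mul, ← Real.exp_add]
    refine le_trans (mul_le_mul ?_ (le_of_eq ?_) (by positivity) (by positivity)) hD1
    · rw [show 2 * y = (2 : ℕ) * y by norm_num, Real.exp_nat_mul]
      gcongr
    · congr 1
      push_cast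
      ring
  · refine (H1 Z hZ3 ν' hν' _ y' t' (by positivity) (ha6.trans hDA)).trans ?_
    rw [mul_right_comm]
    gcongr
    · linarith [abs_nonneg t']
    · omega
  · obtain ⟨h3, h4⟩ := Finset.mem_filter.1 hd
    obtain ⟨h5, h6⟩ := mem_ball.1 h3
    refine (H4 β (by linarith) hβ1 hZF Z hZ4 Q (levd Q d) _ (dvd_mul_right _ _)
      (rc_isHChar Q hν' h5) (rc_nonPrinc Q hν' h4) ((N_levd_le Q h5).trans ?_) yp x' τ' hyp
      (by nlinarith) hx').trans ?_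
    · rw [Real.rpow_add_one (by linarith), mul_comm]
      exact mul_le_mul ((h6.trans ha6).trans hDA) hZq (N_nonneg _) (by positivity)
    · rw [add_mul (β - 1 / 2 + x'), Real.exp_add, show κ / 2 = β - 1 / 2 by linarith]
      calc _ ≤ max 1 C4 * Real.log Z ^ 2 * (1 + |τ'|) ^ (B1 + B4) *
            (Real.exp ((β - 1 / 2 + x') * yp) * Real.exp (ε / (8 * (|A| + 1)) * yp)) := by
            gcongr
            · exact le_max_right _ _
            · linarith [abs_nonneg τ']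
            · omega
        _ = _ := by ring

end Crest.Agent.R17.GM
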