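import Crest.Agent.R17.GMoment_Pow

/-!
# R17 / GMoment_Mob : convolution and two-variable Möbius inversion
-/

set_option autoImplicit false

noncomputable section

open scoped Classical ComplexConjugate
open MeasureTheory

namespace Crest.Agent.R17.GM

/-- reindexing `(e,m) ↦ (e m, e)`: the map from primary pairs to `Σ n, pdiv n` is a bijection
(`mem_pdiv`, `Prim.div`, `Prim.mul`).  One way: `HasSum.sigma`/`HasSum.tsum_fiberwise` along
`(e,m) ↦ e m`, whose fibre over a primary `n` (within the support) is `{(e, n/e) : e ∈ pdiv n}`. -/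
theorem hasSum_pdiv {g : O × O → ℂ} (hs : ∀ x, g x ≠ 0 → Prim x.1 ∧ Prim x.2) (hg : Summable g) :
    HasSum (fun n : O => if Prim n then ∑ e ∈ pdiv n, g (e, n / e) else 0) (∑' x, g x) := by
  refine loc_hasSum_conv (F := fun a b => g (a, b)) (hg.hasSum.congr_fun fun x => ?_)
  split_ifs with h
  · rfl
  · by_contra hc
    exact h (hs x (Ne.symm hc))

theorem PS.summable_norm {f : O → ℂ} (hf : PS f) : Summable (fun n => ‖f n‖) := by
  simpa using hf.rapid 0

/-- `‖conv f g n‖ N n^j ≤ ∑_{e} (‖f e‖ N e^j)(‖g (n/e)‖ N (n/e)^j)`, and `hasSum_pdiv` (for the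
complexified norms) -/
theorem PS.conv {f g : O → ℂ} (hf : PS f) (hg : PS g) : PS (conv f g) := by
  refine ⟨fun n hn => ?_, fun j => ?_⟩
  · by_contra hc
    exact hn (if_neg hc)
  · have h0 : ∀ (a : O → ℂ) (n : O), 0 ≤ ‖a n‖ * N n ^ j :=
      fun a n => mul_nonneg (norm_nonneg _) (pow_nonneg (N_nonneg n) _)
    have s1 : Summable fun x : O × O => (‖f x.1‖ * N x.1 ^ j) * (‖g x.2‖ * N x.2 ^ j) :=
      Summable.mul_of_nonneg (hf.rapid j) (hg.rapid j) (h0 f) (h0 g)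
    have s2 : Summable fun x : O × O => if Prim x.1 ∧ Prim x.2 then
        (fun a m => (‖f a‖ * N a ^ j) * (‖g m‖ * N m ^ j)) x.1 x.2 else 0 := by
      refine Summable.of_nonneg_of_le (fun x => ?_) (fun x => ?_) s1
      · split_ifs
        · exact mul_nonneg (h0 _ _) (h0 _ _)
        · exact le_rfl
      · split_ifs
        · exact le_rfl
        · exact mul_nonneg (h0 _ _) (h0 _ _)
    have s3 := (loc_hasSum_conv
      (F := fun a m => (‖f a‖ * N a ^ j) * (‖g m‖ * N m ^ j)) s2.hasSum).summable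
    refine Summable.of_nonneg_of_le (h0 _) (fun n => ?_) s3
    unfold GM.conv
    split_ifs with hn
    · refine (mul_le_mul_of_nonneg_right (norm_sum_le _ _) (pow_nonneg (N_nonneg n) _)).trans
        (le_of_eq ?_)
      rw [Finset.sum_mul]
      refine Finset.sum_congr rfl fun e he => ?_
      rw [mem_pdiv hn.ne_zero] at he
      have : N n = N e * N (n / e) := by
        rw [← N_mul, EuclideanDomain.mul_div_cancel' he.1.ne_zero he.2]
      rw [norm_mul, this]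
      ring
    · simp

theorem PS.sub_smul {f g : O → ℂ} (hf : PS f) (hg : PS g) (c : ℂ) :
    PS (fun n => f n - c * g n) := by
  refine ⟨fun n hn => ?_, fun j => ?_⟩
  · by_contra hc
    have h1 : f n = 0 := by by_contra h; exact hc (hf.supp n h)
    have h2 : g n = 0 := by by_contra h; exact hc (hg.supp n h)
    exact hn (by simp only [h1, h2, mul_zero, sub_zero])
  · refine Summable.of_nonneg_of_le
      (fun n => mul_nonneg (norm_nonneg _) (pow_nonneg (N_nonneg n) _)) (fun n => ?_)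
      ((hf.rapid j).add ((hg.rapid j).mul_left ‖c‖))
    have := norm_sub_le (f n) (c * g n)
    rw [norm_mul] at this
    have := mul_le_mul_of_nonneg_right this (pow_nonneg (N_nonneg n) j)
    linarith

/-- `‖N n^s‖ = N n^{re s} ≤ N n^{⌈re s⌉₊}` on the support -/
theorem PS.tw {f : O → ℂ} (hf : PS f) (s : ℂ) : PS (tw s f) := by
  refine ⟨fun n hn => hf.supp n (left_ne_zero_of_mul hn), fun j => ?_⟩
  refine Summable.of_nonneg_of_le
    (fun n => mul_nonneg (norm_nonneg _) (pow_nonneg (N_nonneg n) _)) (fun n => ?_)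
    (hf.rapid (⌈s.re⌉₊ + j))
  unfold GM.tw
  by_cases h : f n = 0
  · simp [h]
  · have hn := (hf.supp n h).ne_zero
    rw [norm_mul, loc_norm_cpow hn, pow_add, mul_assoc]
    refine mul_le_mul_of_nonneg_left (mul_le_mul_of_nonneg_right ?_ (pow_nonneg (N_nonneg n) _))
      (norm_nonneg _)
    rw [← Real.rpow_natCast]
    exact Real.rpow_le_rpow_of_exponent_le (one_le_N hn) (Nat.le_ceil _)

theorem tsum_conv {f g : O → ℂ} (hf : PS f) (hg : PS g) {Φ : O → ℂ} {M : ℝ} (hΦ : ∀ n, ‖Φ n‖ ≤ M) :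
    HasSum (fun x : O × O => f x.1 * g x.2 * Φ (x.1 * x.2)) (∑' n, conv f g n * Φ n) := by
  have s1 : Summable fun x : O × O => f x.1 * g x.2 * Φ (x.1 * x.2) := by
    refine Summable.of_norm_bounded ((Summable.mul_of_nonneg hf.summable_norm hg.summable_norm
      (fun _ => norm_nonneg _) (fun _ => norm_nonneg _)).mul_right M) fun x => ?_
    rw [norm_mul, norm_mul]
    exact mul_le_mul_of_nonneg_left (hΦ _) (by positivity)
  have h := hasSum_pdiv (fun x hx => ⟨hf.supp _ (left_ne_zero_of_mul (left_ne_zero_of_mul hx)),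
    hg.supp _ (right_ne_zero_of_mul (left_ne_zero_of_mul hx))⟩) s1
  have h2 : HasSum (fun n => conv f g n * Φ n) (∑' x : O × O, f x.1 * g x.2 * Φ (x.1 * x.2)) := by
    refine h.congr_fun fun n => ?_
    unfold conv
    split_ifs with hn
    · rw [Finset.sum_mul]
      refine Finset.sum_congr rfl fun e he => ?_
      rw [mem_pdiv hn.ne_zero] at he
      simp only []
      rw [EuclideanDomain.mul_div_cancel' he.1.ne_zero he.2]
    · rw [zero_mul]
  rw [h2.tsum_eq]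
  exact s1.hasSum

theorem conv_mul {ψ f g : O → ℂ} (hψ : Mult ψ) (hf : PS f) (hg : PS g) :
    ∑' n, conv f g n * ψ n = (∑' n, f n * ψ n) * ∑' n, g n * ψ n := by
  have s : ∀ {f : O → ℂ}, PS f → Summable fun n => ‖f n * ψ n‖ := fun hf =>
    Summable.of_nonneg_of_le (fun _ => norm_nonneg _) (fun n => by
      rw [norm_mul]; exact mul_le_of_le_one_right (norm_nonneg _) (hψ.bd n)) hf.summable_norm
  rw [tsum_mul_tsum_of_summable_norm (s hf) (s hg), ← (tsum_conv hf hg hψ.bd).tsum_eq]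
  refine tsum_congr fun x => ?_
  rw [hψ.mul]
  ring

/-- `Complex.mul_cpow_ofReal_nonneg`, `n = e (n/e)` -/
theorem conv_tw (s : ℂ) (f g : O → ℂ) : conv (tw s f) (tw s g) = tw s (conv f g) := by
  funext n
  unfold conv tw
  beta_reduce
  split_ifs with hn
  · rw [Finset.sum_mul]
    refine Finset.sum_congr rfl fun e he => ?_
    rw [mem_pdiv hn.ne_zero] at he
    have := LM.N_cpow_mul e (n / e) s
    rw [EuclideanDomain.mul_div_cancel' he.1.ne_zero he.2] at this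
    rw [this]
    ring
  · rw [zero_mul]

theorem mob_factor {n u e : O} (hn : Prim n)
    (hx : (⟨u, e⟩ : Σ _ : O, O) ∈ (pdiv n).sigma fun u => pdiv u) :
    ∃ v w, Prim e ∧ Prim v ∧ Prim w ∧ u = e * v ∧ n = e * v * w := by
  rw [Finset.mem_sigma, mem_pdiv hn.ne_zero] at hx
  obtain ⟨⟨h1, w, hw⟩, h2⟩ := hx
  simp only at h1 hw h2
  rw [mem_pdiv h1.ne_zero] at h2
  obtain ⟨h2, v, hv⟩ := h2
  exact ⟨v, w, h2, (hv ▸ h1).of_mul_left h2, (hw ▸ hn).of_mul_left h1, hv, hv ▸ hw⟩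

/-- one-variable twisted Möbius inversion: the double sum over `e ∣ u ∣ n` is reindexed by
`v = u/e`, `e ∣ n/v`; `ψ e ψ (n/u) = ψ (n/v)`, `sum_mu_pdiv` -/
theorem mob_one {ψ : O → ℂ} (hψ : Mult ψ) (Φ : O → ℂ) {n : O} (hn : Prim n) :
    ∑ u ∈ pdiv n, (∑ e ∈ pdiv u, mu e * ψ e * Φ (u / e)) * ψ (n / u) = Φ n := by
  have e1 : ∑ u ∈ pdiv n, (∑ e ∈ pdiv u, mu e * ψ e * Φ (u / e)) * ψ (n / u) =
      ∑ v ∈ pdiv n, ∑ e ∈ pdiv (n / v), mu e * (Φ v * ψ (n / v)) := by
    simp only [Finset.sum_mul]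
    rw [Finset.sum_sigma', Finset.sum_sigma']
    refine Finset.sum_nbij' (fun x => ⟨x.1 / x.2, x.2⟩) (fun x => ⟨x.1 * x.2, x.2⟩) ?_ ?_ ?_ ?_ ?_
    · rintro ⟨u, e⟩ hx
      obtain ⟨v, w, he, hv, hw, rfl, rfl⟩ := mob_factor hn hx
      simp only [Finset.mem_sigma]
      rw [mul_div_cancel_left₀ _ he.ne_zero, show e * v * w = v * (e * w) by ring,
        mul_div_cancel_left₀ _ hv.ne_zero, mem_pdiv (hv.mul (he.mul hw)).ne_zero,
        mem_pdiv (he.mul hw).ne_zero]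
      exact ⟨⟨hv, dvd_mul_right _ _⟩, he, dvd_mul_right _ _⟩
    · rintro ⟨v, e⟩ hx
      simp only [Finset.mem_sigma] at hx ⊢
      obtain ⟨h1, h2⟩ := hx
      rw [mem_pdiv hn.ne_zero] at h1
      rw [mem_pdiv (hn.div h1.1 h1.2).ne_zero] at h2
      rw [mem_pdiv hn.ne_zero, mem_pdiv (h1.1.mul h2.1).ne_zero]
      refine ⟨⟨h1.1.mul h2.1, ?_⟩, h2.1, dvd_mul_left _ _⟩
      rw [← EuclideanDomain.mul_div_cancel' h1.1.ne_zero h1.2]
      exact mul_dvd_mul_left v h2.2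
    · rintro ⟨u, e⟩ hx
      obtain ⟨v, w, he, hv, hw, rfl, rfl⟩ := mob_factor hn hx
      simp only []
      rw [mul_div_cancel_left₀ _ he.ne_zero, mul_comm v e]
    · rintro ⟨v, e⟩ hx
      simp only [Finset.mem_sigma] at hx ⊢
      obtain ⟨h1, h2⟩ := hx
      rw [mem_pdiv hn.ne_zero] at h1
      rw [mem_pdiv (hn.div h1.1 h1.2).ne_zero] at h2
      rw [mul_div_cancel_right₀ _ h2.1.ne_zero]
    · rintro ⟨u, e⟩ hx
      obtain ⟨v, w, he, hv, hw, rfl, rfl⟩ := mob_factor hn hx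
      simp only []
      rw [mul_div_cancel_left₀ _ he.ne_zero, mul_div_cancel_left₀ _ (he.mul hv).ne_zero,
        show e * v * w = v * (e * w) by ring, mul_div_cancel_left₀ _ hv.ne_zero, hψ.mul]
      ring
  rw [e1, Finset.sum_eq_single n]
  · rw [← Finset.sum_mul, EuclideanDomain.div_self hn.ne_zero, sum_mu_pdiv Prim.one, if_pos rfl,
      hψ.one, one_mul, mul_one]
  · intro v hv hne
    rw [mem_pdiv hn.ne_zero] at hv
    rw [← Finset.sum_mul, sum_mu_pdiv (hn.div hv.1 hv.2), if_neg, zero_mul]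
    intro e
    apply hne
    rw [← EuclideanDomain.mul_div_cancel' hv.1.ne_zero hv.2, e, mul_one]
  · intro h
    exact absurd ((mem_pdiv hn.ne_zero).2 ⟨hn, dvd_rfl⟩) h

/-- `mob_one` twice -/
theorem mob_two {ψ : O → ℂ} (hψ : Mult ψ) (Φ : O → ℂ) {n1 n2 : O} (h1 : Prim n1) (h2 : Prim n2) :
    ∑ u1 ∈ pdiv n1, ∑ u2 ∈ pdiv n2, cf ψ Φ u1 u2 * (ψ (n1 / u1) * ψ (n2 / u2)) = Φ (n1 * n2) := by
  rw [← mob_one hψ (fun m => Φ (m * n2)) h1]
  refine Finset.sum_congr rfl fun u1 hu1 => ?_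
  have hp1 := ((mem_pdiv h1.ne_zero).1 hu1).1
  have e : ∀ e1 : O, Φ (u1 / e1 * n2) = ∑ u2 ∈ pdiv n2,
      (∑ e2 ∈ pdiv u2, mu e2 * ψ e2 * Φ (u1 / e1 * (u2 / e2))) * ψ (n2 / u2) :=
    fun e1 => (mob_one hψ (fun m => Φ (u1 / e1 * m)) h2).symm
  simp only [e, Finset.mul_sum, Finset.sum_mul]
  rw [Finset.sum_comm]
  refine Finset.sum_congr rfl fun u2 hu2 => ?_
  have hp2 := ((mem_pdiv h2.ne_zero).1 hu2).1
  unfold cf
  rw [if_pos ⟨hp1, hp2⟩, Finset.sum_mul]
  refine Finset.sum_congr rfl fun e1 _ => ?_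
  rw [Finset.sum_mul]
  exact Finset.sum_congr rfl fun e2 _ => by ring

theorem norm_cf_le {ψ Φ : O → ℂ} (hψ : Mult ψ) {M : ℝ} (hΦ : ∀ n, ‖Φ n‖ ≤ M) (u1 u2 : O) :
    ‖cf ψ Φ u1 u2‖ ≤ M * (pdiv u1).card * (pdiv u2).card := by
  have hM : 0 ≤ M := (norm_nonneg _).trans (hΦ 0)
  unfold cf
  split_ifs
  · have h1 : ∀ e, ‖mu e * ψ e‖ ≤ 1 := fun e => by
      rw [norm_mul]; exact mul_le_one₀ (norm_mu_le e) (norm_nonneg _) (hψ.bd e)
    calc _ ≤ ∑ _e1 ∈ pdiv u1, ∑ _e2 ∈ pdiv u2, M := by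
          refine (norm_sum_le _ _).trans (Finset.sum_le_sum fun e1 _ =>
            (norm_sum_le _ _).trans (Finset.sum_le_sum fun e2 _ => ?_))
          rw [norm_mul, norm_mul (mu e1 * ψ e1)]
          exact (mul_le_of_le_one_left (norm_nonneg _)
            (mul_le_one₀ (h1 e1) (norm_nonneg _) (h1 e2))).trans (hΦ _)
      _ = _ := by simp only [Finset.sum_const, nsmul_eq_mul]; ring
  · rw [norm_zero]; positivity

end Crest.Agent.R17.GM
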