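import Crest.Agent.R17.GMoment_Prime

/-!
# R17 / GMoment_PW : the structured sequence: support, rows, pointwise bounds
-/

set_option autoImplicit false

noncomputable section

open scoped Classical ComplexConjugate
open MeasureTheory

namespace Crest.Agent.R17.GM

theorem pw_norm_fb {ν : O → ℂ} (hν : ∀ n, ‖ν n‖ ≤ 1) (y t : ℝ) {n : O} (hn : n ≠ 0) :
    ‖fb ν y t n‖ ≤ N n ^ (-(1 / 2) : ℝ) * gw (Real.log (N n) - y) := by
  have h0 : 0 ≤ N n ^ (-(1 / 2) : ℝ) * gw (Real.log (N n) - y) :=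
    mul_nonneg (Real.rpow_nonneg (N_nonneg n) _) (gw_pos _).le
  unfold fb
  split_ifs
  · rw [bl1_norm ν y _ hn, show (1 / 2 + t * Complex.I : ℂ).re = 1 / 2 by simp]
    exact mul_le_of_le_one_left h0 (hν n)
  · rwa [norm_zero]

/-- `summable_gw_rpow` -/
theorem ps_fb {ν : O → ℂ} (hν : ∀ n, ‖ν n‖ ≤ 1) (y t : ℝ) : PS (fb ν y t) := by
  have h0 : ∀ n, fb ν y t n ≠ 0 → Prim n := fun n h => by_contra fun hn => h (if_neg hn)
  refine ⟨h0, fun j => Summable.of_nonneg_of_le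
    (fun n => mul_nonneg (norm_nonneg _) (pow_nonneg (N_nonneg n) j)) (fun n => ?_)
    (summable_gw_rpow (-(1 / 2) + j) y)⟩
  split_ifs with hn
  · rw [of_not_not (mt (h0 n) fun h => h.ne_zero hn), norm_zero, zero_mul]
  · rw [Real.rpow_add (N_pos hn), Real.rpow_natCast, mul_right_comm]
    exact mul_le_mul_of_nonneg_right (pw_norm_fb hν y t hn) (pow_nonneg (N_nonneg n) j)

theorem Par.ps_a0 {P : Par} (hν : ∀ n, ‖P.ν n‖ ≤ 1) : PS P.a0 :=
  ((ps_fb hν _ _).conv (ps_fb hν _ _)).sub_smul ((ps_fb hν _ _).conv (ps_fb hν _ _)) _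

theorem Par.ps_a {P : Par} (Q : Lev) (hν : ∀ n, ‖P.ν n‖ ≤ 1) : PS (P.a Q) :=
  (Par.ps_a0 hν).addP (fun p hp => (isSlot_slot Q _ _ p hp).2.1) _ _

theorem pw_slot {Q : Lev} {yp R : ℝ} {p : O} (hp : p ∈ slot Q yp R) : P0 Q p :=
  let ⟨h1, h2, h3, _⟩ := isSlot_slot Q yp R p hp
  ⟨h2, h1.coprime_iff_not_dvd.2 h3⟩

theorem pw_conv_supp {Q : Lev} {f g : O → ℂ} (hf : ∀ n, f n ≠ 0 → P0 Q n)
    (hg : ∀ n, g n ≠ 0 → P0 Q n) (n : O) (h : conv f g n ≠ 0) : P0 Q n := by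
  have hn : Prim n := by_contra fun hn => h (if_neg hn)
  rw [conv, if_pos hn] at h
  obtain ⟨e, he, h1⟩ := Finset.exists_ne_zero_of_sum_ne_zero h
  obtain ⟨h2, h3⟩ := (mem_pdiv hn.ne_zero).1 he
  rw [← EuclideanDomain.mul_div_cancel' h2.ne_zero h3]
  exact (hf _ (left_ne_zero_of_mul h1)).mul (hg _ (right_ne_zero_of_mul h1))

/-- a Hecke character vanishes off the elements coprime to `q`; `P0.mul`; `isSlot_slot` -/
theorem Par.supp_a {P : Par} {Q : Lev} (hν : P.ν ∈ hchars Q.q) : ∀ n, P.a Q n ≠ 0 → P0 Q n := by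
  have h1 : ∀ y t n, fb P.ν y t n ≠ 0 → P0 Q n := by
    intro y t n h
    have hn : Prim n := by_contra fun hn => h (if_neg hn)
    refine ⟨hn, by_contra fun hc => h ?_⟩
    rw [fb, if_pos hn, (((mem_hchars Q.ne).1 hν).1.zero_iff n).2 hc, zero_mul, zero_mul]
  refine addP_supp (fun n hn => by_contra fun h => hn ?_) (fun p hp => pw_slot hp) _ _
  rw [Par.a0, of_not_not (mt (pw_conv_supp (h1 _ _) (h1 _ _) n) h),
    of_not_not (mt (pw_conv_supp (h1 _ _) (h1 _ _) n) h), mul_zero, sub_zero]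

theorem tsum_fb (ν ψ : O → ℂ) (y t : ℝ) :
    ∑' n, fb ν y t n * ψ n = pb (fun n => ν n * ψ n) y t := by
  refine tsum_congr fun n => ?_
  unfold fb prim
  by_cases hn : Prim n
  · rw [if_pos hn, if_pos hn, if_neg hn.ne_zero]
    ring
  · simp [hn]

/-- Use `ψ = rc (one0 Q) d` (`mult_rc`), which agrees with `chi · d` on `𝒫₀` (`supp_a`); `row_addP`,
`conv_mul`, `tsum_fb`, and `ν n * ψ n = rc ν d n` for Hecke characters `ν` of level `q`. -/
theorem Par.row {P : Par} {Q : Lev} (hν : P.ν ∈ hchars Q.q) (hν3 : P.ν3 ∈ hchars Q.q) {d : O}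
    (hd : d ≠ 0) : ∑' n, P.a Q n * chi n d =
      Pb Q (rc P.ν3 d) P.yp P.R P.x P.τ ^ P.J * P.Δ (rc P.ν d) 0 0 0 := by
  have hψ := mult_rc Q (one0_mem Q) hd
  have hb := norm_hchar_le Q hν
  have h1 : ∀ n, IsCoprime n Q.q → rc (one0 Q) d n = chi n d := fun n hn => by
    rw [rc, one0, if_pos hn, one_mul]
  have h2 : (fun n => P.ν n * rc (one0 Q) d n) = rc P.ν d := by
    funext n
    by_cases hn : IsCoprime n Q.q
    · rw [h1 n hn, rc]
    · rw [rc, rc, (((mem_hchars Q.ne).1 hν).1.zero_iff n).2 hn, zero_mul, zero_mul]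
  have h3 : ∀ {f : O → ℂ}, PS f → Summable fun n => f n * rc (one0 Q) d n := fun hf =>
    .of_norm_bounded hf.summable_norm fun n => by
      rw [norm_mul]
      exact mul_le_of_le_one_right (norm_nonneg _) (hψ.bd n)
  have h4 : ∀ y y' : ℝ, ∑' n, conv (fb P.ν y P.t1) (fb P.ν y' P.t2) n * rc (one0 Q) d n =
      pb (rc P.ν d) y P.t1 * pb (rc P.ν d) y' P.t2 := fun y y' => by
    rw [conv_mul hψ (ps_fb hb _ _) (ps_fb hb _ _), tsum_fb, tsum_fb, h2]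
  rw [tsum_congr (g := fun n => P.a Q n * rc (one0 Q) d n) fun n => by
      by_cases hn : P.a Q n = 0
      · rw [hn, zero_mul, zero_mul]
      · rw [h1 n (Par.supp_a hν n hn).2],
    Par.a, row_addP hψ (Par.ps_a0 hb) fun p hp => (pw_slot hp).1]
  congr 1
  · congr 1
    refine Finset.sum_congr rfl fun p hp => ?_
    rw [h1 p (pw_slot hp).2, bP, rc]
    ring
  · simp only [Par.a0, Par.Δ, sub_zero, sub_mul, mul_assoc P.c]
    rw [(h3 ((ps_fb hb _ _).conv (ps_fb hb _ _))).tsum_sub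
      ((h3 ((ps_fb hb _ _).conv (ps_fb hb _ _))).mul_left _), tsum_mul_left, h4, h4]

theorem pw_div {e n : O} (hn : n ≠ 0) (h : e ∣ n) (w : ℝ) :
    n / e ≠ 0 ∧ N n ^ (-w) = N e ^ (-w) * N (n / e) ^ (-w) := by
  have h1 := EuclideanDomain.mul_div_cancel' (ne_zero_of_dvd_ne_zero hn h) h
  refine ⟨right_ne_zero_of_mul (h1.symm ▸ hn), ?_⟩
  rw [← Real.mul_rpow (N_nonneg _) (N_nonneg _), ← N_mul, h1]

/-- pointwise bound for a convolution -/
theorem norm_conv_le {f g : O → ℂ} {F G w : ℝ} (hF : 0 ≤ F) (hG : 0 ≤ G)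
    (hf : ∀ n, n ≠ 0 → ‖f n‖ ≤ F * N n ^ (-w)) (hg : ∀ n, n ≠ 0 → ‖g n‖ ≤ G * N n ^ (-w)) {n : O}
    (hn : n ≠ 0) : ‖conv f g n‖ ≤ (pdiv n).card * (F * G) * N n ^ (-w) := by
  unfold conv
  split_ifs
  · refine (norm_sum_le _ _).trans ((Finset.sum_le_card_nsmul _ _ (F * G * N n ^ (-w))
      fun e he => ?_).trans_eq (by rw [nsmul_eq_mul]; ring))
    obtain ⟨h2, h3⟩ := (mem_pdiv hn).1 he
    obtain ⟨h4, h5⟩ := pw_div hn h3 w
    rw [norm_mul, h5, mul_mul_mul_comm]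
    exact mul_le_mul (hf e h2.ne_zero) (hg _ h4) (norm_nonneg _)
      (mul_nonneg hF (Real.rpow_nonneg (N_nonneg _) _))
  · rw [norm_zero]
    exact mul_nonneg (by positivity) (Real.rpow_nonneg (N_nonneg _) _)

/-- induction on `J`; `{p ∈ S : p ∣ n} ⊆ pdiv n`, `pdiv (n/p) ⊆ pdiv n` -/
theorem norm_addP_le {a b : O → ℂ} {S : Finset O} (hS : ∀ p ∈ S, Prim p) {F G w : ℝ} (hF : 0 ≤ F)
    (hG : 0 ≤ G) (ha : ∀ n, n ≠ 0 → ‖a n‖ ≤ (pdiv n).card * F * N n ^ (-w))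
    (hb : ∀ p ∈ S, ‖b p‖ ≤ G * N p ^ (-w)) (J : ℕ) {n : O} (hn : n ≠ 0) :
    ‖addP S b J a n‖ ≤ (pdiv n).card ^ (J + 1) * (F * G ^ J) * N n ^ (-w) := by
  induction J generalizing n with
  | zero => simpa [addP] using ha n hn
  | succ J ih =>
    rw [addP]
    simp only [← Finset.sum_filter]
    have h0 := Real.rpow_nonneg (N_nonneg n) (-w)
    refine (norm_sum_le _ _).trans ((Finset.sum_le_card_nsmul _ _
      ((pdiv n).card ^ (J + 1) * (F * G ^ (J + 1)) * N n ^ (-w)) fun p hp => ?_).trans ?_)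
    · obtain ⟨h1, h2⟩ := Finset.mem_filter.1 hp
      obtain ⟨h4, h5⟩ := pw_div hn h2 w
      have h6 : ((pdiv (n / p)).card : ℝ) ≤ (pdiv n).card := by
        refine Nat.cast_le.2 (Finset.card_le_card fun e he => ?_)
        obtain ⟨h7, h8⟩ := (mem_pdiv h4).1 he
        exact (mem_pdiv hn).2 ⟨h7, h8.trans (Dvd.intro_left _
          (EuclideanDomain.mul_div_cancel' (hS p h1).ne_zero h2))⟩
      have h7 := Real.rpow_nonneg (N_nonneg p) (-w)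
      have h8 := Real.rpow_nonneg (N_nonneg (n / p)) (-w)
      rw [norm_mul, h5]
      calc _ ≤ G * N p ^ (-w) * ((pdiv n).card ^ (J + 1) * (F * G ^ J) * N (n / p) ^ (-w)) :=
            mul_le_mul (hb p h1) ((ih h4).trans (by gcongr)) (norm_nonneg _) (by positivity)
        _ = _ := by ring
    · have h1 : ((S.filter (· ∣ n)).card : ℝ) ≤ (pdiv n).card :=
        Nat.cast_le.2 (Finset.card_le_card fun p hp =>
          (mem_pdiv hn).2 ⟨hS p (Finset.mem_filter.1 hp).1, (Finset.mem_filter.1 hp).2⟩)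
      rw [nsmul_eq_mul]
      calc _ ≤ (pdiv n).card * ((pdiv n).card ^ (J + 1) * (F * G ^ (J + 1)) * N n ^ (-w)) := by
            gcongr
        _ = _ := by ring

/-- With `w = w₁ + 2δ`: `rpow_gw_le` gives `‖fb ν y t n‖ ≤ e^{(w-1/2)²/4} e^{(w-1/2)y} N n^{-w}` and
`‖bP p‖ ≤ 2 log Z · e^{(w-1/2+x)²/4} e^{(w-1/2+x) yp} N p^{-w}` on the slot; so
`‖a n‖ ≤ 2 τ(n)^{J+1} c^{J+2} (2 log Z)^J e^{x J yp} X^{w-1/2} N n^{-w}`; finally
`τ(n)^{J0+1} ≤ C N n^δ`, `X^{2δ} ≤ Z^{2δA}`, `e^{xJyp} ≤ L^η ≤ Z^{ηA}`, `log Z ≥ 1`.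
At `n = 0` both sides vanish (`supp_a`). -/
theorem Par.pw {δ : ℝ} (hδ : 0 < δ) (hδ1 : δ ≤ 1) (J0 j : ℕ) : ∃ C, 0 ≤ C ∧ ∀ (A η Z : ℝ),
    0 ≤ η → η ≤ 1 → 3 ≤ Z → ∀ (Q : Lev) (P : Par), P.OK Q A η Z J0 → ∀ w1 : ℝ, 0 ≤ w1 →
    w1 ≤ j + 1 → ∀ n, ‖P.a Q n‖ ≤ C * Real.log Z ^ J0 * Z ^ (A * (η + 2 * δ)) *
      P.X ^ (w1 - 1 / 2) * N n ^ (-(w1 + δ)) := by
  obtain ⟨C0, hC0⟩ := card_pdiv_le (ε := δ / (J0 + 1)) (by positivity)
  obtain ⟨c, hc⟩ : ∃ c, c = Real.exp (((j : ℝ) + 4) ^ 2 / 4) := ⟨_, rfl⟩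
  have hc1 : 1 ≤ c := hc ▸ Real.one_le_exp (by positivity)
  refine ⟨|C0| ^ (J0 + 1) * (2 * c ^ 2 * (2 * c) ^ J0), by positivity,
    fun A η Z hη hη1 hZ Q P hP w1 hw hw1 n => ?_⟩
  have hl : 1 ≤ Real.log Z := by
    rw [Real.le_log_iff_exp_le (by linarith)]
    linarith [Real.exp_one_lt_three]
  have hZ0 : 0 < Z := by linarith
  have hL : 0 < P.L := Real.exp_pos _
  have hX : 0 < P.X := mul_pos (Real.exp_pos _) hL
  by_cases hn : n = 0
  · rw [of_not_not (mt (Par.supp_a hP.hν n) fun h => h.1.ne_zero hn), norm_zero]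
    exact mul_nonneg (by positivity) (Real.rpow_nonneg (N_nonneg _) _)
  obtain ⟨w, hw'⟩ : ∃ w, w = w1 + 2 * δ := ⟨_, rfl⟩
  obtain ⟨hx1, hx2⟩ := abs_le.1 hP.hx
  have key : ∀ x y : ℝ, |x| ≤ 1 → ∀ m : O, m ≠ 0 →
      N m ^ (-(1 / 2) + x) * gw (Real.log (N m) - y) ≤
        c * Real.exp ((w - 1 / 2 + x) * y) * N m ^ (-w) := by
    intro x y hx m hm
    obtain ⟨h1, h2⟩ := abs_le.1 hx
    have h3 : (0 : ℝ) ≤ j := j.cast_nonneg
    refine (bl1_pt _ y w hm).trans (mul_le_mul_of_nonneg_right ?_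
      (Real.rpow_nonneg (N_nonneg _) _))
    rw [hc, ← Real.exp_add, Real.exp_le_exp]
    have h4 : (-(1 / 2) + x + w) ^ 2 ≤ ((j : ℝ) + 4) ^ 2 :=
      sq_le_sq' (by linarith) (by linarith)
    linarith
  have hfb : ∀ y t : ℝ, ∀ m : O, m ≠ 0 →
      ‖fb P.ν y t m‖ ≤ c * Real.exp ((w - 1 / 2) * y) * N m ^ (-w) := fun y t m hm =>
    (pw_norm_fb (norm_hchar_le Q hP.hν) y t hm).trans (by simpa using key 0 y (by simp) m hm)
  have hcv : ∀ y y' : ℝ, y + y' = P.y1 + P.y2 → ∀ m : O, m ≠ 0 →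
      ‖conv (fb P.ν y P.t1) (fb P.ν y' P.t2) m‖ ≤
        (pdiv m).card * (c ^ 2 * Real.exp ((w - 1 / 2) * (P.y1 + P.y2))) * N m ^ (-w) := by
    intro y y' h m hm
    refine (norm_conv_le (by positivity) (by positivity) (hfb y _) (hfb y' _) hm).trans_eq ?_
    rw [← h, mul_add, Real.exp_add]
    ring
  have ha0 : ∀ m : O, m ≠ 0 → ‖P.a0 m‖ ≤
      (pdiv m).card * (2 * c ^ 2 * Real.exp ((w - 1 / 2) * (P.y1 + P.y2))) * N m ^ (-w) := by
    intro m hm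
    refine (norm_sub_le _ _).trans ?_
    rw [norm_mul]
    linarith [hcv _ _ rfl m hm, hcv _ _ hP.sum m hm,
      mul_le_of_le_one_left (norm_nonneg (conv (fb P.ν P.z1 P.t1) (fb P.ν P.z2 P.t2) m)) hP.hc]
  have hb : ∀ p ∈ slot Q P.yp P.R, ‖bP P.ν3 P.yp P.x P.τ p‖ ≤
      2 * c * Real.log Z * Real.exp ((w - 1 / 2 + P.x) * P.yp) * N p ^ (-w) := by
    intro p hp
    obtain ⟨h1, h2, -, -, h3⟩ := isSlot_slot Q _ _ p hp
    have h4 := N_pos h2.ne_zero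
    have h5 : 0 ≤ Real.log (N p) := Real.log_nonneg (one_le_N h2.ne_zero)
    have h6 : Real.log (N p) ≤ 2 * Real.log Z :=
      ((Real.log_le_iff_le_exp h4).2 h3).trans hP.hypR
    have h7 := (gw_pos (Real.log (N p) - P.yp)).le
    rw [bP, norm_mul, norm_mul, Complex.norm_cpow_eq_rpow_re_of_pos h4, Complex.norm_real, wP,
      Real.norm_of_nonneg (mul_nonneg h5 h7),
      show (-(1 / 2 : ℂ) + P.x + P.τ * Complex.I).re = -(1 / 2) + P.x by simp]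
    calc _ ≤ 1 * (2 * Real.log Z * gw (Real.log (N p) - P.yp)) * N p ^ (-(1 / 2) + P.x) := by
          gcongr
          exact norm_hchar_le Q hP.hν3 p
      _ = 2 * Real.log Z * (N p ^ (-(1 / 2) + P.x) * gw (Real.log (N p) - P.yp)) := by ring
      _ ≤ 2 * Real.log Z * (c * Real.exp ((w - 1 / 2 + P.x) * P.yp) * N p ^ (-w)) :=
          mul_le_mul_of_nonneg_left (key _ _ (hP.hx.trans hη1) p h2.ne_zero) (by positivity)
      _ = _ := by ring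
  refine (norm_addP_le (fun p hp => (pw_slot hp).1) (by positivity) (by positivity) ha0 hb
    P.J hn).trans ?_
  have hN := N_pos hn
  have h1 : ((pdiv n).card : ℝ) ^ (P.J + 1) ≤ |C0| ^ (J0 + 1) * N n ^ δ := by
    have h2 : (1 : ℝ) ≤ (pdiv n).card :=
      Nat.one_le_cast.2 (Finset.card_pos.2 ⟨1, one_mem_pdiv hn⟩)
    calc _ ≤ ((pdiv n).card : ℝ) ^ (J0 + 1) := pow_le_pow_right₀ h2 (by linarith [hP.hJ])
      _ ≤ (|C0| * N n ^ (δ / (J0 + 1))) ^ (J0 + 1) := by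
          gcongr
          exact (hC0 n hn).trans (by gcongr; exact le_abs_self _)
      _ = _ := by
          rw [mul_pow, ← Real.rpow_natCast (N n ^ _), ← Real.rpow_mul hN.le]
          congr 2
          push_cast
          field_simp
  have h2 : (2 * c * Real.log Z) ^ P.J ≤ (2 * c * Real.log Z) ^ J0 :=
    pow_le_pow_right₀ (by nlinarith) hP.hJ
  have h3 : Real.exp ((w - 1 / 2) * (P.y1 + P.y2)) * Real.exp ((w - 1 / 2 + P.x) * P.yp) ^ P.J ≤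
      Z ^ (A * (η + 2 * δ)) * P.X ^ (w1 - 1 / 2) := by
    have h4 : P.X = Real.exp (P.y1 + P.y2 + P.J * P.yp) := (Real.exp_add _ _).symm
    have h5 := (Real.le_log_iff_exp_le (by positivity)).2 (h4 ▸ hP.hX)
    have h6 := (Real.le_log_iff_exp_le (by positivity)).2 hP.hL
    rw [Real.log_rpow hZ0] at h5 h6
    rw [h4, ← Real.exp_mul, Real.rpow_def_of_pos hZ0, ← Real.exp_nat_mul, ← Real.exp_add,
      ← Real.exp_add, Real.exp_le_exp, hw']
    have h7 : 0 ≤ P.J * P.yp := mul_nonneg P.J.cast_nonneg hP.hyp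
    nlinarith [mul_le_mul_of_nonneg_left h5 hδ.le, mul_le_mul_of_nonneg_left h6 hη,
      mul_le_mul_of_nonneg_right hx2 h7]
  calc _ = ((pdiv n).card : ℝ) ^ (P.J + 1) * (2 * c ^ 2) * (2 * c * Real.log Z) ^ P.J *
        (Real.exp ((w - 1 / 2) * (P.y1 + P.y2)) * Real.exp ((w - 1 / 2 + P.x) * P.yp) ^ P.J) *
        N n ^ (-w) := by ring
    _ ≤ |C0| ^ (J0 + 1) * N n ^ δ * (2 * c ^ 2) * (2 * c * Real.log Z) ^ J0 *
        (Z ^ (A * (η + 2 * δ)) * P.X ^ (w1 - 1 / 2)) * N n ^ (-w) := by gcongr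
    _ = _ := by
        rw [show -(w1 + δ) = δ + -w by rw [hw']; ring, Real.rpow_add hN]
        ring

end Crest.Agent.R17.GM
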