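import Crest.Agent.R17.GMoment_PW

/-!
# R17 / GMoment_Pair : dilated twisted block sums are blocks
-/

set_option autoImplicit false

noncomputable section

open scoped Classical ComplexConjugate
open MeasureTheory

namespace Crest.Agent.R17.GM

/-- For primary `u`: `Prim (u m) ↔ Prim m`, `log N(u m) = log N u + log N m`, so the sum is
`ν(u) N u^{-s'} blks (prim (ν ψ)) (y - log N u) s'` with `s' = 1/2 + i(t - τ') + (1 - δ)`; apply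
`blks_shift` with `x = -(1-δ)`. -/
theorem Dl_tw_fb {ν ψ : O → ℂ} (hν : ∀ a b, ν (a * b) = ν a * ν b) {u : O} (hu : Prim u)
    (y t δ τ' : ℝ) :
    Dl (tw (-(1 : ℂ) + δ + τ' * Complex.I) (fb ν y t)) ψ u =
      ν u * (N u : ℂ) ^ (-(1 / 2 + ((t - τ' : ℝ) : ℂ) * Complex.I)) *
        (Real.exp (-((1 - δ) * y) + (1 - δ) ^ 2 / 4) : ℂ) *
        pb (fun n => ν n * ψ n) (y - (Real.log (N u) + (1 - δ) / 2)) (t - τ') := by
  unfold Dl pb blk blks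
  rw [← tsum_mul_left]
  refine tsum_congr fun m => ?_
  unfold tw fb prim
  by_cases hm : Prim m
  · have h0 := hm.ne_zero
    have h1 := (hu.mul hm).ne_zero
    rw [if_pos (hu.mul hm), if_neg h0, if_pos hm, bk2_cpow h1, bk2_cpow h1, bk2_cpow h0,
      bk2_cpow hu.ne_zero, hν, N_mul, Real.log_mul (N_pos hu.ne_zero).ne' (N_pos h0).ne']
    unfold gw
    simp only [Complex.ofReal_exp]
    have e : ∀ A B C D E F G : ℂ, A + B + C = D + E + F + G → Complex.exp A * Complex.exp B *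
        Complex.exp C = Complex.exp D * Complex.exp E * Complex.exp F * Complex.exp G := by
      intro A B C D E F G h
      simp only [← Complex.exp_add, h]
    refine Eq.trans (by ring) ((congrArg (fun z => ν u * ν m * ψ m * z) (e
      (((Real.log (N u) + Real.log (N m) : ℝ) : ℂ) * (-(1 / 2 + t * Complex.I)))
      ((-(Real.log (N u) + Real.log (N m) - y) ^ 2 : ℝ) : ℂ)
      (((Real.log (N u) + Real.log (N m) : ℝ) : ℂ) * (-(1 : ℂ) + δ + τ' * Complex.I))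
      (((Real.log (N u) : ℝ) : ℂ) * (-(1 / 2 + ((t - τ' : ℝ) : ℂ) * Complex.I)))
      ((-((1 - δ) * y) + (1 - δ) ^ 2 / 4 : ℝ) : ℂ)
      (((Real.log (N m) : ℝ) : ℂ) * (-(1 / 2 + ((t - τ' : ℝ) : ℂ) * Complex.I)))
      ((-(Real.log (N m) - (y - (Real.log (N u) + (1 - δ) / 2))) ^ 2 : ℝ) : ℂ)
      (by push_cast; ring))).trans (by ring))
  · rw [if_neg fun h => hm (h.of_mul_left hu), if_neg hm]
    simp

theorem pair_delta : ∃ C, 0 ≤ C ∧ ∀ (P : Par) (ψ : O → ℂ), (∀ n, ‖ψ n‖ ≤ 1) →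
    P.z1 + P.z2 = P.y1 + P.y2 → ‖P.c‖ ≤ 1 → ∀ δ' τ' F0 V x a1 a2 : ℝ, 0 ≤ δ' →
    δ' ≤ 1 / 2 → 0 ≤ F0 → 1 ≤ V → Real.exp (P.y1 + P.y2) ≤ V → 1 ≤ x → Real.log x ≤ a1 + a2 →
    ‖P.Δ ψ a1 a2 τ'‖ ≤ F0 → ‖P.Δ ψ a1 a2 τ'‖ ≤ C * (F0 + 1) * V ^ (2 * δ') * x ^ (-δ') := by
  obtain ⟨C, hC, h⟩ := pb_triv
  refine ⟨1 + 2 * C ^ 2, by positivity, fun P ψ hψ hz hc δ' τ' F0 V x a1 a2 h0 h1 hF hV hy hx ha hΔ => ?_⟩
  have hx0 : 0 < x := by linarith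
  have hV0 : 0 < V := by linarith
  have hxd : 0 < x ^ (-δ') := Real.rpow_pos_of_pos hx0 _
  by_cases hxV : x ≤ V ^ 2
  · have e1 : 1 ≤ V ^ (2 * δ') * x ^ (-δ') := by
      rw [Real.rpow_neg hx0.le, ← div_eq_mul_inv, one_le_div (Real.rpow_pos_of_pos hx0 _),
        Real.rpow_mul hV0.le, Real.rpow_two]
      exact Real.rpow_le_rpow hx0.le hxV h0
    calc _ ≤ F0 := hΔ
      _ ≤ (1 + 2 * C ^ 2) * (F0 + 1) * 1 := by nlinarith [sq_nonneg C]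
      _ ≤ (1 + 2 * C ^ 2) * (F0 + 1) * (V ^ (2 * δ') * x ^ (-δ')) := by gcongr
      _ = _ := by ring
  · have key : ∀ w1 w2 t1 t2 : ℝ, w1 + w2 = P.y1 + P.y2 →
        ‖pb ψ (w1 - a1) t1 * pb ψ (w2 - a2) t2‖ ≤ C ^ 2 * x ^ (-δ') := by
      intro w1 w2 t1 t2 hw
      have b1 := (h ψ hψ (w1 - a1) t1).2
      have b2 := (h ψ hψ (w2 - a2) t2).2
      have b3 : Real.exp (w1 - a1) * Real.exp (w2 - a2) ≤ x ^ (-δ') := by
        have c1 : P.y1 + P.y2 ≤ Real.log V := (Real.le_log_iff_exp_le hV0).2 hy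
        have c2 : Real.log (V ^ 2) ≤ Real.log x := Real.log_le_log (by positivity) (not_le.1 hxV).le
        rw [Real.log_pow] at c2
        have c3 := Real.log_nonneg hx
        rw [← Real.exp_add, Real.rpow_def_of_pos hx0]
        refine Real.exp_le_exp.2 ?_
        push_cast at c2
        nlinarith
      rw [norm_mul]
      calc _ ≤ C * Real.exp (w1 - a1) * (C * Real.exp (w2 - a2)) := by gcongr
        _ = C ^ 2 * (Real.exp (w1 - a1) * Real.exp (w2 - a2)) := by ring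
        _ ≤ _ := by gcongr
    have e1 : 1 ≤ V ^ (2 * δ') := Real.one_le_rpow hV (by linarith)
    have e2 : ‖P.Δ ψ a1 a2 τ'‖ ≤ 2 * C ^ 2 * x ^ (-δ') := by
      unfold Par.Δ
      refine (norm_sub_le _ _).trans ?_
      rw [norm_mul P.c]
      have k1 := key _ _ (P.t1 - τ') (P.t2 - τ') rfl
      have k2 := (mul_le_of_le_one_left (norm_nonneg _) hc).trans (key _ _ (P.t1 - τ') (P.t2 - τ') hz)
      linarith
    calc _ ≤ 2 * C ^ 2 * x ^ (-δ') := e2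
      _ = 2 * C ^ 2 * 1 * 1 * x ^ (-δ') := by ring
      _ ≤ _ := by gcongr <;> linarith

/-- By `Dl_tw_fb` (and `z₁ + z₂ = y₁ + y₂`) the left side is
`≤ x^{-1/2} e^{-(1-δ)(y₁+y₂) + (1-δ)²/2} ‖Δ (log N u₁ + θ) (log N u₂ + θ)‖`, `x = N(u₁u₂)`,
`θ = (1-δ)/2 ≥ 0`.  If `x ≤ V²` use `F₀` and `1 ≤ V^{2δ'} x^{-δ'}`; otherwise `pb_triv` (second bound)
gives `‖Δ‖ ≤ 2C² V/x ≤ 2C² x^{-1/2} ≤ 2C² x^{-δ'}`. -/
theorem pair_bound : ∃ C, 0 ≤ C ∧ ∀ (P : Par) (ψ : O → ℂ), Mult P.ν → Mult ψ →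
    P.z1 + P.z2 = P.y1 + P.y2 → ‖P.c‖ ≤ 1 → ∀ δ δ' τ' F0 V : ℝ, 0 ≤ δ → δ ≤ 1 → 0 ≤ δ' →
    δ' ≤ 1 / 2 → 0 ≤ F0 → 1 ≤ V → Real.exp (P.y1 + P.y2) ≤ V →
    (∀ u1 u2 : ℝ, 0 ≤ u1 → 0 ≤ u2 → ‖P.Δ (fun n => P.ν n * ψ n) u1 u2 τ'‖ ≤ F0) →
    ∀ u1 u2 : O, Prim u1 → Prim u2 →
      ‖Dl (tw (-(1 : ℂ) + δ + τ' * Complex.I) (fb P.ν P.y1 P.t1)) ψ u1 *
          Dl (tw (-(1 : ℂ) + δ + τ' * Complex.I) (fb P.ν P.y2 P.t2)) ψ u2 -
        P.c * (Dl (tw (-(1 : ℂ) + δ + τ' * Complex.I) (fb P.ν P.z1 P.t1)) ψ u1 *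
          Dl (tw (-(1 : ℂ) + δ + τ' * Complex.I) (fb P.ν P.z2 P.t2)) ψ u2)‖ ≤
      C * Real.exp (-((1 - δ) * (P.y1 + P.y2))) * (F0 + 1) * V ^ (2 * δ') *
        N (u1 * u2) ^ (-(1 / 2 + δ')) := by
  obtain ⟨C, hC, h⟩ := pair_delta
  refine ⟨Real.exp 1 * C, by positivity, fun P ψ hν hψ hz hc δ δ' τ' F0 V h0 h1 h2 h3 hF hV hy hΔ
    u1 u2 hu1 hu2 => ?_⟩
  have n1 := one_le_N hu1.ne_zero
  have n2 := one_le_N hu2.ne_zero
  have l1 := Real.log_nonneg n1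
  have l2 := Real.log_nonneg n2
  have n3 := one_le_N (hu1.mul hu2).ne_zero
  have h4 := h P (fun n => P.ν n * ψ n) (fun n => by
      rw [norm_mul]; exact mul_le_one₀ (hν.bd n) (norm_nonneg _) (hψ.bd n)) hz hc δ' τ' F0 V
    (N (u1 * u2)) (Real.log (N u1) + (1 - δ) / 2) (Real.log (N u2) + (1 - δ) / 2) h2 h3 hF hV hy n3
    (by rw [N_mul, Real.log_mul (by linarith) (by linarith)]; linarith)
    (hΔ _ _ (by linarith) (by linarith))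
  have e1 : ∀ w1 w2 : ℝ, w1 + w2 = P.y1 + P.y2 →
      (Real.exp (-((1 - δ) * w1) + (1 - δ) ^ 2 / 4) : ℂ) *
        (Real.exp (-((1 - δ) * w2) + (1 - δ) ^ 2 / 4) : ℂ) =
      (Real.exp (-((1 - δ) * (P.y1 + P.y2)) + (1 - δ) ^ 2 / 2) : ℂ) := by
    intro w1 w2 hw
    rw [← Complex.ofReal_mul, ← Real.exp_add, ← hw]
    congr 2
    ring
  have e2 : Dl (tw (-(1 : ℂ) + δ + τ' * Complex.I) (fb P.ν P.y1 P.t1)) ψ u1 *
          Dl (tw (-(1 : ℂ) + δ + τ' * Complex.I) (fb P.ν P.y2 P.t2)) ψ u2 -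
        P.c * (Dl (tw (-(1 : ℂ) + δ + τ' * Complex.I) (fb P.ν P.z1 P.t1)) ψ u1 *
          Dl (tw (-(1 : ℂ) + δ + τ' * Complex.I) (fb P.ν P.z2 P.t2)) ψ u2) =
      P.ν u1 * P.ν u2 * (N u1 : ℂ) ^ (-(1 / 2 + ((P.t1 - τ' : ℝ) : ℂ) * Complex.I)) *
        (N u2 : ℂ) ^ (-(1 / 2 + ((P.t2 - τ' : ℝ) : ℂ) * Complex.I)) *
        (Real.exp (-((1 - δ) * (P.y1 + P.y2)) + (1 - δ) ^ 2 / 2) : ℂ) *
        P.Δ (fun n => P.ν n * ψ n) (Real.log (N u1) + (1 - δ) / 2)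
          (Real.log (N u2) + (1 - δ) / 2) τ' := by
    rw [Dl_tw_fb hν.mul hu1, Dl_tw_fb hν.mul hu2, Dl_tw_fb hν.mul hu1, Dl_tw_fb hν.mul hu2, Par.Δ,
      mul_sub]
    congr 1
    · rw [← e1 _ _ rfl]; ring
    · rw [← e1 _ _ hz]; ring
  have e3 : ∀ (u : O) (t : ℝ), Prim u →
      ‖(N u : ℂ) ^ (-(1 / 2 + (t : ℂ) * Complex.I))‖ = N u ^ (-(1 / 2) : ℝ) := fun u t hu => by
    rw [Complex.norm_cpow_eq_rpow_re_of_pos (N_pos hu.ne_zero)]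
    congr 1
    simp
  have e4 : Real.exp (-((1 - δ) * (P.y1 + P.y2)) + (1 - δ) ^ 2 / 2) ≤
      Real.exp (-((1 - δ) * (P.y1 + P.y2))) * Real.exp 1 := by
    rw [← Real.exp_add]
    exact Real.exp_le_exp.2 (by nlinarith)
  have e5 : N (u1 * u2) ^ (-(1 / 2 + δ')) =
      N u1 ^ (-(1 / 2) : ℝ) * N u2 ^ (-(1 / 2) : ℝ) * N (u1 * u2) ^ (-δ') := by
    rw [neg_add, Real.rpow_add (by linarith), ← Real.mul_rpow (N_nonneg _) (N_nonneg _), ← N_mul]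
  have b1 := hν.bd u1
  have b2 := hν.bd u2
  have b3 := N_nonneg u1
  have b4 := N_nonneg u2
  rw [e2, e5]
  simp only [norm_mul]
  rw [e3 _ _ hu1, e3 _ _ hu2, Complex.norm_real, Real.norm_of_nonneg (Real.exp_pos _).le]
  calc _ ≤ 1 * 1 * N u1 ^ (-(1 / 2) : ℝ) * N u2 ^ (-(1 / 2) : ℝ) *
        (Real.exp (-((1 - δ) * (P.y1 + P.y2))) * Real.exp 1) *
        (C * (F0 + 1) * V ^ (2 * δ') * N (u1 * u2) ^ (-δ')) := by gcongr
    _ = _ := by ring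

theorem mult_hchar (Q : Lev) {ν : O → ℂ} (hν : ν ∈ hchars Q.q) : Mult ν :=
  have h := ((mem_hchars Q.ne).1 hν).1
  ⟨h.one, h.mul, h.norm_le Q.ne⟩

/-- the test function of `Wsum` -/
def PhiG (ψ : O → ℂ) (G n : O) : ℂ :=
  if G ∣ n ∧ Prim (n / G) ∧ Squarefree (n / G) ∧ IsCoprime (n / G) G then ψ (n / G) else 0

/-- for `p ∤ n`, `p ∤ G`: `G ∣ p n ↔ G ∣ n`, `(p n)/G = p (n/G)`, and the three conditions are
equivalent for `n/G` and `p (n/G)` -/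
theorem test_PhiG {ψ : O → ℂ} (hψ : Mult ψ) {G : O} (hG : Prim G) : Test ψ G G 1 (PhiG ψ G) := by
  refine ⟨hG, hG, dvd_rfl, fun n _ h => ?_, fun n => ?_, fun p n hp hp' _ hn hpG => ?_⟩
  · by_contra h'
    exact h (if_neg fun h'' => h' h''.1)
  · unfold PhiG
    split_ifs
    · exact hψ.bd _
    · simp
  · have hc : IsCoprime p G := hp.irreducible.coprime_iff_not_dvd.2 hpG
    unfold PhiG
    by_cases h : G ∣ n
    · obtain ⟨k, rfl⟩ := h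
      have hk : IsCoprime p k := hp.irreducible.coprime_iff_not_dvd.2 fun h => hn (h.mul_left G)
      rw [mul_left_comm, mul_div_cancel_left₀ _ hG.ne_zero, mul_div_cancel_left₀ _ hG.ne_zero]
      by_cases h1 : Prim k ∧ Squarefree k ∧ IsCoprime k G
      · rw [if_pos ⟨dvd_mul_right _ _, hp'.mul h1.1,
          squarefree_mul_iff.2 ⟨hk.isRelPrime, hp.irreducible.squarefree, h1.2.1⟩, hc.mul_left h1.2.2⟩,
          if_pos ⟨dvd_mul_right _ _, h1⟩, hψ.mul]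
      · rw [if_neg fun h => h1 ⟨h.2.1.of_mul_left hp', h.2.2.1.of_mul_right, h.2.2.2.of_mul_left_right⟩,
          if_neg fun h => h1 h.2, mul_zero]
    · rw [if_neg fun h' => h (hc.symm.dvd_of_dvd_mul_left h'.1), if_neg fun h' => h h'.1, mul_zero]

/-- `tsum_dvd` -/
theorem Wsum_eq (a ν : O → ℂ) {G : O} (hG : Prim G) (ρ : O) (δ τ : ℝ) :
    Wsum a G ν ρ δ τ = ∑' n, tw (-(1 : ℂ) + δ + τ * Complex.I) a n * PhiG (rc ν ρ) G n := by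
  have h1 := tsum_dvd hG.ne_zero fun n => tw (-(1 : ℂ) + δ + τ * Complex.I) a n * PhiG (rc ν ρ) G n
  refine Eq.trans (Eq.trans (tsum_congr fun m => ?_) h1.symm) (tsum_congr fun n => ?_)
  · unfold dil tw PhiG rc
    rw [mul_div_cancel_left₀ _ hG.ne_zero]
    by_cases h : Prim m ∧ Squarefree m ∧ IsCoprime m G
    · rw [if_pos h, if_pos ⟨dvd_mul_right _ _, h⟩]
      ring
    · rw [if_neg h, if_neg fun h' => h h'.2]
      simp
  · split_ifs with h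
    · rfl
    · rw [PhiG, if_neg fun h' => h h'.1, mul_zero]

end Crest.Agent.R17.GM
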