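import Crest.Agent.R17.GMoment_Defs

/-!
# R17 / GMoment_Pow : powerful elements, multiplicity of `(r,d) ↦ d r²`, small analytic helpers
-/

set_option autoImplicit false

noncomputable section

open scoped Classical ComplexConjugate
open MeasureTheory

namespace Crest.Agent.R17.GM

/-- Dyadic decomposition `2^i ≤ N f < 2^{i+1}` and `sum_powerful_le` with `ε = δ/2`
(the piece `i` is `≤ 2^{-iδ} C 2^{(i+1)δ/2}`). -/
theorem sum_pwf_le {δ : ℝ} (hδ : 0 < δ) : ∃ C, 0 ≤ C ∧ ∀ S : Finset O,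
    (∀ f ∈ S, f ≠ 0 ∧ Pwf f) → ∑ f ∈ S, N f ^ (-(1 / 2 + δ)) ≤ C := by
  obtain ⟨C, hC⟩ := sum_powerful_le (ε := δ / 2) (by linarith)
  have hC0 : 0 ≤ C := by simpa using hC 1 le_rfl ∅ (by simp)
  obtain ⟨q, hq⟩ : ∃ q : ℝ, q = 2 ^ (-(δ / 2)) := ⟨_, rfl⟩
  have hq0 : 0 ≤ q := by rw [hq]; positivity
  have hq1 : q < 1 := by
    rw [hq]
    exact Real.rpow_lt_one_of_one_lt_of_neg one_lt_two (by linarith)
  have hs := (summable_geometric_of_lt_one hq0 hq1).mul_left (C * 2 ^ (δ / 2))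
  refine ⟨∑' i : ℕ, C * 2 ^ (δ / 2) * q ^ i, tsum_nonneg fun i => by positivity, fun S hS => ?_⟩
  rw [← Finset.sum_fiberwise_of_maps_to (g := fun f => Nat.log 2 (nm f))
    (fun f hf => Finset.mem_image_of_mem (fun f => Nat.log 2 (nm f)) hf)]
  refine le_trans (Finset.sum_le_sum fun i _ => ?_) (hs.sum_le_tsum _ fun i _ => by positivity)
  have h1 : ∀ f ∈ S.filter (fun f => Nat.log 2 (nm f) = i),
      (2 : ℝ) ^ i ≤ N f ∧ N f ≤ 2 ^ (i + 1) := by
    intro f hf
    rw [Finset.mem_filter] at hf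
    rw [← hf.2, N]
    exact ⟨by exact_mod_cast Nat.pow_log_le_self 2 (nm_pos (hS f hf.1).1).ne',
      by exact_mod_cast (Nat.lt_pow_succ_log_self one_lt_two (nm f)).le⟩
  have h2 := hC (2 ^ (i + 1)) (one_le_pow₀ one_le_two) (S.filter fun f => Nat.log 2 (nm f) = i)
    fun f hf => ⟨(hS f (Finset.mem_filter.1 hf).1).1, (h1 f hf).2,
      (hS f (Finset.mem_filter.1 hf).1).2⟩
  calc _ ≤ ∑ f ∈ S.filter (fun f => Nat.log 2 (nm f) = i),
        ((2 : ℝ) ^ i) ^ (-δ) * N f ^ (-(1 / 2 : ℝ)) := by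
        refine Finset.sum_le_sum fun f hf => ?_
        have hN : 0 < N f := N_pos (hS f (Finset.mem_filter.1 hf).1).1
        rw [neg_add, Real.rpow_add hN, mul_comm]
        exact mul_le_mul_of_nonneg_right
          (Real.rpow_le_rpow_of_nonpos (by positivity) (h1 f hf).1 (by linarith)) (by positivity)
    _ ≤ ((2 : ℝ) ^ i) ^ (-δ) * (C * (2 ^ (i + 1)) ^ (δ / 2)) := by
        rw [← Finset.mul_sum]
        exact mul_le_mul_of_nonneg_left h2 (by positivity)
    _ = _ := by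
        rw [hq, mul_left_comm, mul_assoc]
        congr 1
        simp only [← Real.rpow_natCast, ← Real.rpow_mul zero_le_two, ← Real.rpow_add two_pos]
        congr 1
        push_cast
        ring

/-- `(r,d) ↦ d r²` maps into `ball D'`, and the fibre of `ρ` injects into `pdiv ρ` (`r` determines
`d`).  (`Finset.sum_sigma'`, `Finset.sum_fiberwise_of_maps_to`/`sum_le_card_nsmul`.) -/
theorem sum_sq_mult {D' T : ℝ} (hT : ∀ ρ ∈ ball D', ((pdiv ρ).card : ℝ) ≤ T) {F : O → ℝ}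
    (hF : ∀ ρ, 0 ≤ F ρ) (S : Finset O) (hS : ∀ r ∈ S, Prim r) :
    ∑ r ∈ S, ∑ d ∈ ball (D' / N r ^ 2), F (d * r ^ 2) ≤ T * ∑ ρ ∈ ball D', F ρ := by
  calc _ ≤ ∑ r ∈ S, ∑ ρ ∈ ball D', if r ∈ pdiv ρ then F ρ else 0 := by
        refine Finset.sum_le_sum fun r hr => ?_
        have hr0 := (hS r hr).ne_zero
        have hN := N_pos hr0
        rw [← Finset.sum_filter, ← Finset.sum_image (g := fun d => d * r ^ 2)
          (mul_left_injective₀ (pow_ne_zero 2 hr0)).injOn]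
        refine Finset.sum_le_sum_of_subset_of_nonneg (fun ρ hρ => ?_) fun _ _ _ => hF _
        obtain ⟨d, hd, rfl⟩ := Finset.mem_image.1 hρ
        rw [mem_ball] at hd
        have h0 : d * r ^ 2 ≠ 0 := mul_ne_zero hd.1 (pow_ne_zero 2 hr0)
        rw [Finset.mem_filter, mem_ball, mem_pdiv h0, N_mul, N_pow]
        exact ⟨⟨h0, (le_div_iff₀ (by positivity)).1 hd.2⟩, hS r hr,
          (dvd_pow_self r two_ne_zero).mul_left d⟩
    _ ≤ _ := by
        rw [Finset.sum_comm, Finset.mul_sum]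
        refine Finset.sum_le_sum fun ρ hρ => ?_
        rw [← Finset.sum_filter, Finset.sum_const, nsmul_eq_mul]
        refine mul_le_mul_of_nonneg_right (le_trans ?_ (hT ρ hρ)) (hF ρ)
        exact_mod_cast Finset.card_le_card fun r hr => (Finset.mem_filter.1 hr).2

/-- uniqueness of the squarefree × powerful decomposition: `f` is coprime to `s'` (a common prime
`p` has `p² ∣ f ∣ s' f'`, `p ∤ f'`, so `p² ∣ s'`), hence `f ∣ f'`; symmetric; `Prim.eq_of_associated`. -/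
theorem pwf_unique {s f s' f' : O} (hf : Prim f) (hf' : Prim f') (hs : Squarefree s)
    (hs' : Squarefree s') (hc : IsCoprime s f) (hc' : IsCoprime s' f') (hp : Pwf f) (hp' : Pwf f')
    (h : f * s = f' * s') : f = f' := by
  have key : ∀ {s f s' f' : O}, f ≠ 0 → Squarefree s' → IsCoprime s' f' → Pwf f →
      f * s = f' * s' → f ∣ f' := by
    intro s f s' f' h0 hs' hc' hp h
    have h1 : f ∣ f' * s' := h ▸ dvd_mul_right f s
    refine IsCoprime.dvd_of_dvd_mul_right ?_ h1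
    refine isCoprime_of_prime_dvd (fun h => h0 h.1) fun p hpp h2 h3 => hpp.not_isUnit (hs' p ?_)
    rw [← pow_two]
    exact ((hc'.of_isCoprime_of_dvd_left h3).pow_left).dvd_of_dvd_mul_left ((hp p hpp h2).trans h1)
  exact hf.eq_of_associated hf' (associated_of_dvd_dvd (key hf.ne_zero hs' hc' hp h)
    (key hf'.ne_zero hs hc hp' h.symm))

/-- `S_d(a) = ∑_f χ_f(d) S_d(dil f a)` over primary powerful `f`: the map `(f,s) ↦ f s` is a bijection
from admissible pairs onto primary elements (`exists_sqfree_powerful`, `pwf_unique`); on the support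
`n` is coprime to `6`, so `‖chi n d‖ ≤ 1` (`norm_sym_le`) and the series converges absolutely
(`Rapid`, `j = 0`); `sym_mul_left`. -/
theorem hasSum_pwf (Q : Lev) {a : O → ℂ} (hs : ∀ n, a n ≠ 0 → P0 Q n) (ha : Rapid a) (d : O) :
    HasSum (fun f : O => if Prim f ∧ Pwf f then chi f d * ∑' s, dil f a s * chi s d else 0)
      (∑' n, a n * chi n d) := by
  have hg : Summable (fun n => a n * chi n d) := by
    refine Summable.of_norm_bounded (ha 0) fun n => ?_
    rw [pow_zero, mul_one, norm_mul]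
    by_cases h : a n = 0
    · simp [h]
    · exact mul_le_of_le_one_right (norm_nonneg _)
        (norm_sym_le (Or.inr (Or.inr rfl)) (by simpa using (hs n h).isCoprime_six) d)
  let A : Set (O × O) := {x | (Prim x.1 ∧ Pwf x.1) ∧ Prim x.2 ∧ Squarefree x.2 ∧ IsCoprime x.2 x.1}
  have hi : Function.Injective (fun x : A => x.1.1 * x.1.2) := by
    rintro ⟨⟨f, s⟩, ⟨h1, h2⟩, h3, h4, h5⟩ ⟨⟨f', s'⟩, ⟨k1, k2⟩, k3, k4, k5⟩ h
    have h6 : f = f' := pwf_unique h1 k1 h4 k4 h5 k5 h2 k2 h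
    subst h6
    have h7 : s = s' := mul_left_cancel₀ h1.ne_zero h
    subst h7
    rfl
  have h1 := (hi.hasSum_iff (f := fun n => a n * chi n d) fun n hn => ?_).2 hg.hasSum
  · have h2 : HasSum (A.indicator fun x => a (x.1 * x.2) * chi (x.1 * x.2) d)
        (∑' n, a n * chi n d) := hasSum_subtype_iff_indicator.1 h1
    refine h2.prod_fiberwise fun f => ?_
    refine (h2.summable.prod_factor f).hasSum_iff.2 (Eq.symm ?_)
    split_ifs with hf
    · rw [← tsum_mul_left]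
      refine tsum_congr fun s => ?_
      unfold dil
      split_ifs with h3
      · rw [Set.indicator_of_mem (show (f, s) ∈ A from ⟨hf, h3⟩), chi, chi, chi,
          sym_mul_left 6 hf.1.ne_zero h3.1.ne_zero]
        ring
      · rw [Set.indicator_of_notMem (show (f, s) ∉ A from fun h => h3 h.2)]
        simp
    · have : ∀ s, A.indicator (fun x => a (x.1 * x.2) * chi (x.1 * x.2) d) (f, s) = 0 :=
        fun s => Set.indicator_of_notMem (show (f, s) ∉ A from fun h => hf h.1) _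
      simp [this]
  · by_contra h
    obtain ⟨s, f, k1, k2, k3, k4, k5, k6⟩ :=
      exists_sqfree_powerful (hs n (left_ne_zero_of_mul h)).1
    exact hn ⟨⟨(f, s), ⟨k2, k5⟩, k1, k3, k4⟩, by rw [k6, mul_comm]⟩

/-- For a finite set `𝓕` of `f`'s, Cauchy–Schwarz with weights `N f^{∓(1/2+δ)}` gives
`∑_d |∑_{f ∈ 𝓕} …|² ≤ C₀ · C₀ M` (`‖chi f d‖ ≤ 1` if `f` is coprime to `6`; otherwise
`dil f a = 0`); pass to the limit along `hasSum_pwf` (`le_of_tendsto'`). -/
theorem pow_split {δ : ℝ} (hδ : 0 < δ) : ∃ C, 0 ≤ C ∧ ∀ (Q : Lev) (a : O → ℂ),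
    (∀ n, a n ≠ 0 → P0 Q n) → Rapid a → ∀ (S : Finset O) (M : ℝ), 0 ≤ M →
    (∀ f, Prim f → Pwf f →
      ∑ d ∈ S, ‖∑' s, dil f a s * chi s d‖ ^ 2 ≤ N f ^ (-(1 + 2 * δ)) * M) →
    ∑ d ∈ S, ‖∑' n, a n * chi n d‖ ^ 2 ≤ C * M := by
  obtain ⟨C, hC0, hC⟩ := sum_pwf_le hδ
  refine ⟨C * C, mul_nonneg hC0 hC0, fun Q a hs ha S M hM h => ?_⟩
  have h1 := tendsto_finsetSum S fun d _ => ((hasSum_pwf Q hs ha d).norm).pow 2
  refine le_of_tendsto' h1 fun T => ?_
  let T' := T.filter fun f => Prim f ∧ Pwf f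
  have hT : ∀ f ∈ T', Prim f ∧ Pwf f := fun f hf => (Finset.mem_filter.1 hf).2
  have h2 := hC T' fun f hf => ⟨(hT f hf).1.ne_zero, (hT f hf).2⟩
  calc _ ≤ ∑ d ∈ S, C * ∑ f ∈ T', N f ^ (1 / 2 + δ) * ‖∑' s, dil f a s * chi s d‖ ^ 2 := by
        refine Finset.sum_le_sum fun d _ => ?_
        rw [← Finset.sum_filter]
        refine (pow_le_pow_left₀ (norm_nonneg _) (norm_sum_le _ _) 2).trans ?_
        refine (Finset.sum_sq_le_sum_mul_sum_of_sq_le_mul _
          (f := fun f => N f ^ (-(1 / 2 + δ)))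
          (g := fun f => N f ^ (1 / 2 + δ) * ‖∑' s, dil f a s * chi s d‖ ^ 2)
          (fun f _ => Real.rpow_nonneg (N_nonneg f) _)
          (fun f _ => mul_nonneg (Real.rpow_nonneg (N_nonneg f) _) (sq_nonneg _))
          (fun f hf => ?_)).trans (mul_le_mul_of_nonneg_right h2 (Finset.sum_nonneg fun f _ =>
            mul_nonneg (Real.rpow_nonneg (N_nonneg f) _) (sq_nonneg _)))
        rw [← mul_assoc, ← Real.rpow_add (N_pos (hT f hf).1.ne_zero), neg_add_cancel,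
          Real.rpow_zero, one_mul]
        refine pow_le_pow_left₀ (norm_nonneg _) ?_ 2
        rw [norm_mul]
        by_cases h6 : IsCoprime f 6
        · exact mul_le_of_le_one_left (norm_nonneg _)
            (norm_sym_le (Or.inr (Or.inr rfl)) (by simpa using h6) d)
        · have : ∀ s, dil f a s = 0 := by
            intro s
            unfold dil
            split_ifs
            · by_contra h7
              exact h6 (hs _ h7).isCoprime_six.of_mul_left_left
            · rfl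
          simp [this]
    _ ≤ C * ∑ f ∈ T', N f ^ (-(1 / 2 + δ)) * M := by
        rw [← Finset.mul_sum, Finset.sum_comm]
        refine mul_le_mul_of_nonneg_left (Finset.sum_le_sum fun f hf => ?_) hC0
        rw [← Finset.mul_sum]
        refine (mul_le_mul_of_nonneg_left (h f (hT f hf).1 (hT f hf).2)
          (Real.rpow_nonneg (N_nonneg f) _)).trans (le_of_eq ?_)
        rw [← mul_assoc, ← Real.rpow_add (N_pos (hT f hf).1.ne_zero)]
        congr 2
        ring
    _ ≤ _ := by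
        rw [← Finset.sum_mul, mul_assoc]
        exact mul_le_mul_of_nonneg_left (mul_le_mul_of_nonneg_right h2 hM) hC0

/-- `Gm_le`, `continuous_Gm`, `Po.integrable_exp_neg_abs` -/
theorem integrable_Gm_exp {σ : ℝ} (hσ : 0 < σ) :
    Integrable (fun τ : ℝ => Gm σ τ * Real.exp (|τ| / 2)) := by
  obtain ⟨C, hC⟩ := Gm_le hσ
  refine ((Po.integrable_exp_neg_abs (show (0 : ℝ) < 1 / 2 by norm_num)).const_mul C).mono'
    (((continuous_Gm hσ).mul (by fun_prop)).aestronglyMeasurable)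
    (Filter.Eventually.of_forall fun τ => ?_)
  have hG : 0 ≤ Gm σ τ := norm_nonneg _
  rw [Real.norm_of_nonneg (by positivity)]
  refine (mul_le_mul_of_nonneg_right (hC τ) (Real.exp_pos _).le).trans (le_of_eq ?_)
  rw [mul_assoc, ← Real.exp_add]
  congr 2
  ring

/-- monotonicity without measurability (`integral_mono_of_nonneg`) -/
theorem integral_Gm_le {σ : ℝ} (hσ : 0 < σ) : ∃ C, 0 ≤ C ∧ ∀ (g : ℝ → ℝ) (M : ℝ), 0 ≤ M →
    (∀ τ, 0 ≤ g τ) → (∀ τ, g τ ≤ Real.exp (|τ| / 2) * M) → ∫ τ : ℝ, Gm σ τ * g τ ≤ C * M := by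
  have hG : ∀ τ, 0 ≤ Gm σ τ := fun τ => norm_nonneg _
  refine ⟨∫ τ : ℝ, Gm σ τ * Real.exp (|τ| / 2),
    integral_nonneg fun τ => mul_nonneg (hG τ) (Real.exp_pos _).le, fun g M _ h0 h1 => ?_⟩
  rw [← integral_mul_const]
  refine integral_mono_of_nonneg (Filter.Eventually.of_forall fun τ => mul_nonneg (hG τ) (h0 τ))
    ((integrable_Gm_exp hσ).mul_const M) (Filter.Eventually.of_forall fun τ => ?_)
  simp only [mul_assoc]
  exact mul_le_mul_of_nonneg_left (h1 τ) (hG τ)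

/-- `sup_u e^{wu} e^{-(u-y)²} = e^{wy + w²/4}` (`exp_mul_gw`, `gw_le_one`) -/
theorem rpow_gw_le {n : O} (hn : n ≠ 0) (w y : ℝ) :
    N n ^ w * gw (Real.log (N n) - y) ≤ Real.exp (w ^ 2 / 4) * Real.exp (w * y) := by
  rw [Real.rpow_def_of_pos (N_pos hn), mul_comm (Real.log _), exp_mul_gw, ← Real.exp_add,
    add_comm (w ^ 2 / 4)]
  exact mul_le_of_le_one_right (Real.exp_pos _).le (gw_le_one _)

/-- uniform version of `tsum_gw_rpow`: by `exp_mul_gw` with `x = w + 1`,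
`N^w gw(u - y) = e^{(w+1)y + (w+1)²/4} N^{-1} gw(u - (y + (w+1)/2))`, then `tsum_gw_rpow (-1)`. -/
theorem sum_gw_unif : ∃ C, 0 ≤ C ∧ ∀ w y : ℝ, |w| ≤ 3 → ∀ S : Finset O, (∀ n ∈ S, n ≠ 0) →
    ∑ n ∈ S, N n ^ w * gw (Real.log (N n) - y) ≤ C * Real.exp ((w + 1) * y) := by
  obtain ⟨C, hC⟩ := tsum_gw_rpow (-1)
  simp only [neg_add_cancel, zero_mul, Real.exp_zero, mul_one] at hC
  have hnn : ∀ (y : ℝ) (n : O), 0 ≤ if n = 0 then 0 else
      N n ^ (-1 : ℝ) * gw (Real.log (N n) - y) := by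
    intro y n
    split_ifs
    · exact le_rfl
    · exact mul_nonneg (Real.rpow_nonneg (N_nonneg n) _) (gw_pos _).le
  have hC0 : 0 ≤ C := (tsum_nonneg (hnn 0)).trans (hC 0)
  refine ⟨C * Real.exp 4, by positivity, fun w y hw S hS => ?_⟩
  have h1 := ((summable_gw_rpow (-1) (y + (w + 1) / 2)).sum_le_tsum S
    fun n _ => hnn _ n).trans (hC _)
  calc _ = ∑ n ∈ S, Real.exp ((w + 1) * y + (w + 1) ^ 2 / 4) * if n = 0 then 0 else
        N n ^ (-1 : ℝ) * gw (Real.log (N n) - (y + (w + 1) / 2)) := by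
        refine Finset.sum_congr rfl fun n hn => ?_
        have hN := N_pos (hS n hn)
        rw [if_neg (hS n hn), mul_left_comm, ← exp_mul_gw, ← mul_assoc, mul_comm (w + 1),
          ← Real.rpow_def_of_pos hN, ← Real.rpow_add hN]
        congr 2
        ring
    _ ≤ Real.exp ((w + 1) * y + 4) * C := by
        rw [← Finset.mul_sum]
        refine mul_le_mul (Real.exp_le_exp.2 ?_) h1 (Finset.sum_nonneg fun n _ => hnn _ n)
          (Real.exp_pos _).le
        have := abs_le.1 hw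
        nlinarith
    _ = _ := by
        rw [Real.exp_add]
        ring

/-- trivial bound for prime blocks (`log N p ≤ yp + R` on the slot, `sum_gw_unif`) -/
theorem Pb_triv : ∃ C, 0 ≤ C ∧ ∀ (Q : Lev) (ψ : O → ℂ), (∀ n, ‖ψ n‖ ≤ 1) → ∀ yp R x τ : ℝ,
    0 ≤ yp + R → |x| ≤ 2 → ‖Pb Q ψ yp R x τ‖ ≤ C * (yp + R) * Real.exp ((1 / 2 + x) * yp) := by
  obtain ⟨C, hC0, hC⟩ := sum_gw_unif
  refine ⟨C, hC0, fun Q ψ hψ yp R x τ hR hx => ?_⟩
  have hS : ∀ p ∈ slot Q yp R, p ≠ 0 ∧ N p ≤ Real.exp (yp + R) := fun p hp =>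
    mem_ball.1 (Finset.mem_filter.1 hp).1
  have hx' := abs_le.1 hx
  have h1 := hC (-(1 / 2) + x) yp (abs_le.2 ⟨by linarith, by linarith⟩) (slot Q yp R)
    fun p hp => (hS p hp).1
  rw [show -(1 / 2) + x + 1 = 1 / 2 + x by ring] at h1
  refine (norm_sum_le _ _).trans ?_
  refine le_trans ?_ ((mul_le_mul_of_nonneg_left h1 hR).trans (le_of_eq (by ring)))
  rw [Finset.mul_sum]
  refine Finset.sum_le_sum fun p hp => ?_
  have hN := N_pos (hS p hp).1
  have h2 : 0 ≤ Real.log (N p) := Real.log_nonneg (one_le_N (hS p hp).1)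
  have h3 : Real.log (N p) ≤ yp + R := (Real.log_le_iff_le_exp hN).2 (hS p hp).2
  have h4 := gw_pos (Real.log (N p) - yp)
  have e : (-(1 / 2 : ℂ) + x + τ * Complex.I).re = -(1 / 2) + x := by simp
  rw [norm_mul, norm_mul, Complex.norm_cpow_eq_rpow_re_of_pos hN, e, Complex.norm_real, wP,
    Real.norm_of_nonneg (by positivity)]
  calc _ ≤ 1 * ((yp + R) * gw (Real.log (N p) - yp)) * N p ^ (-(1 / 2) + x) :=
        mul_le_mul_of_nonneg_right (mul_le_mul (hψ p) (mul_le_mul_of_nonneg_right h3 h4.le)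
          (by positivity) zero_le_one) (by positivity)
    _ = _ := by ring

/-- trivial bounds for primary blocks, all real `y` (`norm_blk_le`, `norm_blk_le_neg 1`) -/
theorem pb_triv : ∃ C, 0 ≤ C ∧ ∀ ψ : O → ℂ, (∀ n, ‖ψ n‖ ≤ 1) → ∀ y t : ℝ,
    ‖pb ψ y t‖ ≤ C * Real.exp (y / 2) ∧ ‖pb ψ y t‖ ≤ C * Real.exp y := by
  obtain ⟨C1, h1⟩ := norm_blk_le
  obtain ⟨C2, h2⟩ := norm_blk_le_neg 1
  refine ⟨|C1| + |C2|, by positivity, fun ψ hψ y t => ?_⟩
  have hb : ∀ n, ‖prim ψ n‖ ≤ 1 := by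
    intro n
    unfold prim
    split_ifs
    · exact hψ n
    · simp
  have h3 : ‖pb ψ y t‖ ≤ (|C1| + |C2|) * Real.exp (y / 2) :=
    (h1 _ hb y t).trans (mul_le_mul_of_nonneg_right
      (by linarith [le_abs_self C1, abs_nonneg C2]) (Real.exp_pos _).le)
  refine ⟨h3, ?_⟩
  rcases le_total y 0 with hy | hy
  · have h4 := h2 _ hb y t hy
    rw [Nat.cast_one, one_mul] at h4
    exact h4.trans (mul_le_mul_of_nonneg_right
      (by linarith [le_abs_self C2, abs_nonneg C1]) (Real.exp_pos _).le)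
  · exact h3.trans (mul_le_mul_of_nonneg_left (Real.exp_le_exp.2 (by linarith)) (by positivity))

/-- row characters are multiplicative and bounded (`rc_isHChar`, `IsChar.norm_le`) -/
theorem mult_rc (Q : Lev) {ν : O → ℂ} (hν : ν ∈ hchars Q.q) {d : O} (hd : d ≠ 0) :
    Mult (rc ν d) :=
  ⟨(rc_isHChar Q hν hd).1.one, (rc_isHChar Q hν hd).1.mul,
    (rc_isHChar Q hν hd).1.norm_le (levd Q d).ne⟩

theorem log_pow_le (k : ℕ) {ε : ℝ} (hε : 0 < ε) : ∃ C, 0 ≤ C ∧ ∀ Z : ℝ, 3 ≤ Z →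
    Real.log Z ^ k ≤ C * Z ^ ε := by
  have hη : 0 < ε / (k + 1) := by positivity
  refine ⟨((ε / (k + 1))⁻¹) ^ k, by positivity, fun Z hZ => ?_⟩
  have h1 := Real.log_le_rpow_div (x := Z) (by linarith) hη
  refine (pow_le_pow_left₀ (Real.log_nonneg (by linarith)) h1 k).trans ?_
  rw [div_eq_inv_mul, mul_pow]
  refine mul_le_mul_of_nonneg_left ?_ (by positivity)
  rw [← Real.rpow_natCast, ← Real.rpow_mul (by linarith)]
  refine Real.rpow_le_rpow_of_exponent_le (by linarith) ?_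
  rw [div_mul_eq_mul_div, div_le_iff₀ (by positivity)]
  nlinarith

end Crest.Agent.R17.GM
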