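import Crest.Agent.R17.GMoment_Mob

/-!
# R17 / GMoment_Prime : removing the prime factors one at a time
-/

set_option autoImplicit false

noncomputable section

open scoped Classical ComplexConjugate
open MeasureTheory

namespace Crest.Agent.R17.GM

/-- inverse dilation -/
def gpUp (p : O) (f : O → ℂ) (n : O) : ℂ := if p ∣ n then f (n / p) else 0

theorem gp_up_mul {p : O} (hp : p ≠ 0) (f : O → ℂ) (m : O) : gpUp p f (p * m) = f m := by
  rw [gpUp, if_pos (dvd_mul_right p m), mul_div_cancel_left₀ m hp]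

theorem gp_succ (S : Finset O) (b a : O → ℂ) (J : ℕ) (n : O) :
    addP S b (J + 1) a n = ∑ p ∈ S, b p * gpUp p (addP S b J a) n := by
  simp only [addP, gpUp, mul_ite, mul_zero]

theorem gp_ps_up {f : O → ℂ} (hf : PS f) {p : O} (hp : Prim p) : PS (gpUp p f) := by
  refine ⟨fun n hn => ?_, fun j => ?_⟩
  · obtain ⟨m, rfl⟩ : p ∣ n := by_contra fun h => hn (if_neg h)
    rw [gp_up_mul hp.ne_zero] at hn
    exact hp.mul (hf.supp m hn)
  · refine ((mul_right_injective₀ hp.ne_zero).summable_iff fun n hn => ?_).1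
      (((hf.rapid j).mul_left (N p ^ j)).congr fun m => ?_)
    · rw [gpUp, if_neg fun ⟨m, hm⟩ => hn ⟨m, hm.symm⟩, norm_zero, zero_mul]
    · simp only [Function.comp_apply, gp_up_mul hp.ne_zero, N_mul]
      ring

theorem gp_summ {f Φ : O → ℂ} (hf : PS f) {M : ℝ} (hΦ : ∀ n, ‖Φ n‖ ≤ M) :
    Summable fun n => f n * Φ n :=
  Summable.of_norm_bounded (hf.summable_norm.mul_right M) fun n => by
    rw [norm_mul]
    exact mul_le_mul_of_nonneg_left (hΦ n) (norm_nonneg _)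

theorem PS.addP {a : O → ℂ} (ha : PS a) {S : Finset O} (hS : ∀ p ∈ S, Prim p) (b : O → ℂ) (J : ℕ) :
    PS (addP S b J a) := by
  induction J with
  | zero => exact ha
  | succ J ih =>
    refine ⟨fun n hn => ?_, fun j => ?_⟩
    · rw [gp_succ] at hn
      obtain ⟨p, hp, h⟩ := Finset.exists_ne_zero_of_sum_ne_zero hn
      exact (gp_ps_up ih (hS p hp)).supp n (right_ne_zero_of_mul h)
    · refine (summable_sum fun p hp => ((gp_ps_up ih (hS p hp)).rapid j).mul_left ‖b p‖).of_nonneg_of_le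
        (fun n => mul_nonneg (norm_nonneg _) (pow_nonneg (N_nonneg n) j)) fun n => ?_
      simp only [← mul_assoc, ← Finset.sum_mul, ← norm_mul]
      rw [gp_succ]
      exact mul_le_mul_of_nonneg_right (norm_sum_le _ _) (pow_nonneg (N_nonneg n) j)

/-- `tsum_dvd`, `Summable.tsum_finsetSum` -/
theorem tsum_addP_succ {a : O → ℂ} (ha : PS a) {S : Finset O} (hS : ∀ p ∈ S, Prim p) (b : O → ℂ)
    (J : ℕ) {Φ : O → ℂ} {M : ℝ} (hΦ : ∀ n, ‖Φ n‖ ≤ M) :
    ∑' n, addP S b (J + 1) a n * Φ n = ∑ p ∈ S, b p * ∑' m, addP S b J a m * Φ (p * m) := by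
  simp only [gp_succ, Finset.sum_mul, mul_assoc]
  rw [Summable.tsum_finsetSum fun p hp =>
    (gp_summ (gp_ps_up (ha.addP hS b J) (hS p hp)) hΦ).mul_left (b p)]
  refine Finset.sum_congr rfl fun p hp => ?_
  have h := tsum_dvd (hS p hp).ne_zero fun n => gpUp p (addP S b J a) n * Φ n
  simp only [gp_up_mul (hS p hp).ne_zero] at h
  rw [tsum_mul_left, ← h]
  congr 1
  refine tsum_congr fun n => ?_
  split_ifs with h'
  · rfl
  · rw [gpUp, if_neg h', zero_mul]

theorem row_addP {a ψ : O → ℂ} (hψ : Mult ψ) (ha : PS a) {S : Finset O} (hS : ∀ p ∈ S, Prim p)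
    (b : O → ℂ) (J : ℕ) :
    ∑' n, addP S b J a n * ψ n = (∑ p ∈ S, b p * ψ p) ^ J * ∑' n, a n * ψ n := by
  induction J with
  | zero => simp [addP]
  | succ J ih =>
    rw [tsum_addP_succ ha hS b J hψ.bd, pow_succ', mul_assoc, ← ih, Finset.sum_mul]
    refine Finset.sum_congr rfl fun p _ => ?_
    rw [mul_assoc, ← tsum_mul_left (a := ψ p)]
    congr 1
    exact tsum_congr fun m => by rw [hψ.mul, mul_left_comm]

theorem addP_tw (s : ℂ) (a b : O → ℂ) {S : Finset O} (hS : ∀ p ∈ S, p ≠ 0) (J : ℕ) :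
    addP S (tw s b) J (tw s a) = tw s (addP S b J a) := by
  induction J with
  | zero => rfl
  | succ J ih =>
    funext n
    simp only [addP, ih, tw, Finset.sum_mul]
    refine Finset.sum_congr rfl fun p hp => ?_
    split_ifs with h
    · obtain ⟨m, rfl⟩ := h
      rw [mul_div_cancel_left₀ m (hS p hp), LM.N_cpow_mul]
      ring
    · rw [zero_mul]

theorem addP_supp {Q : Lev} {a : O → ℂ} (ha : ∀ n, a n ≠ 0 → P0 Q n) {S : Finset O}
    (hS : ∀ p ∈ S, P0 Q p) (b : O → ℂ) (J : ℕ) : ∀ n, addP S b J a n ≠ 0 → P0 Q n := by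
  induction J with
  | zero => exact ha
  | succ J ih =>
    intro n hn
    rw [gp_succ] at hn
    obtain ⟨p, hp, h⟩ := Finset.exists_ne_zero_of_sum_ne_zero hn
    have h' := right_ne_zero_of_mul h
    obtain ⟨m, rfl⟩ : p ∣ n := by_contra fun h => h' (if_neg h)
    rw [gp_up_mul (hS p hp).1.ne_zero] at h'
    exact (hS p hp).mul (ih m h')

theorem gp_bd {ψ Φ : O → ℂ} (hψ : Mult ψ) {G H : O} {M : ℝ} (h : Test ψ G H M Φ) (p m : O) :
    ‖Φ (p * m) - ψ p * Φ m‖ ≤ 2 * M := by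
  refine (norm_sub_le _ _).trans ?_
  rw [norm_mul]
  linarith [h.bd (p * m), h.bd m, mul_le_of_le_one_left (norm_nonneg (Φ m)) (hψ.bd p)]

theorem gp_supp {ψ Φ : O → ℂ} {G H : O} {M : ℝ} (h : Test ψ G H M Φ) {p m : O} (hp' : Prim p)
    (hm : Prim m) (h0 : Φ (p * m) - ψ p * Φ m ≠ 0) : G ∣ p * m := by
  by_contra hc
  have h1 : Φ (p * m) = 0 := by_contra fun e => hc (h.supp _ (hp'.mul hm) e)
  have h2 : Φ m = 0 := by_contra fun e => hc ((h.supp _ hm e).mul_left p)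
  exact h0 (by rw [h1, h2, mul_zero, sub_zero])

theorem gp_mul {ψ Φ : O → ℂ} {G H : O} {M : ℝ} (h : Test ψ G H M Φ) {p q n : O} (hp' : Prim p)
    (hq : Prime q) (hq' : Prim q) (hn : Prim n) (h1 : ¬ q ∣ n) (h2 : ¬ q ∣ H) (h3 : ¬ q ∣ p) :
    Φ (p * (q * n)) - ψ p * Φ (q * n) = ψ q * (Φ (p * n) - ψ p * Φ n) := by
  rw [mul_left_comm p, h.mul q _ hq hq' (hp'.mul hn) (fun e => (hq.dvd_or_dvd e).elim h3 h1) h2,
    h.mul q n hq hq' hn h1 h2]
  ring

/-- the difference `Φ(p ·) - ψ(p) Φ` for a new prime: it vanishes at `m` unless `p ∣ m`, and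
`G ∣ p m ⇒ G ∣ m` because `p ∤ G` -/
theorem Test.diff_new {ψ Φ : O → ℂ} (hψ : Mult ψ) {G H : O} {M : ℝ} (h : Test ψ G H M Φ) {p : O}
    (hp : Prime p) (hp' : Prim p) (hH : ¬ p ∣ H) :
    Test ψ (G * p) (H * p) (2 * M) (fun m => Φ (p * m) - ψ p * Φ m) := by
  have hc : IsCoprime G p := (hp.coprime_iff_not_dvd.2 fun e => hH (e.trans h.dvd)).symm
  refine ⟨h.primG.mul hp', h.primH.mul hp', mul_dvd_mul_right h.dvd p, fun m hm h0 => ?_,
    gp_bd hψ h p, fun q n hq hq' hn h1 h2 => gp_mul h hp' hq hq' hn h1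
      (fun e => h2 (e.mul_right p)) fun e => h2 (e.mul_left H)⟩
  refine hc.mul_dvd (hc.dvd_of_dvd_mul_left (gp_supp h hp' hm h0)) (by_contra fun e => h0 ?_)
  rw [h.mul p m hp hp' hm e hH, sub_self]

/-- the difference for a prime dividing `H`: `G' = G/p` if `p ∣ G`, else `G' = G` -/
theorem Test.diff_old {ψ Φ : O → ℂ} (hψ : Mult ψ) {G H : O} {M : ℝ} (h : Test ψ G H M Φ) {p : O}
    (hp : Prime p) (hp' : Prim p) (hH : p ∣ H) :
    ∃ G', N G ≤ N G' * N p ∧ Test ψ G' H (2 * M) (fun m => Φ (p * m) - ψ p * Φ m) := by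
  have key : ∀ G', Prim G' → G' ∣ H → (∀ m, G ∣ p * m → G' ∣ m) →
      Test ψ G' H (2 * M) (fun m => Φ (p * m) - ψ p * Φ m) := fun G' h1 h2 h3 =>
    ⟨h1, h.primH, h2, fun m hm h0 => h3 m (gp_supp h hp' hm h0), gp_bd hψ h p,
      fun q n hq hq' hn h1 h2 => gp_mul h hp' hq hq' hn h1 h2 fun e => h2 (e.trans hH)⟩
  by_cases hG : p ∣ G
  · obtain ⟨G', rfl⟩ := hG
    exact ⟨G', by rw [N_mul, mul_comm], key G' (h.primG.of_mul_left hp')
      ((dvd_mul_left G' p).trans h.dvd) fun m hm => (mul_dvd_mul_iff_left hp.ne_zero).1 hm⟩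
  · exact ⟨G, le_mul_of_one_le_right (N_nonneg G) (one_le_N hp.ne_zero), key G h.primG h.dvd
      fun m hm => (hp.coprime_iff_not_dvd.2 hG).symm.dvd_of_dvd_mul_left hm⟩

/-- Induction on `J` (for all `G H M Φ`): with `T_J(Φ) = ∑' addP J a · Φ`,
`T_{J+1}(Φ) = (∑ b ψ) T_J(Φ) + ∑_p b(p) T_J(Φ(p·) - ψ(p)Φ)`; primes `p ∤ H` contribute `2Λ₁`
(`diff_new`; the number of `p' ∈ S` dividing `H p` grows by at most one, as `p' ∣ p` forces `p' = p`
for primary primes), the at most `Ω` primes `p ∣ H` contribute `2Λ₂` each (`diff_old`). -/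
theorem tb_addP {a ψ : O → ℂ} (hψ : Mult ψ) (ha : PS a) {S : Finset O}
    (hS : ∀ p ∈ S, Prime p ∧ Prim p) (b : O → ℂ) {γ δ F Λ1 Λ2 Ω : ℝ} (hγ : 0 ≤ γ) (hF : 0 ≤ F)
    (hΛ2 : 0 ≤ Λ2) (hT : TB a ψ γ δ F) (h1 : ∑ p ∈ S, ‖b p‖ * N p ^ (-γ + δ) ≤ Λ1)
    (h2 : ∀ p ∈ S, ‖b p‖ * N p ^ γ ≤ Λ2) (J : ℕ) {G H : O} {M : ℝ} {Φ : O → ℂ}
    (hΦ : Test ψ G H M Φ) (hΩ : ((S.filter (fun p => p ∣ H)).card : ℝ) + J ≤ Ω) :
    ‖∑' n, addP S b J a n * Φ n‖ ≤
      M * F * N G ^ (-γ) * N H ^ δ * (‖∑ p ∈ S, b p * ψ p‖ + 2 * Λ1 + 2 * Ω * Λ2) ^ J := by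
  have hS' : ∀ p ∈ S, Prim p := fun p hp => (hS p hp).2
  have hΛ1 : 0 ≤ Λ1 := (Finset.sum_nonneg fun p _ =>
    mul_nonneg (norm_nonneg _) (Real.rpow_nonneg (N_nonneg p) _)).trans h1
  induction J generalizing G H M Φ with
  | zero => simpa [addP] using hT G H M Φ hΦ
  | succ J ih =>
    have hM : 0 ≤ M := (norm_nonneg _).trans (hΦ.bd 0)
    have hJ : (0 : ℝ) ≤ J := Nat.cast_nonneg J
    have hc : (0 : ℝ) ≤ (S.filter (fun p => p ∣ H)).card := Nat.cast_nonneg _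
    push_cast at hΩ
    have hΩ0 : 0 ≤ Ω := by linarith
    set K := ‖∑ p ∈ S, b p * ψ p‖ + 2 * Λ1 + 2 * Ω * Λ2 with hK
    have hG := N_pos hΦ.primG.ne_zero
    have hH := N_pos hΦ.primH.ne_zero
    set B := M * F * N G ^ (-γ) * N H ^ δ * K ^ J with hB
    have hB0 : 0 ≤ B := by positivity
    have hps := ha.addP hS' b J
    have e1 : ∑' n, addP S b (J + 1) a n * Φ n = (∑ p ∈ S, b p * ψ p) * ∑' n, addP S b J a n * Φ n +
        ∑ p ∈ S, b p * ∑' m, addP S b J a m * (Φ (p * m) - ψ p * Φ m) := by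
      rw [tsum_addP_succ ha hS' b J hΦ.bd, Finset.sum_mul, ← Finset.sum_add_distrib]
      refine Finset.sum_congr rfl fun p _ => ?_
      simp only [mul_sub, mul_left_comm _ (ψ p)]
      rw [(gp_summ hps fun m => hΦ.bd (p * m)).tsum_sub ((gp_summ hps hΦ.bd).mul_left _),
        tsum_mul_left]
      ring
    have e2 : ∀ p ∈ S, ‖b p * ∑' m, addP S b J a m * (Φ (p * m) - ψ p * Φ m)‖ ≤
        2 * B * (‖b p‖ * N p ^ (-γ + δ)) + if p ∣ H then 2 * B * Λ2 else 0 := by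
      intro p hp
      have hp0 := N_pos (hS' p hp).ne_zero
      rw [norm_mul]
      split_ifs with hpH
      · obtain ⟨G', k1, k2⟩ := hΦ.diff_old hψ (hS p hp).1 (hS' p hp) hpH
        have hG' := N_pos k2.primG.ne_zero
        have k3 : N G' ^ (-γ) ≤ N G ^ (-γ) * N p ^ γ := by
          rw [← div_le_iff₀ (by positivity), div_eq_mul_inv, ← Real.rpow_neg hp0.le,
            ← Real.mul_rpow hG'.le hp0.le]
          exact Real.rpow_le_rpow_of_nonpos hG k1 (by linarith)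
        refine le_add_of_nonneg_of_le (by positivity) ?_
        calc _ ≤ ‖b p‖ * (2 * M * F * (N G ^ (-γ) * N p ^ γ) * N H ^ δ * K ^ J) := by
              refine mul_le_mul_of_nonneg_left ((ih k2 (by linarith)).trans ?_) (norm_nonneg _)
              gcongr
          _ = 2 * B * (‖b p‖ * N p ^ γ) := by rw [hB]; ring
          _ ≤ _ := mul_le_mul_of_nonneg_left (h2 p hp) (by positivity)
      · have k1 : (S.filter (fun p' => p' ∣ H * p)).card ≤ (S.filter (fun p' => p' ∣ H)).card + 1 := by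
          refine (Finset.card_le_card fun p' hp' => ?_).trans (Finset.card_insert_le p _)
          obtain ⟨k2, k3⟩ := Finset.mem_filter.1 hp'
          rcases (hS p' k2).1.dvd_or_dvd k3 with k4 | k4
          · exact Finset.mem_insert_of_mem (Finset.mem_filter.2 ⟨k2, k4⟩)
          · exact Finset.mem_insert.2 (Or.inl ((hS' p' k2).eq_of_associated (hS' p hp)
              ((hS p' k2).1.associated_of_dvd (hS p hp).1 k4)))
        have k2 : ((S.filter (fun p' => p' ∣ H * p)).card : ℝ) ≤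
            (S.filter (fun p' => p' ∣ H)).card + 1 := by exact_mod_cast k1
        refine (mul_le_mul_of_nonneg_left (ih (hΦ.diff_new hψ (hS p hp).1 (hS' p hp) hpH)
          (by linarith)) (norm_nonneg _)).trans (le_of_eq ?_)
        rw [N_mul, N_mul, Real.mul_rpow hG.le hp0.le, Real.mul_rpow hH.le hp0.le,
          Real.rpow_add hp0, hB]
        ring
    have e3 := (norm_sum_le _ _).trans (Finset.sum_le_sum e2)
    rw [Finset.sum_add_distrib, ← Finset.mul_sum, ← Finset.sum_filter, Finset.sum_const,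
      nsmul_eq_mul] at e3
    have e4 := mul_le_mul_of_nonneg_left (ih hΦ (by linarith)) (norm_nonneg (∑ p ∈ S, b p * ψ p))
    have e5 := mul_le_mul_of_nonneg_left h1 (show 0 ≤ 2 * B by positivity)
    have e6 := mul_le_mul_of_nonneg_right
      (show ((S.filter (fun p => p ∣ H)).card : ℝ) ≤ Ω by linarith)
      (show 0 ≤ 2 * B * Λ2 by positivity)
    rw [e1, pow_succ, ← mul_assoc, ← hB, hK]
    refine (norm_add_le _ _).trans ?_
    rw [norm_mul]
    linarith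

end Crest.Agent.R17.GM
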