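import Crest.Agent.R17.GMoment_Trow

/-!
# R17 / GMoment_Qform : the bilinear form after two Poisson steps
-/

set_option autoImplicit false

noncomputable section

open scoped Classical ComplexConjugate
open MeasureTheory

namespace Crest.Agent.R17.GM

set_option maxHeartbeats 1000000 in
/-- Let `ε₁ = ε/3`, `A0 ≥ 2` with `ε₁ (A0 - 1) ≥ 7 |A|`, `j = A0 + 3`, `U = X² Z^{ε₁}/D`,
`T = C₀ Z^{ε₁/3}` (`card_pdiv_le`, `N ρ ≤ D ≤ Z^A ≤ Z^{|A|+1}`).  Apply `pstep` with `σ = δ/2`.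
First term: `h1` at `n = 1`.  Second term: `(D N k)^{-σ} ≤ 1`, `trow` (with exponent `8|A| + ε₁` in
place of `A`), `integral_Gm_le`, and bound the finite partial sums of the `r`-series
(`summable_N_rpow`, `sum_sq_mult`); `D U = X² Z^{ε₁}`, so the three parts are `X 𝒜⁵ Λ² Z^{ε₁}`,
`𝒜⁵ T³ Z^{ε₁} ∑ F`, and `D Λ² X⁷ Z^{-ε₁(A0-1)} ≤ D Λ²`.  Third term: `mom_adm`, `≤ C Λ² ≤ C Λ² D`. -/
theorem qform_le (A : ℝ) {ε δ : ℝ} (hε : 0 < ε) (hδ : 0 < δ) (hδ1 : δ ≤ 1) : ∃ j : ℕ, ∀ Q : Lev,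
    ∃ C, 0 ≤ C ∧ ∀ Z : ℝ, 3 ≤ Z → ∀ (α : O → ℂ) (Λ X : ℝ) (F : O → ℝ) (D 𝒜 : ℝ),
    SuppSq Q 1 α → Adm Q δ j (D / 𝒜 ^ 6) α Λ X F → X ≤ Z ^ A → 1 ≤ D → D ≤ Z ^ A → 1 ≤ 𝒜 →
    𝒜 ≤ Z ^ A → ‖Qform α 1 D‖ ≤
      C * Z ^ ε * (Λ ^ 2 * (D + X * 𝒜 ^ 5) + 𝒜 ^ 5 * ∑ ρ ∈ ball (D / 𝒜 ^ 6), F ρ) := by
  rcases lt_or_ge A 0 with hA | hA
  · refine ⟨0, fun Q => ⟨0, le_rfl, fun Z hZ α Λ X F D 𝒜 _ _ _ h1 h2 _ _ => ?_⟩⟩
    exact absurd (h1.trans h2) (not_le.2 (Real.rpow_lt_one_of_one_lt_of_neg (by linarith) hA))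
  obtain ⟨ε1, hε1, rfl⟩ : ∃ ε1, 0 < ε1 ∧ ε = ε1 * 3 := ⟨ε / 3, by positivity, by ring⟩
  obtain ⟨n, hn⟩ := exists_nat_ge (7 * A / ε1)
  have hn' : 7 * A ≤ ε1 * ((n + 1 : ℕ) : ℝ) := by
    rw [div_le_iff₀ hε1] at hn
    push_cast
    nlinarith
  refine ⟨n + 2 + 3, fun Q => ?_⟩
  obtain ⟨C, hC⟩ := pstep Q (σ := δ / 2) (by positivity) (by linarith) (A0 := n + 2) (by omega)
  obtain ⟨Ct, hCt, htrow⟩ := trow Q (8 * A + ε1) hε1 hδ hδ1 (A0 := n + 2) (by omega)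
  obtain ⟨Cg, hCg, hg⟩ := integral_Gm_le (σ := δ / 2) (by positivity)
  obtain ⟨Cm, hCm, hm⟩ := mom_adm
  obtain ⟨C0, hC0⟩ := card_pdiv_le (ε := ε1 / 3 / (A + 1)) (by positivity)
  have s1 := summable_N_rpow (σ := 1 + δ) (by linarith)
  have s2 := summable_N_rpow (σ := 2) (by norm_num)
  obtain ⟨Z1, hZ1⟩ : ∃ Z1, Z1 = ∑' n : O, N n ^ (-(1 + δ)) := ⟨_, rfl⟩
  obtain ⟨Z2, hZ2⟩ : ∃ Z2, Z2 = ∑' n : O, N n ^ (-(2 : ℝ)) := ⟨_, rfl⟩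
  have hZ10 : 0 ≤ Z1 := hZ1 ▸ tsum_nonneg fun n => Real.rpow_nonneg (N_nonneg n) _
  have hZ20 : 0 ≤ Z2 := hZ2 ▸ tsum_nonneg fun n => Real.rpow_nonneg (N_nonneg n) _
  obtain ⟨H, hH⟩ : ∃ H : ℝ, H = (hchars Q.q).card := ⟨_, rfl⟩
  have hH0 : 0 ≤ H := hH ▸ Nat.cast_nonneg _
  refine ⟨|C| * (1 + H * Cg * Ct * (Z1 + |C0| ^ 3 + Z2) + Cm), by positivity,
    fun Z hZ α Λ X F D 𝒜 hs had hX hD1 hD h𝒜1 h𝒜 => ?_⟩
  have hZ0 : 0 < Z := by linarith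
  have hZ1' : 1 ≤ Z := by linarith
  have hX0 := had.xpos
  have hΛ := had.lam
  have hD0 : 0 < D := by linarith
  obtain ⟨P, hP⟩ : ∃ P, P = Z ^ ε1 := ⟨_, rfl⟩
  have hP1 : 1 ≤ P := hP ▸ Real.one_le_rpow hZ1' hε1.le
  have hP3 : Z ^ (ε1 * 3) = P ^ 3 := by
    rw [hP, Real.rpow_mul hZ0.le]
    exact Real.rpow_ofNat _ 3
  obtain ⟨T, hT⟩ : ∃ T, T = |C0| * Z ^ (ε1 / 3) := ⟨_, rfl⟩
  have hT0 : 0 ≤ T := by rw [hT]; positivity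
  have hT3 : T ^ 3 = |C0| ^ 3 * P := by
    rw [hT, mul_pow, ← Real.rpow_natCast (Z ^ (ε1 / 3)), ← Real.rpow_mul hZ0.le, hP]
    congr 2
    push_cast
    ring
  obtain ⟨U, hU⟩ : ∃ U, U = X ^ 2 * P / D := ⟨_, rfl⟩
  have hU0 : 0 < U := by rw [hU]; positivity
  have hDU : D * U = X ^ 2 * P := by rw [hU]; field_simp
  have hY : 1 ≤ Z ^ A := Real.one_le_rpow hZ1' hA
  have h8 : Z ^ (8 * A + ε1) = (Z ^ A) ^ 8 * P := by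
    rw [Real.rpow_add hZ0, hP, mul_comm 8 A, Real.rpow_mul hZ0.le]
    congr 1
    exact Real.rpow_ofNat _ 8
  have hTb : ∀ ρ ∈ ball (D / 𝒜 ^ 6), ((pdiv ρ).card : ℝ) ≤ T := by
    intro ρ hρ
    obtain ⟨h0, h1⟩ := mem_ball.1 hρ
    have h2 : N ρ ≤ Z ^ (A + 1) :=
      (h1.trans ((div_le_self hD0.le (one_le_pow₀ h𝒜1)).trans hD)).trans
        (Real.rpow_le_rpow_of_exponent_le hZ1' (by linarith))
    have h3 : N ρ ^ (ε1 / 3 / (A + 1)) ≤ Z ^ (ε1 / 3) := by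
      refine (Real.rpow_le_rpow (N_nonneg _) h2 (by positivity)).trans (le_of_eq ?_)
      rw [← Real.rpow_mul hZ0.le]
      congr 1
      field_simp
    refine (hC0 ρ h0).trans ?_
    rw [hT]
    exact mul_le_mul (le_abs_self _) h3 (Real.rpow_nonneg (N_nonneg _) _) (abs_nonneg _)
  have ht := htrow Z hZ α Λ X F D 𝒜 U T hs had hD0 h𝒜1
    (by
      rw [h8]
      calc 𝒜 ≤ Z ^ A := h𝒜
        _ ≤ (Z ^ A) ^ 8 := le_self_pow₀ hY (by norm_num)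
        _ ≤ _ := le_mul_of_one_le_right (by positivity) hP1) hU0
    (by
      rw [h8]
      calc U * 𝒜 ^ 6 ≤ (X ^ 2 * P) * 𝒜 ^ 6 := by
            rw [hU]
            exact mul_le_mul_of_nonneg_right (div_le_self (by positivity) hD1) (by positivity)
        _ ≤ ((Z ^ A) ^ 2 * P) * (Z ^ A) ^ 6 := by gcongr
        _ = _ := by ring) hT0 hTb
  rw [← hP] at ht
  obtain ⟨W, hW⟩ : ∃ W, W = (D * U) * ((D * U) ^ (n + 2))⁻¹ * X ^ (2 * (n + 2) + 5) := ⟨_, rfl⟩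
  have hW0 : 0 ≤ W := by rw [hW]; positivity
  have hW1 : W ≤ 1 := by
    have e : W = X ^ 7 / P ^ (n + 1) := by
      rw [hW, hDU]
      field_simp
      ring
    rw [e, div_le_one (by positivity)]
    calc X ^ 7 ≤ (Z ^ A) ^ 7 := by gcongr
      _ = Z ^ (7 * A) := by
          rw [mul_comm, Real.rpow_mul hZ0.le]
          exact (Real.rpow_ofNat _ 7).symm
      _ ≤ Z ^ (ε1 * ((n + 1 : ℕ) : ℝ)) := Real.rpow_le_rpow_of_exponent_le hZ1' hn'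
      _ = _ := by rw [Real.rpow_mul hZ0.le, Real.rpow_natCast, hP]
  obtain ⟨SF, hSF⟩ : ∃ SF, SF = ∑ ρ ∈ ball (D / 𝒜 ^ 6), F ρ := ⟨_, rfl⟩
  have hSF0 : 0 ≤ SF := hSF ▸ Finset.sum_nonneg fun ρ _ => had.fnn ρ
  -- the three terms
  have h1 : ‖α 1‖ ^ 2 ≤ Λ ^ 2 := by
    have := had.h1 1
    rw [show N 1 = 1 by simp [N], Real.one_rpow, mul_one] at this
    gcongr
  have h3 : (D * U) * ((D * U) ^ (n + 2))⁻¹ * mom α (n + 2) ^ 2 ≤ Cm * Λ ^ 2 := by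
    calc _ ≤ (D * U) * ((D * U) ^ (n + 2))⁻¹ * (Cm * (Λ ^ 2 * X ^ (2 * (n + 2) + 5))) :=
          mul_le_mul_of_nonneg_left (hm Q δ (n + 2) _ α Λ X F hδ had) (by positivity)
      _ = Cm * Λ ^ 2 * W := by rw [hW]; ring
      _ ≤ _ := mul_le_of_le_one_right (by positivity) hW1
  have h2 : ∑' r : O, (if Prim r then
      ∑ ν ∈ hchars Q.q, ∫ τ : ℝ, Gm (δ / 2) τ * ∑ k ∈ ball U,
        (D * N k) ^ (-(δ / 2)) * ‖Tsum α ν r 1 k (δ / 2) τ‖ ^ 2 else 0) ≤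
      H * Cg * (Ct * P * (U * 𝒜 ^ 5 * (Λ ^ 2 * X⁻¹ * Z1 + T ^ 2 * (X ^ 2)⁻¹ * (T * SF)) +
        W * Λ ^ 2 * Z2)) := by
    refine tsum_le_of_sum_le' (by positivity) fun s => ?_
    rw [← Finset.sum_filter]
    have h4 : ∀ r ∈ s.filter Prim, ∑ ν ∈ hchars Q.q, ∫ τ : ℝ, Gm (δ / 2) τ * ∑ k ∈ ball U,
        (D * N k) ^ (-(δ / 2)) * ‖Tsum α ν r 1 k (δ / 2) τ‖ ^ 2 ≤
        H * Cg * (Ct * P * (U * 𝒜 ^ 5 * (Λ ^ 2 * X⁻¹ * N r ^ (-(1 + δ)) +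
          T ^ 2 * (X ^ 2)⁻¹ * ∑ ρ ∈ ball (D / 𝒜 ^ 6 / N r ^ 2), F (ρ * r ^ 2)) +
          W * Λ ^ 2 * N r ^ (-(2 : ℝ)))) := by
      intro r hr
      have hr' := (Finset.mem_filter.1 hr).2
      have hN := N_nonneg r
      have hF : 0 ≤ ∑ ρ ∈ ball (D / 𝒜 ^ 6 / N r ^ 2), F (ρ * r ^ 2) :=
        Finset.sum_nonneg fun ρ _ => had.fnn _
      rw [hH, mul_assoc, ← nsmul_eq_mul]
      refine Finset.sum_le_card_nsmul _ _ _ fun ν hν => hg _ _ (by positivity) (fun τ => ?_)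
        fun τ => ?_
      · exact Finset.sum_nonneg fun k _ =>
          mul_nonneg (Real.rpow_nonneg (mul_nonneg hD0.le (N_nonneg k)) _) (sq_nonneg _)
      · refine le_trans (Finset.sum_le_sum fun k hk => ?_) ((ht r hr' ν hν τ).trans (le_of_eq ?_))
        · refine mul_le_of_le_one_left (sq_nonneg _)
            (Real.rpow_le_one_of_one_le_of_nonpos ?_ (by linarith))
          exact one_le_mul_of_one_le_of_one_le hD1 (one_le_N (mem_ball.1 hk).1)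
        · rw [hW]
          ring
    refine (Finset.sum_le_sum h4).trans ?_
    rw [← Finset.mul_sum, ← Finset.mul_sum, Finset.sum_add_distrib, ← Finset.mul_sum,
      ← Finset.mul_sum, Finset.sum_add_distrib, ← Finset.mul_sum, ← Finset.mul_sum]
    have a1 : ∑ r ∈ s.filter Prim, N r ^ (-(1 + δ)) ≤ Z1 :=
      hZ1 ▸ s1.sum_le_tsum _ fun n _ => Real.rpow_nonneg (N_nonneg n) _
    have a2 : ∑ r ∈ s.filter Prim, N r ^ (-(2 : ℝ)) ≤ Z2 :=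
      hZ2 ▸ s2.sum_le_tsum _ fun n _ => Real.rpow_nonneg (N_nonneg n) _
    have a3 : ∑ r ∈ s.filter Prim, ∑ ρ ∈ ball (D / 𝒜 ^ 6 / N r ^ 2), F (ρ * r ^ 2) ≤ T * SF :=
      hSF ▸ sum_sq_mult hTb had.fnn _ fun r hr => (Finset.mem_filter.1 hr).2
    gcongr
  have h0 := hC α hs had.rapid D U hD0 hU0
  have h2' : 0 ≤ ∑' r : O, (if Prim r then
      ∑ ν ∈ hchars Q.q, ∫ τ : ℝ, Gm (δ / 2) τ * ∑ k ∈ ball U,
        (D * N k) ^ (-(δ / 2)) * ‖Tsum α ν r 1 k (δ / 2) τ‖ ^ 2 else 0) := by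
    refine tsum_nonneg fun r => ?_
    split_ifs
    · exact Finset.sum_nonneg fun ν _ => integral_nonneg fun τ => mul_nonneg (norm_nonneg _)
        (Finset.sum_nonneg fun k _ =>
          mul_nonneg (Real.rpow_nonneg (mul_nonneg hD0.le (N_nonneg k)) _) (sq_nonneg _))
    · exact le_rfl
  generalize (∑' r : O, (if Prim r then
      ∑ ν ∈ hchars Q.q, ∫ τ : ℝ, Gm (δ / 2) τ * ∑ k ∈ ball U,
        (D * N k) ^ (-(δ / 2)) * ‖Tsum α ν r 1 k (δ / 2) τ‖ ^ 2 else 0)) = S at h0 h2 h2'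
  rw [hP3, ← hSF]
  obtain ⟨R, hR⟩ : ∃ R, R = Λ ^ 2 * (D + X * 𝒜 ^ 5) + 𝒜 ^ 5 * SF := ⟨_, rfl⟩
  have r1 : Λ ^ 2 * D ≤ R := by
    rw [hR, mul_add, add_assoc]
    exact le_add_of_nonneg_right (by positivity)
  have r2 : Λ ^ 2 * (X * 𝒜 ^ 5) ≤ R := by
    rw [hR, mul_add, add_comm (Λ ^ 2 * D), add_assoc]
    exact le_add_of_nonneg_right (by positivity)
  have r3 : 𝒜 ^ 5 * SF ≤ R := by
    rw [hR]
    exact le_add_of_nonneg_left (by positivity)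
  have hR0 : 0 ≤ R := le_trans (by positivity) r1
  have hP3' : 1 ≤ P ^ 3 := one_le_pow₀ hP1
  have b1 : D * ‖α 1‖ ^ 2 ≤ P ^ 3 * R := by
    calc D * ‖α 1‖ ^ 2 ≤ D * Λ ^ 2 := by gcongr
      _ ≤ R := by rw [mul_comm]; exact r1
      _ ≤ _ := le_mul_of_one_le_left hR0 hP3'
  have b3 : (D * U) * ((D * U) ^ (n + 2))⁻¹ * mom α (n + 2) ^ 2 ≤ Cm * (P ^ 3 * R) := by
    refine h3.trans (mul_le_mul_of_nonneg_left ?_ hCm)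
    calc Λ ^ 2 ≤ Λ ^ 2 * D := le_mul_of_one_le_right (by positivity) hD1
      _ ≤ R := r1
      _ ≤ _ := le_mul_of_one_le_left hR0 hP3'
  have b2 : D * S ≤ H * Cg * Ct * (Z1 + |C0| ^ 3 + Z2) * (P ^ 3 * R) := by
    refine (mul_le_mul_of_nonneg_left h2 hD0.le).trans ?_
    have e : D * (H * Cg * (Ct * P * (U * 𝒜 ^ 5 * (Λ ^ 2 * X⁻¹ * Z1 +
        T ^ 2 * (X ^ 2)⁻¹ * (T * SF)) + W * Λ ^ 2 * Z2))) =
        H * Cg * Ct * (Z1 * (P ^ 2 * (Λ ^ 2 * (X * 𝒜 ^ 5))) + |C0| ^ 3 * (P ^ 3 * (𝒜 ^ 5 * SF)) +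
          Z2 * (P * W * (Λ ^ 2 * D))) := by
      have e1 : D * (H * Cg * (Ct * P * (U * 𝒜 ^ 5 * (Λ ^ 2 * X⁻¹ * Z1 +
          T ^ 2 * (X ^ 2)⁻¹ * (T * SF)) + W * Λ ^ 2 * Z2))) =
          H * Cg * Ct * (P * ((D * U) * 𝒜 ^ 5 * (Λ ^ 2 * X⁻¹ * Z1 +
          T ^ 3 * (X ^ 2)⁻¹ * SF)) + Z2 * (P * W * (Λ ^ 2 * D))) := by ring
      rw [e1, hDU, hT3]
      field_simp
    rw [e, mul_assoc (H * Cg * Ct), add_mul, add_mul]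
    have c1 : P ^ 2 ≤ P ^ 3 := pow_le_pow_right₀ hP1 (by norm_num)
    have c2 : P * W ≤ P ^ 3 :=
      (mul_le_of_le_one_right (by positivity) hW1).trans (le_self_pow₀ hP1 (by norm_num))
    gcongr
  have hCa := le_abs_self C
  rw [← hR]
  calc _ ≤ _ := h0
    _ = C * (D * ‖α 1‖ ^ 2 + D * S + (D * U) * ((D * U) ^ (n + 2))⁻¹ * mom α (n + 2) ^ 2) := by
        ring
    _ ≤ |C| * (D * ‖α 1‖ ^ 2 + D * S + (D * U) * ((D * U) ^ (n + 2))⁻¹ * mom α (n + 2) ^ 2) :=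
        mul_le_mul_of_nonneg_right hCa (by positivity)
    _ ≤ |C| * (P ^ 3 * R + H * Cg * Ct * (Z1 + |C0| ^ 3 + Z2) * (P ^ 3 * R) + Cm * (P ^ 3 * R)) := by
        gcongr
    _ = _ := by ring

end Crest.Agent.R17.GM
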