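import Crest.Agent.R17.GMoment_Sup

/-!
# R17 / GMoment_Refl : reflection inside weighted moments
-/

set_option autoImplicit false

noncomputable section

open scoped Classical ComplexConjugate
open MeasureTheory

namespace Crest.Agent.R17.GM

theorem gmr_gauss : Integrable fun τ : ℝ => Real.exp (-τ ^ 2 / 4) := by
  convert integrable_exp_neg_mul_sq (b := 1 / 4) (by norm_num) using 3
  ring

theorem gmr_gauss_pow (B : ℕ) :
    Integrable fun τ : ℝ => Real.exp (-τ ^ 2 / 4) * (1 + |τ|) ^ B := by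
  obtain ⟨C, -, h⟩ := integral_weight_le B
  have h1 := ((h 0).1).const_mul (Real.exp 1)
  refine h1.mono' (by fun_prop : Continuous fun τ : ℝ =>
    Real.exp (-τ ^ 2 / 4) * (1 + |τ|) ^ B).aestronglyMeasurable (ae_of_all _ fun τ => ?_)
  rw [Real.norm_of_nonneg (by positivity), sub_zero, ← mul_assoc, ← Real.exp_add]
  refine mul_le_mul_of_nonneg_right (Real.exp_le_exp.2 ?_) (by positivity)
  nlinarith [sq_nonneg (|τ| / 2 - 1 / 8), sq_abs τ]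

/-- the inner integrals -/
def gmrG (ψ : O → ℂ) (a b t : ℝ) (j : ℕ) (τ : ℝ) : ℝ :=
  ∫ y' in Set.Icc a b, ‖pb ψ y' (t + τ)‖ ^ j

theorem gmr_cont1 {ψ : O → ℂ} (hψ : ∀ n, ‖ψ n‖ ≤ 1) (t' : ℝ) (j : ℕ) :
    Continuous fun y' : ℝ => ‖pb ψ y' t'‖ ^ j :=
  (((continuous_pb hψ).comp (f := fun y' : ℝ => (y', t')) (by fun_prop)).norm).pow j

theorem gmrG_cont {ψ : O → ℂ} (hψ : ∀ n, ‖ψ n‖ ≤ 1) (a b t : ℝ) (j : ℕ) :
    Continuous (gmrG ψ a b t j) :=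
  continuous_parametric_integral_of_continuous
    ((((continuous_pb hψ).comp (f := fun p : ℝ × ℝ => (p.2, t + p.1)) (by fun_prop)).norm).pow j)
    isCompact_Icc

theorem gmrG_nonneg (ψ : O → ℂ) (a b t : ℝ) (j : ℕ) (τ : ℝ) : 0 ≤ gmrG ψ a b t j τ :=
  integral_nonneg fun _ => by positivity

theorem gmrG_bdd {ψ : O → ℂ} (hψ : ∀ n, ‖ψ n‖ ≤ 1) (a b t : ℝ) (j : ℕ) :
    ∃ K, ∀ τ, ‖gmrG ψ a b t j τ‖ ≤ K := by
  obtain ⟨C, hC0, hC⟩ := pb_triv
  refine ⟨(C * Real.exp b) ^ j * volume.real (Set.Icc a b), fun τ => ?_⟩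
  refine norm_setIntegral_le_of_norm_le_const measure_Icc_lt_top fun y' hy => ?_
  rw [Real.norm_of_nonneg (by positivity)]
  refine pow_le_pow_left₀ (norm_nonneg _) ((hC ψ hψ _ _).2.trans ?_) j
  exact mul_le_mul_of_nonneg_left (Real.exp_le_exp.2 hy.2) hC0

theorem gmrG_int {ψ : O → ℂ} (hψ : ∀ n, ‖ψ n‖ ≤ 1) (a b t : ℝ) (j i : ℕ) :
    Integrable fun τ : ℝ => Real.exp (-τ ^ 2 / 4) * gmrG ψ a b t j τ ^ i := by
  obtain ⟨K, hK⟩ := gmrG_bdd hψ a b t j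
  refine gmr_gauss.mul_bdd (c := K ^ i) ((gmrG_cont hψ a b t j).pow i).aestronglyMeasurable
    (ae_of_all _ fun τ => ?_)
  rw [norm_pow]
  exact pow_le_pow_left₀ (norm_nonneg _) (hK τ) i

theorem gmrG_int1 {ψ : O → ℂ} (hψ : ∀ n, ‖ψ n‖ ≤ 1) (a b t : ℝ) (j : ℕ) :
    Integrable fun τ : ℝ => Real.exp (-τ ^ 2 / 4) * gmrG ψ a b t j τ := by
  simpa using gmrG_int hψ a b t j 1

theorem gmrG_pow_le {ψ : O → ℂ} (hψ : ∀ n, ‖ψ n‖ ≤ 1) (a b t : ℝ) {k : ℕ} (hk : 1 ≤ k) {L : ℝ}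
    (hL : volume.real (Set.Icc a b) ≤ L) (τ : ℝ) :
    gmrG ψ a b t 1 τ ^ k ≤ 2 ^ k * L ^ (k - 1) * gmrG ψ a b t k τ := by
  have hi : ∀ j : ℕ, Integrable (fun y' : ℝ => ‖pb ψ y' (t + τ)‖ ^ j)
      (volume.restrict (Set.Icc a b)) := fun j =>
    (gmr_cont1 hψ (t + τ) j).continuousOn.integrableOn_compact isCompact_Icc
  have h := pow_integral_le (volume.restrict (Set.Icc a b)) (w := fun _ : ℝ => (1 : ℝ))
    (g := fun y' => ‖pb ψ y' (t + τ)‖) hk (fun _ => zero_le_one) (fun _ => norm_nonneg _)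
    (integrable_const _) (by simpa using hi 1) (by simpa using hi k)
  simp only [one_mul, integral_const, smul_eq_mul, mul_one, MeasurableSet.univ,
    measureReal_restrict_apply, Set.univ_inter] at h
  unfold gmrG
  simp only [pow_one]
  refine h.trans (mul_le_mul_of_nonneg_right (mul_le_mul_of_nonneg_left
    (pow_le_pow_left₀ measureReal_nonneg hL _) (by positivity)) ?_)
  exact integral_nonneg fun _ => by positivity

theorem gmr_J_pow {ψ : O → ℂ} (hψ : ∀ n, ‖ψ n‖ ≤ 1) (a b t : ℝ) {k : ℕ} (hk : 1 ≤ k) {L : ℝ}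
    (hL : volume.real (Set.Icc a b) ≤ L) :
    (∫ τ : ℝ, Real.exp (-τ ^ 2 / 4) * gmrG ψ a b t 1 τ) ^ k ≤
      2 ^ k * (∫ τ : ℝ, Real.exp (-τ ^ 2 / 4)) ^ (k - 1) * (2 ^ k * L ^ (k - 1)) *
        ∫ τ : ℝ, Real.exp (-τ ^ 2 / 4) * gmrG ψ a b t k τ := by
  have h := pow_integral_le volume (w := fun τ : ℝ => Real.exp (-τ ^ 2 / 4))
    (g := gmrG ψ a b t 1) hk (fun _ => (Real.exp_pos _).le) (gmrG_nonneg ψ a b t 1)
    gmr_gauss (gmrG_int1 hψ a b t 1) (gmrG_int hψ a b t 1 k)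
  refine h.trans ?_
  have hm : 0 ≤ ∫ τ : ℝ, Real.exp (-τ ^ 2 / 4) := integral_nonneg fun _ => (Real.exp_pos _).le
  rw [mul_assoc (2 ^ k * _ ^ (k - 1)), ← integral_const_mul (2 ^ k * L ^ (k - 1))]
  refine mul_le_mul_of_nonneg_left (integral_mono (gmrG_int hψ a b t 1 k)
    ((gmrG_int1 hψ a b t k).const_mul _) fun τ => ?_)
    (mul_nonneg (pow_nonneg zero_le_two _) (pow_nonneg hm _))
  have := mul_le_mul_of_nonneg_left (gmrG_pow_le hψ a b t hk hL τ) (Real.exp_pos (-τ ^ 2 / 4)).le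
  simp only
  linarith

/-- exchange of the finite sum with both integrals -/
theorem gmr_sum (S : Finset O) (ψ : O → O → ℂ) (hψ : ∀ d ∈ S, ∀ n, ‖ψ d n‖ ≤ 1) (W : O → ℝ)
    (a b t T M : ℝ) (k B : ℕ) {L : ℝ} (hL : volume.real (Set.Icc a b) ≤ L) (hT : 0 ≤ T)
    (hM : 0 ≤ M)
    (h : ∀ y' t' : ℝ, y' ≤ b → ∑ d ∈ S, ‖pb (ψ d) y' t'‖ ^ k * W d ≤ M * (1 + |t'| + T) ^ B) :
    ∑ d ∈ S, (∫ τ : ℝ, Real.exp (-τ ^ 2 / 4) * gmrG (ψ d) a b t k τ) * W d ≤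
      L * M * (1 + |t| + T) ^ B * ∫ τ : ℝ, Real.exp (-τ ^ 2 / 4) * (1 + |τ|) ^ B := by
  have hL0 : 0 ≤ L := measureReal_nonneg.trans hL
  simp only [← integral_mul_const]
  rw [← integral_finsetSum _ fun d hd => (gmrG_int1 (hψ d hd) a b t k).mul_const _,
    ← integral_const_mul]
  refine integral_mono (integrable_finsetSum _ fun d hd =>
    (gmrG_int1 (hψ d hd) a b t k).mul_const _) ((gmr_gauss_pow B).const_mul _) fun τ => ?_
  have h1 : ∑ d ∈ S, gmrG (ψ d) a b t k τ * W d ≤ L * (M * (1 + |t + τ| + T) ^ B) := by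
    unfold gmrG
    simp only [← integral_mul_const]
    have hi : ∀ d ∈ S, Integrable (fun y' : ℝ => ‖pb (ψ d) y' (t + τ)‖ ^ k * W d)
        (volume.restrict (Set.Icc a b)) := fun d hd =>
      Integrable.mul_const
        ((gmr_cont1 (hψ d hd) (t + τ) k).continuousOn.integrableOn_compact isCompact_Icc) _
    rw [← integral_finsetSum _ hi]
    refine (setIntegral_mono_on (g := fun _ => M * (1 + |t + τ| + T) ^ B)
      (integrable_finsetSum _ hi) (integrable_const _)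
      measurableSet_Icc fun y' hy => h y' _ hy.2).trans ?_
    rw [setIntegral_const, smul_eq_mul]
    exact mul_le_mul_of_nonneg_right hL (by positivity)
  have h2 : (1 + |t + τ| + T) ^ B ≤ (1 + |t| + T) ^ B * (1 + |τ|) ^ B := by
    rw [← mul_pow]
    refine pow_le_pow_left₀ (by positivity) ?_ B
    nlinarith [abs_add_le t τ, abs_nonneg t, abs_nonneg τ,
      mul_nonneg (abs_nonneg t) (abs_nonneg τ), mul_nonneg hT (abs_nonneg τ)]
  have h3 := h1.trans (mul_le_mul_of_nonneg_left (mul_le_mul_of_nonneg_left h2 hM) hL0)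
  have h4 := mul_le_mul_of_nonneg_left h3 (Real.exp_pos (-τ ^ 2 / 4)).le
  simp only [mul_assoc] at h4 ⊢
  rw [← Finset.mul_sum]
  linarith

/-- `reflect` on a non-exceptional row, with the enlarged interval -/
theorem gmr_reflect (A : ℝ) {ε : ℝ} (hε : 0 < ε) (Q : Lev) : ∃ (C : ℝ) (B : ℕ), 0 ≤ C ∧
    ∀ Z : ℝ, 3 ≤ Z → ∀ ν ∈ hchars Q.q, ∀ D : ℝ, D ≤ Z ^ A → ∀ d ∈ npball Q D, ∀ y t : ℝ,
      ‖pb (rc ν d) y t‖ ≤ C * Z ^ ε * (∫ τ : ℝ, Real.exp (-τ ^ 2 / 4) *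
        gmrG (rc ν d) (-(ε * Real.log Z)) (Real.log D - y + ε * Real.log Z) t 1 τ) +
        C * (1 + |t|) ^ B * Z ^ (-A) := by
  obtain ⟨C, B, hC⟩ := reflect A hε Q
  refine ⟨|C|, B, abs_nonneg _, fun Z hZ ν hν D hD d hd y t => ?_⟩
  obtain ⟨hd1, hd2⟩ := Finset.mem_filter.1 hd
  obtain ⟨hd0, hdD⟩ := mem_ball.1 hd1
  obtain ⟨hP, hsq, hdvd, -⟩ := radq_spec Q hd0
  have hN : N (radq Q d) ≤ D := (N_le_of_dvd hd0 hdvd).trans hdD
  have hψ := (mult_rc Q hν hd0).bd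
  have h := hC Z hZ (radq Q d) (rc ν d) hsq hP.2.symm (rc_isHChar Q hν hd0)
    (rc_nonPrinc Q hν hd2) (hN.trans hD) y t
  have hZ0 : 0 < Z := by linarith
  have e : ∀ b τ, ∫ y' in Set.Icc (-(ε * Real.log Z)) b, ‖pb (rc ν d) y' (t + τ)‖ =
      gmrG (rc ν d) (-(ε * Real.log Z)) b t 1 τ := fun b τ => by simp [gmrG]
  simp only [e] at h
  have hI0 : 0 ≤ ∫ τ : ℝ, Real.exp (-τ ^ 2 / 4) * gmrG (rc ν d) (-(ε * Real.log Z))
      (Real.log (N (radq Q d)) - y + ε * Real.log Z) t 1 τ :=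
    integral_nonneg fun τ => mul_nonneg (Real.exp_pos _).le (gmrG_nonneg _ _ _ _ _ _)
  have hI : (∫ τ : ℝ, Real.exp (-τ ^ 2 / 4) * gmrG (rc ν d) (-(ε * Real.log Z))
      (Real.log (N (radq Q d)) - y + ε * Real.log Z) t 1 τ) ≤ ∫ τ : ℝ, Real.exp (-τ ^ 2 / 4) *
        gmrG (rc ν d) (-(ε * Real.log Z)) (Real.log D - y + ε * Real.log Z) t 1 τ := by
    refine integral_mono (gmrG_int1 hψ _ _ _ _) (gmrG_int1 hψ _ _ _ _) fun τ => ?_
    refine mul_le_mul_of_nonneg_left ?_ (Real.exp_pos _).le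
    refine setIntegral_mono_set
      ((gmr_cont1 hψ (t + τ) 1).continuousOn.integrableOn_compact isCompact_Icc)
      (ae_of_all _ fun _ => by positivity) (Set.Icc_subset_Icc_right ?_).eventuallyLE
    have := Real.log_le_log (N_pos (radq_ne_zero Q d)) hN
    linarith
  refine h.trans (add_le_add ?_ ?_)
  · exact mul_le_mul (mul_le_mul_of_nonneg_right (le_abs_self C) (by positivity)) hI hI0
      (by positivity)
  · exact mul_le_mul_of_nonneg_right (mul_le_mul_of_nonneg_right (le_abs_self C) (by positivity))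
      (by positivity)

theorem gmr_add_pow {a b : ℝ} (ha : 0 ≤ a) (hb : 0 ≤ b) (k : ℕ) :
    (a + b) ^ k ≤ 2 ^ k * (a ^ k + b ^ k) := by
  rcases le_total a b with h | h
  · calc (a + b) ^ k ≤ (2 * b) ^ k := pow_le_pow_left₀ (by positivity) (by linarith) k
      _ = 2 ^ k * b ^ k := mul_pow _ _ _
      _ ≤ _ := mul_le_mul_of_nonneg_left (le_add_of_nonneg_left (by positivity)) (by positivity)
  · calc (a + b) ^ k ≤ (2 * a) ^ k := pow_le_pow_left₀ (by positivity) (by linarith) k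
      _ = 2 ^ k * a ^ k := mul_pow _ _ _
      _ ≤ _ := mul_le_mul_of_nonneg_left (le_add_of_nonneg_right (by positivity)) (by positivity)

/-- For `d ∈ npball Q D` apply `reflect` with `ρ = radq Q d` (`radq_spec`, `rc_isHChar`,
`rc_nonPrinc`, `N ρ ≤ N d ≤ D`), enlarge the `y'`-interval to
`I = [-ε log Z, log D - y + ε log Z]` (length `≤ (A+2ε) log Z`, possibly empty), then
`(a+b)^k ≤ 2^k (a^k + b^k)` and `pow_integral_le` twice (weights `e^{-τ²/4}` and `1` on `I`).  The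
functions `τ ↦ ∫_I ‖pb ψ y' (t+τ)‖^k dy'` are continuous and bounded (`continuous_pb`, `pb_triv`), so
the finite sum over `d` can be moved inside both integrals; `∫ e^{-τ²/4} (1+|t+τ|+T)^{B1} ≤
C (1+|t|+T)^{B1}`, `log_pow_le`. -/
theorem refl_mom {A ε : ℝ} (hA : 0 ≤ A) (hε : 0 < ε) (Q : Lev) {k : ℕ} (hk : 1 ≤ k) (B1 : ℕ) :
    ∃ (C : ℝ) (B : ℕ), 0 ≤ C ∧ ∀ Z : ℝ, 3 ≤ Z → ∀ ν ∈ hchars Q.q, ∀ (D y t T M : ℝ) (W : O → ℝ),
    1 ≤ D → D ≤ Z ^ A → 0 ≤ y → 0 ≤ T → 0 ≤ M → (∀ d, 0 ≤ W d) →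
    (∀ y' t' : ℝ, y' ≤ Real.log D - y + ε * Real.log Z →
      ∑ d ∈ npball Q D, ‖pb (rc ν d) y' t'‖ ^ k * W d ≤ M * (1 + |t'| + T) ^ B1) →
    ∑ d ∈ npball Q D, ‖pb (rc ν d) y t‖ ^ k * W d ≤
      C * (1 + |t| + T) ^ B * (Z ^ (2 * k * ε) * M + Z ^ (-(k * A)) * ∑ d ∈ npball Q D, W d) := by
  obtain ⟨C, B, hC0, hC⟩ := gmr_reflect A hε Q
  have hk0 : (0 : ℝ) < k := by exact_mod_cast hk
  obtain ⟨C2, hC2, hlog⟩ := log_pow_le k (mul_pos hk0 hε)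
  set m := ∫ τ : ℝ, Real.exp (-τ ^ 2 / 4) with hm
  set m1 := ∫ τ : ℝ, Real.exp (-τ ^ 2 / 4) * (1 + |τ|) ^ B1 with hm1
  have hm0 : 0 ≤ m := integral_nonneg fun _ => (Real.exp_pos _).le
  have hm10 : 0 ≤ m1 := integral_nonneg fun _ => by positivity
  set K1 := 2 ^ k * C ^ k * (2 ^ k * m ^ (k - 1) * 2 ^ k) * ((A + 2 * ε) ^ k * C2) * m1 with hK1
  set K2 := 2 ^ k * C ^ k with hK2
  have hK10 : 0 ≤ K1 := by positivity
  have hK20 : 0 ≤ K2 := by positivity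
  refine ⟨K1 + K2, B1 + B * k, by positivity,
    fun Z hZ ν hν D y t T M W hD1 hD hy hT hM hW h => ?_⟩
  have hZ0 : 0 < Z := by linarith
  have hlZ : 0 ≤ Real.log Z := Real.log_nonneg (by linarith)
  set a := -(ε * Real.log Z) with ha
  set b := Real.log D - y + ε * Real.log Z with hb
  set L := (A + 2 * ε) * Real.log Z with hLdef
  have hL0 : 0 ≤ L := by positivity
  have hL : volume.real (Set.Icc a b) ≤ L := by
    rw [Real.volume_real_Icc]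
    refine max_le ?_ hL0
    have h1 : Real.log D ≤ A * Real.log Z := by
      rw [← Real.log_rpow hZ0]
      exact Real.log_le_log (by linarith) hD
    simp only [ha, hb, hLdef]
    nlinarith
  have hψ : ∀ d ∈ npball Q D, ∀ n, ‖rc ν d n‖ ≤ 1 := fun d hd =>
    (mult_rc Q hν (mem_ball.1 (Finset.mem_filter.1 hd).1).1).bd
  set J : O → ℝ := fun d => ∫ τ : ℝ, Real.exp (-τ ^ 2 / 4) * gmrG (rc ν d) a b t k τ with hJ
  set E1 := 2 ^ k * (C * Z ^ ε) ^ k * (2 ^ k * m ^ (k - 1) * (2 ^ k * L ^ (k - 1))) with hE1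
  set E2 := 2 ^ k * (C * (1 + |t|) ^ B * Z ^ (-A)) ^ k with hE2
  have hE10 : 0 ≤ E1 := by positivity
  have hpt : ∀ d ∈ npball Q D, ‖pb (rc ν d) y t‖ ^ k * W d ≤ E1 * (J d * W d) + E2 * W d := by
    intro d hd
    have h1 := hC Z hZ ν hν D hD d hd y t
    have h2 := gmr_J_pow (hψ d hd) a b t hk hL
    have hI0 : 0 ≤ ∫ τ : ℝ, Real.exp (-τ ^ 2 / 4) * gmrG (rc ν d) a b t 1 τ :=
      integral_nonneg fun τ => mul_nonneg (Real.exp_pos _).le (gmrG_nonneg _ _ _ _ _ _)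
    have h3 := (pow_le_pow_left₀ (norm_nonneg _) h1 k).trans
      (gmr_add_pow (by positivity) (by positivity) k)
    rw [mul_pow (C * Z ^ ε)] at h3
    have h4 := mul_le_mul_of_nonneg_left h2 (show 0 ≤ 2 ^ k * (C * Z ^ ε) ^ k by positivity)
    have h5 : ‖pb (rc ν d) y t‖ ^ k ≤ E1 * J d + E2 := by
      simp only [hE1, hE2, hJ]
      linarith
    have h6 := mul_le_mul_of_nonneg_right h5 (hW d)
    linarith
  have hs := gmr_sum (npball Q D) (fun d => rc ν d) hψ W a b t T M k B1 hL hT hM h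
  have hSW : 0 ≤ ∑ d ∈ npball Q D, W d := Finset.sum_nonneg fun d _ => hW d
  set U := 1 + |t| + T with hU
  have hU1 : 1 ≤ U := by simp only [hU]; linarith [abs_nonneg t]
  have hZe : (Z ^ ε) ^ k = Z ^ ((k : ℝ) * ε) := by
    rw [← Real.rpow_natCast, ← Real.rpow_mul hZ0.le, mul_comm]
  have hZA : (Z ^ (-A)) ^ k = Z ^ (-((k : ℝ) * A)) := by
    rw [← Real.rpow_natCast, ← Real.rpow_mul hZ0.le]; congr 1; ring
  have hZ2 : Z ^ (2 * (k : ℝ) * ε) = Z ^ ((k : ℝ) * ε) * Z ^ ((k : ℝ) * ε) := by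
    rw [← Real.rpow_add hZ0]; congr 1; ring
  have hLk : L ^ (k - 1) * L ≤ (A + 2 * ε) ^ k * C2 * Z ^ ((k : ℝ) * ε) := by
    rw [← pow_succ, Nat.sub_add_cancel hk, hLdef, mul_pow, mul_assoc]
    exact mul_le_mul_of_nonneg_left (hlog Z hZ) (by positivity)
  have hb1 : E1 * (L * M * U ^ B1 * m1) ≤ K1 * U ^ (B1 + B * k) * (Z ^ (2 * (k : ℝ) * ε) * M) := by
    have e1 : E1 * (L * M * U ^ B1 * m1) = (2 ^ k * C ^ k * (2 ^ k * m ^ (k - 1) * 2 ^ k) *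
        Z ^ ((k : ℝ) * ε) * M * m1) * (L ^ (k - 1) * L) * U ^ B1 := by
      rw [hE1, mul_pow, hZe]; ring
    have e2 : K1 * U ^ (B1 + B * k) * (Z ^ (2 * (k : ℝ) * ε) * M) =
        (2 ^ k * C ^ k * (2 ^ k * m ^ (k - 1) * 2 ^ k) * Z ^ ((k : ℝ) * ε) * M * m1) *
          ((A + 2 * ε) ^ k * C2 * Z ^ ((k : ℝ) * ε)) * U ^ (B1 + B * k) := by
      rw [hK1, hZ2]; ring
    rw [e1, e2]
    exact mul_le_mul (mul_le_mul_of_nonneg_left hLk (by positivity))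
      (pow_le_pow_right₀ hU1 (Nat.le_add_right _ _)) (by positivity) (by positivity)
  have hb2 : E2 ≤ K2 * U ^ (B1 + B * k) * Z ^ (-((k : ℝ) * A)) := by
    rw [hE2, mul_pow, mul_pow, hZA, ← pow_mul, hK2]
    have : (1 + |t|) ^ (B * k) ≤ U ^ (B1 + B * k) :=
      (pow_le_pow_left₀ (by positivity) (by simp only [hU]; linarith) _).trans
        (pow_le_pow_right₀ hU1 (Nat.le_add_left _ _))
    have h7 := mul_le_mul_of_nonneg_left this
      (show 0 ≤ 2 ^ k * C ^ k * Z ^ (-((k : ℝ) * A)) by positivity)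
    linarith
  refine (Finset.sum_le_sum hpt).trans ?_
  rw [Finset.sum_add_distrib, ← Finset.mul_sum, ← Finset.mul_sum]
  have h8 := (mul_le_mul_of_nonneg_left hs hE10).trans hb1
  have h9 := mul_le_mul_of_nonneg_right hb2 hSW
  have p1 : 0 ≤ K2 * U ^ (B1 + B * k) * (Z ^ (2 * (k : ℝ) * ε) * M) := by positivity
  have p2 : 0 ≤ K1 * U ^ (B1 + B * k) * (Z ^ (-((k : ℝ) * A)) * ∑ d ∈ npball Q D, W d) := by
    positivity
  linarith

end Crest.Agent.R17.GM
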