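import Crest.Agent.R17.GMoment_Core
import Crest.Agent.R17.GMoment_Exc
import Crest.Agent.R17.GMoment_Refl

/-!
# R17 / GMoment_Step : centering
-/

set_option autoImplicit false

noncomputable section

open scoped Classical ComplexConjugate
open MeasureTheory

namespace Crest.Agent.R17.GM

theorem HM.mono {Q : Lev} {D' M' : ℝ} {B B' : ℕ} (h : HM Q D' M' B) (hM : 0 ≤ M') (hB : B ≤ B') :
    HM Q D' M' B' := fun ν hν y t =>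
  (h ν hν y t).trans (mul_le_mul_of_nonneg_left
    (pow_le_pow_right₀ (by linarith [abs_nonneg t]) hB) hM)

theorem HP.mono {Q : Lev} {ρ : O} {yp R Pi κ : ℝ} {B B' : ℕ} (h : HP Q ρ yp R Pi κ B) (hP : 0 ≤ Pi)
    (hB : B ≤ B') : HP Q ρ yp R Pi κ B' := fun ν hν x τ hx =>
  (h ν hν x τ hx).trans (mul_le_mul_of_nonneg_right (mul_le_mul_of_nonneg_left
    (pow_le_pow_right₀ (by linarith [abs_nonneg τ]) hB) hP) (Real.exp_pos _).le)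

theorem HE.mono {Q : Lev} {P : Par} {ρ : O} {E E' : ℝ} {B B' : ℕ} (h : HE Q P ρ E B) (hE : E ≤ E')
    (hE' : 0 ≤ E') (hB : B ≤ B') : HE Q P ρ E' B' := fun ν hν u1 u2 τ h1 h2 =>
  (h ν hν u1 u2 τ h1 h2).trans (mul_le_mul hE
    (pow_le_pow_right₀ (by linarith [abs_nonneg τ]) hB) (by positivity) hE')

theorem St.le_mul_log {Z A y : ℝ} (hZ : 0 < Z) (h : Real.exp y ≤ Z ^ A) : y ≤ A * Real.log Z := by
  rw [← Real.log_rpow hZ]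
  exact (Real.le_log_iff_exp_le (Real.rpow_pos_of_pos hZ _)).2 h

theorem St.np_sub (Q : Lev) (D : ℝ) : npball Q D ⊆ ball D := Finset.filter_subset _ _

/-- uncentered, off-diagonal case of `core` (`c = 0`, `z_i = y_i`, `exc0`):
`𝒜⁴ D^{1/6} (C e^{y₁+y₂} + 1) L ≤ C' D^{1/6} (V + L𝒜⁴)` -/
theorem step0 {A ε : ℝ} (hA : 0 ≤ A) (hε : 0 < ε) : ∃ η : ℝ, 0 < η ∧ η ≤ 1 / 2 ∧
    ∀ (Q : Lev) (J0 B1 : ℕ), ∃ (C : ℝ) (B : ℕ), 0 ≤ C ∧ ∀ Z : ℝ, 3 ≤ Z → ∀ ν ∈ hchars Q.q,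
    ∀ ν3 ∈ hchars Q.q, ∀ J ≤ J0, ∀ yp R x τ y1 y2 t1 t2 D 𝒜 M' Pi κ V : ℝ,
    0 ≤ yp → 0 ≤ R → yp + R ≤ 2 * Real.log Z → |x| ≤ η → 1 ≤ D → D ≤ Z ^ A → 1 ≤ 𝒜 → 𝒜 ≤ Z ^ A →
    0 ≤ M' → 1 ≤ Pi → 0 ≤ κ → y1 ≤ A * Real.log Z → y2 ≤ A * Real.log Z → V ≤ Z ^ A →
    Real.exp (y1 + y2) * Real.exp (J * yp) * 𝒜 ^ 5 ≤ V → Real.exp (J * yp) * 𝒜 ^ 4 ≤ V →
    HM Q (D / 𝒜 ^ 6) M' B1 → (∀ ρ ∈ npball Q (D / 𝒜 ^ 6), HP Q ρ yp R Pi κ B1) →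
    ∑ d ∈ npball Q D, ‖pb (rc ν d) y2 t2‖ ^ 2 *
        (‖pb (rc ν d) y1 t1‖ ^ 2 * ‖Pb Q (rc ν3 d) yp R x τ‖ ^ (2 * J)) ≤
      C * Z ^ ε * (1 + |t1| + |t2| + |τ|) ^ B * (D + D ^ (1 / 6 : ℝ) * V +
        𝒜 ^ 5 * (Pi ^ (2 * J) * Real.exp (J * yp) ^ κ) * (M' + D / 𝒜 ^ 6)) := by
  obtain ⟨η, hη, hη1, H⟩ := core hA hε
  obtain ⟨C0, hC0, hexc⟩ := exc0
  refine ⟨η, hη, hη1, fun Q J0 B1 => ?_⟩
  obtain ⟨C, B, hC, h⟩ := H Q J0 B1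
  refine ⟨C * (C0 + 2), B, by positivity, ?_⟩
  intro Z hZ ν hν ν3 hν3 J hJ yp R x τ y1 y2 t1 t2 D 𝒜 M' Pi κ V hyp hR hypR hx hD hDA h𝒜 h𝒜A hM
    hPi hκ hy1 hy2 hV hV1 hV2 hHM hHP
  let P : Par := ⟨ν, ν3, y1, y2, y1, y2, t1, t2, 0, J, yp, R, x, τ⟩
  have hZ0 : 0 < Z := by linarith
  have hL0 := Real.exp_pos (J * yp)
  have hE0 := Real.exp_pos (y1 + y2)
  have h5 : 1 ≤ 𝒜 ^ 5 := one_le_pow₀ h𝒜
  have h4 : 1 ≤ 𝒜 ^ 4 := one_le_pow₀ h𝒜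
  have h45 : 𝒜 ^ 4 ≤ 𝒜 ^ 5 := pow_le_pow_right₀ h𝒜 (by norm_num)
  have hOK : P.OK Q A η Z J0 := by
    refine ⟨hν, hν3, rfl, by simp [P], hy1, hy2, hy1, hy2, ?_, ?_, hJ, hyp, hR, hypR, hx⟩
    · show Real.exp (y1 + y2) * Real.exp (J * yp) ≤ _
      nlinarith [mul_pos hE0 hL0]
    · show Real.exp (J * yp) ≤ _
      nlinarith
  have key := h Z hZ P hOK D 𝒜 M' Pi κ (C0 * Real.exp (y1 + y2)) hD hDA h𝒜 h𝒜A hM hPi hκ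
    (by positivity) hHM hHP (fun ρ hρ _ => (hexc Q P rfl ρ (mem_ball.1 hρ).1).mono le_rfl
      (by positivity) (Nat.zero_le _))
  have e1 : ∑ d ∈ npball Q D, ‖pb (rc ν d) y2 t2‖ ^ 2 *
      (‖pb (rc ν d) y1 t1‖ ^ 2 * ‖Pb Q (rc ν3 d) yp R x τ‖ ^ (2 * J)) ≤
      ∑ d ∈ ball D, ‖P.Δ (rc P.ν d) 0 0 0‖ ^ 2 *
        ‖Pb Q (rc P.ν3 d) P.yp P.R P.x P.τ‖ ^ (2 * P.J) := by
    refine le_trans (le_of_eq (Finset.sum_congr rfl fun d _ => ?_))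
      (Finset.sum_le_sum_of_subset_of_nonneg (St.np_sub Q D) fun _ _ _ => by positivity)
    simp only [Par.Δ, P, sub_zero, zero_mul, norm_mul]
    ring
  refine e1.trans (key.trans ?_)
  show C * Z ^ ε * (1 + |t1| + |t2| + |τ|) ^ B * (D + Real.exp (y1 + y2) * Real.exp (J * yp) * 𝒜 ^ 5 +
    𝒜 ^ 5 * (Pi ^ (2 * J) * Real.exp (J * yp) ^ κ) * (M' + D / 𝒜 ^ 6) +
    𝒜 ^ 4 * D ^ (1 / 6 : ℝ) * ((C0 * Real.exp (y1 + y2) + 1) * Real.exp (J * yp))) ≤ _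
  have ha : 1 ≤ D ^ (1 / 6 : ℝ) := Real.one_le_rpow hD (by norm_num)
  have hY : 0 ≤ 𝒜 ^ 5 * (Pi ^ (2 * J) * Real.exp (J * yp) ^ κ) * (M' + D / 𝒜 ^ 6) := by positivity
  generalize 𝒜 ^ 5 * (Pi ^ (2 * J) * Real.exp (J * yp) ^ κ) * (M' + D / 𝒜 ^ 6) = Y at hY ⊢
  generalize D ^ (1 / 6 : ℝ) = a at ha ⊢
  generalize Real.exp (y1 + y2) = e at hE0 hV1 ⊢
  generalize Real.exp (J * yp) = L at hL0 hV1 hV2 ⊢
  have hV0 : 0 ≤ V := le_trans (by positivity) hV2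
  have b1 : e * L * 𝒜 ^ 4 ≤ V := le_trans (by gcongr) hV1
  have b2 : 𝒜 ^ 4 * a * ((C0 * e + 1) * L) ≤ (C0 + 1) * (a * V) := by
    have : 𝒜 ^ 4 * a * ((C0 * e + 1) * L) = a * (C0 * (e * L * 𝒜 ^ 4) + L * 𝒜 ^ 4) := by ring
    rw [this]
    calc _ ≤ a * (C0 * V + V) := by gcongr
      _ = _ := by ring
  have b3 : V ≤ a * V := le_mul_of_one_le_left hV0 ha
  have b4 : D + e * L * 𝒜 ^ 5 + Y + 𝒜 ^ 4 * a * ((C0 * e + 1) * L) ≤ (C0 + 2) * (D + a * V + Y) := by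
    have : 0 ≤ C0 * D := by positivity
    have : 0 ≤ C0 * Y := by positivity
    nlinarith
  calc _ ≤ C * Z ^ ε * (1 + |t1| + |t2| + |τ|) ^ B * ((C0 + 2) * (D + a * V + Y)) := by gcongr
    _ = _ := by ring

/-- trivial bound for the weight in the reflection step -/
theorem St.weight_le (J0 : ℕ) {ε : ℝ} (hε : 0 < ε) : ∃ C, 0 ≤ C ∧ ∀ Z : ℝ, 3 ≤ Z →
    ∀ (Q : Lev) (ψ ψ3 : O → ℂ), (∀ n, ‖ψ n‖ ≤ 1) → (∀ n, ‖ψ3 n‖ ≤ 1) → ∀ J ≤ J0,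
    ∀ yp R x τ z t : ℝ, 0 ≤ yp → 0 ≤ R → yp + R ≤ 2 * Real.log Z → |x| ≤ 1 / 2 →
      ‖pb ψ z t‖ ^ 2 * ‖Pb Q ψ3 yp R x τ‖ ^ (2 * J) ≤
        C * Z ^ ε * (Real.exp z * Real.exp (J * yp) ^ 2) := by
  obtain ⟨Cb, hCb, hb⟩ := pb_triv
  obtain ⟨Cp, hCp, hp⟩ := Pb_triv
  obtain ⟨Cl, hCl, hl⟩ := log_pow_le (2 * J0) hε
  refine ⟨Cb ^ 2 * ((2 * Cp + 1) ^ (2 * J0) * Cl), by positivity, ?_⟩
  intro Z hZ Q ψ ψ3 hψ hψ3 J hJ yp R x τ z t hyp hR hypR hx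
  have hlog : 1 ≤ Real.log Z := by
    rw [Real.le_log_iff_exp_le (by linarith)]
    linarith [Real.exp_one_lt_d9]
  have h1 : ‖pb ψ z t‖ ^ 2 ≤ Cb ^ 2 * Real.exp z := by
    have e : Real.exp z = Real.exp (z / 2) ^ 2 := by
      rw [← Real.exp_nat_mul]; congr 1; push_cast; ring
    rw [e, ← mul_pow]
    exact pow_le_pow_left₀ (norm_nonneg _) (hb ψ hψ z t).1 2
  have h2 : ‖Pb Q ψ3 yp R x τ‖ ≤ ((2 * Cp + 1) * Real.log Z) * Real.exp yp := by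
    refine (hp Q ψ3 hψ3 yp R x τ (by linarith) (by linarith)).trans ?_
    have a1 : Real.exp ((1 / 2 + x) * yp) ≤ Real.exp yp := by
      rw [Real.exp_le_exp]
      nlinarith [le_abs_self x]
    have a2 : Cp * (yp + R) ≤ (2 * Cp + 1) * Real.log Z := by nlinarith
    exact mul_le_mul a2 a1 (Real.exp_pos _).le (by positivity)
  have h3 : ‖Pb Q ψ3 yp R x τ‖ ^ (2 * J) ≤
      (2 * Cp + 1) ^ (2 * J0) * (Cl * Z ^ ε) * Real.exp (J * yp) ^ 2 := by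
    refine (pow_le_pow_left₀ (norm_nonneg _) h2 _).trans ?_
    have e : Real.exp yp ^ (2 * J) = Real.exp (J * yp) ^ 2 := by
      rw [Real.exp_nat_mul, ← pow_mul, mul_comm]
    rw [mul_pow, e]
    refine mul_le_mul_of_nonneg_right ?_ (by positivity)
    have a1 : 1 ≤ (2 * Cp + 1) * Real.log Z := by nlinarith
    refine (pow_le_pow_right₀ a1 (show 2 * J ≤ 2 * J0 by omega)).trans ?_
    rw [mul_pow]
    exact mul_le_mul_of_nonneg_left (hl Z hZ) (by positivity)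
  calc _ ≤ (Cb ^ 2 * Real.exp z) *
        ((2 * Cp + 1) ^ (2 * J0) * (Cl * Z ^ ε) * Real.exp (J * yp) ^ 2) :=
        mul_le_mul h1 h3 (by positivity) (by positivity)
    _ = _ := by ring

theorem St.center (s s1 s2 : ℂ) {w : ℝ} (w0 : 0 ≤ w) :
    ‖s‖ ^ 4 * w ≤ 2 * (‖s * s - s1 * s2‖ ^ 2 * w) + 2 * (‖s2‖ ^ 2 * (‖s1‖ ^ 2 * w)) := by
  have c1 : ‖s‖ * ‖s‖ ≤ ‖s * s - s1 * s2‖ + ‖s1‖ * ‖s2‖ := by
    rw [← norm_mul, ← norm_mul]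
    simpa using norm_add_le (s * s - s1 * s2) (s1 * s2)
  have c2 : ‖s‖ ^ 4 ≤ 2 * ‖s * s - s1 * s2‖ ^ 2 + 2 * (‖s1‖ * ‖s2‖) ^ 2 := by
    have c3 := pow_le_pow_left₀ (by positivity) c1 2
    nlinarith [sq_nonneg (‖s * s - s1 * s2‖ - ‖s1‖ * ‖s2‖)]
  nlinarith [mul_le_mul_of_nonneg_right c2 w0]

set_option maxHeartbeats 800000 in
/-- **Centering.**  `L = e^{J yp}`, `z₂ = log(D^{5/6}/λ) ≥ 0`, `z₁ = 2y - z₂`, `S = pb(y)²`,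
`S' = pb(z₁) pb(z₂)`, `|S|² ≤ 2|S - S'|² + 2|S'|²`.  Work with `A' = 3A + 1`, `ε₁ = min 1 (ε/10)`.
* `S - S'`: `core` with `c = 1`, `exc1` with `Y = log(Θ D^{5/6}/λ)` (`e^{2y} ≤ ΘD`,
  `e^{z₁} ≤ Θ D^{1/6} λ`, `D^{5/6}/λ ≥ D^{7/12}`), so the last term is `≲ D^{1/6} Θλ · Θ D^{5/6}/λ`.
* `S'`: `refl_mom` (`k = 2`, exponent `3A`, `W d = |pb(z₁)|² |Pb|^{2J}`, `T = |t| + |τ|`); its hypothesis
  is `step0` with `y₁ = z₁`, `y₂ = y' ≤ log(D^{1/6} λ Z^{ε₁})`, `V = Θ D^{5/6} Z^{ε₁}`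
  (`e^{z₁} L 𝒜⁵ ≤ Θ D^{1/6} λ`, `λ² ≤ D^{1/2}`); trivially
  `W d ≤ C e^{z₁} (C log Z)^{2J} L² ≤ C log^{2J0} Z · Z^{6A}` (`pb_triv`, `Pb_triv`). -/
theorem step {A ε : ℝ} (hA : 0 ≤ A) (hε : 0 < ε) : ∃ η : ℝ, 0 < η ∧ η ≤ 1 / 2 ∧
    ∀ (Q : Lev) (J0 B1 : ℕ), ∃ (C : ℝ) (B : ℕ), 0 ≤ C ∧ ∀ Z : ℝ, 3 ≤ Z → ∀ ν ∈ hchars Q.q,
    ∀ ν3 ∈ hchars Q.q, ∀ J ≤ J0, ∀ yp R x τ y t D 𝒜 M' Pi κ Θ lam : ℝ,
    0 ≤ yp → 0 ≤ R → yp + R ≤ 2 * Real.log Z → |x| ≤ η → 1 ≤ D → D ≤ Z ^ A → 1 ≤ 𝒜 → 𝒜 ≤ Z ^ A →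
    0 ≤ M' → 1 ≤ Pi → 0 ≤ κ → 1 ≤ Θ → Θ ≤ Z ^ A → 1 ≤ lam → lam ^ 4 ≤ D →
    Real.exp (2 * y) * Real.exp (J * yp) * 𝒜 ^ 5 ≤ Θ * D → Real.exp (J * yp) * 𝒜 ^ 4 ≤ Θ * lam →
    HM Q (D / 𝒜 ^ 6) M' B1 → (∀ ρ ∈ npball Q (D / 𝒜 ^ 6), HP Q ρ yp R Pi κ B1) →
    ∑ d ∈ npball Q D, ‖pb (rc ν d) y t‖ ^ 4 * ‖Pb Q (rc ν3 d) yp R x τ‖ ^ (2 * J) ≤
      C * Z ^ ε * (1 + |t| + |τ|) ^ B * (Θ ^ 2 * D +
        𝒜 ^ 5 * (Pi ^ (2 * J) * Real.exp (J * yp) ^ κ) * (M' + D / 𝒜 ^ 6)) := by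
  obtain ⟨ε1, hε1, hε11, hε6⟩ : ∃ ε1 : ℝ, 0 < ε1 ∧ ε1 ≤ 1 ∧ 6 * ε1 ≤ ε :=
    ⟨min 1 (ε / 6), by positivity, min_le_left _ _, by linarith [min_le_right 1 (ε / 6)]⟩
  have hA' : 0 ≤ 3 * A + 1 := by linarith
  obtain ⟨η1, hη1, hη1', H1⟩ := core hA' hε1
  obtain ⟨η2, hη2, -, H2⟩ := step0 hA' hε1
  refine ⟨min η1 η2, lt_min hη1 hη2, (min_le_left _ _).trans hη1', fun Q J0 B1 => ?_⟩
  obtain ⟨Ce, Be, hCe, he⟩ := exc1 Q (show 0 < ε1 / (A + 1) by positivity)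
  obtain ⟨Cc, Bc, hCc, hc⟩ := H1 Q J0 (B1 + Be)
  obtain ⟨Cs, Bs, hCs, hs⟩ := H2 Q J0 B1
  obtain ⟨Cr, Br, hCr, hr⟩ := refl_mom (show 0 ≤ 3 * A by linarith) hε1 Q (k := 2) (by norm_num) Bs
  obtain ⟨Cw, hCw, hw⟩ := St.weight_le J0 hε1
  refine ⟨2 * (Cc * 2 ^ Bc * (Ce + 3)) + 2 * (Cr * 2 ^ Br * (2 * Cs + 18 * Cw)), Bc + Be + Br,
    by positivity, ?_⟩
  intro Z hZ ν hν ν3 hν3 J hJ yp R x τ y t D 𝒜 M' Pi κ Θ lam hyp hR hypR hx hD hDA h𝒜 h𝒜A hM hPi hκ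
    hΘ hΘA hlam hlamD hV1 hV2 hHM hHP
  have hZ0 : 0 < Z := by linarith
  have hZ1 : 1 ≤ Z := by linarith
  have hD0 : 0 < D := by linarith
  have hx1 : |x| ≤ η1 := hx.trans (min_le_left _ _)
  have hx2 : |x| ≤ η2 := hx.trans (min_le_right _ _)
  -- abbreviations
  obtain ⟨a, ha⟩ : ∃ a, a = D ^ (1 / 6 : ℝ) := ⟨_, rfl⟩
  have ha1 : 1 ≤ a := ha ▸ Real.one_le_rpow hD (by norm_num)
  have ha6 : a ^ 6 = D := by
    rw [ha, ← Real.rpow_natCast, ← Real.rpow_mul hD0.le]; norm_num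
  obtain ⟨u, hu⟩ : ∃ u, u = Z ^ ε1 := ⟨_, rfl⟩
  have hu1 : 1 ≤ u := hu ▸ Real.one_le_rpow hZ1 hε1.le
  have huZ : u ≤ Z := by
    rw [hu]; exact (Real.rpow_le_rpow_of_exponent_le hZ1 hε11).trans (Real.rpow_one Z).le
  have hu6 : u ^ 6 ≤ Z ^ ε := by
    rw [hu, ← Real.rpow_natCast, ← Real.rpow_mul hZ0.le]
    exact Real.rpow_le_rpow_of_exponent_le hZ1 (by push_cast; linarith)
  obtain ⟨W, hW⟩ : ∃ W, W = Z ^ A := ⟨_, rfl⟩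
  have hW1 : 1 ≤ W := hD.trans (hW ▸ hDA)
  have hW3 : Z ^ (3 * A) = W ^ 3 := by
    rw [hW, ← Real.rpow_natCast, ← Real.rpow_mul hZ0.le]; congr 1; push_cast; ring
  have hW4 : Z ^ (3 * A + 1) = W ^ 3 * Z := by rw [Real.rpow_add hZ0, hW3, Real.rpow_one]
  rw [← hW] at hDA h𝒜A hΘA
  have hWW : W ≤ W ^ 2 := le_self_pow₀ hW1 (by norm_num)
  have hW23 : W ^ 2 ≤ W ^ 3 := pow_le_pow_right₀ hW1 (by norm_num)
  have hW2Z : W ^ 2 * Z ≤ Z ^ (3 * A + 1) := by rw [hW4]; gcongr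
  have hW2 : W ^ 2 ≤ Z ^ (3 * A + 1) := (le_mul_of_one_le_right (by positivity) hZ1).trans hW2Z
  obtain ⟨L, hL⟩ : ∃ L, L = Real.exp (J * yp) := ⟨_, rfl⟩
  have hL1 : 1 ≤ L := hL ▸ Real.one_le_exp (by positivity)
  have h5 : 1 ≤ 𝒜 ^ 5 := one_le_pow₀ h𝒜
  have h4 : 1 ≤ 𝒜 ^ 4 := one_le_pow₀ h𝒜
  have hl2 : lam ^ 2 ≤ a ^ 3 := by
    refine abs_le_of_sq_le_sq' ?_ (by positivity) |>.2
    calc (lam ^ 2) ^ 2 = lam ^ 4 := by ring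
      _ ≤ D := hlamD
      _ = (a ^ 3) ^ 2 := by rw [← ha6]; ring
  have hl1 : lam ≤ a ^ 2 := by
    refine abs_le_of_sq_le_sq' ?_ (by positivity) |>.2
    calc lam ^ 2 ≤ a ^ 3 := hl2
      _ ≤ a ^ 4 := pow_le_pow_right₀ ha1 (by norm_num)
      _ = (a ^ 2) ^ 2 := by ring
  have hl0 : 0 < lam := by linarith
  have ha3 : a ^ 3 ≤ a ^ 5 / lam := by
    rw [le_div_iff₀ hl0]
    calc a ^ 3 * lam ≤ a ^ 3 * a ^ 2 := by gcongr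
      _ = a ^ 5 := by ring
  have ha31 : 1 ≤ a ^ 3 := one_le_pow₀ ha1
  have ha5D : a ^ 5 ≤ D := ha6 ▸ pow_le_pow_right₀ ha1 (by norm_num)
  have ha5l : a ^ 5 / lam ≤ D := (div_le_self (by positivity) hlam).trans ha5D
  have hΘD : Θ * D ≤ W ^ 2 := by rw [pow_two]; gcongr
  obtain ⟨z2, hz2⟩ : ∃ z2, z2 = Real.log (a ^ 5 / lam) := ⟨_, rfl⟩
  have ez2 : Real.exp z2 = a ^ 5 / lam := by rw [hz2, Real.exp_log (by positivity)]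
  have hz20 : 0 ≤ z2 := hz2 ▸ Real.log_nonneg (ha31.trans ha3)
  obtain ⟨z1, hz1⟩ : ∃ z1, z1 = 2 * y - z2 := ⟨_, rfl⟩
  have ez1 : Real.exp z1 = Real.exp (2 * y) * lam / a ^ 5 := by
    rw [hz1, Real.exp_sub, ez2]; field_simp
  rw [← hL] at hV1 hV2
  have hz1b : Real.exp z1 * L * 𝒜 ^ 5 ≤ Θ * a * lam := by
    rw [ez1, div_mul_eq_mul_div, div_mul_eq_mul_div, div_le_iff₀ (by positivity)]
    calc Real.exp (2 * y) * lam * L * 𝒜 ^ 5 = (Real.exp (2 * y) * L * 𝒜 ^ 5) * lam := by ring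
      _ ≤ Θ * D * lam := by gcongr
      _ = _ := by rw [← ha6]; ring
  have hL5 : 1 ≤ L * 𝒜 ^ 5 := one_le_mul_of_one_le_of_one_le hL1 h5
  have hz1c : Real.exp z1 ≤ Θ * a ^ 3 := by
    calc Real.exp z1 ≤ Real.exp z1 * (L * 𝒜 ^ 5) := le_mul_of_one_le_right (Real.exp_pos _).le hL5
      _ = Real.exp z1 * L * 𝒜 ^ 5 := by ring
      _ ≤ Θ * a * lam := hz1b
      _ ≤ Θ * a * a ^ 2 := by gcongr
      _ = _ := by ring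
  have hy2 : Real.exp (2 * y) ≤ Θ * D := by
    calc Real.exp (2 * y) ≤ Real.exp (2 * y) * (L * 𝒜 ^ 5) :=
          le_mul_of_one_le_right (Real.exp_pos _).le hL5
      _ = Real.exp (2 * y) * L * 𝒜 ^ 5 := by ring
      _ ≤ _ := hV1
  have hyc : Real.exp y ≤ Θ * a ^ 3 := by
    refine abs_le_of_sq_le_sq' ?_ (by positivity) |>.2
    calc Real.exp y ^ 2 = Real.exp (2 * y) := by rw [← Real.exp_nat_mul]; norm_num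
      _ ≤ Θ * D := hy2
      _ ≤ Θ ^ 2 * D := by gcongr; exact le_self_pow₀ hΘ (by norm_num)
      _ = _ := by rw [← ha6]; ring
  have hΘ3 : Θ * a ^ 3 ≤ W ^ 2 := le_trans (by gcongr; exact ha3.trans ha5l) hΘD
  have hLW : L ≤ W ^ 2 := by
    calc L ≤ L * 𝒜 ^ 4 := le_mul_of_one_le_right (by linarith) h4
      _ ≤ Θ * lam := hV2
      _ ≤ Θ * a ^ 3 := by
          gcongr; exact hl1.trans (pow_le_pow_right₀ ha1 (by norm_num))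
      _ ≤ _ := hΘ3
  obtain ⟨Y0, hY0⟩ : ∃ Y0, Y0 = 𝒜 ^ 5 * (Pi ^ (2 * J) * L ^ κ) * (M' + D / 𝒜 ^ 6) := ⟨_, rfl⟩
  have hY00 : 0 ≤ Y0 := by rw [hY0]; positivity
  obtain ⟨T0, hT0⟩ : ∃ T0, T0 = 1 + |t| + |τ| := ⟨_, rfl⟩
  have at0 := abs_nonneg t
  have aτ0 := abs_nonneg τ
  have hT1 : 1 ≤ T0 := by linarith
  have hΘ2 : Θ * D ≤ Θ ^ 2 * D := by gcongr; exact le_self_pow₀ hΘ (by norm_num)
  have hΘ1 : D ≤ Θ * D := le_mul_of_one_le_left hD0.le hΘ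
  rw [← hL, ← hY0, ← hT0]
  obtain ⟨Ξ, hΞ⟩ : ∃ Ξ, Ξ = Θ ^ 2 * D + Y0 := ⟨_, rfl⟩
  have hΞ0 : 0 ≤ Ξ := by rw [hΞ]; positivity
  rw [← hΞ]
  -- part 1 : the centered difference
  let P : Par := ⟨ν, ν3, y, y, z1, z2, t, t, 1, J, yp, R, x, τ⟩
  have hOK : P.OK Q (3 * A + 1) η1 Z J0 := by
    have b1 : y ≤ (3 * A + 1) * Real.log Z := St.le_mul_log hZ0 (hyc.trans (hΘ3.trans hW2))
    refine ⟨hν, hν3, by simp only [P]; linarith, by simp [P], b1, b1,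
      St.le_mul_log hZ0 (hz1c.trans (hΘ3.trans hW2)),
      St.le_mul_log hZ0 (ez2 ▸ ha5l.trans (hDA.trans (hWW.trans hW2))), ?_, ?_, hJ, hyp, hR, hypR,
      hx1⟩
    · show Real.exp (y + y) * Real.exp (J * yp) ≤ _
      rw [← hL, ← two_mul]
      exact (le_mul_of_one_le_right (by positivity) h5).trans (hV1.trans (hΘD.trans hW2))
    · show Real.exp (J * yp) ≤ _
      rw [← hL]
      exact hLW.trans hW2
  obtain ⟨Y, hY⟩ : ∃ Y, Y = Real.log (Θ * (a ^ 5 / lam)) := ⟨_, rfl⟩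
  have eY : Real.exp Y = Θ * (a ^ 5 / lam) := by rw [hY, Real.exp_log (by positivity)]
  have hΘa : Θ * a ^ 3 ≤ Real.exp Y := by rw [eY]; gcongr
  have hz2Y : z2 ≤ Y := by
    rw [← Real.exp_le_exp, ez2, eY]; exact le_mul_of_one_le_left (by positivity) hΘ
  obtain ⟨E, hE⟩ : ∃ E, E = Ce * u * (1 + |t|) ^ Be * Real.exp Y := ⟨_, rfl⟩
  have hE0 : 0 ≤ E := by rw [hE]; positivity
  have k1 := hc Z hZ P hOK D 𝒜 M' Pi κ E hD (hDA.trans (hWW.trans hW2)) h𝒜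
    (h𝒜A.trans (hWW.trans hW2)) hM hPi hκ hE0 (hHM.mono hM (Nat.le_add_right _ _))
    (fun ρ hρ => (hHP ρ hρ).mono (by linarith) (Nat.le_add_right _ _))
    (fun ρ hρ hexc => by
      have hρ' := mem_ball.1 hρ
      refine (he P rfl rfl (by simp only [P]; linarith) Y (hz20.trans hz2Y)
        (Real.exp_le_exp.1 (hyc.trans hΘa)) (Real.exp_le_exp.1 (hyc.trans hΘa))
        (Real.exp_le_exp.1 (hz1c.trans hΘa)) hz2Y ρ hρ'.1 hexc).mono ?_ hE0 (Nat.le_add_left _ _)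
      have b1 : N ρ ^ (ε1 / (A + 1)) ≤ u := by
        have b2 : N ρ ≤ Z ^ (A + 1) := by
          refine hρ'.2.trans ((div_le_self hD0.le (one_le_pow₀ h𝒜)).trans (hDA.trans ?_))
          rw [hW]; exact Real.rpow_le_rpow_of_exponent_le hZ1 (by linarith)
        refine (Real.rpow_le_rpow (N_nonneg _) b2 (by positivity)).trans (le_of_eq ?_)
        rw [hu, ← Real.rpow_mul hZ0.le]; congr 1; field_simp
      rw [hE]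
      show Ce * N ρ ^ (ε1 / (A + 1)) * (1 + |t|) ^ Be * Real.exp Y ≤ _
      gcongr)
  have k1' : ∑ d ∈ ball D, ‖P.Δ (rc P.ν d) 0 0 0‖ ^ 2 *
      ‖Pb Q (rc P.ν3 d) P.yp P.R P.x P.τ‖ ^ (2 * P.J) ≤
      Cc * 2 ^ Bc * (Ce + 3) * u ^ 6 * T0 ^ (Bc + Be + Br) * Ξ := by
    refine k1.trans ?_
    show Cc * Z ^ ε1 * (1 + |t| + |t| + |τ|) ^ Bc * (D + Real.exp (y + y) * Real.exp (J * yp) * 𝒜 ^ 5 +
      𝒜 ^ 5 * (Pi ^ (2 * J) * Real.exp (J * yp) ^ κ) * (M' + D / 𝒜 ^ 6) +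
      𝒜 ^ 4 * D ^ (1 / 6 : ℝ) * ((E + 1) * Real.exp (J * yp))) ≤ _
    rw [← hL, ← hY0, ← hu, ← ha, ← two_mul]
    have hG1 : 1 ≤ u * T0 ^ Be := one_le_mul_of_one_le_of_one_le hu1 (one_le_pow₀ hT1)
    have b1 : E + 1 ≤ (Ce + 1) * (u * T0 ^ Be) * Real.exp Y := by
      have c1 : E ≤ Ce * (u * T0 ^ Be) * Real.exp Y := by
        rw [hE, mul_assoc Ce]
        have : 1 + |t| ≤ T0 := by linarith
        gcongr
      have c2 : 1 ≤ (u * T0 ^ Be) * Real.exp Y :=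
        one_le_mul_of_one_le_of_one_le hG1 (Real.one_le_exp (hz20.trans hz2Y))
      linarith
    have b2 : 𝒜 ^ 4 * a * ((E + 1) * L) ≤ (Ce + 1) * (u * T0 ^ Be) * (Θ ^ 2 * D) := by
      calc 𝒜 ^ 4 * a * ((E + 1) * L) = a * (E + 1) * (L * 𝒜 ^ 4) := by ring
        _ ≤ a * ((Ce + 1) * (u * T0 ^ Be) * Real.exp Y) * (Θ * lam) := by gcongr
        _ = _ := by rw [eY, ← ha6]; field_simp
    have b3 : D + Real.exp (2 * y) * L * 𝒜 ^ 5 + Y0 + 𝒜 ^ 4 * a * ((E + 1) * L) ≤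
        (Ce + 3) * (u * T0 ^ Be) * Ξ := by
      have c1 : Θ ^ 2 * D ≤ Ξ := by linarith
      have c2 : D + Real.exp (2 * y) * L * 𝒜 ^ 5 + Y0 ≤ 2 * Ξ := by linarith
      have c3 : Ξ ≤ (u * T0 ^ Be) * Ξ := le_mul_of_one_le_left hΞ0 hG1
      have c4 : (Ce + 1) * (u * T0 ^ Be) * (Θ ^ 2 * D) ≤ (Ce + 1) * (u * T0 ^ Be) * Ξ := by gcongr
      linarith
    have b4 : (1 + |t| + |t| + |τ|) ^ Bc ≤ 2 ^ Bc * T0 ^ Bc := by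
      rw [← mul_pow]; exact pow_le_pow_left₀ (by positivity) (by linarith) _
    have b5 : u ^ 2 ≤ u ^ 6 := pow_le_pow_right₀ hu1 (by norm_num)
    have b6 : T0 ^ (Bc + Be) ≤ T0 ^ (Bc + Be + Br) := pow_le_pow_right₀ hT1 (Nat.le_add_right _ _)
    calc _ ≤ Cc * u * (2 ^ Bc * T0 ^ Bc) * ((Ce + 3) * (u * T0 ^ Be) * Ξ) := by gcongr
      _ = Cc * 2 ^ Bc * (Ce + 3) * u ^ 2 * T0 ^ (Bc + Be) * Ξ := by ring
      _ ≤ _ := by gcongr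
  -- part 2 : the reflected term
  have hbd : ∀ ν' ∈ hchars Q.q, ∀ d ∈ npball Q D, ∀ n, ‖rc ν' d n‖ ≤ 1 := fun ν' hν' d hd =>
    (mult_rc Q hν' (mem_ball.1 (St.np_sub Q D hd)).1).bd
  have k2 := hr Z hZ ν hν D z2 t (|t| + |τ|) (2 * Cs * u ^ 2 * Ξ)
    (fun d => ‖pb (rc ν d) z1 t‖ ^ 2 * ‖Pb Q (rc ν3 d) yp R x τ‖ ^ (2 * J)) hD
    (by rw [hW3]; exact hDA.trans (hWW.trans hW23)) hz20 (by positivity) (by positivity)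
    (fun d => by positivity) (fun y' t' hy' => by
      have b1 : Real.exp y' ≤ a * lam * u := by
        refine (Real.exp_le_exp.2 hy').trans (le_of_eq ?_)
        rw [Real.exp_add, Real.exp_sub, Real.exp_log hD0, ez2, hu, Real.rpow_def_of_pos hZ0,
          mul_comm (Real.log Z), ← ha6]
        field_simp
      have b2 : a * lam ≤ a ^ 3 := by
        calc a * lam ≤ a * a ^ 2 := by gcongr
          _ = _ := by ring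
      have b3 : Θ * a ^ 5 * u ≤ Z ^ (3 * A + 1) :=
        le_trans (by gcongr; exact le_trans (by gcongr) hΘD) hW2Z
      have b4 := hs Z hZ ν hν ν3 hν3 J hJ yp R x τ z1 y' t t' D 𝒜 M' Pi κ (Θ * a ^ 5 * u) hyp hR hypR
        hx2 hD (hDA.trans (hWW.trans hW2)) h𝒜 (h𝒜A.trans (hWW.trans hW2)) hM hPi hκ
        (St.le_mul_log hZ0 (hz1c.trans (hΘ3.trans hW2)))
        (St.le_mul_log hZ0 (b1.trans (le_trans (by
          gcongr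
          exact b2.trans ((le_mul_of_one_le_left (by positivity) hΘ).trans hΘ3)) hW2Z))) b3
        (by
          rw [← hL, Real.exp_add]
          calc Real.exp z1 * Real.exp y' * L * 𝒜 ^ 5
              = (Real.exp z1 * L * 𝒜 ^ 5) * Real.exp y' := by ring
            _ ≤ (Θ * a * lam) * (a * lam * u) := by gcongr
            _ = Θ * (a ^ 2 * lam ^ 2) * u := by ring
            _ ≤ Θ * (a ^ 2 * a ^ 3) * u := by gcongr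
            _ = _ := by ring)
        (by
          rw [← hL]
          calc L * 𝒜 ^ 4 ≤ Θ * lam := hV2
            _ ≤ Θ * a ^ 5 := by
                gcongr; exact hl1.trans (pow_le_pow_right₀ ha1 (by norm_num))
            _ ≤ _ := le_mul_of_one_le_right (by positivity) hu1)
        hHM hHP
      refine b4.trans ?_
      rw [← hL, ← hY0, ← hu, ← ha]
      have c1 : D + a * (Θ * a ^ 5 * u) + Y0 ≤ 2 * u * Ξ := by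
        have d1 : a * (Θ * a ^ 5 * u) = u * (Θ * D) := by rw [← ha6]; ring
        have d2 : u * (Θ * D) ≤ u * Ξ := by gcongr; linarith
        have d3 : Ξ ≤ u * Ξ := le_mul_of_one_le_left hΞ0 hu1
        linarith
      have c2 : 1 + |t| + |t'| + |τ| = 1 + |t'| + (|t| + |τ|) := by ring
      rw [c2]
      calc _ ≤ Cs * u * (1 + |t'| + (|t| + |τ|)) ^ Bs * (2 * u * Ξ) := by gcongr
        _ = _ := by ring)
  have k2' : ∑ d ∈ npball Q D, ‖pb (rc ν d) z2 t‖ ^ 2 *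
      (‖pb (rc ν d) z1 t‖ ^ 2 * ‖Pb Q (rc ν3 d) yp R x τ‖ ^ (2 * J)) ≤
      Cr * 2 ^ Br * (2 * Cs + 18 * Cw) * u ^ 6 * T0 ^ (Bc + Be + Br) * Ξ := by
    refine k2.trans ?_
    have b1 : Z ^ (2 * ((2 : ℕ) : ℝ) * ε1) = u ^ 4 := by
      rw [hu, ← Real.rpow_natCast, ← Real.rpow_mul hZ0.le]; congr 1; push_cast; ring
    have b2 : Z ^ (-(((2 : ℕ) : ℝ) * (3 * A))) = (W ^ 6)⁻¹ := by
      rw [Real.rpow_neg hZ0.le, hW, ← Real.rpow_natCast, ← Real.rpow_mul hZ0.le]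
      congr 2; push_cast; ring
    have b3 : ∑ d ∈ npball Q D, ‖pb (rc ν d) z1 t‖ ^ 2 * ‖Pb Q (rc ν3 d) yp R x τ‖ ^ (2 * J) ≤
        18 * D * (Cw * u * W ^ 6) := by
      refine (Finset.sum_le_card_nsmul _ _ (Cw * u * W ^ 6) fun d hd => ?_).trans ?_
      · refine (hw Z hZ Q _ _ (hbd ν hν d hd) (hbd ν3 hν3 d hd) J hJ yp R x τ z1 t hyp hR hypR
          (hx1.trans hη1')).trans ?_
        rw [← hu, ← hL]
        have c1 : Real.exp z1 * L ^ 2 ≤ W ^ 2 * (W ^ 2) ^ 2 := by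
          gcongr; exact hz1c.trans hΘ3
        calc _ ≤ Cw * u * (W ^ 2 * (W ^ 2) ^ 2) := by gcongr
          _ = _ := by ring
      · rw [nsmul_eq_mul]
        refine mul_le_mul_of_nonneg_right ?_ (by positivity)
        exact le_trans (by exact_mod_cast Finset.card_le_card (St.np_sub Q D)) (card_ball_le hD0.le)
    have b4 : (W ^ 6)⁻¹ * ∑ d ∈ npball Q D,
        ‖pb (rc ν d) z1 t‖ ^ 2 * ‖Pb Q (rc ν3 d) yp R x τ‖ ^ (2 * J) ≤ 18 * Cw * u ^ 6 * Ξ := by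
      calc _ ≤ (W ^ 6)⁻¹ * (18 * D * (Cw * u * W ^ 6)) := by gcongr
        _ = 18 * Cw * u * D := by field_simp
        _ ≤ _ := by
            have : D ≤ Ξ := by linarith
            have : u ≤ u ^ 6 := le_self_pow₀ hu1 (by norm_num)
            gcongr
    have b5 : (1 + |t| + (|t| + |τ|)) ^ Br ≤ 2 ^ Br * T0 ^ (Bc + Be + Br) := by
      refine le_trans ?_ (mul_le_mul_of_nonneg_left
        (pow_le_pow_right₀ hT1 (Nat.le_add_left Br (Bc + Be))) (by positivity))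
      rw [← mul_pow]; exact pow_le_pow_left₀ (by positivity) (by linarith) _
    rw [b1, b2]
    calc _ ≤ Cr * (2 ^ Br * T0 ^ (Bc + Be + Br)) *
          (u ^ 4 * (2 * Cs * u ^ 2 * Ξ) + 18 * Cw * u ^ 6 * Ξ) := by gcongr
      _ = _ := by ring
  -- combination
  have k3 : ∑ d ∈ npball Q D, ‖pb (rc ν d) y t‖ ^ 4 * ‖Pb Q (rc ν3 d) yp R x τ‖ ^ (2 * J) ≤
      2 * ∑ d ∈ npball Q D, ‖P.Δ (rc P.ν d) 0 0 0‖ ^ 2 *
        ‖Pb Q (rc P.ν3 d) P.yp P.R P.x P.τ‖ ^ (2 * P.J) +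
      2 * ∑ d ∈ npball Q D, ‖pb (rc ν d) z2 t‖ ^ 2 *
        (‖pb (rc ν d) z1 t‖ ^ 2 * ‖Pb Q (rc ν3 d) yp R x τ‖ ^ (2 * J)) := by
    rw [Finset.mul_sum, Finset.mul_sum, ← Finset.sum_add_distrib]
    refine Finset.sum_le_sum fun d _ => ?_
    simp only [Par.Δ, P, sub_zero, one_mul]
    exact St.center _ _ _ (by positivity)
  have k4 := (Finset.sum_le_sum_of_subset_of_nonneg (St.np_sub Q D)
    (f := fun d => ‖P.Δ (rc P.ν d) 0 0 0‖ ^ 2 * ‖Pb Q (rc P.ν3 d) P.yp P.R P.x P.τ‖ ^ (2 * P.J))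
    fun _ _ _ => by positivity).trans k1'
  calc _ ≤ _ := k3
    _ ≤ 2 * (Cc * 2 ^ Bc * (Ce + 3) * u ^ 6 * T0 ^ (Bc + Be + Br) * Ξ) +
        2 * (Cr * 2 ^ Br * (2 * Cs + 18 * Cw) * u ^ 6 * T0 ^ (Bc + Be + Br) * Ξ) := by gcongr
    _ = (2 * (Cc * 2 ^ Bc * (Ce + 3)) + 2 * (Cr * 2 ^ Br * (2 * Cs + 18 * Cw))) * u ^ 6 *
        T0 ^ (Bc + Be + Br) * Ξ := by ring
    _ ≤ _ := by gcongr

end Crest.Agent.R17.GM
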