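import Crest.Agent.R17.GMoment_Back
import Crest.Agent.R17.GMoment_Bsum

/-!
# R17 / GMoment_Trow : the dual sum for a fixed `r` (amplify, then go back)
-/

set_option autoImplicit false

noncomputable section

open scoped Classical ComplexConjugate
open MeasureTheory

namespace Crest.Agent.R17.GM

theorem trow_third {D U a x y : ℝ} (hD : 0 < D) (hU : 0 < U) (ha : 0 < a) (hx : 1 ≤ x) (hy : 1 ≤ y)
    (j : ℕ) :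
    U * a * (D / a / x ^ 2 / y ^ 2) * ((U * a * (D / a / x ^ 2 / y ^ 2)) ^ j)⁻¹ *
        ((x * y) ^ (2 * j + 6))⁻¹ ≤ D * U * ((D * U) ^ j)⁻¹ * (x ^ 2)⁻¹ * (y ^ 2)⁻¹ := by
  have h1 : 1 ≤ x * y := one_le_mul_of_one_le_of_one_le hx hy
  have h2 : U * a * (D / a / x ^ 2 / y ^ 2) = D * U / (x * y) ^ 2 := by field_simp
  have h3 : ((x * y) ^ 6)⁻¹ ≤ 1 := inv_le_one_of_one_le₀ (one_le_pow₀ h1)
  calc _ = D * U * ((D * U) ^ j)⁻¹ * (x ^ 2)⁻¹ * (y ^ 2)⁻¹ * ((x * y) ^ 6)⁻¹ := by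
        rw [h2, div_pow, ← pow_mul, pow_add]
        field_simp
    _ ≤ _ := mul_le_of_le_one_right (by positivity) h3

/-- If `U < 1` the ball is empty.  Otherwise `Tsum_eq`, `amplify` (with `A' = A`), and for every
`e, ν₂` apply `back1` to `be2 (be1 α ν₁ r δ τ) ν₂ e` with `K = U 𝒜⁶ ≥ 1`,
`U₂ = D/𝒜⁶/N r²/N e²`, `F' ρ' = X⁻² e^{|τ|/2} F (ρ' e² r²)` (`bsum_adm`).  The three terms: `l2_be2`
(sum over `e` by `summable_N_rpow`); `sum_sq_mult` in `e` for `ρ'' ↦ F (ρ'' r²)` on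
`ball (D/𝒜⁶/N r²) ⊆ ball (D/𝒜⁶)`; `K U₂ = D U/(N r N e)²` and `mom_be2` give
`(D U)^{1-A0} Λ² X^{2A0+5} (N r N e)^{-8}`. -/
theorem trow (Q : Lev) (A : ℝ) {ε δ : ℝ} (hε : 0 < ε) (hδ : 0 < δ) (hδ1 : δ ≤ 1) {A0 : ℕ}
    (hA0 : 2 ≤ A0) : ∃ C, 0 ≤ C ∧ ∀ Z : ℝ, 3 ≤ Z → ∀ (α : O → ℂ) (Λ X : ℝ) (F : O → ℝ)
    (D 𝒜 U T : ℝ), SuppSq Q 1 α → Adm Q δ (A0 + 3) (D / 𝒜 ^ 6) α Λ X F → 0 < D → 1 ≤ 𝒜 →
    𝒜 ≤ Z ^ A → 0 < U → U * 𝒜 ^ 6 ≤ Z ^ A → 0 ≤ T →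
    (∀ ρ ∈ ball (D / 𝒜 ^ 6), ((pdiv ρ).card : ℝ) ≤ T) →
    ∀ r : O, Prim r → ∀ ν ∈ hchars Q.q, ∀ τ : ℝ,
      ∑ k ∈ ball U, ‖Tsum α ν r 1 k (δ / 2) τ‖ ^ 2 ≤ Real.exp (|τ| / 2) * (C * Z ^ ε *
        (U * 𝒜 ^ 5 * (Λ ^ 2 * X⁻¹ * N r ^ (-(1 + δ)) +
            T ^ 2 * (X ^ 2)⁻¹ * ∑ ρ ∈ ball (D / 𝒜 ^ 6 / N r ^ 2), F (ρ * r ^ 2)) +
          (D * U) * ((D * U) ^ A0)⁻¹ * Λ ^ 2 * X ^ (2 * A0 + 5) * N r ^ (-(2 : ℝ)))) := by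
  obtain ⟨Ca, hCa⟩ := amplify Q A hε
  obtain ⟨Cb, hb0, hCb⟩ := back1 Q hδ hδ1 hA0
  obtain ⟨Cl, hl0, hCl⟩ := l2_be2 hδ
  obtain ⟨Cm, hm0, hCm⟩ := mom_be2
  have hs1 := summable_N_rpow (σ := 1 + δ) (by linarith)
  obtain ⟨s1, hs1'⟩ : ∃ s : ℝ, s = ∑' n : O, N n ^ (-(1 + δ)) := ⟨_, rfl⟩
  obtain ⟨s2, hs2'⟩ : ∃ s : ℝ, s = ∑' n : O, (N n ^ 2)⁻¹ := ⟨_, rfl⟩
  have hs10 : 0 ≤ s1 := hs1' ▸ tsum_nonneg fun n => Real.rpow_nonneg (N_nonneg n) _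
  have hs20 : 0 ≤ s2 := hs2' ▸ tsum_nonneg fun n => by positivity
  refine ⟨|Ca| * (hchars Q.q).card * Cb * (Cl * s1 + 1 + Cm * s2), by positivity,
    fun Z hZ α Λ X F D 𝒜 U T hα hA hD h𝒜 h𝒜Z hU hUZ hT hT' r hr ν hν τ => ?_⟩
  have hX := hA.xpos
  have hZ0 : 0 < Z := by linarith
  have h𝒜0 : 0 < 𝒜 := by linarith
  have hr1 := one_le_N hr.ne_zero
  have hr0 : 0 < N r := by linarith
  obtain ⟨S, hS⟩ : ∃ S : ℝ, S = ∑ ρ ∈ ball (D / 𝒜 ^ 6 / N r ^ 2), F (ρ * r ^ 2) := ⟨_, rfl⟩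
  have hS0 : 0 ≤ S := hS ▸ Finset.sum_nonneg fun ρ _ => hA.fnn _
  obtain ⟨P1, hP1⟩ : ∃ P : ℝ, P = Λ ^ 2 * X⁻¹ * N r ^ (-(1 + δ)) := ⟨_, rfl⟩
  have hP10 : 0 ≤ P1 := hP1 ▸ by positivity
  obtain ⟨P3, hP3⟩ : ∃ P : ℝ,
    P = D * U * ((D * U) ^ A0)⁻¹ * Λ ^ 2 * X ^ (2 * A0 + 5) * N r ^ (-(2 : ℝ)) := ⟨_, rfl⟩
  have hP30 : 0 ≤ P3 := hP3 ▸ by positivity
  obtain ⟨w, hw⟩ : ∃ w : ℝ, w = Real.exp (|τ| / 2) := ⟨_, rfl⟩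
  have hw1 : 1 ≤ w := hw ▸ Real.one_le_exp (by positivity)
  rw [← hS, ← hP1, ← hP3, ← hw]
  rcases lt_or_ge U 1 with hU1 | hU1
  · rw [ball_eq_empty hU1, Finset.sum_empty]
    positivity
  have hK : 1 ≤ U * 𝒜 ^ 6 := one_le_mul_of_one_le_of_one_le hU1 (one_le_pow₀ h𝒜)
  have hsub : ball (D / 𝒜 ^ 6 / N r ^ 2) ⊆ ball (D / 𝒜 ^ 6) :=
    ball_mono (div_le_self (by positivity) (one_le_pow₀ hr1))
  have hβ := suppSq_be1 hα ν hr δ τ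
  have hβ' := rapid_be1 hα hA.rapid hν hr hδ1 τ
  have key : ∀ e ∈ (ball 𝒜).filter (fun e => P0 Q e), ∀ ν2 ∈ hchars Q.q,
      ∑ k ∈ ball (U * 𝒜 ^ 6), ‖∑' m, (be1 α ν r δ τ (e * m) * ν2 m * chi m (e ^ 2)) * gt m *
        conj (chi m k)‖ ^ 2 ≤
      Cb * (U * 𝒜 ^ 6) * Cl * P1 * N e ^ (-(1 + δ)) +
        Cb * (U * 𝒜 ^ 6) * T * ((X ^ 2)⁻¹ * w) *
          ∑ ρ ∈ ball (D / 𝒜 ^ 6 / N r ^ 2 / N e ^ 2), F (ρ * e ^ 2 * r ^ 2) +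
        Cb * Cm * P3 * (N e ^ 2)⁻¹ := by
    intro e he ν2 hν2
    have he' := (Finset.mem_filter.1 he).2.1
    have he1 := one_le_N he'.ne_zero
    have he0 : 0 < N e := by linarith
    refine (hCb _ (suppSq_be2 hβ ν2 he') (rapid_be2 hβ hβ' hν2 he') (U * 𝒜 ^ 6)
      (D / 𝒜 ^ 6 / N r ^ 2 / N e ^ 2) T hK (by positivity) hT
      (fun ρ hρ => hT' ρ (hsub (ball_mono (div_le_self (by positivity) (one_le_pow₀ he1)) hρ)))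
      (fun ρ => (X ^ 2)⁻¹ * Real.exp (|τ| / 2) * F (ρ * e ^ 2 * r ^ 2))
      (fun ρ => mul_nonneg (by positivity) (hA.fnn _))
      fun g r' hg hr' ν3 hν3 d hd τ' => bsum_adm hα hA hδ hν hν2 hν3 hr he' hg hr' hd τ τ').trans
      (add_le_add (add_le_add ?_ (le_of_eq ?_)) ?_)
    · refine (mul_le_mul_of_nonneg_left (hCl Q _ _ α Λ X F hα hA ν hν ν2 hν2 r e hr he' τ)
        (by positivity)).trans (le_of_eq ?_)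
      rw [hP1]
      ring
    · rw [← Finset.mul_sum, hw]
      ring
    · refine (mul_le_mul_of_nonneg_left
        (hCm Q δ A0 _ α Λ X F hδ hδ1 hα hA ν hν ν2 hν2 r e hr he' τ) (by positivity)).trans ?_
      have h1 := mul_le_mul_of_nonneg_left (trow_third hD hU (pow_pos h𝒜0 6) hr1 he1 A0)
        (show 0 ≤ Cb * Cm * (Λ ^ 2 * X ^ (2 * A0 + 5)) by positivity)
      rw [hP3, Real.rpow_neg hr0.le, Real.rpow_two]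
      linarith
  have b1 : ∑ e ∈ (ball 𝒜).filter (fun e => P0 Q e), N e ^ (-(1 + δ)) ≤ s1 :=
    hs1' ▸ hs1.sum_le_tsum _ fun n _ => Real.rpow_nonneg (N_nonneg n) _
  have b2 : ∑ e ∈ (ball 𝒜).filter (fun e => P0 Q e),
      ∑ ρ ∈ ball (D / 𝒜 ^ 6 / N r ^ 2 / N e ^ 2), F (ρ * e ^ 2 * r ^ 2) ≤ T * S :=
    hS ▸ sum_sq_mult (F := fun ρ => F (ρ * r ^ 2)) (fun ρ hρ => hT' ρ (hsub hρ))
      (fun ρ => hA.fnn _) _ fun e he => (Finset.mem_filter.1 he).2.1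
  have b3 : ∑ e ∈ (ball 𝒜).filter (fun e => P0 Q e), (N e ^ 2)⁻¹ ≤ s2 :=
    hs2' ▸ Bk.summable_inv_sq.sum_le_tsum _ fun n _ => by positivity
  have tot : ∑ e ∈ (ball 𝒜).filter (fun e => P0 Q e), ∑ ν2 ∈ hchars Q.q,
      ∑ k ∈ ball (U * 𝒜 ^ 6), ‖∑' m, (be1 α ν r δ τ (e * m) * ν2 m * chi m (e ^ 2)) * gt m *
        conj (chi m k)‖ ^ 2 ≤ (hchars Q.q).card * (Cb * (U * 𝒜 ^ 6) * Cl * P1 * s1 +
          Cb * (U * 𝒜 ^ 6) * T * ((X ^ 2)⁻¹ * w) * (T * S) + Cb * Cm * P3 * s2) := by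
    refine (Finset.sum_le_sum fun e he => Finset.sum_le_card_nsmul _ _ _ (key e he)).trans ?_
    simp only [nsmul_eq_mul]
    rw [← Finset.mul_sum, Finset.sum_add_distrib, Finset.sum_add_distrib, ← Finset.mul_sum,
      ← Finset.mul_sum, ← Finset.mul_sum]
    gcongr
  simp only [Tsum_eq]
  refine (hCa Z hZ _ hβ hβ' U 𝒜 h𝒜 hUZ h𝒜Z).trans ?_
  refine (mul_le_mul (b := |Ca| * Z ^ ε / 𝒜) (by gcongr; exact le_abs_self Ca) tot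
    (by positivity) (by positivity)).trans ?_
  have e1 : |Ca| * Z ^ ε / 𝒜 * ((hchars Q.q).card * (Cb * (U * 𝒜 ^ 6) * Cl * P1 * s1 +
      Cb * (U * 𝒜 ^ 6) * T * ((X ^ 2)⁻¹ * w) * (T * S) + Cb * Cm * P3 * s2)) =
      |Ca| * (hchars Q.q).card * Cb * Z ^ ε * (Cl * s1 * (U * 𝒜 ^ 5 * P1) +
        w * (U * 𝒜 ^ 5 * (T ^ 2 * (X ^ 2)⁻¹ * S)) + Cm * s2 * P3 * 𝒜⁻¹) := by
    field_simp
  have e2 : w * (|Ca| * (hchars Q.q).card * Cb * (Cl * s1 + 1 + Cm * s2) * Z ^ ε *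
      (U * 𝒜 ^ 5 * (P1 + T ^ 2 * (X ^ 2)⁻¹ * S) + P3)) =
      |Ca| * (hchars Q.q).card * Cb * Z ^ ε * (w * (Cl * s1 + 1 + Cm * s2) * (U * 𝒜 ^ 5 * P1) +
        w * (Cl * s1 + 1 + Cm * s2) * (U * 𝒜 ^ 5 * (T ^ 2 * (X ^ 2)⁻¹ * S)) +
        w * (Cl * s1 + 1 + Cm * s2) * P3 * 1) := by ring
  rw [e1, e2]
  have c1 : 0 ≤ Cl * s1 := by positivity
  have c2 : 0 ≤ Cm * s2 := by positivity
  have c3 : Cl * s1 + 1 + Cm * s2 ≤ w * (Cl * s1 + 1 + Cm * s2) :=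
    le_mul_of_one_le_left (by positivity) hw1
  refine mul_le_mul_of_nonneg_left (add_le_add (add_le_add ?_ ?_) ?_) (by positivity)
  · exact mul_le_mul_of_nonneg_right (by linarith) (by positivity)
  · exact mul_le_mul_of_nonneg_right (le_mul_of_one_le_right (zero_le_one.trans hw1) (by linarith))
      (by positivity)
  · exact mul_le_mul (mul_le_mul_of_nonneg_right (by linarith) hP30) (inv_le_one_of_one_le₀ h𝒜)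
      (by positivity) (by positivity)

end Crest.Agent.R17.GM
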