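import Crest.Agent.R17.GMoment_Coef
import Crest.Agent.R17.GMoment_Pair

/-!
# R17 / GMoment_Wsum : the bound for `Wsum` of a structured sequence
-/

set_option autoImplicit false

noncomputable section

open scoped Classical ComplexConjugate
open MeasureTheory

namespace Crest.Agent.R17.GM

/-- `Ω = τ(G) + J0`: `(τ(G) + J0)^J ≤ C N G^δ` for `J ≤ J0` (`card_pdiv_le` with `δ/(J0+1)`) -/
theorem omega_pow_le {δ : ℝ} (hδ : 0 < δ) (J0 : ℕ) : ∃ C, 0 ≤ C ∧ ∀ G : O, G ≠ 0 → ∀ J ≤ J0,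
    (((pdiv G).card : ℝ) + J0) ^ J ≤ C * N G ^ δ := by
  have hε : 0 < δ / ((J0 : ℝ) + 1) := by positivity
  obtain ⟨C, hC⟩ := card_pdiv_le hε
  refine ⟨(|C| + J0 + 1) ^ (J0 + 1), by positivity, fun G hG J hJ => ?_⟩
  have hN := one_le_N hG
  have h1 : 1 ≤ N G ^ (δ / ((J0 : ℝ) + 1)) := Real.one_le_rpow hN hε.le
  have hJ0 : (0 : ℝ) ≤ J0 := Nat.cast_nonneg _
  have h2 : ((pdiv G).card : ℝ) + J0 ≤ (|C| + J0 + 1) * N G ^ (δ / ((J0 : ℝ) + 1)) := by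
    have h3 := hC G hG
    have h4 : C * N G ^ (δ / ((J0 : ℝ) + 1)) ≤ |C| * N G ^ (δ / ((J0 : ℝ) + 1)) :=
      mul_le_mul_of_nonneg_right (le_abs_self C) (by linarith)
    nlinarith
  have h5 : 1 ≤ (|C| + J0 + 1) * N G ^ (δ / ((J0 : ℝ) + 1)) := by
    nlinarith [abs_nonneg C]
  calc (((pdiv G).card : ℝ) + J0) ^ J ≤ ((|C| + J0 + 1) * N G ^ (δ / ((J0 : ℝ) + 1))) ^ J :=
        pow_le_pow_left₀ (by positivity) h2 J
    _ ≤ ((|C| + J0 + 1) * N G ^ (δ / ((J0 : ℝ) + 1))) ^ (J0 + 1) :=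
        pow_le_pow_right₀ h5 (by omega)
    _ = _ := by
        rw [mul_pow, ← Real.rpow_natCast (N G ^ (δ / ((J0 : ℝ) + 1))),
          ← Real.rpow_mul (by linarith)]
        congr 2
        push_cast
        field_simp

theorem wsum_norm_tw_bP (Q : Lev) {ν : O → ℂ} (hν : ∀ n, ‖ν n‖ ≤ 1) {yp R : ℝ} (x τ δ τ' w : ℝ)
    {p : O} (hp : p ∈ slot Q yp R) :
    ‖tw (-(1 : ℂ) + δ + τ' * Complex.I) (bP ν yp x τ) p‖ * N p ^ w ≤
      (yp + R) * (N p ^ (-(3 / 2) + x + δ + w) * gw (Real.log (N p) - yp)) := by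
  have hS : p ≠ 0 ∧ N p ≤ Real.exp (yp + R) := mem_ball.1 (Finset.mem_filter.1 hp).1
  have hN := N_pos hS.1
  have h2 : 0 ≤ Real.log (N p) := Real.log_nonneg (one_le_N hS.1)
  have h3 : Real.log (N p) ≤ yp + R := (Real.log_le_iff_le_exp hN).2 hS.2
  have h4 := gw_pos (Real.log (N p) - yp)
  have e : (-(1 / 2 : ℂ) + x + τ * Complex.I).re = -(1 / 2) + x := by simp
  have e' : (-(1 : ℂ) + δ + τ' * Complex.I).re = -1 + δ := by simp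
  rw [tw, bP, norm_mul, norm_mul, norm_mul, Complex.norm_cpow_eq_rpow_re_of_pos hN,
    Complex.norm_cpow_eq_rpow_re_of_pos hN, e, e', Complex.norm_real, wP,
    Real.norm_of_nonneg (by positivity)]
  have e2 : N p ^ (-(3 / 2) + x + δ + w) = N p ^ (-(1 / 2) + x) * N p ^ (-1 + δ) * N p ^ w := by
    rw [← Real.rpow_add hN, ← Real.rpow_add hN]
    congr 1
    ring
  rw [e2]
  calc _ = ‖ν p‖ * (Real.log (N p) * gw (Real.log (N p) - yp)) *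
        (N p ^ (-(1 / 2) + x) * N p ^ (-1 + δ) * N p ^ w) := by ring
    _ ≤ 1 * ((yp + R) * gw (Real.log (N p) - yp)) *
        (N p ^ (-(1 / 2) + x) * N p ^ (-1 + δ) * N p ^ w) :=
        mul_le_mul_of_nonneg_right (mul_le_mul (hν p) (mul_le_mul_of_nonneg_right h3 h4.le)
          (by positivity) zero_le_one) (by positivity)
    _ = _ := by ring

/-- the two constants of `tb_addP` for `b̃ = tw s (bP …)`, `s = -1 + δ + iτ'`, `γ = 1/2 + 3δ`: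
`‖b̃ p‖ ≤ (yp+R) N p^{-3/2+x+δ} gw(log N p - yp)`; `sum_gw_unif` with `w = -2 + x - δ`, and
`rpow_gw_le` with `w = -1 + x + 4δ` -/
theorem bP_consts : ∃ C, 0 ≤ C ∧ ∀ (Q : Lev) (ν : O → ℂ), (∀ n, ‖ν n‖ ≤ 1) →
    ∀ yp R x τ δ τ' η : ℝ, 0 ≤ yp → 0 ≤ R → |x| ≤ η → η ≤ 1 / 2 → 0 ≤ δ → δ ≤ 1 / 8 →
    (∑ p ∈ slot Q yp R, ‖tw (-(1 : ℂ) + δ + τ' * Complex.I) (bP ν yp x τ) p‖ *
        N p ^ (-(1 / 2 + 3 * δ) + δ) ≤ C * (yp + R) * Real.exp ((-1 + η + 4 * δ) * yp)) ∧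
    ∀ p ∈ slot Q yp R, ‖tw (-(1 : ℂ) + δ + τ' * Complex.I) (bP ν yp x τ) p‖ *
        N p ^ (1 / 2 + 3 * δ) ≤ C * (yp + R) * Real.exp ((-1 + η + 4 * δ) * yp) := by
  obtain ⟨C, hC0, hC⟩ := sum_gw_unif
  have he : 0 < Real.exp 1 := Real.exp_pos 1
  refine ⟨C + Real.exp 1, by positivity, ?_⟩
  intro Q ν hν yp R x τ δ τ' η hyp hR hx hη hδ hδ1
  have hx' := abs_le.1 hx
  have hS : ∀ p ∈ slot Q yp R, p ≠ 0 := fun p hp => (mem_ball.1 (Finset.mem_filter.1 hp).1).1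
  have hyR : 0 ≤ yp + R := by linarith
  have hE : 0 < Real.exp ((-1 + η + 4 * δ) * yp) := Real.exp_pos _
  constructor
  · have h1 := hC (-(3 / 2) + x + δ + (-(1 / 2 + 3 * δ) + δ)) yp
      (abs_le.2 ⟨by linarith, by linarith⟩) (slot Q yp R) hS
    have h2 : Real.exp ((-(3 / 2) + x + δ + (-(1 / 2 + 3 * δ) + δ) + 1) * yp) ≤
        Real.exp ((-1 + η + 4 * δ) * yp) :=
      Real.exp_le_exp.2 (mul_le_mul_of_nonneg_right (by linarith) hyp)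
    calc _ ≤ ∑ p ∈ slot Q yp R, (yp + R) *
          (N p ^ (-(3 / 2) + x + δ + (-(1 / 2 + 3 * δ) + δ)) * gw (Real.log (N p) - yp)) :=
          Finset.sum_le_sum fun p hp => wsum_norm_tw_bP Q hν x τ δ τ' _ hp
      _ ≤ (yp + R) * (C * Real.exp ((-1 + η + 4 * δ) * yp)) := by
          rw [← Finset.mul_sum]
          exact mul_le_mul_of_nonneg_left (h1.trans (mul_le_mul_of_nonneg_left h2 hC0)) hyR
      _ ≤ (yp + R) * ((C + Real.exp 1) * Real.exp ((-1 + η + 4 * δ) * yp)) :=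
          mul_le_mul_of_nonneg_left (mul_le_mul_of_nonneg_right (by linarith) hE.le) hyR
      _ = _ := by ring
  · intro p hp
    have h1 := rpow_gw_le (hS p hp) (-(3 / 2) + x + δ + (1 / 2 + 3 * δ)) yp
    have h2 : Real.exp ((-(3 / 2) + x + δ + (1 / 2 + 3 * δ)) * yp) ≤
        Real.exp ((-1 + η + 4 * δ) * yp) :=
      Real.exp_le_exp.2 (mul_le_mul_of_nonneg_right (by linarith) hyp)
    have h3 : Real.exp ((-(3 / 2) + x + δ + (1 / 2 + 3 * δ)) ^ 2 / 4) ≤ C + Real.exp 1 := by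
      have : Real.exp ((-(3 / 2) + x + δ + (1 / 2 + 3 * δ)) ^ 2 / 4) ≤ Real.exp 1 := by
        refine Real.exp_le_exp.2 ?_
        have h4 : -2 ≤ -(3 / 2) + x + δ + (1 / 2 + 3 * δ) := by linarith
        have h5 : -(3 / 2) + x + δ + (1 / 2 + 3 * δ) ≤ 2 := by linarith
        nlinarith
      linarith
    calc _ ≤ (yp + R) * (N p ^ (-(3 / 2) + x + δ + (1 / 2 + 3 * δ)) * gw (Real.log (N p) - yp)) :=
          wsum_norm_tw_bP Q hν x τ δ τ' _ hp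
      _ ≤ (yp + R) * ((C + Real.exp 1) * Real.exp ((-1 + η + 4 * δ) * yp)) :=
          mul_le_mul_of_nonneg_left (h1.trans (mul_le_mul h3 h2 (Real.exp_pos _).le
            (by positivity))) hyR
      _ = _ := by ring

theorem sum_tw_bP (Q : Lev) (ν ψ : O → ℂ) (yp R x τ δ τ' : ℝ) :
    ∑ p ∈ slot Q yp R, tw (-(1 : ℂ) + δ + τ' * Complex.I) (bP ν yp x τ) p * ψ p =
      Pb Q (fun n => ν n * ψ n) yp R (x - 1 + δ) (τ + τ') := by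
  unfold Pb
  refine Finset.sum_congr rfl fun p hp => ?_
  have h0 : p ≠ 0 := (mem_ball.1 (Finset.mem_filter.1 hp).1).1
  have hN : (N p : ℂ) ≠ 0 := Complex.ofReal_ne_zero.2 (N_pos h0).ne'
  have e : (-(1 / 2 : ℂ) + ((x - 1 + δ : ℝ) : ℂ) + ((τ + τ' : ℝ) : ℂ) * Complex.I) =
      (-(1 / 2 : ℂ) + x + τ * Complex.I) + (-(1 : ℂ) + δ + τ' * Complex.I) := by
    push_cast
    ring
  rw [e, Complex.cpow_add _ _ hN, tw, bP]
  ring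

theorem wsum_tw_a0 (s : ℂ) (P : Par) : tw s P.a0 = fun n =>
    conv (tw s (fb P.ν P.y1 P.t1)) (tw s (fb P.ν P.y2 P.t2)) n -
      P.c * conv (tw s (fb P.ν P.z1 P.t1)) (tw s (fb P.ν P.z2 P.t2)) n := by
  funext n
  rw [conv_tw, conv_tw]
  simp only [tw, Par.a0]
  ring

/-- the bracket of `tb_addP` -/
theorem wsum_bracket {b Pi0 E T l Ω C Λ : ℝ} (hb : b ≤ Pi0 * E) (hPi : 0 ≤ Pi0) (hE : 0 ≤ E)
    (hT : 1 ≤ T) (hl : 1 ≤ l) (hΩ : 1 ≤ Ω) (hC : 0 ≤ C) (hΛ : Λ ≤ C * (2 * l) * (E * T)) :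
    b + 2 * Λ + 2 * Ω * Λ ≤ E * (Pi0 + 1) * (8 * C + 1) * l * Ω * T := by
  have h1 : 1 ≤ l * Ω * T := one_le_mul_of_one_le_of_one_le (one_le_mul_of_one_le_of_one_le hl hΩ) hT
  have h2 : 2 * Λ + 2 * Ω * Λ ≤ E * (8 * C * (l * Ω * T)) := by
    have h3 : (2 + 2 * Ω) * Λ ≤ (2 + 2 * Ω) * (C * (2 * l) * (E * T)) :=
      mul_le_mul_of_nonneg_left hΛ (by linarith)
    have h4 : (2 + 2 * Ω) * (C * (2 * l) * (E * T)) ≤ (4 * Ω) * (C * (2 * l) * (E * T)) :=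
      mul_le_mul_of_nonneg_right (by linarith) (by positivity)
    nlinarith
  set W := l * Ω * T with hW
  have h5 : Pi0 + 8 * C * W ≤ (Pi0 + 1) * (8 * C + 1) * W := by
    have h6 : Pi0 ≤ Pi0 * W := by nlinarith
    have h7 : 0 ≤ Pi0 * C * W := by positivity
    nlinarith
  calc b + 2 * Λ + 2 * Ω * Λ ≤ E * (Pi0 + 8 * C * W) := by nlinarith
    _ ≤ E * ((Pi0 + 1) * (8 * C + 1) * W) := mul_le_mul_of_nonneg_left h5 hE
    _ = _ := by rw [hW]; ring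

/-- `Wsum_eq`, `addP_tw`, `conv_tw`; `pair_bound` (`δ' = 4δ`, `V = Z^A`), `tb_pair` (`γ = 1/2 + 3δ`),
`tb_addP` with `test_PhiG`, `Ω = τ(G) + J0`, `bP_consts`, `sum_tw_bP`:
the bracket is `≤ e^{-yp} (Π₀ + 1) · C log Z · Ω · e^{(η+4δ) yp}` (make `C ≥ 1`, `Ω ≥ 1`), and
`e^{δ(y₁+y₂)} ≤ Z^{δA}`, `L^{η+4δ} ≤ Z^{A(η+4δ)}`, `omega_pow_le`.
(`fun n => ν n * rc ν'' ρ n` is `rc (ν ν'') ρ` up to `mul_assoc`.) -/
theorem wsum_le {δ : ℝ} (hδ : 0 < δ) (hδ1 : δ ≤ 1 / 8) (J0 : ℕ) : ∃ C, 0 ≤ C ∧ ∀ (A η Z : ℝ),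
    0 ≤ A → 0 ≤ η → η ≤ 1 / 2 → 3 ≤ Z → ∀ (Q : Lev) (P : Par), P.OK Q A η Z J0 →
    ∀ ν ∈ hchars Q.q, ∀ ρ : O, ρ ≠ 0 → ∀ τ' F0 Pi0 : ℝ, 0 ≤ F0 → 0 ≤ Pi0 →
    (∀ u1 u2 : ℝ, 0 ≤ u1 → 0 ≤ u2 → ‖P.Δ (rc (fun n => P.ν n * ν n) ρ) u1 u2 τ'‖ ≤ F0) →
    ‖Pb Q (rc (fun n => P.ν3 n * ν n) ρ) P.yp P.R (P.x - 1 + δ) (P.τ + τ')‖ ≤
      Pi0 * Real.exp (-P.yp) →
    ∀ G : O, Prim G → ‖Wsum (P.a Q) G ν ρ δ τ'‖ ≤
      C * Real.log Z ^ J0 * Z ^ (A * (η + 13 * δ)) * (P.X)⁻¹ * N G ^ (-(1 / 2 + δ)) *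
        ((F0 + 1) * (Pi0 + 1) ^ P.J) := by
  obtain ⟨C1, hC1, h1⟩ := pair_bound
  obtain ⟨C2, hC2, h2⟩ := tb_pair (γ := 1 / 2 + 3 * δ) (δ := δ) (by linarith) hδ
  obtain ⟨C3, hC3, h3⟩ := bP_consts
  obtain ⟨C4, hC4, h4⟩ := omega_pow_le hδ J0
  refine ⟨C2 * C1 * (8 * C3 + 1) ^ J0 * C4, by positivity, ?_⟩
  intro A η Z hA hη hη1 hZ Q P hP ν hν ρ hρ τ' F0 Pi0 hF0 hPi0 hΔ hPb G hG
  have hψ : Mult (rc ν ρ) := mult_rc Q hν hρ
  have hm : Mult P.ν := mult_hchar Q hP.hν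
  have hm3 : Mult P.ν3 := mult_hchar Q hP.hν3
  have hZ0 : 0 < Z := by linarith
  set V := Z ^ A with hV
  have hV1 : 1 ≤ V := Real.one_le_rpow (by linarith) hA
  have hV0 : 0 < V := by linarith
  have hL1 : 1 ≤ P.L := Real.one_le_exp (mul_nonneg (Nat.cast_nonneg _) hP.hyp)
  have hy : Real.exp (P.y1 + P.y2) ≤ V := by
    refine le_trans ?_ hP.hX
    exact le_mul_of_one_le_right (Real.exp_pos _).le hL1
  have hl : 1 ≤ Real.log Z := by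
    rw [Real.le_log_iff_exp_le hZ0]
    exact (Real.exp_one_lt_d9.le.trans (by norm_num)).trans hZ
  have hrc : ∀ ν' : O → ℂ, (fun n => ν' n * rc ν ρ n) = rc (fun n => ν' n * ν n) ρ := fun ν' => by
    funext n
    simp only [rc, mul_assoc]
  set s : ℂ := -(1 : ℂ) + δ + τ' * Complex.I with hs
  set F := C1 * Real.exp (-((1 - δ) * (P.y1 + P.y2))) * (F0 + 1) * V ^ (2 * (4 * δ)) with hF
  have hF' : 0 ≤ F := by positivity
  have hpair := h1 P (rc ν ρ) hm hψ hP.sum hP.hc δ (4 * δ) τ' F0 V hδ.le (by linarith)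
    (by linarith) (by linarith) hF0 hV1 hy (by rw [hrc]; exact hΔ)
  have hTB : TB (tw s P.a0) (rc ν ρ) (1 / 2 + 3 * δ) δ (C2 * F) := by
    rw [wsum_tw_a0]
    refine h2 (rc ν ρ) _ _ _ _ hψ ((ps_fb hm.bd _ _).tw s) ((ps_fb hm.bd _ _).tw s)
      ((ps_fb hm.bd _ _).tw s) ((ps_fb hm.bd _ _).tw s) P.c F hF' fun u1 u2 hu1 hu2 => ?_
    rw [show -(1 / 2 + 3 * δ + δ) = -(1 / 2 + 4 * δ) by ring]
    exact hpair u1 u2 hu1 hu2
  have hS : ∀ p ∈ slot Q P.yp P.R, Prime p ∧ Prim p := fun p hp =>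
    ⟨(isSlot_slot Q _ _ p hp).1, (isSlot_slot Q _ _ p hp).2.1⟩
  obtain ⟨hΛ1, hΛ2⟩ := h3 Q P.ν3 hm3.bd P.yp P.R P.x P.τ δ τ' η hP.hyp hP.hR hP.hx hη1 hδ.le hδ1
  set Λ := C3 * (P.yp + P.R) * Real.exp ((-1 + η + 4 * δ) * P.yp) with hΛ
  have hyR : 0 ≤ P.yp + P.R := add_nonneg hP.hyp hP.hR
  have hΛ0 : 0 ≤ Λ := by positivity
  set Ω : ℝ := ((pdiv G).card : ℝ) + J0 with hΩ
  have hG0 := hG.ne_zero
  have hΩ1 : 1 ≤ Ω := by
    have h5 : 1 ≤ (pdiv G).card := Finset.card_pos.2 ⟨1, one_mem_pdiv hG0⟩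
    have h6 : (1 : ℝ) ≤ (pdiv G).card := by exact_mod_cast h5
    have h7 : (0 : ℝ) ≤ J0 := Nat.cast_nonneg _
    linarith
  have hΩ2 : (((slot Q P.yp P.R).filter (fun p => p ∣ G)).card : ℝ) + P.J ≤ Ω := by
    have h5 : ((slot Q P.yp P.R).filter (fun p => p ∣ G)).card ≤ (pdiv G).card := by
      refine Finset.card_le_card fun p hp => ?_
      rw [Finset.mem_filter] at hp
      exact (mem_pdiv hG0).2 ⟨(hS p hp.1).2, hp.2⟩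
    have h6 : (((slot Q P.yp P.R).filter (fun p => p ∣ G)).card : ℝ) ≤ (pdiv G).card := by
      exact_mod_cast h5
    have h7 : (P.J : ℝ) ≤ J0 := by exact_mod_cast hP.hJ
    linarith
  have hmain := tb_addP hψ ((Par.ps_a0 hm.bd).tw s) hS (tw s (bP P.ν3 P.yp P.x P.τ))
    (by linarith) (by positivity) hΛ0 hTB hΛ1 hΛ2 P.J (test_PhiG hψ hG) hΩ2
  rw [addP_tw s _ _ (fun p hp => (hS p hp).2.ne_zero), sum_tw_bP, hrc] at hmain
  rw [Wsum_eq _ _ hG]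
  refine hmain.trans ?_
  -- the bracket
  set T := Real.exp ((η + 4 * δ) * P.yp) with hT
  have hT1 : 1 ≤ T := Real.one_le_exp (mul_nonneg (by linarith) hP.hyp)
  have hΛ3 : Λ ≤ C3 * (2 * Real.log Z) * (Real.exp (-P.yp) * T) := by
    rw [hΛ, hT, ← Real.exp_add, show -P.yp + (η + 4 * δ) * P.yp = (-1 + η + 4 * δ) * P.yp by ring]
    exact mul_le_mul_of_nonneg_right (mul_le_mul_of_nonneg_left hP.hypR hC3) (Real.exp_pos _).le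
  have hbr := wsum_bracket hPb hPi0 (Real.exp_pos _).le hT1 hl hΩ1 hC3 hΛ3
  have hbrJ := pow_le_pow_left₀ (by positivity) hbr P.J
  have hEJ : Real.exp (-P.yp) ^ P.J = (P.L)⁻¹ := by
    rw [← Real.exp_nat_mul, Par.L, ← Real.exp_neg]
    congr 1
    ring
  have hTJ : T ^ P.J ≤ V ^ (η + 4 * δ) := by
    have : T ^ P.J = P.L ^ (η + 4 * δ) := by
      rw [hT, ← Real.exp_nat_mul, Par.L, ← Real.exp_mul]
      congr 1
      ring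
    rw [this]
    exact Real.rpow_le_rpow (by linarith) hP.hL (by linarith)
  have hKJ : (8 * C3 + 1) ^ P.J ≤ (8 * C3 + 1) ^ J0 := pow_le_pow_right₀ (by linarith) hP.hJ
  have hlJ : Real.log Z ^ P.J ≤ Real.log Z ^ J0 := pow_le_pow_right₀ hl hP.hJ
  have hΩJ : Ω ^ P.J ≤ C4 * N G ^ δ := h4 G hG0 P.J hP.hJ
  have hNG := N_pos hG0
  have hL0 : 0 < P.L := by linarith
  have hbrJ' : (‖Pb Q (rc (fun n => P.ν3 n * ν n) ρ) P.yp P.R (P.x - 1 + δ) (P.τ + τ')‖ + 2 * Λ +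
      2 * Ω * Λ) ^ P.J ≤ (P.L)⁻¹ * (Pi0 + 1) ^ P.J * (8 * C3 + 1) ^ J0 * Real.log Z ^ J0 *
        (C4 * N G ^ δ) * V ^ (η + 4 * δ) := by
    refine hbrJ.trans ?_
    rw [mul_pow, mul_pow, mul_pow, mul_pow, mul_pow, hEJ]
    gcongr
  have hexp : Real.exp (-((1 - δ) * (P.y1 + P.y2))) ≤ (Real.exp (P.y1 + P.y2))⁻¹ * V ^ δ := by
    have : Real.exp (-((1 - δ) * (P.y1 + P.y2))) =
        (Real.exp (P.y1 + P.y2))⁻¹ * Real.exp (P.y1 + P.y2) ^ δ := by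
      rw [← Real.exp_mul, ← Real.exp_neg, ← Real.exp_add]
      congr 1
      ring
    rw [this]
    exact mul_le_mul_of_nonneg_left (Real.rpow_le_rpow (Real.exp_pos _).le hy hδ.le)
      (by positivity)
  have hFle : F ≤ C1 * ((Real.exp (P.y1 + P.y2))⁻¹ * V ^ δ) * (F0 + 1) * V ^ (2 * (4 * δ)) := by
    rw [hF]
    gcongr
  have eV : Z ^ (A * (η + 13 * δ)) = V ^ δ * V ^ (2 * (4 * δ)) * V ^ (η + 4 * δ) := by
    rw [Real.rpow_mul hZ0.le, ← hV, ← Real.rpow_add hV0, ← Real.rpow_add hV0]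
    congr 1
    ring
  have eN : N G ^ (-(1 / 2 + δ)) = N G ^ (-(1 / 2 + 3 * δ)) * N G ^ δ * N G ^ δ := by
    rw [← Real.rpow_add hNG, ← Real.rpow_add hNG]
    congr 1
    ring
  calc _ ≤ 1 * (C2 * (C1 * ((Real.exp (P.y1 + P.y2))⁻¹ * V ^ δ) * (F0 + 1) * V ^ (2 * (4 * δ)))) *
        N G ^ (-(1 / 2 + 3 * δ)) * N G ^ δ * ((P.L)⁻¹ * (Pi0 + 1) ^ P.J * (8 * C3 + 1) ^ J0 *
          Real.log Z ^ J0 * (C4 * N G ^ δ) * V ^ (η + 4 * δ)) := by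
        gcongr
    _ = _ := by
        rw [eV, eN, Par.X, mul_inv]
        ring

end Crest.Agent.R17.GM
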