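import Crest.Agent.R17.Gram_Defs

/-! # R17 / Gram_Sep : separation of `Om`, and splitting off the smooth part -/

set_option autoImplicit false

noncomputable section

open scoped Classical ComplexConjugate

namespace Crest.Agent.R17

open MeasureTheory

theorem gsep_pb_le {ψ : O → ℂ} (hψ : ∀ a b, ψ (a * b) = ψ a * ψ b) (hb : ∀ n, ‖ψ n‖ ≤ 1) {M : ℝ} {B : ℕ}
    (hM : ∀ y t, ‖pb ψ y t‖ ≤ M * (1 + |t|) ^ B) {a : O} (ha : Prim a) (y t : ℝ) :
    ‖pb (fun n => if IsCoprime n a then ψ n else 0) y t‖ ≤ (pdiv a).card * (M * (1 + |t|) ^ B) := by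
  rw [pb_coprime hψ hb ha, ← nsmul_eq_mul]
  refine (norm_sum_le _ _).trans (Finset.sum_le_card_nsmul _ _ _ fun e he => ?_)
  have he0 : e ≠ 0 := ((mem_pdiv ha.ne_zero).1 he).1.ne_zero
  rw [norm_mul]
  refine (mul_le_of_le_one_left (norm_nonneg _) ?_).trans (hM _ _)
  rw [norm_mul, norm_mul]
  refine mul_le_one₀ (mul_le_one₀ (norm_mu_le e) (norm_nonneg _) (hb e)) (norm_nonneg _) ?_
  rw [Complex.norm_cpow_eq_rpow_re_of_pos (N_pos he0)]
  refine Real.rpow_le_one_of_one_le_of_nonpos (one_le_N he0) ?_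
  simp

theorem gsep_K {σ x : ℝ} (hσ : 0 < σ) (hx : 0 < x) (τ : ℝ) :
    ‖(1 / (2 * Real.pi) : ℂ) * (Complex.Gamma (σ + τ * Complex.I) *
      ((c0 * x : ℝ) : ℂ) ^ (-(σ + τ * Complex.I)))‖ ≤ x ^ (-σ) * Gm σ τ := by
  have hc0 : 0 < c0 := one_pos.trans one_lt_c0
  have hpi := Real.pi_gt_three
  rw [norm_mul, norm_mul, Complex.norm_cpow_eq_rpow_re_of_pos (by positivity), mul_comm (_ ^ _)]
  have a1 : ‖(1 / (2 * Real.pi) : ℂ)‖ ≤ 1 := by
    rw [norm_div, norm_one, norm_mul, Complex.norm_real, Real.norm_eq_abs, abs_of_pos Real.pi_pos,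
      Complex.norm_ofNat, div_le_one (by positivity)]
    linarith
  refine (mul_le_of_le_one_left (by positivity) a1).trans ?_
  refine mul_le_mul_of_nonneg_left ?_ (norm_nonneg _)
  simp only [Complex.neg_re, Complex.add_re, Complex.ofReal_re, Complex.mul_re, Complex.I_re,
    mul_zero, Complex.ofReal_im, Complex.I_im, zero_mul, sub_zero, add_zero]
  exact Real.rpow_le_rpow_of_nonpos hx (le_mul_of_one_le_left hx.le one_lt_c0.le) (by linarith)

/-- separation for a bounded coefficient sequence -/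
theorem gsep_main {σ : ℝ} (hσ : 0 < σ) {b : O → ℂ} (hb : ∀ n, ‖b n‖ ≤ 1) {X : ℝ} (hX : 0 < X) (y : ℝ)
    {G : ℝ → ℝ} (hG : Integrable fun τ => Gm σ τ * G τ)
    (h1 : ∀ τ : ℝ, ‖blk b (y + σ / 2) (-τ)‖ ≤ G τ) :
    ‖∑' m : O, if m = 0 then 0 else
        b m * ((N m ^ (-(1 / 2 : ℝ)) * gw (Real.log (N m) - y) * Om (X / N m) : ℝ) : ℂ)‖ ≤
      Real.exp (σ * y + σ ^ 2 / 4) * X ^ (-σ) * ∫ τ, Gm σ τ * G τ := by
  have hc0 : 0 < c0 := one_pos.trans one_lt_c0
  set F : O → ℝ → ℂ := fun m τ => ((1 / (2 * Real.pi) : ℂ) *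
    (Complex.Gamma (σ + τ * Complex.I) * ((c0 * X : ℝ) : ℂ) ^ (-(σ + τ * Complex.I)))) *
      (if m = 0 then 0 else b m * (N m : ℂ) ^ (-((1 / 2 + (-τ : ℝ) * Complex.I : ℂ) - σ)) *
        (gw (Real.log (N m) - y) : ℂ)) with hF
  have hK := gsep_K hσ hX
  have hw0 : ∀ m : O, 0 ≤ (if m = 0 then 0 else N m ^ (σ - 1 / 2) * gw (Real.log (N m) - y)) := by
    intro m
    split_ifs
    · exact le_rfl
    · exact mul_nonneg (Real.rpow_nonneg (N_nonneg _) _) (Real.exp_pos _).le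
  have hFn : ∀ m τ, ‖F m τ‖ ≤ X ^ (-σ) * Gm σ τ *
      (if m = 0 then 0 else N m ^ (σ - 1 / 2) * gw (Real.log (N m) - y)) := by
    intro m τ
    rw [hF, norm_mul]
    refine mul_le_mul (hK τ) ?_ (norm_nonneg _) ((norm_nonneg _).trans (hK τ))
    split_ifs with a
    · simp
    · rw [norm_mul, norm_mul, Complex.norm_cpow_eq_rpow_re_of_pos (N_pos a),
        Complex.norm_of_nonneg (show 0 ≤ gw _ from (Real.exp_pos _).le)]
      have e : (-((1 / 2 + (-τ : ℝ) * Complex.I : ℂ) - σ)).re = σ - 1 / 2 := by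
        simp
      rw [e]
      exact mul_le_mul_of_nonneg_right (mul_le_of_le_one_left (Real.rpow_nonneg (N_nonneg _) _) (hb m))
        (Real.exp_pos _).le
  have hFc : ∀ m, Continuous (F m) := by
    intro m
    by_cases a : m = 0
    · simp only [hF, if_pos a, mul_zero]; exact continuous_const
    have c1 := Po.continuous_Gamma_line hσ
    have n1 : ((c0 * X : ℝ) : ℂ) ≠ 0 := Complex.ofReal_ne_zero.2 (by positivity)
    have n2 : (N m : ℂ) ≠ 0 := Complex.ofReal_ne_zero.2 (N_pos a).ne'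
    simp only [hF, if_neg a]
    exact (continuous_const.mul (c1.mul (Continuous.const_cpow (by fun_prop) (Or.inl n1)))).mul
      ((continuous_const.mul (Continuous.const_cpow (by fun_prop) (Or.inl n2))).mul continuous_const)
  have hGm : Integrable fun τ => Gm σ τ := by simpa using integrable_Gm hσ 0
  have hFb : ∀ m : O, Integrable fun τ => X ^ (-σ) * Gm σ τ *
      (if m = 0 then 0 else N m ^ (σ - 1 / 2) * gw (Real.log (N m) - y)) :=
    fun m => (hGm.const_mul _).mul_const _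
  have hFi : ∀ m, Integrable (F m) := fun m =>
    (hFb m).mono' (hFc m).aestronglyMeasurable (.of_forall (hFn m))
  have hFs : Summable fun m => ∫ τ, ‖F m τ‖ := by
    refine Summable.of_nonneg_of_le (fun _ => integral_nonneg fun _ => norm_nonneg _) (fun m => ?_)
      ((summable_gw_rpow (σ - 1 / 2) y).mul_left (∫ τ, X ^ (-σ) * Gm σ τ))
    rw [← integral_mul_const]
    exact integral_mono (hFi m).norm (hFb m) (hFn m)
  have e1 : ∀ m : O, (if m = 0 then 0 else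
      b m * ((N m ^ (-(1 / 2 : ℝ)) * gw (Real.log (N m) - y) * Om (X / N m) : ℝ) : ℂ)) = ∫ τ, F m τ := by
    intro m
    by_cases a : m = 0
    · simp [hF, a]
    have a' := N_pos a
    have n2 : (N m : ℂ) ≠ 0 := Complex.ofReal_ne_zero.2 a'.ne'
    rw [if_neg a, Complex.ofReal_mul, mellin_Om hσ (by positivity), ← integral_const_mul,
      ← integral_const_mul, ← integral_const_mul]
    refine integral_congr_ae (.of_forall fun τ => ?_)
    have c2 : ((c0 * X : ℝ) : ℂ) ^ (-(σ + τ * Complex.I)) =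
        ((c0 * (X / N m) : ℝ) : ℂ) ^ (-(σ + τ * Complex.I)) * (N m : ℂ) ^ (-(σ + τ * Complex.I)) := by
      rw [← Complex.mul_cpow_ofReal_nonneg (by positivity) a'.le, ← Complex.ofReal_mul]
      congr 2
      field_simp
    have c3 : (N m : ℂ) ^ (-(σ + τ * Complex.I)) *
        (N m : ℂ) ^ (-((1 / 2 + (-τ : ℝ) * Complex.I : ℂ) - σ)) = ((N m ^ (-(1 / 2 : ℝ)) : ℝ) : ℂ) := by
      rw [← Complex.cpow_add _ _ n2, Complex.ofReal_cpow a'.le]
      congr 1
      push_cast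
      ring
    simp only [hF, if_neg a]
    rw [c2, Complex.ofReal_mul, ← c3]
    ring
  have e2 : ∀ τ : ℝ, ∑' m, F m τ = ((1 / (2 * Real.pi) : ℂ) *
      (Complex.Gamma (σ + τ * Complex.I) * ((c0 * X : ℝ) : ℂ) ^ (-(σ + τ * Complex.I)))) *
        ((Real.exp (σ * y + σ ^ 2 / 4) : ℂ) * blk b (y + σ / 2) (-τ)) := by
    intro τ
    rw [blk, ← blks_shift, blks, ← tsum_mul_left]
  rw [tsum_congr e1, integral_tsum_of_summable_integral_norm hFi hFs, ← integral_const_mul]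
  refine norm_integral_le_of_norm_le (hG.const_mul _) (.of_forall fun τ => ?_)
  rw [e2, norm_mul, norm_mul ((Real.exp _ : ℝ) : ℂ), Complex.norm_of_nonneg (Real.exp_pos _).le]
  calc _ ≤ (X ^ (-σ) * Gm σ τ) * (Real.exp (σ * y + σ ^ 2 / 4) * G τ) :=
        mul_le_mul (hK τ) (mul_le_mul_of_nonneg_left (h1 τ) (Real.exp_pos _).le) (by positivity)
          ((norm_nonneg _).trans (hK τ))
    _ = _ := by ring

/-- `mellin_Om`: `Om(X/N m) = (1/2π)∫ Γ(s) (c0 X)^{-s} N(m)^s dτ`, `s = σ + iτ`; swap sum and integral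
(`integral_tsum_of_summable_integral_norm`, as in `PStepAux.ps_sep`; majorant from `summable_gw_rpow (σ - 1/2)`);
the inner sum is `blks a' y ((1/2 - iτ) - σ) = e^{σ y + σ²/4} pb a'' (y + σ/2) (-τ)` (`blks_shift`), and
`pb_coprime` bounds it by `card (pdiv a) · M (1+|τ|)^B`; `integrable_Gm`, `one_lt_c0`. -/
theorem sep_pb {σ : ℝ} (hσ : 0 < σ) (B : ℕ) : ∃ C, ∀ ψ : O → ℂ, (∀ a b, ψ (a * b) = ψ a * ψ b) →
    (∀ n, ‖ψ n‖ ≤ 1) → ∀ M : ℝ, (∀ y t, ‖pb ψ y t‖ ≤ M * (1 + |t|) ^ B) → ∀ a : O, Prim a →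
    ∀ X y : ℝ, 0 < X →
      ‖∑' m : O, if Prim m ∧ IsCoprime m a then
          ψ m * ((N m ^ (-(1 / 2 : ℝ)) * gw (Real.log (N m) - y) * Om (X / N m) : ℝ) : ℂ) else 0‖ ≤
        C * M * (pdiv a).card * (Real.exp (σ * y) * X ^ (-σ)) := by
  refine ⟨Real.exp (σ ^ 2 / 4) * ∫ τ, Gm σ τ * (1 + |τ|) ^ B, fun ψ hψ hb M hM a ha X y hX => ?_⟩
  have hb' : ∀ n, ‖prim (fun n => if IsCoprime n a then ψ n else 0) n‖ ≤ 1 := by
    intro n
    simp only [prim]
    split_ifs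
    · exact hb n
    · simp
    · simp
  have hG : Integrable fun τ => Gm σ τ * ((pdiv a).card * (M * (1 + |τ|) ^ B)) :=
    ((integrable_Gm hσ B).const_mul ((pdiv a).card * M)).congr (.of_forall fun τ => by ring)
  have h := gsep_main hσ hb' hX y hG fun τ => by
    have := gsep_pb_le hψ hb hM ha (y + σ / 2) (-τ)
    rwa [abs_neg] at this
  have e : ∀ m : O, (if Prim m ∧ IsCoprime m a then
      ψ m * ((N m ^ (-(1 / 2 : ℝ)) * gw (Real.log (N m) - y) * Om (X / N m) : ℝ) : ℂ) else 0) =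
      if m = 0 then 0 else prim (fun n => if IsCoprime n a then ψ n else 0) m *
        ((N m ^ (-(1 / 2 : ℝ)) * gw (Real.log (N m) - y) * Om (X / N m) : ℝ) : ℂ) := by
    intro m
    simp only [prim]
    by_cases h1 : Prim m
    · by_cases h2 : IsCoprime m a
      · rw [if_pos ⟨h1, h2⟩, if_neg h1.ne_zero, if_pos h1, if_pos h2]
      · rw [if_neg fun h => h2 h.2, if_neg h1.ne_zero, if_pos h1, if_neg h2, zero_mul]
    · rw [if_neg fun h => h1 h.1, if_neg h1, zero_mul, ite_self]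
  rw [tsum_congr e]
  refine h.trans (le_of_eq ?_)
  have e2 : ∫ τ, Gm σ τ * ((pdiv a).card * (M * (1 + |τ|) ^ B)) =
      ((pdiv a).card * M) * ∫ τ, Gm σ τ * (1 + |τ|) ^ B := by
    rw [← integral_const_mul]
    exact integral_congr_ae (.of_forall fun τ => by ring)
  rw [e2, Real.exp_add]
  ring

/-- `n = u m` uniquely with `u ∣ q^∞`, `m` primary coprime to `q` (`exists_split`, `split_unique`; see the proof
of `refl1_bound` for the reindexing), then Rankin `sum_smooth_le` -/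
theorem tsum_smooth_le {ε : ℝ} (hε : 0 < ε) : ∃ C, ∀ q : O, q ≠ 0 → (3 : O) ∣ q → ∀ F : O → ℂ,
    Summable F → F 0 = 0 → ∀ B : ℝ, 0 ≤ B →
    (∀ u : O, (∃ i : ℕ, u ∣ q ^ i) →
      ‖∑' m : O, if Prim m ∧ IsCoprime m q then F (u * m) else 0‖ ≤ B * N u ^ (-(1 / 2 : ℝ))) →
    ‖∑' n, F n‖ ≤ C * B * N q ^ ε := by
  obtain ⟨C, hC⟩ := sum_smooth_le (σ := 1 / 2) (by norm_num) hε
  refine ⟨C, fun q hq h3 F hF hF0 B hB hu => ?_⟩
  let m : {k : O | ∃ j : ℕ, k ∣ q ^ j} × {l : O | Prim l ∧ IsCoprime l q} → O :=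
    fun z => z.1 * z.2
  have hm : Function.Injective m := by
    rintro ⟨⟨k, i, hk⟩, l, hl⟩ ⟨⟨k', j, hk'⟩, l', hl'⟩ h
    obtain ⟨rfl, rfl⟩ := split_unique hq hk hk' hl.1 hl'.1 hl.2 hl'.2 h
    rfl
  have hr : ∀ n, n ≠ 0 → n ∈ Set.range m := fun n h0 => by
    obtain ⟨k, l, j, h1, h2, h4, h5⟩ := exists_split hq h3 h0
    exact ⟨(⟨k, j, h1⟩, ⟨l, h2, h4⟩), h5.symm⟩
  have hs : Summable fun z => F (m z) := hF.comp_injective hm
  have b0 : ∀ u : Finset {k : O | ∃ j : ℕ, k ∣ q ^ j},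
      ∑ k ∈ u, B * N k.1 ^ (-(1 / 2 : ℝ)) ≤ C * B * N q ^ ε := fun u => by
    rw [← Finset.mul_sum, mul_comm C B, mul_assoc]
    refine mul_le_mul_of_nonneg_left ?_ hB
    have := hC q hq (u.map (Function.Embedding.subtype _)) fun k hk => by
      obtain ⟨k', -, rfl⟩ := Finset.mem_map.1 hk
      exact k'.2
    rwa [Finset.sum_map] at this
  have b0' : 0 ≤ fun k : {k : O | ∃ j : ℕ, k ∣ q ^ j} => B * N k.1 ^ (-(1 / 2 : ℝ)) := fun k =>
    mul_nonneg hB (Real.rpow_nonneg (N_nonneg _) _)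
  rw [← hm.tsum_eq fun n h0 => hr n fun h => h0 (by rw [h, hF0]), hs.tsum_prod]
  refine (tsum_of_norm_bounded (summable_of_sum_le b0' b0).hasSum fun k => ?_).trans
    (Real.tsum_le_of_sum_le b0' b0)
  refine le_trans (le_of_eq ?_) (hu k.1 k.2)
  congr 1
  rw [tsum_subtype {l : O | Prim l ∧ IsCoprime l q} (fun l => F (k.1 * l))]
  refine tsum_congr fun l => ?_
  rw [Set.indicator_apply]
  simp only [Set.mem_ofPred_eq]

end Crest.Agent.R17
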