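import Crest.Agent.R17.Gram_Pois
import Crest.Agent.R17.Gram_Sep

/-! # R17 / Gram_Row : non-exceptional rows -/

set_option autoImplicit false

noncomputable section

open scoped Classical ComplexConjugate

namespace Crest.Agent.R17

theorem grow_pv (Q : Lev) : ∃ (C : ℝ) (B : ℕ), 0 ≤ C ∧ ∀ ν ∈ hchars Q.q, ∀ j : O, ¬ Exc Q j →
    ∀ y t : ℝ, ‖pb (rc ν j) y t‖ ≤ C * N j ^ (7 / 24 : ℝ) * (1 + |t|) ^ B := by
  obtain ⟨C, B, h⟩ := polya_vinogradov 1 (ε := 1 / 12) (by norm_num) Q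
  refine ⟨√(|C| * 3), B, Real.sqrt_nonneg _, fun ν hν j hj y t => ?_⟩
  have hj0 := not_exc_ne_zero Q hj
  have h1 := one_le_N hj0
  obtain ⟨r1, r2, r3, -⟩ := radq_spec Q hj0
  have hr : N (radq Q j) ≤ N j := N_le_of_dvd hj0 r3
  have h2 := h (3 * N j) (by linarith) (radq Q j) (rc ν j) r2 r1.2.symm (rc_isHChar Q hν hj0)
    (rc_nonPrinc Q hν hj) (by rw [Real.rpow_one]; linarith) y t
  have ht : 1 ≤ (1 + |t|) ^ B := one_le_pow₀ (by linarith [abs_nonneg t])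
  have hN : 0 < N j := by linarith
  refine (pow_le_pow_iff_left₀ (norm_nonneg _) (by positivity) two_ne_zero).1 (h2.trans ?_)
  have e1 : (3 * N j) ^ (1 / 12 : ℝ) ≤ 3 * N j ^ (1 / 12 : ℝ) := by
    rw [Real.mul_rpow (by norm_num) hN.le]
    refine mul_le_mul_of_nonneg_right ?_ (by positivity)
    calc (3 : ℝ) ^ (1 / 12 : ℝ) ≤ 3 ^ (1 : ℝ) :=
          Real.rpow_le_rpow_of_exponent_le (by norm_num) (by norm_num)
      _ = 3 := Real.rpow_one _
  have e2 : √(N (radq Q j)) ≤ N j ^ (1 / 2 : ℝ) := by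
    rw [← Real.sqrt_eq_rpow]; exact Real.sqrt_le_sqrt hr
  have e3 : (N j ^ (7 / 24 : ℝ)) ^ 2 = N j ^ (1 / 12 : ℝ) * N j ^ (1 / 2 : ℝ) := by
    rw [← Real.rpow_natCast, ← Real.rpow_mul hN.le, ← Real.rpow_add hN]; norm_num
  rw [mul_pow, mul_pow, Real.sq_sqrt (by positivity), e3]
  calc C * (3 * N j) ^ (1 / 12 : ℝ) * (1 + |t|) ^ B * √(N (radq Q j))
      ≤ |C| * (3 * N j ^ (1 / 12 : ℝ)) * ((1 + |t|) ^ B) ^ 2 * N j ^ (1 / 2 : ℝ) := by
        gcongr
        · exact le_abs_self C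
        · nlinarith
    _ = _ := by ring

theorem grow_wG_nonneg (z : ℝ) (l : O) : 0 ≤ wG z l :=
  mul_nonneg (Real.rpow_nonneg (N_nonneg _) _) (gw_pos _).le

theorem grow_CG_le {Q : Lev} {u l j : O} (hu : P0 Q u) (hl : P0 Q l) (hj : j ≠ 0) :
    ‖CG u l j‖ ≤ N j := by
  obtain ⟨g, -, -, -, h⟩ := norm_CG_le hu hl
  refine (h j).trans ?_
  split_ifs with hg
  · exact N_le_of_dvd hj hg
  · exact N_nonneg _

/-- the sum over the part of `l₁` coprime to `l₂` -/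
theorem grow_inner (Q : Lev) : ∃ C, 0 ≤ C ∧ ∀ ν ∈ hchars Q.q, ∀ (z : ℝ) (j : O), ¬ Exc Q j →
    ∀ l : O, P0 Q l → ∀ u : O, (∃ i : ℕ, u ∣ (3 * l) ^ i) →
      ‖∑' m : O, if Prim m ∧ IsCoprime m (3 * l) then termG Q ν z j (u * m) l else 0‖ ≤
        (C * (N j * N j ^ (7 / 24 : ℝ)) * (pdiv l).card * wG z l *
          (Real.exp (7 / 3 * y1 z) * (KK z * N j) ^ (-(7 / 3 : ℝ)) * N l ^ (7 / 3 : ℝ))) *
          N u ^ (-(1 / 2 : ℝ)) := by
  obtain ⟨C1, B, hC1, h1⟩ := grow_pv Q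
  obtain ⟨C2, h2⟩ := sep_pb (σ := 7 / 3) (by norm_num) B
  refine ⟨|C2| * C1, by positivity, fun ν hν z j hj l hl u ⟨i, hi⟩ => ?_⟩
  have hj0 := not_exc_ne_zero Q hj
  have hK : 0 < KK z := Real.exp_pos _
  have hNj := N_pos hj0
  have hNl := N_pos hl.1.ne_zero
  have hw := grow_wG_nonneg z l
  by_cases hu : P0 Q u
  swap
  · have : ∀ m : O, (if Prim m ∧ IsCoprime m (3 * l) then termG Q ν z j (u * m) l else 0) = 0 := by
      intro m
      split_ifs with hm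
      · refine if_neg fun h => hu ?_
        have h3 : Prim (m * u) := by rw [mul_comm]; exact h.1.1
        exact h.1.of_dvd (h3.of_mul_left hm.1) (dvd_mul_right _ _)
      · rfl
    rw [tsum_congr this, tsum_zero, norm_zero]
    have := N_nonneg u
    positivity
  have hNu := N_pos hu.1.ne_zero
  obtain ⟨ν2, hν2, hν2'⟩ := exists_hchar_sg Q hl.isCoprime_two
  have hν' := mul_mem_hchars Q (conj_mem_hchars Q hν) hν2
  have hψ := rc_isHChar Q hν' hj0
  have hX : 0 < KK z * N j / (N u * N l) := by positivity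
  have h3 := h2 _ hψ.1.mul (hψ.1.norm_le (levd Q j).ne) _ (h1 _ hν' j hj) l hl.1 _
    (y1 z - Real.log (N u)) hX
  have hνc := ((mem_hchars Q.ne).1 hν).1
  have key : ∀ m : O, (if Prim m ∧ IsCoprime m (3 * l) then termG Q ν z j (u * m) l else 0) =
      (ν u * conj (ν l) * CG u l j * ((N u ^ (-(1 / 2 : ℝ)) * wG z l : ℝ) : ℂ)) *
        conj (if Prim m ∧ IsCoprime m l then
          rc (fun n => conj (ν n) * ν2 n) j m * ((N m ^ (-(1 / 2 : ℝ)) *
            gw (Real.log (N m) - (y1 z - Real.log (N u))) *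
            Om (KK z * N j / (N u * N l) / N m) : ℝ) : ℂ) else 0) := by
    intro m
    by_cases hm : Prim m ∧ IsCoprime m l
    swap
    · rw [if_neg hm, if_neg fun h => hm ⟨h.1, h.2.of_mul_right_right⟩, map_zero, mul_zero]
    have hm3 : IsCoprime m (3 * l) := hm.1.isCoprime_three.mul_right hm.2
    rw [if_pos hm, if_pos ⟨hm.1, hm3⟩]
    by_cases hq : IsCoprime m Q.q
    swap
    · rw [termG, if_neg fun h => hq h.1.2.of_mul_left_right, rc, (hνc.zero_iff m).2 hq]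
      simp
    have hm0 : P0 Q m := ⟨hm.1, hq⟩
    have hmu : IsCoprime m u := (hm3.pow_right (n := i)).of_isCoprime_of_dvd_right hi
    have hNm := N_pos hm.1.ne_zero
    rw [termG, if_pos ⟨hu.mul hm0, hl⟩, CG_mul hu hm0 hl hmu hm.2, hνc.mul, rc, hν2' m hm0]
    simp only [map_mul, Complex.conj_conj, Complex.conj_ofReal,
      conj_sg hm0.isCoprime_two hl.isCoprime_two]
    have e1 : wG z (u * m) = N u ^ (-(1 / 2 : ℝ)) * (N m ^ (-(1 / 2 : ℝ)) *
        gw (Real.log (N m) - (y1 z - Real.log (N u)))) := by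
      rw [wG, N_mul, Real.mul_rpow hNu.le hNm.le, Real.log_mul hNu.ne' hNm.ne', mul_assoc]
      congr 3
      ring
    have e2 : KK z * N j / (N (u * m) * N l) = KK z * N j / (N u * N l) / N m := by
      rw [N_mul]; field_simp
    rw [e1, e2]
    push_cast
    ring
  rw [tsum_congr key, tsum_mul_left, ← Complex.conj_tsum, norm_mul, Complex.norm_conj]
  have b1 : ‖ν u * conj (ν l) * CG u l j * ((N u ^ (-(1 / 2 : ℝ)) * wG z l : ℝ) : ℂ)‖ ≤
      N j * (N u ^ (-(1 / 2 : ℝ)) * wG z l) := by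
    rw [norm_mul, norm_mul, norm_mul, Complex.norm_conj, Complex.norm_of_nonneg (by positivity)]
    refine mul_le_mul_of_nonneg_right ?_ (by positivity)
    calc ‖ν u‖ * ‖ν l‖ * ‖CG u l j‖ ≤ 1 * 1 * N j := by
          gcongr
          · exact norm_hchar_le Q hν u
          · exact norm_hchar_le Q hν l
          · exact grow_CG_le hu hl hj0
      _ = N j := by ring
  have e3 : Real.exp (7 / 3 * (y1 z - Real.log (N u))) * (KK z * N j / (N u * N l)) ^ (-(7 / 3 : ℝ)) =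
      Real.exp (7 / 3 * y1 z) * (KK z * N j) ^ (-(7 / 3 : ℝ)) * N l ^ (7 / 3 : ℝ) := by
    rw [Real.rpow_def_of_pos hX, Real.rpow_def_of_pos (by positivity), Real.rpow_def_of_pos hNl,
      Real.log_div (by positivity) (by positivity), Real.log_mul hNu.ne' hNl.ne', ← Real.exp_add,
      ← Real.exp_add, ← Real.exp_add]
    congr 1
    ring
  rw [e3] at h3
  refine (mul_le_mul b1 (h3.trans (mul_le_mul_of_nonneg_right (mul_le_mul_of_nonneg_right
    (mul_le_mul_of_nonneg_right (le_abs_self C2) (by positivity)) (Nat.cast_nonneg _))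
    (by positivity))) (norm_nonneg _) (by positivity)).trans (le_of_eq ?_)
  ring

/-- the sum over `l₁` -/
theorem grow_mid (Q : Lev) {δ : ℝ} (hδ : 0 < δ) : ∃ C, 0 ≤ C ∧ ∀ ν ∈ hchars Q.q, ∀ (z : ℝ) (j : O),
    ¬ Exc Q j → ∀ l : O, ‖∑' l₁ : O, termG Q ν z j l₁ l‖ ≤
      (C * (N j * N j ^ (7 / 24 : ℝ)) * (Real.exp (7 / 3 * y1 z) * (KK z * N j) ^ (-(7 / 3 : ℝ)))) *
        (if l = 0 then 0 else N l ^ (11 / 6 + δ) * gw (Real.log (N l) - y1 z)) := by
  obtain ⟨C1, hC1, h1⟩ := grow_inner Q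
  obtain ⟨C2, h2⟩ := tsum_smooth_le (ε := δ / 2) (by positivity)
  obtain ⟨C3, h3⟩ := card_pdiv_le (ε := δ / 2) (by positivity)
  refine ⟨|C2| * C1 * |C3| * N 3 ^ (δ / 2), by have := N_nonneg 3; positivity,
    fun ν hν z j hj l => ?_⟩
  have hj0 := not_exc_ne_zero Q hj
  have hK : 0 < KK z := Real.exp_pos _
  have hNj := N_pos hj0
  have hN3 := N_nonneg 3
  by_cases hl : P0 Q l
  swap
  · have : ∀ l₁ : O, termG Q ν z j l₁ l = 0 := fun l₁ => if_neg fun h => hl h.2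
    rw [tsum_congr this, tsum_zero, norm_zero]
    exact mul_nonneg (by positivity) (bl1_nonneg _ _ _)
  have hl0 := hl.1.ne_zero
  have hNl := N_pos hl0
  have hw := grow_wG_nonneg z l
  have hs : Summable fun l₁ : O => termG Q ν z j l₁ l :=
    (summable_termG Q hν z j).of_norm.prod_symm.prod_factor l
  have h0 : termG Q ν z j 0 l = 0 := if_neg fun h => h.1.1.ne_zero rfl
  have h4 := h2 (3 * l) (mul_ne_zero (by decide) hl0) (dvd_mul_right _ _) _ hs h0 _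
    (by positivity) (h1 ν hν z j hj l hl)
  refine h4.trans ?_
  rw [if_neg hl0, N_mul, Real.mul_rpow hN3 hNl.le]
  have h5 : ((pdiv l).card : ℝ) ≤ |C3| * N l ^ (δ / 2) :=
    (h3 l hl0).trans (mul_le_mul_of_nonneg_right (le_abs_self _) (by positivity))
  have e1 : N l ^ (11 / 6 + δ) =
      N l ^ (δ / 2) * N l ^ (-(1 / 2 : ℝ)) * N l ^ (7 / 3 : ℝ) * N l ^ (δ / 2) := by
    rw [← Real.rpow_add hNl, ← Real.rpow_add hNl, ← Real.rpow_add hNl]
    congr 1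
    ring
  calc C2 * (C1 * (N j * N j ^ (7 / 24 : ℝ)) * (pdiv l).card * wG z l *
          (Real.exp (7 / 3 * y1 z) * (KK z * N j) ^ (-(7 / 3 : ℝ)) * N l ^ (7 / 3 : ℝ))) *
        (N 3 ^ (δ / 2) * N l ^ (δ / 2))
      ≤ |C2| * (C1 * (N j * N j ^ (7 / 24 : ℝ)) * (|C3| * N l ^ (δ / 2)) * wG z l *
          (Real.exp (7 / 3 * y1 z) * (KK z * N j) ^ (-(7 / 3 : ℝ)) * N l ^ (7 / 3 : ℝ))) *
        (N 3 ^ (δ / 2) * N l ^ (δ / 2)) := by
        gcongr
        exact le_abs_self _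
    _ = _ := by rw [e1, wG]; ring

/-- For fixed `l₂` write `l₁ = u m` (`tsum_smooth_le`, `q = 3 l₂`), use `CG_mul`, `‖CG u l₂ j‖ ≤ N j`
(`norm_CG_le`), `sep_pb` with `σ = 7/3` for the conjugate sum (`ψ = rc (conj ν · sg(·,l₂)) j`) and
`polya_vinogradov` with `Z = 3 N j`, `A = 1`, `ε = 1/12`. -/
theorem row_nonexc (Q : Lev) {δ : ℝ} (hδ : 0 < δ) : ∃ C, ∀ ν ∈ hchars Q.q, ∀ (z : ℝ) (j : O),
    ¬ Exc Q j → ‖RowG Q ν z j‖ ≤
      C * N j ^ (-(25 / 24 : ℝ)) * Real.exp ((31 / 6 + δ) * y1 z) * KK z ^ (-(7 / 3 : ℝ)) := by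
  obtain ⟨C1, hC1, h1⟩ := grow_mid Q hδ
  obtain ⟨C2, h2⟩ := tsum_gw_rpow (11 / 6 + δ)
  refine ⟨C1 * C2, fun ν hν z j hj => ?_⟩
  have hj0 := not_exc_ne_zero Q hj
  have hK : 0 < KK z := Real.exp_pos _
  have hNj := N_pos hj0
  have hs := (summable_termG Q hν z j).of_norm
  have e0 : RowG Q ν z j = ∑' l : O, ∑' l₁ : O, termG Q ν z j l₁ l := by
    rw [RowG, hs.tsum_prod]
    exact (Summable.tsum_comm (f := fun l₁ l => termG Q ν z j l₁ l) hs).symm
  rw [e0]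
  refine (tsum_of_norm_bounded ((summable_gw_rpow (11 / 6 + δ) (y1 z)).hasSum.mul_left _)
    (h1 ν hν z j hj)).trans ?_
  refine (mul_le_mul_of_nonneg_left (h2 (y1 z)) (by positivity)).trans (le_of_eq ?_)
  have e1 : N j ^ (-(25 / 24 : ℝ)) = N j * N j ^ (7 / 24 : ℝ) * N j ^ (-(7 / 3 : ℝ)) := by
    rw [← Real.rpow_one_add' hNj.le (by norm_num), ← Real.rpow_add hNj]
    norm_num
  have e2 : Real.exp ((31 / 6 + δ) * y1 z) =
      Real.exp (7 / 3 * y1 z) * Real.exp ((11 / 6 + δ + 1) * y1 z) := by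
    rw [← Real.exp_add]
    congr 1
    ring
  rw [e1, e2, Real.mul_rpow hK.le hNj.le]
  ring

end Crest.Agent.R17
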