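import Crest.Agent.R17.Gram_Pois

/-! # R17 / Gram_Triv : rows bounded by absolute values -/

set_option autoImplicit false

noncomputable section

open scoped Classical ComplexConjugate

namespace Crest.Agent.R17

theorem gtr_wG_nonneg (z : ℝ) (l : O) : 0 ≤ wG z l :=
  mul_nonneg (Real.rpow_nonneg (N_nonneg l) _) (gw_pos _).le

theorem gtr_KK_pos (z : ℝ) : 0 < KK z := Real.exp_pos _

theorem gtr_norm_termG {Q : Lev} {ν : O → ℂ} (hν : ν ∈ hchars Q.q) (z : ℝ) (j : O) {l₁ l₂ : O}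
    (h₁ : P0 Q l₁) (h₂ : P0 Q l₂) :
    ‖termG Q ν z j l₁ l₂‖ ≤
      ‖CG l₁ l₂ j‖ * (wG z l₁ * wG z l₂ * Om (KK z * N j / (N l₁ * N l₂))) := by
  have hc := ((mem_hchars Q.ne).1 hν).1
  have hw : 0 ≤ wG z l₁ * wG z l₂ * Om (KK z * N j / (N l₁ * N l₂)) :=
    mul_nonneg (mul_nonneg (gtr_wG_nonneg z l₁) (gtr_wG_nonneg z l₂)) (Om_pos _).le
  unfold termG
  rw [if_pos ⟨h₁, h₂⟩, norm_mul, norm_mul, norm_mul, Complex.norm_real, Real.norm_of_nonneg hw,
    Complex.norm_conj]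
  refine mul_le_mul_of_nonneg_right ?_ hw
  have h1 : ‖ν l₁‖ * ‖ν l₂‖ ≤ 1 :=
    mul_le_one₀ (hc.norm_le Q.ne l₁) (norm_nonneg _) (hc.norm_le Q.ne l₂)
  exact mul_le_of_le_one_left (norm_nonneg _) h1

theorem gtr_termG_zero {Q : Lev} (ν : O → ℂ) (z : ℝ) (j : O) {l₁ l₂ : O}
    (h : ¬ (P0 Q l₁ ∧ P0 Q l₂)) : termG Q ν z j l₁ l₂ = 0 := by
  unfold termG
  rw [if_neg h]

/-- only `l₁ = l₂ = l` contributes (`CG_zero`), `‖CG l l 0‖ ≤ N l`, `wG² N l = gw² ≤ gw`, `tsum_gw_rpow 0` -/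
theorem row_zero : ∃ C, ∀ (Q : Lev), ∀ ν ∈ hchars Q.q, ∀ z : ℝ,
    ‖RowG Q ν z 0‖ ≤ C * Real.exp (y1 z) := by
  obtain ⟨C, hC⟩ := tsum_gw_rpow 0
  refine ⟨C, fun Q ν hν z => ?_⟩
  set b : O → ℝ := fun n => if n = 0 then 0 else N n ^ (0 : ℝ) * gw (Real.log (N n) - y1 z) with hb
  have hb0 : ∀ n, 0 ≤ b n := fun n => by
    simp only [hb]
    split_ifs
    · exact le_rfl
    · exact mul_nonneg (Real.rpow_nonneg (N_nonneg n) _) (gw_pos _).le
  have hs : HasSum b (∑' n, b n) := (summable_gw_rpow 0 (y1 z)).hasSum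
  have hinj : Function.Injective (fun l : O => (l, l)) := fun a b h => (Prod.ext_iff.1 h).1
  have hd : HasSum (fun l : O × O => if l.1 = l.2 then b l.1 else 0) (∑' n, b n) := by
    rw [← hinj.hasSum_iff]
    · have : ((fun l : O × O => if l.1 = l.2 then b l.1 else 0) ∘ fun l : O => (l, l)) = b := by
        funext l
        simp
      rw [this]
      exact hs
    · rintro ⟨x, y⟩ hx
      refine if_neg (fun h => hx ⟨x, ?_⟩)
      simp only at h
      rw [← h]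
  have h1 : ‖RowG Q ν z 0‖ ≤ ∑' n, b n := by
    unfold RowG
    refine tsum_of_norm_bounded hd ?_
    rintro ⟨l₁, l₂⟩
    simp only
    by_cases h : P0 Q l₁ ∧ P0 Q l₂
    · refine (gtr_norm_termG hν z 0 h.1 h.2).trans ?_
      by_cases he : l₁ = l₂
      · subst he
        rw [if_pos rfl]
        obtain ⟨g, -, hg, -, hCG⟩ := norm_CG_le h.1 h.2
        have hl0 : l₁ ≠ 0 := h.1.1.ne_zero
        have hNl : 0 < N l₁ := N_pos hl0
        have h2 : ‖CG l₁ l₁ 0‖ ≤ N l₁ := by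
          have := hCG 0
          rw [if_pos (dvd_zero g)] at this
          exact this.trans (N_le_of_dvd hl0 hg)
        have h3 : Om (KK z * N 0 / (N l₁ * N l₁)) ≤ 1 := Om_le_one (by simp)
        have h4 : N l₁ * (wG z l₁ * wG z l₁) =
            gw (Real.log (N l₁) - y1 z) * gw (Real.log (N l₁) - y1 z) := by
          have : N l₁ * (N l₁ ^ (-(1 / 2 : ℝ)) * N l₁ ^ (-(1 / 2 : ℝ))) = 1 := by
            rw [← Real.rpow_add hNl, show -(1 / 2 : ℝ) + -(1 / 2) = -1 by norm_num,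
              Real.rpow_neg_one, mul_inv_cancel₀ hNl.ne']
          unfold wG
          linear_combination (gw (Real.log (N l₁) - y1 z) * gw (Real.log (N l₁) - y1 z)) * this
        have hw := mul_nonneg (gtr_wG_nonneg z l₁) (gtr_wG_nonneg z l₁)
        have hbl : b l₁ = gw (Real.log (N l₁) - y1 z) := by
          simp only [hb, if_neg hl0, Real.rpow_zero, one_mul]
        rw [hbl]
        calc ‖CG l₁ l₁ 0‖ * (wG z l₁ * wG z l₁ * Om (KK z * N 0 / (N l₁ * N l₁)))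
            ≤ N l₁ * (wG z l₁ * wG z l₁ * 1) :=
              mul_le_mul h2 (mul_le_mul_of_nonneg_left h3 hw) (mul_nonneg hw (Om_pos _).le) hNl.le
          _ = gw (Real.log (N l₁) - y1 z) * gw (Real.log (N l₁) - y1 z) := by rw [mul_one, h4]
          _ ≤ gw (Real.log (N l₁) - y1 z) := mul_le_of_le_one_left (gw_pos _).le (gw_le_one _)
      · rw [if_neg he, CG_zero h.1 h.2 he, norm_zero, zero_mul]
    · rw [gtr_termG_zero ν z 0 h, norm_zero]
      split_ifs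
      · exact hb0 _
      · exact le_rfl
  refine h1.trans ?_
  have := hC (y1 z)
  rwa [zero_add, one_mul] at this

/-- `Om x ≤ C x^{-σ}` (from `Om_le_one`, `Om_le_pow ⌈σ⌉₊`) -/
theorem Om_le_rpow {σ : ℝ} (hσ : 0 < σ) : ∃ C, ∀ x : ℝ, 0 < x → Om x ≤ C * x ^ (-σ) := by
  refine ⟨(⌈σ⌉₊.factorial : ℝ), fun x hx => ?_⟩
  have hf : (1 : ℝ) ≤ (⌈σ⌉₊.factorial : ℝ) := by exact_mod_cast Nat.factorial_pos _
  rcases le_total x 1 with h | h
  · have h1 : 1 ≤ x ^ (-σ) := Real.one_le_rpow_of_pos_of_le_one_of_nonpos hx h (by linarith)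
    calc Om x ≤ 1 := Om_le_one hx.le
      _ ≤ _ := one_le_mul_of_one_le_of_one_le hf h1
  · refine (Om_le_pow ⌈σ⌉₊ hx).trans (mul_le_mul_of_nonneg_left ?_ (by linarith))
    rw [← Real.rpow_natCast, ← Real.rpow_neg hx.le]
    exact Real.rpow_le_rpow_of_exponent_le h (neg_le_neg (Nat.le_ceil σ))

/-- the weights on multiples of `g` -/
def gtr_b (x y : ℝ) (g l : O) : ℝ :=
  if g ∣ l ∧ l ≠ 0 then N l ^ x * gw (Real.log (N l) - y) else 0

theorem gtr_b_nonneg (x y : ℝ) (g l : O) : 0 ≤ gtr_b x y g l := by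
  unfold gtr_b
  split_ifs
  · exact mul_nonneg (Real.rpow_nonneg (N_nonneg l) _) (gw_pos _).le
  · exact le_rfl

theorem gtr_b_sum (x : ℝ) : ∃ C, ∀ (y : ℝ) (g : O), g ≠ 0 →
    ∃ S, HasSum (gtr_b x y g) S ∧ S ≤ C * Real.exp ((x + 1) * y) * (N g)⁻¹ := by
  obtain ⟨C, hC⟩ := tsum_gw_rpow x
  refine ⟨C, fun y g hg => ?_⟩
  have hN := N_pos hg
  have hs := ((summable_gw_rpow x (y - Real.log (N g))).hasSum).mul_left (N g ^ x)
  refine ⟨N g ^ x * ∑' n : O,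
    (if n = 0 then 0 else N n ^ x * gw (Real.log (N n) - (y - Real.log (N g)))), ?_, ?_⟩
  rotate_left
  · refine (mul_le_mul_of_nonneg_left (hC (y - Real.log (N g))) (Real.rpow_nonneg hN.le x)).trans
      (le_of_eq ?_)
    rw [Real.rpow_def_of_pos hN, mul_sub, Real.exp_sub, add_mul x 1 (Real.log (N g)), Real.exp_add,
      one_mul, Real.exp_log hN, mul_comm (Real.log (N g)) x]
    have := Real.exp_pos (x * Real.log (N g))
    field_simp
  · have hinj : Function.Injective (fun m : O => g * m) := fun a b h => mul_left_cancel₀ hg h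
    rw [← hinj.hasSum_iff]
    · have he : (gtr_b x y g ∘ fun m : O => g * m) = fun i => N g ^ x *
          if i = 0 then 0 else N i ^ x * gw (Real.log (N i) - (y - Real.log (N g))) := ?_
      · rw [he]
        exact hs
      funext m
      simp only [Function.comp, gtr_b]
      by_cases hm : m = 0
      · simp [hm]
      · rw [if_pos ⟨dvd_mul_right _ _, mul_ne_zero hg hm⟩, if_neg hm, N_mul,
          Real.mul_rpow hN.le (N_nonneg m), Real.log_mul hN.ne' (N_pos hm).ne', mul_assoc]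
        congr 3
        ring
    · intro l hl
      unfold gtr_b
      refine if_neg (fun h => hl ?_)
      obtain ⟨m, hm⟩ := h.1
      exact ⟨m, hm.symm⟩

/-- `‖CG l₁ l₂ j‖ ≤ ∑_{g ∈ pdiv j} N g 1_{g ∣ l₁} 1_{g ∣ l₂}` (`norm_CG_le`), `Om_le_rpow`; with
`b_g(l) = 1_{g ∣ l, l ≠ 0} N(l)^{σ-1/2} gw(log N l - y1)`, `l = g m`:
`∑_l b_g(l) = N(g)^{σ-1/2} ∑_m N(m)^{σ-1/2} gw(log N m - (y1 - log N g)) ≤ C N(g)^{-1} e^{(σ+1/2) y1}`
(`tsum_gw_rpow`), so each `g` contributes `≤ C² N(g)^{-1} e^{(1+2σ) y1}`. -/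
theorem row_triv {σ : ℝ} (hσ : 0 < σ) : ∃ C, ∀ (Q : Lev), ∀ ν ∈ hchars Q.q, ∀ (z : ℝ) (j : O), j ≠ 0 →
    ‖RowG Q ν z j‖ ≤
      C * (pdiv j).card * Real.exp ((1 + 2 * σ) * y1 z) * (KK z * N j) ^ (-σ) := by
  obtain ⟨C₁, hC₁⟩ := Om_le_rpow hσ
  obtain ⟨C₂, hC₂⟩ := gtr_b_sum (σ - 1 / 2)
  have hC₁0 : 0 ≤ C₁ := by
    have := (Om_pos 1).le.trans (hC₁ 1 one_pos)
    simpa using this
  refine ⟨C₁ * C₂ ^ 2, fun Q ν hν z j hj => ?_⟩
  have hKj : 0 < KK z * N j := mul_pos (gtr_KK_pos z) (N_pos hj)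
  set A : ℝ := C₁ * (KK z * N j) ^ (-σ) with hA
  have hA0 : 0 ≤ A := mul_nonneg hC₁0 (Real.rpow_nonneg hKj.le _)
  have hg0 : ∀ g ∈ pdiv j, g ≠ 0 := fun g hg => ((mem_pdiv hj).1 hg).1.ne_zero
  choose! S hS using hC₂ (y1 z)
  have hsum : HasSum (fun l : O × O => ∑ g ∈ pdiv j,
      N g * A * (gtr_b (σ - 1 / 2) (y1 z) g l.1 * gtr_b (σ - 1 / 2) (y1 z) g l.2))
      (∑ g ∈ pdiv j, N g * A * (S g * S g)) := by
    refine hasSum_sum (fun g hg => HasSum.mul_left _ ?_)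
    have h := (hS g (hg0 g hg)).1
    exact h.mul h (h.summable.mul_of_nonneg h.summable (gtr_b_nonneg _ _ _) (gtr_b_nonneg _ _ _))
  have h1 : ‖RowG Q ν z j‖ ≤ ∑ g ∈ pdiv j, N g * A * (S g * S g) := by
    unfold RowG
    refine tsum_of_norm_bounded hsum ?_
    rintro ⟨l₁, l₂⟩
    simp only
    have hnn : ∀ g ∈ pdiv j, 0 ≤
        N g * A * (gtr_b (σ - 1 / 2) (y1 z) g l₁ * gtr_b (σ - 1 / 2) (y1 z) g l₂) := fun g _ =>
      mul_nonneg (mul_nonneg (N_nonneg g) hA0) (mul_nonneg (gtr_b_nonneg _ _ _ _) (gtr_b_nonneg _ _ _ _))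
    by_cases h : P0 Q l₁ ∧ P0 Q l₂
    · refine (gtr_norm_termG hν z j h.1 h.2).trans ?_
      obtain ⟨g, hgP, hg₁, hg₂, hCG⟩ := norm_CG_le h.1 h.2
      have hl₁ : l₁ ≠ 0 := h.1.1.ne_zero
      have hl₂ : l₂ ≠ 0 := h.2.1.ne_zero
      have hN₁ := N_pos hl₁
      have hN₂ := N_pos hl₂
      have hw := mul_nonneg (gtr_wG_nonneg z l₁) (gtr_wG_nonneg z l₂)
      by_cases hgj : g ∣ j
      · have h2 := hCG j
        rw [if_pos hgj] at h2
        refine le_trans ?_ (Finset.single_le_sum hnn ((mem_pdiv hj).2 ⟨hgP, hgj⟩))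
        have h3 : Om (KK z * N j / (N l₁ * N l₂)) ≤ A * (N l₁ ^ σ * N l₂ ^ σ) := by
          refine (hC₁ _ (div_pos hKj (mul_pos hN₁ hN₂))).trans (le_of_eq ?_)
          rw [Real.div_rpow hKj.le (mul_pos hN₁ hN₂).le, Real.rpow_neg (mul_pos hN₁ hN₂).le,
            div_inv_eq_mul, Real.mul_rpow hN₁.le hN₂.le, hA, mul_assoc]
        have h4 : ∀ l : O, g ∣ l → l ≠ 0 → gtr_b (σ - 1 / 2) (y1 z) g l = wG z l * N l ^ σ := by
          intro l hgl hl
          unfold gtr_b wG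
          rw [if_pos ⟨hgl, hl⟩, show σ - 1 / 2 = -(1 / 2) + σ by ring, Real.rpow_add (N_pos hl)]
          ring
        rw [h4 l₁ hg₁ hl₁, h4 l₂ hg₂ hl₂]
        calc ‖CG l₁ l₂ j‖ * (wG z l₁ * wG z l₂ * Om (KK z * N j / (N l₁ * N l₂)))
            ≤ N g * (wG z l₁ * wG z l₂ * (A * (N l₁ ^ σ * N l₂ ^ σ))) :=
              mul_le_mul h2 (mul_le_mul_of_nonneg_left h3 hw) (mul_nonneg hw (Om_pos _).le)
                (N_nonneg g)
          _ = _ := by ring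
      · have h2 := hCG j
        rw [if_neg hgj] at h2
        have h3 : ‖CG l₁ l₂ j‖ = 0 := le_antisymm h2 (norm_nonneg _)
        rw [h3, zero_mul]
        exact Finset.sum_nonneg hnn
    · rw [gtr_termG_zero ν z j h, norm_zero]
      exact Finset.sum_nonneg hnn
  refine h1.trans ?_
  have h2 : ∀ g ∈ pdiv j, N g * A * (S g * S g) ≤
      A * (C₂ ^ 2 * Real.exp ((1 + 2 * σ) * y1 z)) := by
    intro g hg
    have hg' := hg0 g hg
    have hN := N_pos hg'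
    have hS0 : 0 ≤ S g := (hS g hg').1.nonneg (gtr_b_nonneg _ _ _)
    have hS1 := (hS g hg').2
    have hE : Real.exp ((1 + 2 * σ) * y1 z) =
        Real.exp ((σ - 1 / 2 + 1) * y1 z) * Real.exp ((σ - 1 / 2 + 1) * y1 z) := by
      rw [← Real.exp_add]
      congr 1
      ring
    rw [hE]
    set E := Real.exp ((σ - 1 / 2 + 1) * y1 z) with hEd
    have hi : (N g)⁻¹ ≤ 1 := inv_le_one_of_one_le₀ (one_le_N hg')
    calc N g * A * (S g * S g) ≤ N g * A * ((C₂ * E * (N g)⁻¹) * (C₂ * E * (N g)⁻¹)) :=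
          mul_le_mul_of_nonneg_left (mul_self_le_mul_self hS0 hS1) (mul_nonneg hN.le hA0)
      _ = A * (C₂ ^ 2 * (E * E)) * (N g)⁻¹ := by field_simp
      _ ≤ A * (C₂ ^ 2 * (E * E)) :=
          mul_le_of_le_one_right (mul_nonneg hA0 (mul_nonneg (sq_nonneg _) (mul_self_nonneg _))) hi
  refine (Finset.sum_le_card_nsmul _ _ _ h2).trans (le_of_eq ?_)
  rw [nsmul_eq_mul, hA]
  ring

/-- `card_pdiv_le` reduces to `∑ N(j)^{-σ'}`, `1/6 < σ' < σ`; `j = d₀ a⁶` with `d₀ ∣ q^∞`, `a ≠ 0`: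
a finite partial sum is at most `(∑_{d₀} N(d₀)^{-σ'}) (∑_a N(a)^{-6σ'})` (`sum_smooth_le`,
`summable_N_rpow`, `summable_of_sum_le`) -/
theorem summable_exc (Q : Lev) {σ : ℝ} (hσ : 1 / 6 < σ) :
    Summable (fun j : O => if j ≠ 0 ∧ Exc Q j then ((pdiv j).card : ℝ) * N j ^ (-σ) else 0) := by
  obtain ⟨C, hC⟩ := card_pdiv_le (ε := (σ - 1 / 6) / 2) (by linarith)
  set τ : ℝ := (σ + 1 / 6) / 2 with hτ
  have hτ0 : 0 < τ := by rw [hτ]; linarith
  obtain ⟨D, hD⟩ := sum_smooth_le (σ := τ) (ε := 1) hτ0 one_pos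
  have hn1 : ∀ d : O, 0 ≤ (if ∃ i : ℕ, d ∣ Q.q ^ i then N d ^ (-τ) else 0) := fun d => by
    split_ifs
    · exact Real.rpow_nonneg (N_nonneg d) _
    · exact le_rfl
  have hs1 : Summable (fun d : O => if ∃ i : ℕ, d ∣ Q.q ^ i then N d ^ (-τ) else 0) := by
    refine summable_of_sum_le (c := D * N Q.q ^ (1 : ℝ)) hn1 (fun s => ?_)
    rw [← Finset.sum_filter]
    exact hD Q.q Q.ne _ (fun f hf => (Finset.mem_filter.1 hf).2)
  have hs2 : Summable (fun a : O => N a ^ (-(6 * τ))) := summable_N_rpow (by rw [hτ]; linarith)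
  have hs3 := hs1.mul_of_nonneg hs2 hn1 (fun a => Real.rpow_nonneg (N_nonneg a) _)
  have hex : ∀ j : {j : O // j ≠ 0 ∧ Exc Q j}, ∃ p : O × O,
      (∃ i : ℕ, p.1 ∣ Q.q ^ i) ∧ j.1 = p.1 * p.2 ^ 6 := by
    rintro ⟨j, -, d0, a, i, h1, h2⟩
    exact ⟨(d0, a), ⟨i, h1⟩, h2⟩
  choose φ hφ using hex
  have hinj : Function.Injective φ := fun a b h => Subtype.ext (by rw [(hφ a).2, (hφ b).2, h])
  have hs4 := (hs3.comp_injective hinj).mul_left C
  have hs5 : Summable ((fun j : O => ((pdiv j).card : ℝ) * N j ^ (-σ)) ∘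
      ((↑) : {j : O | j ≠ 0 ∧ Exc Q j} → O)) := by
    refine Summable.of_nonneg_of_le (fun j => mul_nonneg (Nat.cast_nonneg _)
      (Real.rpow_nonneg (N_nonneg _) _)) (fun j => ?_) hs4
    have hj : j.1 ≠ 0 := j.2.1
    have hN := N_pos hj
    simp only [Function.comp]
    rw [if_pos (hφ j).1]
    have h1 : N (φ j).1 ^ (-τ) * N (φ j).2 ^ (-(6 * τ)) = N j.1 ^ (-τ) := by
      rw [(hφ j).2, N_mul, N_pow, Real.mul_rpow (N_nonneg _) (pow_nonneg (N_nonneg _) _),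
        ← Real.rpow_natCast, ← Real.rpow_mul (N_nonneg _)]
      congr 2
      push_cast
      ring
    rw [h1]
    calc ((pdiv j.1).card : ℝ) * N j.1 ^ (-σ) ≤ C * N j.1 ^ ((σ - 1 / 6) / 2) * N j.1 ^ (-σ) :=
          mul_le_mul_of_nonneg_right (hC _ hj) (Real.rpow_nonneg hN.le _)
      _ = C * N j.1 ^ (-τ) := by
          rw [mul_assoc, ← Real.rpow_add hN]
          congr 2
          rw [hτ]
          ring
  rw [summable_subtype_iff_indicator] at hs5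
  convert hs5 using 2 with j
  simp only [Set.indicator, Set.mem_ofPred_eq]

end Crest.Agent.R17
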