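import Mathlib

/-!
# R17 / PoissonAux : two-dimensional theta transformation with linear terms; decay of `Γ`
-/

set_option autoImplicit false

noncomputable section

open scoped ComplexConjugate Real
open Complex MeasureTheory

namespace Crest.Agent.R17.Po

/-- Gaussian attached to a complex binary quadratic polynomial -/
def Gl (A B C L M : ℂ) (p : ℤ × ℤ) : ℂ :=
  cexp (-π * (A * (p.1 : ℂ) ^ 2 + 2 * B * p.1 * p.2 + C * (p.2 : ℂ) ^ 2) +
    2 * π * (L * p.1 + M * p.2))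

theorem summable_Gl {A B C : ℂ} (L M : ℂ) (ha : 0 < A.re) (hc : 0 < C.re)
    (h : B.re ^ 2 < A.re * C.re) : Summable (Gl A B C L M) := by
  set δ := (A.re * C.re - B.re ^ 2) / (A.re + C.re) with hδ
  have hδ0 : 0 < δ := div_pos (by linarith) (by linarith)
  have h1 : ∀ S : ℝ, Summable (fun n : ℤ => Real.exp (-π * (δ * n ^ 2 - 2 * S * |n|))) := by
    intro S
    simpa using summable_pow_mul_jacobiTheta₂_term_bound S hδ0 0
  have h2 := (h1 |L.re|).mul_of_nonneg (h1 |M.re|) (fun _ => (Real.exp_pos _).le)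
    (fun _ => (Real.exp_pos _).le)
  refine Summable.of_norm_bounded h2 fun p => ?_
  rw [Gl, norm_exp, ← Real.exp_add, Real.exp_le_exp]
  have e : (-π * (A * (p.1 : ℂ) ^ 2 + 2 * B * p.1 * p.2 + C * (p.2 : ℂ) ^ 2) +
      2 * π * (L * p.1 + M * p.2) : ℂ).re =
      -π * (A.re * (p.1 : ℝ) ^ 2 + 2 * B.re * p.1 * p.2 + C.re * (p.2 : ℝ) ^ 2) +
        2 * π * (L.re * p.1 + M.re * p.2) := by
    simp [pow_two]
  rw [e]
  have h3 : δ * ((p.1 : ℝ) ^ 2 + (p.2 : ℝ) ^ 2) ≤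
      A.re * (p.1 : ℝ) ^ 2 + 2 * B.re * p.1 * p.2 + C.re * (p.2 : ℝ) ^ 2 := by
    rw [hδ, div_mul_eq_mul_div, div_le_iff₀ (by linarith)]
    nlinarith [sq_nonneg (A.re * p.1 + B.re * p.2), sq_nonneg (B.re * p.1 + C.re * p.2)]
  have h4 : L.re * p.1 ≤ |L.re| * ((|p.1| : ℤ) : ℝ) := by
    rw [Int.cast_abs, ← abs_mul]; exact le_abs_self _
  have h5 : M.re * p.2 ≤ |M.re| * ((|p.2| : ℤ) : ℝ) := by
    rw [Int.cast_abs, ← abs_mul]; exact le_abs_self _
  nlinarith [mul_le_mul_of_nonneg_left h3 Real.pi_pos.le,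
    mul_le_mul_of_nonneg_left h4 Real.pi_pos.le, mul_le_mul_of_nonneg_left h5 Real.pi_pos.le]

theorem tsum_swap (A B C L M : ℂ) : ∑' p, Gl A B C L M p = ∑' p, Gl C B A M L p := by
  rw [← (Equiv.prodComm ℤ ℤ).tsum_eq]
  refine tsum_congr fun p => ?_
  simp only [Gl, Equiv.prodComm_apply, Prod.fst_swap, Prod.snd_swap]
  congr 1
  ring

theorem tsum_step {A B C L M A' B' C' L' M' : ℂ} (hc : 0 < C.re) (h : Summable (Gl A B C L M))
    (h' : Summable (Gl A' B' C' L' M')) (hA : A' = A - B ^ 2 / C)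
    (hB : B' = -I * B / C) (hC : C' = 1 / C) (hL : L' = L - M * B / C) (hM : M' = -I * M / C) :
    ∑' p, Gl A B C L M p =
      1 / C ^ (1 / 2 : ℂ) * cexp (π * M ^ 2 / C) * ∑' p, Gl A' B' C' L' M' p := by
  have hc0 : C ≠ 0 := fun h0 => by simp [h0] at hc
  rw [h.tsum_prod, h'.tsum_prod, ← tsum_mul_left]
  refine tsum_congr fun b => ?_
  have h1 := Complex.tsum_exp_neg_quadratic hc (M - B * b)
  have e1 : ∀ a : ℤ, Gl A B C L M (b, a) =
      cexp (-π * A * (b : ℂ) ^ 2 + 2 * π * L * b) *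
        cexp (-π * C * (a : ℂ) ^ 2 + 2 * π * (M - B * b) * a) := by
    intro a
    rw [Gl, ← Complex.exp_add]
    congr 1
    ring
  have e2 : ∀ a : ℤ, cexp (π * M ^ 2 / C) * Gl A' B' C' L' M' (b, a) =
      cexp (-π * A * (b : ℂ) ^ 2 + 2 * π * L * b) *
        cexp (-π / C * ((a : ℂ) + I * (M - B * b)) ^ 2) := by
    intro a
    rw [Gl, ← Complex.exp_add, ← Complex.exp_add, hA, hB, hC, hL, hM]
    congr 1
    field_simp
    linear_combination ((M - B * b) ^ 2) * I_sq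
  rw [mul_assoc, ← tsum_mul_left]
  simp only [e1, e2, tsum_mul_left, h1]
  ring

/-- the hexagonal theta transformation in coordinates -/
theorem theta_hex {t : ℝ} (ht : 0 < t) (u v : ℝ) :
    ∑' p : ℤ × ℤ, cexp (-π * t * (((p.1 : ℂ) + u) ^ 2 - (p.1 + u) * (p.2 + v) + (p.2 + v) ^ 2)) =
      ((2 / (√3 * t) : ℝ) : ℂ) * ∑' p : ℤ × ℤ,
        cexp (-π * (4 / (3 * t)) * ((p.1 : ℂ) ^ 2 + p.1 * p.2 + (p.2 : ℂ) ^ 2) +
          2 * π * (v * p.1 + u * p.2) * I) := by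
  have ht0 : (t : ℂ) ≠ 0 := ofReal_ne_zero.2 ht.ne'
  have s0 : Summable (Gl t ((-t / 2 : ℝ) : ℂ) t ((-t * (2 * u - v) / 2 : ℝ) : ℂ)
      ((-t * (2 * v - u) / 2 : ℝ) : ℂ)) :=
    summable_Gl _ _ (by simpa using ht) (by simpa using ht)
      (by simp only [ofReal_re]; nlinarith)
  have r1 : 0 < (((3 * t / 4 : ℝ) : ℂ)).re := by rw [ofReal_re]; positivity
  have r2 : 0 < (((1 / t : ℝ) : ℂ)).re := by rw [ofReal_re]; positivity
  have r3 : 0 < (((4 / (3 * t) : ℝ) : ℂ)).re := by rw [ofReal_re]; positivity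
  have s1 : Summable (Gl ((3 * t / 4 : ℝ) : ℂ) (I / 2) ((1 / t : ℝ) : ℂ) (-3 * t * u / 4)
      (I * (2 * v - u) / 2)) :=
    summable_Gl _ _ r1 r2 (by
      have : (I / 2).re = 0 := by simp
      rw [this, zero_pow two_ne_zero]; exact mul_pos r1 r2)
  have s1' : Summable (Gl ((1 / t : ℝ) : ℂ) (I / 2) ((3 * t / 4 : ℝ) : ℂ) (I * (2 * v - u) / 2)
      (-3 * t * u / 4)) :=
    summable_Gl _ _ r2 r1 (by
      have : (I / 2).re = 0 := by simp
      rw [this, zero_pow two_ne_zero]; exact mul_pos r2 r1)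
  have s2 : Summable (Gl ((4 / (3 * t) : ℝ) : ℂ) ((2 / (3 * t) : ℝ) : ℂ) ((4 / (3 * t) : ℝ) : ℂ)
      (I * v) (I * u)) :=
    summable_Gl _ _ r3 r3 (by
      simp only [ofReal_re]
      have h1 : 0 < 1 / (3 * t) := by positivity
      have h2 : 2 / (3 * t) = 2 * (1 / (3 * t)) := by ring
      have h3 : 4 / (3 * t) = 4 * (1 / (3 * t)) := by ring
      rw [h2, h3]; nlinarith)
  have k1 := tsum_step (by simpa using ht) s0 s1 (by push_cast; field_simp; ring)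
    (by push_cast; field_simp) (by push_cast; rfl) (by push_cast; field_simp; ring)
    (by push_cast; field_simp)
  have k2 := tsum_step r1 s1' s2
    (by push_cast; field_simp; linear_combination (4 : ℂ) * I_sq)
    (by push_cast; field_simp; linear_combination (4 : ℂ) * I_sq)
    (by push_cast; field_simp) (by push_cast; field_simp; ring) (by push_cast; field_simp)
  rw [tsum_swap ((3 * t / 4 : ℝ) : ℂ), k2] at k1
  have e1 : ∀ p : ℤ × ℤ,
      cexp (-π * t * (((p.1 : ℂ) + u) ^ 2 - (p.1 + u) * (p.2 + v) + (p.2 + v) ^ 2)) =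
      cexp (-π * t * ((u : ℂ) ^ 2 - u * v + v ^ 2)) *
        Gl t ((-t / 2 : ℝ) : ℂ) t ((-t * (2 * u - v) / 2 : ℝ) : ℂ)
          ((-t * (2 * v - u) / 2 : ℝ) : ℂ) p := by
    intro p
    rw [Gl, ← Complex.exp_add]
    congr 1
    push_cast
    ring
  have e2 : ∀ p : ℤ × ℤ,
      cexp (-π * (4 / (3 * t)) * ((p.1 : ℂ) ^ 2 + p.1 * p.2 + (p.2 : ℂ) ^ 2) +
          2 * π * (v * p.1 + u * p.2) * I) =
      Gl ((4 / (3 * t) : ℝ) : ℂ) ((2 / (3 * t) : ℝ) : ℂ) ((4 / (3 * t) : ℝ) : ℂ)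
        (I * v) (I * u) p := by
    intro p
    rw [Gl]
    congr 1
    push_cast
    ring
  simp only [e1, e2, tsum_mul_left, k1]
  have e3 : (1 / (t : ℂ) ^ (1 / 2 : ℂ)) * (1 / ((3 * t / 4 : ℝ) : ℂ) ^ (1 / 2 : ℂ)) =
      ((2 / (√3 * t) : ℝ) : ℂ) := by
    have a1 : (t : ℂ) ^ (1 / 2 : ℂ) = ((√t : ℝ) : ℂ) := by
      rw [Real.sqrt_eq_rpow, ofReal_cpow ht.le]; norm_num
    have a2 : ((3 * t / 4 : ℝ) : ℂ) ^ (1 / 2 : ℂ) = ((√(3 * t / 4) : ℝ) : ℂ) := by
      rw [Real.sqrt_eq_rpow, ofReal_cpow (by positivity)]; norm_num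
    have a3 : √t * √(3 * t / 4) = √3 * t / 2 := by
      rw [← Real.sqrt_mul ht.le, show t * (3 * t / 4) = 3 * (t / 2) ^ 2 by ring,
        Real.sqrt_mul (by norm_num), Real.sqrt_sq (by positivity)]
      ring
    rw [a1, a2, div_mul_div_comm, ← ofReal_mul, a3]
    push_cast
    field_simp
  have e4 : cexp (-π * t * ((u : ℂ) ^ 2 - u * v + v ^ 2)) *
      cexp (π * ((-t * (2 * v - u) / 2 : ℝ) : ℂ) ^ 2 / t) *
      cexp (π * (-3 * t * u / 4) ^ 2 / ((3 * t / 4 : ℝ) : ℂ)) = 1 := by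
    rw [← Complex.exp_add, ← Complex.exp_add, ← Complex.exp_zero]
    congr 1
    push_cast
    field_simp
    ring
  rw [← e3]
  linear_combination (1 / (t : ℂ) ^ (1 / 2 : ℂ)) * (1 / ((3 * t / 4 : ℝ) : ℂ) ^ (1 / 2 : ℂ)) *
    (∑' p, Gl ((4 / (3 * t) : ℝ) : ℂ) ((2 / (3 * t) : ℝ) : ℂ) ((4 / (3 * t) : ℝ) : ℂ)
        (I * v) (I * u) p) * e4

/-! ### decay of `Γ` -/

theorem norm_Gamma_half (τ : ℝ) :
    ‖Gamma (1 / 2 + τ * I)‖ ≤ √(2 * π) * Real.exp (-(π / 2 * |τ|)) := by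
  have h1 := Complex.Gamma_mul_Gamma_one_sub (1 / 2 + τ * I)
  have h2 : 1 - (1 / 2 + τ * I : ℂ) = conj (1 / 2 + τ * I) := by
    simp only [map_add, map_mul, conj_ofReal, conj_I, map_div₀, map_one, map_ofNat]
    ring
  rw [h2, Complex.Gamma_conj, Complex.mul_conj] at h1
  have h3 : Complex.sin (π * (1 / 2 + τ * I)) = ((Real.cosh (π * τ) : ℝ) : ℂ) := by
    rw [show (π * (1 / 2 + τ * I) : ℂ) = (π * τ) * I + π / 2 by ring, Complex.sin_add_pi_div_two,
      Complex.cos_mul_I]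
    push_cast
    rfl
  rw [h3, ← ofReal_div, ofReal_inj, normSq_eq_norm_sq] at h1
  have h4 : Real.exp (π * |τ|) ≤ 2 * Real.cosh (π * τ) := by
    rw [← Real.cosh_abs, abs_mul, abs_of_pos Real.pi_pos, Real.cosh_eq]
    have := Real.exp_pos (-(π * |τ|))
    linarith
  refine abs_le_of_sq_le_sq' ?_ (by positivity) |>.2
  rw [h1, mul_pow, Real.sq_sqrt (by positivity), ← Real.exp_nat_mul, div_le_iff₀ (Real.cosh_pos _)]
  have h5 : Real.exp ((2 : ℕ) * -(π / 2 * |τ|)) * Real.exp (π * |τ|) = 1 := by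
    rw [← Real.exp_add, ← Real.exp_zero]
    congr 1
    push_cast
    ring
  have h6 := Real.exp_pos ((2 : ℕ) * -(π / 2 * |τ|))
  have h7 := mul_le_mul_of_nonneg_left h4 h6.le
  nlinarith [Real.pi_pos]

theorem norm_Gamma_half_nat (n : ℕ) (τ : ℝ) :
    ‖Gamma (n + 1 / 2 + τ * I)‖ ≤ (n + |τ|) ^ n * (√(2 * π) * Real.exp (-(π / 2 * |τ|))) := by
  induction n with
  | zero => simpa using norm_Gamma_half τ
  | succ n ih =>
    have h0 : (n + 1 / 2 + τ * I : ℂ) ≠ 0 := by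
      intro h
      have := congrArg Complex.re h
      simp at this
      have h2 : (0 : ℝ) ≤ n := Nat.cast_nonneg n
      linarith
    have e : ((n + 1 : ℕ) + 1 / 2 + τ * I : ℂ) = (n + 1 / 2 + τ * I) + 1 := by push_cast; ring
    rw [e, Complex.Gamma_add_one _ h0, norm_mul]
    have h1 : ‖(n + 1 / 2 + τ * I : ℂ)‖ ≤ (n + 1 : ℕ) + |τ| := by
      refine (norm_add_le _ _).trans (add_le_add ?_ (by simp))
      refine (norm_add_le _ _).trans ?_
      simp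
      norm_num
    have h2 : ((n : ℝ) + |τ|) ^ n ≤ ((n + 1 : ℕ) + |τ|) ^ n :=
      pow_le_pow_left₀ (by positivity) (by push_cast; linarith) n
    calc _ ≤ (((n + 1 : ℕ) : ℝ) + |τ|) * ((((n + 1 : ℕ) : ℝ) + |τ|) ^ n *
          (√(2 * π) * Real.exp (-(π / 2 * |τ|)))) :=
          mul_le_mul h1 (ih.trans (mul_le_mul_of_nonneg_right h2 (by positivity))) (norm_nonneg _)
            (by positivity)
      _ = _ := by ring

theorem norm_Gamma_le_shift {σ a : ℝ} (hσ : 0 < σ) (ha : 0 < a) :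
    ∃ C, 0 ≤ C ∧ ∀ τ : ℝ, ‖Gamma (σ + τ * I)‖ ≤ C * ‖Gamma (σ + a + τ * I)‖ := by
  have hG := Real.Gamma_pos_of_pos ha
  refine ⟨(∫ x in (0 : ℝ)..1, ‖(x : ℂ) ^ ((σ : ℂ) - 1) * (1 - (x : ℂ)) ^ ((a : ℂ) - 1)‖) /
    Real.Gamma a, div_nonneg (intervalIntegral.integral_nonneg zero_le_one
      fun _ _ => norm_nonneg _) hG.le, fun τ => ?_⟩
  have h1 := Complex.Gamma_mul_Gamma_eq_betaIntegral (s := σ + τ * I) (t := a) (by simpa using hσ)
    (by simpa using ha)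
  have h2 : ‖betaIntegral (σ + τ * I) a‖ ≤
      ∫ x in (0 : ℝ)..1, ‖(x : ℂ) ^ ((σ : ℂ) - 1) * (1 - (x : ℂ)) ^ ((a : ℂ) - 1)‖ := by
    refine (intervalIntegral.norm_integral_le_integral_norm zero_le_one).trans (le_of_eq ?_)
    refine intervalIntegral.integral_congr_ae (Filter.Eventually.of_forall fun x hx => ?_)
    rw [Set.uIoc_of_le zero_le_one] at hx
    rw [norm_mul, norm_mul, norm_cpow_eq_rpow_re_of_pos hx.1, norm_cpow_eq_rpow_re_of_pos hx.1]
    simp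
  have h3 := congrArg norm h1
  rw [norm_mul, norm_mul, Complex.Gamma_ofReal, Complex.norm_real, Real.norm_of_nonneg hG.le,
    show (σ + τ * I + a : ℂ) = σ + a + τ * I by ring] at h3
  rw [div_mul_eq_mul_div, le_div_iff₀ hG, h3, mul_comm]
  exact mul_le_mul_of_nonneg_right h2 (norm_nonneg _)

theorem pow_mul_exp_le (n : ℕ) {c : ℝ} (hc : 0 < c) (a : ℝ) (ha : 0 ≤ a) :
    ∃ C, 0 ≤ C ∧ ∀ x : ℝ, 0 ≤ x → (a + x) ^ n * Real.exp (-(c * x)) ≤ C := by
  refine ⟨n.factorial / c ^ n * Real.exp (c * a), by positivity, fun x hx => ?_⟩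
  have h1 := Real.pow_div_factorial_le_exp (c * (a + x)) (by positivity) n
  have h2 : (0 : ℝ) < n.factorial := by positivity
  rw [div_le_iff₀ h2, mul_pow] at h1
  have h3 : Real.exp (c * (a + x)) * Real.exp (-(c * x)) = Real.exp (c * a) := by
    rw [← Real.exp_add]; congr 1; ring
  have h4 : (a + x) ^ n ≤ n.factorial / c ^ n * Real.exp (c * (a + x)) := by
    rw [div_mul_eq_mul_div, le_div_iff₀ (by positivity)]
    linarith
  rw [← h3, ← mul_assoc]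
  exact mul_le_mul_of_nonneg_right h4 (Real.exp_pos _).le

theorem norm_Gamma_le {σ : ℝ} (hσ : 0 < σ) :
    ∃ C, ∀ τ : ℝ, ‖Gamma (σ + τ * I)‖ ≤ C * Real.exp (-|τ|) := by
  obtain ⟨n, hn⟩ := exists_nat_gt σ
  obtain ⟨C1, hC1, h1⟩ := norm_Gamma_le_shift hσ (show 0 < n + 1 / 2 - σ by linarith)
  obtain ⟨C2, hC2, h2⟩ := pow_mul_exp_le n (show 0 < π / 2 - 1 by linarith [Real.pi_gt_three])
    n (Nat.cast_nonneg n)
  refine ⟨C1 * (C2 * √(2 * π)), fun τ => (h1 τ).trans ?_⟩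
  rw [mul_assoc]
  refine mul_le_mul_of_nonneg_left ?_ hC1
  have e : (σ + ((n + 1 / 2 - σ : ℝ) : ℂ) + τ * I : ℂ) = n + 1 / 2 + τ * I := by push_cast; ring
  rw [e]
  refine (norm_Gamma_half_nat n τ).trans ?_
  have h3 := h2 |τ| (abs_nonneg τ)
  have h4 : Real.exp (-(π / 2 * |τ|)) = Real.exp (-((π / 2 - 1) * |τ|)) * Real.exp (-|τ|) := by
    rw [← Real.exp_add]; congr 1; ring
  rw [h4]
  calc _ = ((n + |τ|) ^ n * Real.exp (-((π / 2 - 1) * |τ|))) * (√(2 * π) * Real.exp (-|τ|)) := by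
        ring
    _ ≤ C2 * (√(2 * π) * Real.exp (-|τ|)) := mul_le_mul_of_nonneg_right h3 (by positivity)
    _ = _ := by ring

theorem continuous_Gamma_line {σ : ℝ} (hσ : 0 < σ) :
    Continuous (fun τ : ℝ => Gamma (σ + τ * I)) := by
  refine continuous_iff_continuousAt.2 fun τ => ?_
  refine ContinuousAt.comp (f := fun τ : ℝ => (σ + τ * I : ℂ)) ?_ (by fun_prop)
  refine (Complex.differentiableAt_Gamma _ fun m h => ?_).continuousAt
  have := congrArg Complex.re h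
  simp at this
  have h2 : (0 : ℝ) ≤ m := Nat.cast_nonneg m
  linarith

theorem integrable_exp_neg_abs {c : ℝ} (hc : 0 < c) :
    Integrable (fun τ : ℝ => Real.exp (-(c * |τ|))) := by
  have h1 : IntegrableOn (fun τ : ℝ => Real.exp (-(c * |τ|))) (Set.Ioi 0) := by
    refine (exp_neg_integrableOn_Ioi 0 hc).congr_fun (fun x hx => ?_) measurableSet_Ioi
    simp only [abs_of_pos (show 0 < x from hx), neg_mul]
  have h2 : IntegrableOn (fun τ : ℝ => Real.exp (-(c * |τ|))) (Set.Iic 0) := by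
    refine (integrableOn_exp_mul_Iic hc 0).congr_fun (fun x hx => ?_) measurableSet_Iic
    simp only [abs_of_nonpos (show x ≤ 0 from hx), mul_neg, neg_neg]
  have h3 := h2.union h1
  rwa [Set.Iic_union_Ioi, integrableOn_univ] at h3

end Crest.Agent.R17.Po
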