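import Crest.Agent.R17.Basic
import Crest.Agent.R17.PoissonAux

/-!
# R17 / Poisson : Gaussian Poisson summation on `O`, Mellin transform of `Om`, Gamma bounds
-/

set_option autoImplicit false

noncomputable section

open scoped Classical ComplexConjugate
open MeasureTheory

namespace Crest.Agent.R17

theorem one_lt_c0 : 1 < c0 := by
  have h1 : 0 < Real.sqrt 3 := by positivity
  have h2 : Real.sqrt 3 < 2 := by
    rw [Real.sqrt_lt' (by norm_num)]; norm_num
  rw [c0, lt_div_iff₀ h1]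
  linarith [Real.pi_gt_three]
theorem Om_pos (x : ℝ) : 0 < Om x := Real.exp_pos _
theorem Om_le_one {x : ℝ} (hx : 0 ≤ x) : Om x ≤ 1 := by
  rw [Om, Real.exp_le_one_iff]
  nlinarith [one_lt_c0]
theorem Om_le_pow (j : ℕ) {x : ℝ} (hx : 0 < x) : Om x ≤ (j.factorial : ℝ) * (x ^ j)⁻¹ := by
  have h1 := Real.pow_div_factorial_le_exp x hx.le j
  have h2 : (0 : ℝ) < j.factorial := by positivity
  have h3 : Om x * Real.exp x ≤ 1 := by
    rw [Om, ← Real.exp_add, Real.exp_le_one_iff]
    nlinarith [one_lt_c0]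
  rw [div_le_iff₀ h2] at h1
  rw [← div_eq_mul_inv, le_div_iff₀ (by positivity)]
  calc Om x * x ^ j ≤ Om x * (Real.exp x * j.factorial) :=
        mul_le_mul_of_nonneg_left h1 (Om_pos x).le
    _ = (Om x * Real.exp x) * j.factorial := by ring
    _ ≤ _ := by nlinarith
theorem summable_Om {X : ℝ} (hX : 0 < X) (j : ℕ) :
    Summable (fun k : O => N k ^ j * Om (N k / X)) := by
  have h1 := (summable_N_rpow (σ := 2) (by norm_num)).mul_left ((j + 2).factorial * X ^ (j + 2))
  refine Summable.of_norm_bounded_eventually h1 ?_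
  filter_upwards [Filter.eventually_cofinite_ne (0 : O)] with k hk
  have hN := N_pos hk
  rw [Real.norm_of_nonneg (mul_nonneg (by positivity) (Om_pos _).le)]
  refine (mul_le_mul_of_nonneg_left (Om_le_pow (j + 2) (div_pos hN hX)) (by positivity)).trans
    (le_of_eq ?_)
  rw [Real.rpow_neg hN.le, Real.rpow_two, div_pow]
  field_simp
  ring
theorem tsum_Om_le : ∃ C, ∀ X : ℝ, 0 < X →
    ∑' k : O, (if k = 0 then 0 else Om (N k / X)) ≤ C * X := by
  obtain ⟨C, hC⟩ := tsum_tail_N_rpow (σ := 2) (by norm_num)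
  refine ⟨18 + 2 * C, fun X hX => ?_⟩
  have s0 : Summable (fun k : O => Om (N k / X)) := by simpa using summable_Om hX 0
  have s1 : Summable (fun k : O => if k = 0 then 0 else Om (N k / X)) :=
    Summable.of_nonneg_of_le (fun d => by split_ifs; exacts [le_rfl, (Om_pos _).le])
      (fun d => by split_ifs; exacts [(Om_pos _).le, le_rfl]) s0
  have s2 : Summable (fun k : O => if k ∈ ball X then (1 : ℝ) else 0) :=
    summable_of_ne_finset_zero (s := ball X) fun k hk => if_neg hk
  have s3 : Summable (fun n : O => if X < N n then N n ^ (-(2 : ℝ)) else 0) :=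
    Summable.of_nonneg_of_le
      (fun d => by split_ifs; exacts [Real.rpow_nonneg (N_nonneg _) _, le_rfl])
      (fun d => by split_ifs; exacts [le_rfl, Real.rpow_nonneg (N_nonneg _) _])
      (summable_N_rpow (σ := 2) (by norm_num))
  have h1 : ∑' k : O, (if k = 0 then 0 else Om (N k / X)) ≤
      ∑' k : O, ((if k ∈ ball X then (1 : ℝ) else 0) +
        2 * X ^ 2 * (if X < N k then N k ^ (-(2 : ℝ)) else 0)) := by
    refine s1.tsum_le_tsum (fun k => ?_) (s2.add (s3.mul_left _))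
    have a1 : 0 ≤ (if k ∈ ball X then (1 : ℝ) else 0) := by split_ifs <;> norm_num
    have a2 : 0 ≤ 2 * X ^ 2 * (if X < N k then N k ^ (-(2 : ℝ)) else 0) :=
      mul_nonneg (by positivity)
        (by split_ifs; exacts [Real.rpow_nonneg (N_nonneg _) _, le_rfl])
    by_cases hk : k = 0
    · rw [if_pos hk]; linarith
    rw [if_neg hk]
    have hN := N_pos hk
    by_cases h : X < N k
    · have a3 := Om_le_pow 2 (div_pos hN hX)
      have a4 : ((Nat.factorial 2 : ℕ) : ℝ) * ((N k / X) ^ 2)⁻¹ =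
          2 * X ^ 2 * (if X < N k then N k ^ (-(2 : ℝ)) else 0) := by
        rw [if_pos h, Real.rpow_neg hN.le, Real.rpow_two, div_pow]
        simp only [Nat.factorial_two, Nat.cast_ofNat]
        field_simp
      linarith
    · rw [if_pos (mem_ball.2 ⟨hk, not_lt.1 h⟩)]
      linarith [Om_le_one (div_pos hN hX).le]
  rw [s2.tsum_add (s3.mul_left _), tsum_mul_left,
    tsum_eq_sum (s := ball X) (fun k hk => if_neg hk),
    Finset.sum_congr rfl (fun k hk => if_pos hk), Finset.sum_const, nsmul_eq_mul, mul_one] at h1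
  have h2 := card_ball_le hX.le
  have h3 := mul_le_mul_of_nonneg_left (hC X hX) (show 0 ≤ 2 * X ^ 2 by positivity)
  have h4 : 2 * X ^ 2 * (C * X ^ (1 - 2 : ℝ)) = 2 * C * X := by
    rw [show (1 - 2 : ℝ) = -1 by norm_num, Real.rpow_neg_one]
    field_simp
  linarith
/-- majorisation of a ball -/
theorem sum_ball_le_tsum {D : ℝ} (hD : 0 < D) {f : O → ℝ} (hf : ∀ d, 0 ≤ f d)
    (hs : Summable (fun d => Om (N d / D) * f d)) :
    ∑ d ∈ ball D, f d ≤ Real.exp c0 * ∑' d, Om (N d / D) * f d := by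
  refine le_trans ?_ (mul_le_mul_of_nonneg_left
    (hs.sum_le_tsum (ball D) fun d _ => mul_nonneg (Om_pos _).le (hf d)) (Real.exp_pos _).le)
  rw [Finset.mul_sum]
  refine Finset.sum_le_sum fun d hd => ?_
  have h1 : N d / D ≤ 1 := (div_le_one hD).2 (mem_ball.1 hd).2
  have h2 : 1 ≤ Real.exp c0 * Om (N d / D) := by
    rw [Om, ← Real.exp_add, Real.one_le_exp_iff]
    nlinarith [one_lt_c0]
  rw [← mul_assoc]
  nlinarith [hf d]

/-- coordinates -/
def Po.e1 : ℤ × ℤ ≃ O where
  toFun p := ⟨p.1, p.2⟩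
  invFun x := (x.re, x.im)
  left_inv _ := rfl
  right_inv _ := rfl

/-- dual coordinates -/
def Po.e2 : ℤ × ℤ ≃ O where
  toFun p := ⟨p.1 + p.2, p.2⟩
  invFun x := (x.re - x.im, x.im)
  left_inv p := by simp
  right_inv x := by ext <;> simp

theorem Po.N_eq (x : O) : N x = (x.re : ℝ) ^ 2 - x.re * x.im + (x.im : ℝ) ^ 2 := by
  unfold N
  exact_mod_cast nm_int x

theorem Po.normSq_om (a b : ℝ) : Complex.normSq (a + b * omC) = a ^ 2 - a * b + b ^ 2 := by
  have h : Real.sqrt 3 * Real.sqrt 3 = 3 := Real.mul_self_sqrt (by norm_num)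
  rw [Complex.normSq_apply]
  simp [omC]
  nlinarith

theorem Po.exists_coord (ξ : ℂ) : ∃ u v : ℝ, ξ = u + v * omC := by
  have h1 : 0 < Real.sqrt 3 := by positivity
  refine ⟨ξ.re + ξ.im / Real.sqrt 3, 2 * ξ.im / Real.sqrt 3, ?_⟩
  apply Complex.ext
  · simp only [omC, Complex.add_re, Complex.ofReal_re, Complex.mul_re, Complex.ofReal_im]
    ring
  · simp only [omC, Complex.add_im, Complex.ofReal_re, Complex.mul_im, Complex.ofReal_im]
    field_simp
    ring

/-- Two-dimensional theta transformation.  With `x = a + bω`, `N(x+ξ)` is a quadratic polynomial in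
`(a,b)`; apply `Complex.tsum_exp_neg_quadratic` first in `a`, then in `b` (complete the square;
`N = (a - b/2)² + 3b²/4`), with Fubini for absolutely convergent double series. -/
theorem poisson_gauss (ξ : ℂ) {X : ℝ} (hX : 0 < X) :
    ∑' x : O, (Om (Complex.normSq (toC x + ξ) / X) : ℂ) =
      X * ∑' h : O, (Om (X * N h) : ℂ) * ee (toC h * ξ) := by
  obtain ⟨u, v, rfl⟩ := Po.exists_coord ξ
  have h1 : 0 < Real.sqrt 3 := by positivity
  have h3 : Real.sqrt 3 * Real.sqrt 3 = 3 := Real.mul_self_sqrt (by norm_num)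
  have ht : 0 < 2 / (Real.sqrt 3 * X) := by positivity
  have key := Po.theta_hex ht u v
  have e0 : 2 / (Real.sqrt 3 * (2 / (Real.sqrt 3 * X))) = X := by field_simp
  rw [e0] at key
  rw [← Po.e1.tsum_eq, ← Po.e2.tsum_eq]
  refine Eq.trans (tsum_congr fun p => ?_) (key.trans (congrArg _ (tsum_congr fun p => ?_)))
  · have e : toC (Po.e1 p) + (u + v * omC) = ((p.1 + u : ℝ) : ℂ) + ((p.2 + v : ℝ) : ℂ) * omC := by
      simp only [toC_apply, Po.e1, Equiv.coe_fn_mk]
      push_cast
      ring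
    rw [e, Po.normSq_om, Om, Complex.ofReal_exp, c0]
    congr 1
    push_cast
    ring
  · have e : toC (Po.e2 p) * (u + v * omC) =
        (((p.1 + p.2) * u - p.2 * v : ℝ) : ℂ) + ((v * p.1 + u * p.2 : ℝ) : ℂ) * omC := by
      simp only [toC_apply, Po.e2, Equiv.coe_fn_mk]
      push_cast
      linear_combination ((p.2 : ℂ) * v) * omC_sq
    have e' : 4 / (3 * (2 / (Real.sqrt 3 * X))) = 2 / Real.sqrt 3 * X := by
      field_simp
      nlinarith
    have e'' : (4 / (3 * ((2 / (Real.sqrt 3 * X) : ℝ) : ℂ)) : ℂ) =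
        ((2 / Real.sqrt 3 * X : ℝ) : ℂ) := by
      rw [← e']; push_cast; rfl
    rw [e, ee_real_om, Om, Complex.ofReal_exp, ← Complex.exp_add, Po.N_eq, c0, e'']
    congr 1
    simp only [Po.e2, Equiv.coe_fn_mk]
    push_cast
    ring
/-- Poisson summation for a periodic function (split into classes with `tsum_res`, apply
`poisson_gauss` with `ξ = x/q`, `X = K / N q`) -/
theorem poisson_per {q : O} (hq : q ≠ 0) {φ : O → ℂ} (hφ : Per q φ) {K : ℝ} (hK : 0 < K) :
    ∑' k : O, φ k * (Om (N k / K) : ℂ) =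
      ((K / N q : ℝ) : ℂ) * ∑' d : O, gs q φ d * (Om (K * N d / N q) : ℂ) := by
  have hM := N_pos hq
  have hX : 0 < K / N q := div_pos hK hM
  have hq0 : toC q ≠ 0 := fun h => hq (toC_injective (by rw [h, map_zero]))
  have nO : ∀ x : ℝ, ‖(Om x : ℂ)‖ = Om x := fun x => by
    rw [Complex.norm_real, Real.norm_of_nonneg (Om_pos x).le]
  have s0 : Summable (fun k : O => φ k * (Om (N k / K) : ℂ)) := by
    have a : Summable (fun k : O => Om (N k / K)) := by simpa using summable_Om hK 0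
    refine Summable.of_norm_bounded (a.mul_left (∑ x ∈ res q, ‖φ x‖)) fun k => ?_
    rw [norm_mul, nO]
    refine mul_le_mul_of_nonneg_right ?_ (Om_pos _).le
    obtain ⟨r, hr, h⟩ := exists_res hq k
    rw [hφ.congr h]
    exact Finset.single_le_sum (f := fun x => ‖φ x‖) (fun _ _ => norm_nonneg _) hr
  have s1 : ∀ x : O, Summable (fun d : O => φ x * ad q (d * x) * (Om (K * N d / N q) : ℂ)) := by
    intro x
    have a : Summable (fun k : O => Om (N k / (N q / K))) := by
      simpa using summable_Om (div_pos hM hK) 0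
    refine Summable.of_norm_bounded (a.mul_left ‖φ x‖) fun d => ?_
    rw [norm_mul, norm_mul, norm_ad, mul_one, nO,
      show K * N d / N q = N d / (N q / K) by field_simp]
  rw [tsum_res hq s0]
  simp only [gs, Finset.sum_mul]
  rw [Summable.tsum_finsetSum (fun x _ => s1 x), Finset.mul_sum]
  refine Finset.sum_congr rfl fun x _ => ?_
  have key := poisson_gauss (toC x / toC q) hX
  have e1 : ∀ t : O, φ (x + q * t) * (Om (N (x + q * t) / K) : ℂ) =
      φ x * (Om (Complex.normSq (toC t + toC x / toC q) / (K / N q)) : ℂ) := by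
    intro t
    rw [hφ x t]
    congr 3
    have : toC (x + q * t) = toC q * (toC t + toC x / toC q) := by
      rw [map_add, map_mul]; field_simp; ring
    rw [N_eq_normSq (x + q * t), this, map_mul, ← N_eq_normSq]
    field_simp
  have e2 : ∀ d : O, φ x * ad q (d * x) * (Om (K * N d / N q) : ℂ) =
      φ x * ((Om (K / N q * N d) : ℂ) * ee (toC d * (toC x / toC q))) := by
    intro d
    rw [ad, map_mul, mul_div_assoc (toC d), show K * N d / N q = K / N q * N d by ring]
    ring
  simp only [e1, e2, tsum_mul_left, key]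
  ring
/-- exponential decay of `Γ` on vertical lines: from
`Complex.integral_cpow_mul_exp_neg_mul_Ioi` with `r = e^{±i}` (`cos 1 > 0`):
`|Γ(σ+iτ)| ≤ Γ(σ) (cos 1)^{-σ} e^{-|τ|}` -/
theorem Gm_le {σ : ℝ} (hσ : 0 < σ) : ∃ C, ∀ τ, Gm σ τ ≤ C * Real.exp (-|τ|) :=
  Po.norm_Gamma_le hσ
theorem Gm_neg (σ τ : ℝ) : Gm σ (-τ) = Gm σ τ := by
  have e : (σ + ((-τ : ℝ) : ℂ) * Complex.I : ℂ) = conj (σ + τ * Complex.I) := by
    simp
  rw [Gm, Gm, e, Complex.Gamma_conj, Complex.norm_conj]
theorem continuous_Gm {σ : ℝ} (hσ : 0 < σ) : Continuous (Gm σ) :=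
  (Po.continuous_Gamma_line hσ).norm
theorem integrable_Gm {σ : ℝ} (hσ : 0 < σ) (B : ℕ) :
    Integrable (fun τ : ℝ => Gm σ τ * (1 + |τ|) ^ B) := by
  obtain ⟨C, hC⟩ := Gm_le hσ
  obtain ⟨C2, hC2, h2⟩ := Po.pow_mul_exp_le B (show (0 : ℝ) < 1 / 2 by norm_num) 1 zero_le_one
  have hG : ∀ τ, 0 ≤ Gm σ τ := fun τ => norm_nonneg _
  have hC0 : 0 ≤ C := by simpa using (hG 0).trans (hC 0)
  refine ((Po.integrable_exp_neg_abs (show (0 : ℝ) < 1 / 2 by norm_num)).const_mul (C * C2)).mono'
    (((continuous_Gm hσ).mul (by fun_prop)).aestronglyMeasurable)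
    (Filter.Eventually.of_forall fun τ => ?_)
  rw [Real.norm_of_nonneg (mul_nonneg (hG τ) (by positivity))]
  have h3 : Real.exp (-|τ|) = Real.exp (-(1 / 2 * |τ|)) * Real.exp (-(1 / 2 * |τ|)) := by
    rw [← Real.exp_add]; congr 1; ring
  calc _ ≤ C * Real.exp (-|τ|) * (1 + |τ|) ^ B := mul_le_mul_of_nonneg_right (hC τ) (by positivity)
    _ = C * (((1 + |τ|) ^ B * Real.exp (-(1 / 2 * |τ|))) * Real.exp (-(1 / 2 * |τ|))) := by
        rw [h3]; ring
    _ ≤ C * (C2 * Real.exp (-(1 / 2 * |τ|))) :=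
        mul_le_mul_of_nonneg_left
          (mul_le_mul_of_nonneg_right (h2 _ (abs_nonneg τ)) (Real.exp_pos _).le) hC0
    _ = _ := by ring
/-- Mellin inversion for `e^{-c0 x}` (Mathlib `mellin_inversion`, `Complex.GammaIntegral_eq_mellin`) -/
theorem mellin_Om {σ x : ℝ} (hσ : 0 < σ) (hx : 0 < x) :
    (Om x : ℂ) = (1 / (2 * Real.pi) : ℂ) * ∫ τ : ℝ, Complex.Gamma (σ + τ * Complex.I) *
      ((c0 * x : ℝ) : ℂ) ^ (-(σ + τ * Complex.I)) := by
  have hy : 0 < c0 * x := mul_pos (lt_trans one_pos one_lt_c0) hx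
  have e : ∀ τ : ℝ, mellin (fun y : ℝ => ((Real.exp (-y) : ℝ) : ℂ)) (σ + τ * Complex.I) =
      Complex.Gamma (σ + τ * Complex.I) := fun τ => by
    rw [← Complex.GammaIntegral_eq_mellin, Complex.Gamma_eq_integral (by simpa using hσ)]
  have h1 : MellinConvergent (fun y : ℝ => ((Real.exp (-y) : ℝ) : ℂ)) σ := by
    have := Complex.GammaIntegral_convergent (s := σ) (by simpa using hσ)
    simpa only [MellinConvergent, smul_eq_mul, mul_comm] using this
  have h2 : Complex.VerticalIntegrable (mellin (fun y : ℝ => ((Real.exp (-y) : ℝ) : ℂ))) σ := by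
    unfold Complex.VerticalIntegrable
    simp only [e]
    refine (integrable_norm_iff (Po.continuous_Gamma_line hσ).aestronglyMeasurable).1 ?_
    simpa [Gm] using integrable_Gm hσ 0
  have h3 := mellinInv_mellin_eq σ _ hy h1 h2 (by fun_prop)
  rw [Om, ← h3, mellinInv]
  simp only [e, smul_eq_mul, Complex.real_smul]
  push_cast
  congr 2
  ext τ
  ring

end Crest.Agent.R17
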