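import Crest.Agent.R17.Euler4
import Crest.Agent.R17.Reflect
import Crest.Agent.R17.Poisson
import Crest.Agent.R17.Gram_Triv
import Crest.Agent.R17.Gram_Row

/-!
# R17 / Gram : mean square of the Gauss-sum amplifier

`L₁ = e^{y1 z}`, `K = KK z`, `D' = L₁²/K = e^{z/8}`.  By Poisson summation `Gram = K ∑_j RowG j` (`gram_eq`).
* `j = 0`: `≤ C L₁` (`row_zero`).
* exceptional `j ≠ 0`: `≤ C d(j) L₁ (D'/N j)^σ`, `σ = 1/6 + ε` (`row_triv`, `summable_exc`), total
  `L₁ D'^σ = e^{(28/48 + 1/48 + ε/8) z}`.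
* non-exceptional `j`: Pólya–Vinogradov in one variable gives
  `≤ C L₁^{1/2+δ} D'^{7/3} N(j)^{-25/24}` (`row_nonexc`), total `e^{(28/48 + 7δ/12) z}`.
-/

set_option autoImplicit false

noncomputable section

open scoped Classical ComplexConjugate

namespace Crest.Agent.R17

theorem norm_Amp_le : ∃ C, ∀ (Q : Lev), ∀ ν ∈ hchars Q.q, ∀ (z : ℝ) (k : O),
    ‖Amp Q ν z k‖ ≤ C * Real.exp (3 / 2 * y1 z) := norm_Amp_le'

theorem gram (Q : Lev) {ε : ℝ} (hε : 0 < ε) : ∃ C z0 : ℝ, ∀ ν ∈ hchars Q.q, ∀ z : ℝ, z0 ≤ z →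
    ∑' k : O, Om (N k / KK z) * ‖Amp Q ν z k‖ ^ 2 ≤
      C * KK z * Real.exp ((29 / 48 + ε) * z) := by
  obtain ⟨C0, h0⟩ := row_zero
  obtain ⟨C1, h1⟩ := row_triv (σ := 1 / 6 + ε) (by positivity)
  obtain ⟨C2, h2⟩ := row_nonexc Q (δ := 1 / 100) (by norm_num)
  have s1 := summable_exc Q (σ := 1 / 6 + ε) (by linarith)
  have s2 := summable_N_rpow (σ := 25 / 24) (by norm_num)
  set f1 : O → ℝ := fun j =>
    if j ≠ 0 ∧ Exc Q j then ((pdiv j).card : ℝ) * N j ^ (-(1 / 6 + ε)) else 0 with hf1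
  set f2 : O → ℝ := fun j => N j ^ (-(25 / 24 : ℝ)) with hf2
  have f1n : ∀ j, 0 ≤ f1 j := fun j => by
    have := N_nonneg j
    simp only [hf1]; split_ifs <;> positivity
  have f2n : ∀ j, 0 ≤ f2 j := fun j => Real.rpow_nonneg (N_nonneg j) _
  have S1 : 0 ≤ ∑' j, f1 j := tsum_nonneg f1n
  have S2 : 0 ≤ ∑' j, f2 j := tsum_nonneg f2n
  refine ⟨|C0| + |C1| * ∑' j, f1 j + |C2| * ∑' j, f2 j, 0, fun ν hν z hz => ?_⟩
  have hK : 0 < KK z := Real.exp_pos _
  set E := Real.exp ((29 / 48 + ε) * z) with hE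
  have hE0 : 0 < E := Real.exp_pos _
  have hεz : 0 ≤ ε * z := mul_nonneg hε.le hz
  have a0 : Real.exp (y1 z) ≤ E := Real.exp_le_exp.2 (by unfold y1; nlinarith)
  have a1 : Real.exp ((1 + 2 * (1 / 6 + ε)) * y1 z) * KK z ^ (-(1 / 6 + ε)) ≤ E := by
    rw [KK, ← Real.exp_mul, ← Real.exp_add]
    exact Real.exp_le_exp.2 (by unfold y1; nlinarith)
  have a2 : Real.exp ((31 / 6 + 1 / 100) * y1 z) * KK z ^ (-(7 / 3 : ℝ)) ≤ E := by
    rw [KK, ← Real.exp_mul, ← Real.exp_add]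
    exact Real.exp_le_exp.2 (by unfold y1; nlinarith)
  have hb : ∀ j : O, ‖RowG Q ν z j‖ ≤
      (if j = 0 then |C0| * E else 0) + |C1| * E * f1 j + |C2| * E * f2 j := by
    intro j
    have t1 : 0 ≤ |C1| * E * f1 j := mul_nonneg (by positivity) (f1n j)
    have t2 : 0 ≤ |C2| * E * f2 j := mul_nonneg (by positivity) (f2n j)
    by_cases hj : j = 0
    · subst hj
      rw [if_pos rfl]
      have := (h0 Q ν hν z).trans
        (mul_le_mul (le_abs_self C0) a0 (Real.exp_pos _).le (abs_nonneg _))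
      linarith
    rw [if_neg hj, zero_add]
    have hN := N_pos hj
    by_cases he : Exc Q j
    · refine (h1 Q ν hν z j hj).trans (le_trans ?_ (le_add_of_nonneg_right t2))
      simp only [hf1]
      rw [if_pos ⟨hj, he⟩, Real.mul_rpow hK.le hN.le]
      calc C1 * (pdiv j).card * Real.exp ((1 + 2 * (1 / 6 + ε)) * y1 z) *
            (KK z ^ (-(1 / 6 + ε)) * N j ^ (-(1 / 6 + ε)))
          = C1 * (Real.exp ((1 + 2 * (1 / 6 + ε)) * y1 z) * KK z ^ (-(1 / 6 + ε))) *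
            ((pdiv j).card * N j ^ (-(1 / 6 + ε))) := by ring
        _ ≤ _ := by
          gcongr
          exact le_abs_self _
    · refine (h2 ν hν z j he).trans (le_trans ?_ (le_add_of_nonneg_left t1))
      simp only [hf2]
      calc C2 * N j ^ (-(25 / 24 : ℝ)) * Real.exp ((31 / 6 + 1 / 100) * y1 z) * KK z ^ (-(7 / 3 : ℝ))
          = C2 * (Real.exp ((31 / 6 + 1 / 100) * y1 z) * KK z ^ (-(7 / 3 : ℝ))) *
            N j ^ (-(25 / 24 : ℝ)) := by ring
        _ ≤ _ := by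
          gcongr
          exact le_abs_self _
  have hsum := tsum_of_norm_bounded (((hasSum_ite_eq (0 : O) (|C0| * E)).add
    (s1.hasSum.mul_left (|C1| * E))).add (s2.hasSum.mul_left (|C2| * E))) hb
  have he := congrArg norm (gram_eq Q hν z)
  rw [norm_mul, Complex.norm_of_nonneg hK.le, Complex.norm_real] at he
  refine (le_abs_self _).trans ?_
  rw [← Real.norm_eq_abs, he]
  refine (mul_le_mul_of_nonneg_left hsum hK.le).trans (le_of_eq ?_)
  ring

end Crest.Agent.R17
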