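import Crest.Agent.R17.Gram_Defs
import Crest.Agent.R17.CC

/-! # R17 / Gram_C : arithmetic of `CG` -/

set_option autoImplicit false

noncomputable section

open scoped Classical ComplexConjugate

namespace Crest.Agent.R17

/-- expand the two Gauss sums (`ad l₁ (-(k x₁)) = ad (l₁l₂) (-(k x₁ l₂))` by `ad_mul_cancel`, `ad_neg`,
`ad_add`), swap the sums and use orthogonality `sum_ad` -/
theorem gs_CG {l₁ l₂ : O} (h₁ : l₁ ≠ 0) (h₂ : l₂ ≠ 0) (j : O) :
    gs (l₁ * l₂) (fun k => conj (gs l₁ (chi l₁) k) * gs l₂ (chi l₂) k) j =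
      (N (l₁ * l₂) : ℂ) * CG l₁ l₂ j := by
  have e : ∀ k, conj (gs l₁ (chi l₁) k) * gs l₂ (chi l₂) k * ad (l₁ * l₂) (j * k) =
      ∑ x₁ ∈ res l₁, ∑ x₂ ∈ res l₂, conj (chi l₁ x₁) * chi l₂ x₂ *
        ad (l₁ * l₂) ((x₂ * l₁ - x₁ * l₂ + j) * k) := fun k => by
    rw [gs, gs, map_sum, Finset.sum_mul_sum, Finset.sum_mul]
    refine Finset.sum_congr rfl fun x _ => ?_
    rw [Finset.sum_mul]
    refine Finset.sum_congr rfl fun y _ => ?_
    rw [show (y * l₁ - x * l₂ + j) * k = l₁ * (k * y) + l₂ * -(k * x) + j * k by ring, ad_add, ad_add,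
      ad_mul_cancel h₁, mul_comm l₁, ad_mul_cancel h₂, ad_neg, map_mul]
    ring
  rw [gs, Finset.sum_congr rfl fun k _ => e k, CG, Finset.mul_sum, Finset.sum_comm]
  refine Finset.sum_congr rfl fun x _ => ?_
  rw [Finset.mul_sum, Finset.sum_comm]
  refine Finset.sum_congr rfl fun y _ => ?_
  rw [← Finset.mul_sum, sum_ad (mul_ne_zero h₁ h₂)]
  split_ifs
  · exact mul_comm _ _
  · rw [mul_zero, mul_zero]

theorem gramc_card {g a b j : O} (hg : g ≠ 0) (ha : a ≠ 0) (hb : b ≠ 0) (hab : IsCoprime a b) :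
    ((res (g * a) ×ˢ res (g * b)).filter
      fun x => g * a * (g * b) ∣ x.2 * (g * a) - x.1 * (g * b) + j).card ≤ nm g := by
  rcases Finset.eq_empty_or_nonempty ((res (g * a) ×ˢ res (g * b)).filter
      fun x => g * a * (g * b) ∣ x.2 * (g * a) - x.1 * (g * b) + j) with h | ⟨y, hy⟩
  · rw [h]; exact Nat.zero_le _
  have hd : ∀ x : O × O, g * a * (g * b) ∣ x.2 * (g * a) - x.1 * (g * b) + j → a ∣ x.1 - y.1 :=
    fun x hx => by
      obtain ⟨t, ht⟩ := dvd_sub (Finset.mem_filter.1 hy).2 hx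
      refine hab.dvd_of_dvd_mul_right ⟨g * b * t + (x.2 - y.2), mul_left_cancel₀ hg ?_⟩
      linear_combination ht
  rw [← card_res hg]
  refine Finset.card_le_card_of_injOn (fun x => ((x.1 - y.1) / a) % g)
    (fun x _ => b4_mod_mem_res hg _) fun x hx x' hx' h => ?_
  simp only [Finset.coe_filter, Finset.mem_product, Set.mem_ofPred_eq] at hx hx'
  obtain ⟨s, hs⟩ := hd x hx.2
  obtain ⟨s', hs'⟩ := hd x' hx'.2
  simp only [hs, hs', mul_div_cancel_left₀ _ ha] at h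
  obtain ⟨t, ht⟩ := dvd_sub (b4_dvd_sub_mod g s) (b4_dvd_sub_mod g s')
  have e1 : x.1 = x'.1 := res_inj (mul_ne_zero hg ha) hx.1.1 hx'.1.1
    ⟨t, by linear_combination hs - hs' + a * ht + a * h⟩
  obtain ⟨r, hr⟩ := dvd_sub hx.2 hx'.2
  exact Prod.ext e1 (res_inj (mul_ne_zero hg hb) hx.1.2 hx'.1.2
    ⟨r, mul_left_cancel₀ (mul_ne_zero hg ha) (by linear_combination hr + g * b * e1)⟩)

/-- `g = gcd` (`exists_prim_gcd`: `l₁ = g a`, `l₂ = g b`, `a, b` coprime).  The condition forces `g ∣ j`.  For a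
solution `(x₁,x₂)`, `x₂` is determined by `x₁` (`res_inj`), and two solutions have `a ∣ x₁ - x₁'`
(`g a · g b ∣ (x₂ - x₂') g a - (x₁ - x₁') g b`, so `a ∣ (x₁ - x₁') b`); a class mod `a` meets `res (g a)` in
`N g` points (`x₁ ↦ ((x₁ - x₁') / a) % g` is injective into `res g`, `card_res`).  `‖chi‖ ≤ 1` by `norm_sym_le`. -/
theorem norm_CG_le {Q : Lev} {l₁ l₂ : O} (h₁ : P0 Q l₁) (h₂ : P0 Q l₂) :
    ∃ g, Prim g ∧ g ∣ l₁ ∧ g ∣ l₂ ∧ ∀ j, ‖CG l₁ l₂ j‖ ≤ if g ∣ j then N g else 0 := by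
  obtain ⟨g, a, b, hg, ha, hb, rfl, rfl, hab⟩ := exists_prim_gcd h₁.1 h₂.1
  refine ⟨g, hg, dvd_mul_right _ _, dvd_mul_right _ _, fun j => ?_⟩
  rw [CG, ← Finset.sum_product', ← Finset.sum_filter]
  split_ifs with h
  · refine (norm_sum_le _ _).trans ((Finset.sum_le_card_nsmul _ _ 1 fun x _ => ?_).trans ?_)
    · rw [norm_mul, RCLike.norm_conj]
      exact mul_le_one₀ ((ccx_chi h₁).norm_le h₁.1.ne_zero _) (norm_nonneg _)
        ((ccx_chi h₂).norm_le h₂.1.ne_zero _)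
    · rw [nsmul_one]
      exact Nat.cast_le.2 (gramc_card hg.ne_zero ha.ne_zero hb.ne_zero hab)
  · rw [Finset.sum_eq_zero fun x hx => ?_, norm_zero]
    obtain ⟨t, ht⟩ := (Finset.mem_filter.1 hx).2
    exact absurd ⟨a * (g * b) * t - x.2 * a + x.1 * b, by linear_combination ht⟩ h

/-- a non-zero term has `x₁` coprime to `l₁`, `x₂` coprime to `l₂` (`sym_isChar`, `zero_iff`) and
`l₁ ∣ x₁ l₂`, `l₂ ∣ x₂ l₁`; so `l₁ ∣ l₂ ∣ l₁` (`Prim.eq_of_associated`) -/
theorem CG_zero {Q : Lev} {l₁ l₂ : O} (h₁ : P0 Q l₁) (h₂ : P0 Q l₂) (h : l₁ ≠ l₂) :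
    CG l₁ l₂ 0 = 0 := by
  refine Finset.sum_eq_zero fun x _ => Finset.sum_eq_zero fun y _ => ?_
  split_ifs with h0
  · by_contra h3
    have c1 : IsCoprime x l₁ := by_contra fun c => h3 (by
      rw [((ccx_chi h₁).zero_iff x).2 c, map_zero, zero_mul])
    have c2 : IsCoprime y l₂ := by_contra fun c => h3 (by
      rw [((ccx_chi h₂).zero_iff y).2 c, mul_zero])
    obtain ⟨t, ht⟩ := h0
    exact h (h₁.1.eq_of_associated h₂.1 (associated_of_dvd_dvd
      (c1.symm.dvd_of_dvd_mul_left ⟨y - l₂ * t, by linear_combination -ht⟩)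
      (c2.symm.dvd_of_dvd_mul_left ⟨x + l₁ * t, by linear_combination ht⟩)))
  · rfl

/-- CRT in `x₁` (`sum_res_crt`: `x₁ = y m + y' u`, `y mod u`, `y' mod m`).  The condition modulo `u m l` splits into
`m ∣ -y' u l + j` (exactly one `y'`; then `conj χ_m(x₁) = conj χ_m(y' u) = conj χ_m(j) χ_m(l)`) and
`u l ∣ (x₂ m) u - (y m) l + j`; substitute `y m → x₁`, `x₂ m → x₂` (`sum_res_affine`), which costs
`conj χ_l(m)`; finally `χ_m(l) conj χ_l(m) = sg m l` (`chi_rec`).  Alternative: use `gs_CG`, `gs_mul`,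
`gs_mul_unit`, `sum_res_crt` on the Gauss sum side. -/
theorem CG_mul {Q : Lev} {u m l : O} (hu : P0 Q u) (hm : P0 Q m) (hl : P0 Q l) (hmu : IsCoprime m u)
    (hml : IsCoprime m l) (j : O) : CG (u * m) l j = conj (chi m j) * sg m l * CG u l j := by
  have u0 := hu.1.ne_zero
  have m0 := hm.1.ne_zero
  have l0 := hl.1.ne_zero
  have e : (fun k => conj (gs (u * m) (chi (u * m)) k) * gs l (chi l) k) =
      fun k => conj (chi u m * chi m u) * (conj (gs m (chi m) k) *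
        (conj (gs u (chi u) k) * gs l (chi l) k)) := funext fun k => by
    rw [show chi (u * m) = fun x => chi u x * chi m x from funext fun x => sym_mul_left 6 u0 m0 x,
      gs_mul u0 m0 hmu.symm (ccx_chi hu) (ccx_chi hm)]
    simp only [map_mul]
    ring
  have h1 : gs m (fun k => conj (gs m (chi m) k)) j = N m * conj (chi m j) := by
    have hN : (N m : ℂ) ≠ 0 := by exact_mod_cast (N_pos m0).ne'
    rw [show chi m j = _ from fourier_inv m0 (sym_per 6 m) j, map_mul, map_inv₀, Complex.conj_ofReal,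
      mul_inv_cancel_left₀ hN, map_sum]
    refine Finset.sum_congr rfl fun k _ => ?_
    rw [map_mul, ad_neg, Complex.conj_conj, mul_comm j]
    rfl
  have h2 := ccx_mul m0 (mul_ne_zero u0 l0) (hmu.mul_right hml)
    (f1 := fun k => conj (gs m (chi m) k)) (f2 := fun k => conj (gs u (chi u) k) * gs l (chi l) k)
    (fun x t => by simp only [gs_per m (chi m) x t])
    (fun x t => by simp only [(gs_per u (chi u)).of_dvd (dvd_mul_right u l) x t,
      (gs_per l (chi l)).of_dvd (dvd_mul_left l u) x t])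
    (w1 := chi m (u * l)) (w2 := chi u m * conj (chi l m))
    (fun k => by
      simp only [gs_mul_unit m0 (ccx_chi hm) (hmu.mul_right hml).symm, map_mul, Complex.conj_conj])
    (fun k => by
      simp only [gs_mul_unit u0 (ccx_chi hu) hmu, gs_mul_unit l0 (ccx_chi hl) hml, map_mul,
        Complex.conj_conj]
      ring)
    (conj (chi u m * chi m u)) j
  rw [← e, show m * (u * l) = u * m * l by ring, gs_CG (mul_ne_zero u0 m0) l0, gs_CG u0 l0, h1,
    (ccx_chi hm).mul, chi_rec hm.1 hl.1 hm.isCoprime_two hl.isCoprime_two, map_mul] at h2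
  have hN : (N (u * m * l) : ℂ) ≠ 0 := by
    exact_mod_cast (N_pos (mul_ne_zero (mul_ne_zero u0 m0) l0)).ne'
  refine mul_left_cancel₀ hN ?_
  rw [h2, N_mul, N_mul, N_mul]
  push_cast
  linear_combination (N u * N m * N l * conj (chi m j) * sg m l * CG u l j) *
    (chi m u * conj (chi m u) * (chi l m * conj (chi l m)) * ccx_unit hu hmu +
      chi l m * conj (chi l m) * ccx_unit hm hmu.symm + ccx_unit hl hml)

end Crest.Agent.R17
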