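import Crest.Agent.R17.Reflect
import Crest.Agent.R17.Poisson

/-!
# R17 / Gram_Defs : definitions for `Gram` (owner helper80; do not change)

`Gram = K ∑_j RowG j` (`Gram_Pois`); the rows are bounded in `Gram_Triv` (absolute values: `j = 0` and the
exceptional rows) and `Gram_Row` (non-exceptional rows: Pólya–Vinogradov in the variable `l₁` only).
-/

set_option autoImplicit false

noncomputable section

open scoped Classical ComplexConjugate

namespace Crest.Agent.R17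

/-- the amplifier -/
def Amp (Q : Lev) (ν : O → ℂ) (z : ℝ) (k : O) : ℂ :=
  ∑' l : O, if P0 Q l then ν l * conj (gs l (chi l) k) / (Real.sqrt (N l) : ℂ) *
    (gw (Real.log (N l) - y1 z) : ℂ) else 0

/-- `N(l₁l₂)⁻¹` times the finite Fourier transform of `k ↦ conj G(l₁;k) G(l₂;k)` -/
def CG (l₁ l₂ j : O) : ℂ :=
  ∑ x₁ ∈ res l₁, ∑ x₂ ∈ res l₂,
    if l₁ * l₂ ∣ x₂ * l₁ - x₁ * l₂ + j then conj (chi l₁ x₁) * chi l₂ x₂ else 0

/-- the weight of the amplifier -/
def wG (z : ℝ) (l : O) : ℝ := N l ^ (-(1 / 2 : ℝ)) * gw (Real.log (N l) - y1 z)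

/-- the terms of the dual sum -/
def termG (Q : Lev) (ν : O → ℂ) (z : ℝ) (j l₁ l₂ : O) : ℂ :=
  if P0 Q l₁ ∧ P0 Q l₂ then ν l₁ * conj (ν l₂) * CG l₁ l₂ j *
    ((wG z l₁ * wG z l₂ * Om (KK z * N j / (N l₁ * N l₂)) : ℝ) : ℂ) else 0

/-- the row `j` of the dual sum -/
def RowG (Q : Lev) (ν : O → ℂ) (z : ℝ) (j : O) : ℂ := ∑' l : O × O, termG Q ν z j l.1 l.2

end Crest.Agent.R17
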