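import Crest.Agent.R17.Gram_C

/-! # R17 / Gram_Pois : Poisson summation for the mean square of the amplifier -/

set_option autoImplicit false

noncomputable section

open scoped Classical ComplexConjugate

namespace Crest.Agent.R17

def gpA (Q : Lev) (ν : O → ℂ) (z : ℝ) (k l : O) : ℂ :=
  if P0 Q l then ν l * conj (gs l (chi l) k) / (Real.sqrt (N l) : ℂ) *
    (gw (Real.log (N l) - y1 z) : ℂ) else 0

def gpB (x z : ℝ) (l : O) : ℝ := if l = 0 then 0 else N l ^ x * gw (Real.log (N l) - y1 z)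

theorem gpB_nonneg (x z : ℝ) (l : O) : 0 ≤ gpB x z l := by
  unfold gpB
  split_ifs
  exacts [le_rfl, mul_nonneg (Real.rpow_nonneg (N_nonneg _) _) (gw_pos _).le]

theorem gpB_summable (x z : ℝ) : Summable (gpB x z) := summable_gw_rpow x (y1 z)

theorem gpB_mul (x z : ℝ) (l : O) : gpB x z l * N l = gpB (x + 1) z l := by
  unfold gpB
  split_ifs with h
  · simp
  · rw [Real.rpow_add_one (N_pos h).ne']; ring

theorem gpA_le (Q : Lev) {ν : O → ℂ} (hν : ν ∈ hchars Q.q) (z : ℝ) (k l : O) :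
    ‖gpA Q ν z k l‖ ≤ gpB (1 / 2) z l := by
  unfold gpA
  split_ifs with h
  · have h0 := h.1.ne_zero
    have h1 := norm_gs_le h0 (norm_sym_le (k := 6) (by simp) h.isCoprime_six) k
    have h2 := Real.sqrt_pos.2 (N_pos h0)
    rw [gpB, if_neg h0, ← Real.sqrt_eq_rpow, norm_mul, norm_div, norm_mul, Complex.norm_conj,
      Complex.norm_real, Complex.norm_real, Real.norm_of_nonneg h2.le,
      Real.norm_of_nonneg (gw_pos _).le]
    refine mul_le_mul_of_nonneg_right ?_ (gw_pos _).le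
    rw [div_le_iff₀ h2, Real.mul_self_sqrt (N_nonneg _)]
    exact (mul_le_of_le_one_left (norm_nonneg _) (norm_hchar_le Q hν l)).trans h1
  · simpa using gpB_nonneg _ z l

theorem gpA_summable (Q : Lev) {ν : O → ℂ} (hν : ν ∈ hchars Q.q) (z : ℝ) (k : O) :
    Summable fun l => ‖gpA Q ν z k l‖ :=
  (gpB_summable _ z).of_nonneg_of_le (fun _ => norm_nonneg _) (gpA_le Q hν z k)

/-- `norm_gs_le`, `tsum_gw_rpow (1/2)` -/
theorem norm_Amp_le' : ∃ C, ∀ (Q : Lev), ∀ ν ∈ hchars Q.q, ∀ (z : ℝ) (k : O),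
    ‖Amp Q ν z k‖ ≤ C * Real.exp (3 / 2 * y1 z) := by
  obtain ⟨C, hC⟩ := tsum_gw_rpow (1 / 2)
  refine ⟨C, fun Q ν hν z k => (tsum_of_norm_bounded (gpB_summable (1 / 2) z).hasSum
    (gpA_le Q hν z k)).trans ((hC _).trans_eq (by norm_num))⟩

theorem gp_term_le (Q : Lev) {ν : O → ℂ} (hν : ν ∈ hchars Q.q) (z : ℝ) (j l₁ l₂ : O) :
    ‖termG Q ν z j l₁ l₂‖ ≤
      gpB (1 / 2) z l₁ * gpB (-(1 / 2)) z l₂ * Om (N j / (N l₁ * N l₂ / KK z)) := by
  unfold termG
  split_ifs with h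
  · obtain ⟨g, -, hg, -, h1⟩ := norm_CG_le h.1 h.2
    have h2 : ‖CG l₁ l₂ j‖ ≤ N l₁ := (h1 j).trans (by
      split_ifs
      exacts [N_le_of_dvd h.1.1.ne_zero hg, N_nonneg _])
    have h3 : ∀ l : O, l ≠ 0 → wG z l = gpB (-(1 / 2)) z l := fun l hl => by rw [gpB, if_neg hl, wG]
    have h4 := fun l => gpB_nonneg (-(1 / 2)) z l
    have h5 := (Om_pos (KK z * N j / (N l₁ * N l₂))).le
    rw [show (1 / 2 : ℝ) = -(1 / 2) + 1 by norm_num, ← gpB_mul, show -(-(1 / 2) + 1 : ℝ) = -(1 / 2) by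
      norm_num, div_div_eq_mul_div, mul_comm (N j), h3 _ h.1.1.ne_zero, h3 _ h.2.1.ne_zero, norm_mul,
      norm_mul, norm_mul, Complex.norm_conj, Complex.norm_real,
      Real.norm_of_nonneg (mul_nonneg (mul_nonneg (h4 _) (h4 _)) h5)]
    calc _ ≤ 1 * 1 * N l₁ * (gpB (-(1 / 2)) z l₁ * gpB (-(1 / 2)) z l₂ *
          Om (KK z * N j / (N l₁ * N l₂))) := by
          have := mul_nonneg (mul_nonneg (h4 l₁) (h4 l₂)) h5
          gcongr
          exacts [norm_hchar_le Q hν _, norm_hchar_le Q hν _]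
      _ = _ := by ring
  · rw [norm_zero]
    exact mul_nonneg (mul_nonneg (gpB_nonneg _ _ _) (gpB_nonneg _ _ _)) (Om_pos _).le

/-- `‖CG l₁ l₂ j‖ ≤ N l₁` (`norm_CG_le`, `N_le_of_dvd`), `∑_j Om (K N j / N(l₁l₂)) ≤ 1 + C N(l₁l₂)/K`
(`summable_Om`, `tsum_Om_le`), `summable_gw_rpow`; `summable_prod_of_nonneg` after `Equiv.prodComm` -/
theorem summable_termG_all (Q : Lev) {ν : O → ℂ} (hν : ν ∈ hchars Q.q) (z : ℝ) :
    Summable (fun x : O × (O × O) => ‖termG Q ν z x.1 x.2.1 x.2.2‖) := by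
  obtain ⟨C, hC⟩ := tsum_Om_le
  have hK : 0 < KK z := Real.exp_pos _
  refine Summable.of_nonneg_of_le (fun _ => norm_nonneg _) (fun x => gp_term_le Q hν z _ _ _) ?_
  refine Summable.prod_symm (f := fun x : (O × O) × O => gpB (1 / 2) z x.1.1 * gpB (-(1 / 2)) z x.1.2 *
    Om (N x.2 / (N x.1.1 * N x.1.2 / KK z))) ?_
  have h0 : ∀ l : O × O, 0 ≤ gpB (1 / 2) z l.1 * gpB (-(1 / 2)) z l.2 :=
    fun l => mul_nonneg (gpB_nonneg _ _ _) (gpB_nonneg _ _ _)
  have h1 : ∀ l : O × O, gpB (1 / 2) z l.1 * gpB (-(1 / 2)) z l.2 = 0 ∨ 1 ≤ N l.1 * N l.2 := fun l => by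
    by_cases h : l.1 = 0 ∨ l.2 = 0
    · rcases h with h | h <;> simp [gpB, h]
    · push Not at h
      exact Or.inr (one_le_mul_of_one_le_of_one_le (one_le_N h.1) (one_le_N h.2))
  have h2 : ∀ {X : ℝ}, 0 < X → Summable fun k : O => Om (N k / X) := fun h => by
    simpa using summable_Om h 0
  refine (summable_prod_of_nonneg fun x => mul_nonneg (h0 x.1) (Om_pos _).le).2 ⟨fun l => ?_, ?_⟩
  · rcases h1 l with h | h
    · simp only [h, zero_mul, summable_zero]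
    · simp only []
      exact (h2 (by positivity)).mul_left _
  refine Summable.of_nonneg_of_le (fun l => tsum_nonneg fun _ => mul_nonneg (h0 l) (Om_pos _).le)
    (fun l => ?_) (((gpB_summable (1 / 2 + 1) z).mul_of_nonneg (gpB_summable (-(1 / 2) + 1) z)
      (gpB_nonneg _ _) (gpB_nonneg _ _)).mul_right (1 + |C| / KK z))
  simp only [tsum_mul_left, ← gpB_mul]
  rw [mul_mul_mul_comm, mul_assoc (_ * _)]
  rcases h1 l with h | h
  · simp only [h, zero_mul, le_refl]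
  refine mul_le_mul_of_nonneg_left ?_ (h0 l)
  have hX : 0 < N l.1 * N l.2 / KK z := by positivity
  rw [(h2 hX).tsum_eq_add_tsum_ite 0, mul_add, mul_one]
  refine add_le_add ((Om_le_one (by simp)).trans h) ((hC _ hX).trans ?_)
  rw [mul_div_left_comm]
  gcongr
  exact le_abs_self C

theorem summable_termG (Q : Lev) {ν : O → ℂ} (hν : ν ∈ hchars Q.q) (z : ℝ) (j : O) :
    Summable (fun l : O × O => ‖termG Q ν z j l.1 l.2‖) :=
  (summable_termG_all Q hν z).prod_factor j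

theorem gp_pois (Q : Lev) (ν : O → ℂ) (z : ℝ) (l₁ l₂ : O) :
    ∑' k : O, (Om (N k / KK z) : ℂ) * (gpA Q ν z k l₁ * conj (gpA Q ν z k l₂)) =
      (KK z : ℂ) * ∑' j : O, termG Q ν z j l₁ l₂ := by
  unfold gpA termG
  by_cases h : P0 Q l₁ ∧ P0 Q l₂
  swap
  · rcases not_and_or.1 h with h | h <;> simp [h]
  have h₁ := h.1.1.ne_zero
  have h₂ := h.2.1.ne_zero
  have h3 := poisson_per (mul_ne_zero h₁ h₂)
    (φ := fun k => conj (gs l₁ (chi l₁) k) * gs l₂ (chi l₂) k)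
    (Per.mul (Per.of_dvd (fun x t => by rw [gs_per]) (dvd_mul_right _ _))
      ((gs_per _ _).of_dvd (dvd_mul_left _ _))) (K := KK z) (Real.exp_pos _)
  have h4 : ∀ l : O, l ≠ 0 → (wG z l : ℂ) = (gw (Real.log (N l) - y1 z) : ℂ) / (Real.sqrt (N l) : ℂ) :=
    fun l hl => by
      rw [wG, Real.rpow_neg (N_nonneg _), ← Real.sqrt_eq_rpow]
      push_cast
      ring
  have h5 : (N (l₁ * l₂) : ℂ) ≠ 0 := by exact_mod_cast (N_pos (mul_ne_zero h₁ h₂)).ne'
  simp only [h.1, h.2, and_self, if_true, gs_CG h₁ h₂] at h3 ⊢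
  have h6 := congrArg (fun w => ν l₁ * conj (ν l₂) * (wG z l₁ * wG z l₂) * w) h3
  simp only [← tsum_mul_left] at h6 ⊢
  refine (tsum_congr fun k => ?_).trans (h6.trans (tsum_congr fun j => ?_))
  · simp only [map_mul, map_div₀, Complex.conj_conj, Complex.conj_ofReal, h4 _ h₁, h4 _ h₂]
    ring
  · rw [← N_mul]
    push_cast
    field_simp

/-- `‖Amp‖² = Amp · conj Amp = ∑_{(l₁,l₂)} a(l₁,k) conj a(l₂,k)` (`tsum_mul_tsum_of_summable_norm`), with
`‖a(l,k)‖ ≤ N(l)^{1/2} gw`; swap `k` and `(l₁,l₂)` (`Summable.tsum_comm`, majorant `Om(N k/K) b(l₁) b(l₂)`),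
apply `poisson_per` with `q = l₁l₂` (`gs_per`, `Per.of_dvd`) and `gs_CG`, swap `(l₁,l₂)` and `j`
(`summable_termG_all`). -/
theorem gram_eq (Q : Lev) {ν : O → ℂ} (hν : ν ∈ hchars Q.q) (z : ℝ) :
    ((∑' k : O, Om (N k / KK z) * ‖Amp Q ν z k‖ ^ 2 : ℝ) : ℂ) =
      (KK z : ℂ) * ∑' j : O, RowG Q ν z j := by
  have h1 : ∀ k, ((Om (N k / KK z) * ‖Amp Q ν z k‖ ^ 2 : ℝ) : ℂ) = ∑' l : O × O,
      (Om (N k / KK z) : ℂ) * (gpA Q ν z k l.1 * conj (gpA Q ν z k l.2)) := fun k => by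
    rw [tsum_mul_left, ← tsum_mul_tsum_of_summable_norm (g := fun l => conj (gpA Q ν z k l))
      (gpA_summable Q hν z k) (by simpa using gpA_summable Q hν z k), ← Complex.conj_tsum]
    push_cast
    rw [← Complex.mul_conj']
    rfl
  have h2 : Summable (Function.uncurry fun (k : O) (l : O × O) =>
      (Om (N k / KK z) : ℂ) * (gpA Q ν z k l.1 * conj (gpA Q ν z k l.2))) := by
    refine Summable.of_norm_bounded (((by simpa using summable_Om (X := KK z) (Real.exp_pos _) 0 :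
      Summable fun k : O => Om (N k / KK z)).mul_of_nonneg ((gpB_summable (1 / 2) z).mul_of_nonneg
        (gpB_summable (1 / 2) z) (gpB_nonneg _ _) (gpB_nonneg _ _)) (fun _ => (Om_pos _).le)
        fun l => mul_nonneg (gpB_nonneg _ _ _) (gpB_nonneg _ _ _))) fun x => ?_
    simp only [Function.uncurry, norm_mul, Complex.norm_conj, Complex.norm_real,
      Real.norm_of_nonneg (Om_pos _).le]
    exact mul_le_mul_of_nonneg_left (mul_le_mul (gpA_le Q hν z _ _) (gpA_le Q hν z _ _)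
      (norm_nonneg _) (gpB_nonneg _ _ _)) (Om_pos _).le
  have h3 : Summable (Function.uncurry fun (j : O) (l : O × O) => termG Q ν z j l.1 l.2) :=
    (summable_termG_all Q hν z).of_norm
  rw [Complex.ofReal_tsum, tsum_congr h1, ← h2.tsum_comm]
  simp only [gp_pois, RowG]
  rw [tsum_mul_left, h3.tsum_comm]

end Crest.Agent.R17
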