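import Crest.Agent.R17.CC
import Crest.Agent.R17.Poisson
import Crest.Agent.R17.Local

/-!
# R17 / High1Aux : Fubini and trivial bounds for the probe
-/

set_option autoImplicit false

noncomputable section

open scoped Classical ComplexConjugate

namespace Crest.Agent.R17

theorem h1_esymm (S : Finset O) (J : ℕ) {f : O → ℝ} (hf : ∀ p ∈ S, 0 ≤ f p) :
    ∑ I ∈ S.powersetCard J, ∏ p ∈ I, f p ≤ (∑ p ∈ S, f p) ^ J := by
  induction S using Finset.induction_on generalizing J with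
  | empty =>
    cases J with
    | zero => simp
    | succ n =>
      rw [Finset.powersetCard_eq_empty.2 (by simp)]
      simp
  | insert x s hx ih =>
    cases J with
    | zero => simp
    | succ n =>
      have hf' : ∀ p ∈ s, 0 ≤ f p := fun p hp => hf p (Finset.mem_insert_of_mem hp)
      have hx0 := hf x (Finset.mem_insert_self _ _)
      have hT := Finset.sum_nonneg hf'
      have hn : ∀ {k : ℕ}, ∀ I ∈ s.powersetCard k, x ∉ I := fun I hI h =>
        hx ((Finset.mem_powersetCard.1 hI).1 h)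
      rw [Finset.powersetCard_succ_insert hx, Finset.sum_union, Finset.sum_image,
        Finset.sum_insert hx, Finset.sum_congr rfl fun I hI => Finset.prod_insert (hn I hI),
        ← Finset.mul_sum]
      · have h1 := ih (n + 1) hf'
        have h2 := mul_le_mul_of_nonneg_left (ih n hf') hx0
        have h3 : (∑ p ∈ s, f p) ^ n ≤ (f x + ∑ p ∈ s, f p) ^ n :=
          pow_le_pow_left₀ hT (by linarith) n
        have h4 := mul_le_mul_of_nonneg_left h3 (add_nonneg hx0 hT)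
        rw [pow_succ] at h1
        rw [pow_succ]
        nlinarith
      · intro I hI I' hI' h
        have e : ∀ K : Finset O, x ∉ K → (insert x K).erase x = K := fun K hK =>
          Finset.erase_insert hK
        rw [← e I (hn I (Finset.mem_coe.1 hI)), ← e I' (hn I' (Finset.mem_coe.1 hI'))]
        exact congrArg (fun K => Finset.erase K x) h
      · rw [Finset.disjoint_left]
        intro I hI hI'
        obtain ⟨K, -, rfl⟩ := Finset.mem_image.1 hI'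
        exact hn _ hI (Finset.mem_insert_self _ _)

/-- a triple sum as a finite sum of double series -/
theorem h1_triple (S : Finset (Finset O)) (f : O → Finset O → O → ℂ) {a b : O → ℝ}
    (c : Finset O → ℝ) (ha : Summable a) (hb : Summable b) (ha0 : ∀ l, 0 ≤ a l)
    (hb0 : ∀ n, 0 ≤ b n) (h : ∀ l I n, I ∈ S → ‖f l I n‖ ≤ c I * (a l * b n)) :
    ∑' l, ∑ I ∈ S, ∑' n, f l I n = ∑ I ∈ S, ∑' p : O × O, f p.1 I p.2 := by
  have hab : Summable (fun p : O × O => a p.1 * b p.2) := ha.mul_of_nonneg hb ha0 hb0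
  have hs : ∀ I ∈ S, Summable (fun p : O × O => f p.1 I p.2) := fun I hI =>
    Summable.of_norm_bounded (hab.mul_left (c I)) (fun p => h p.1 I p.2 hI)
  rw [Summable.tsum_finsetSum (fun I hI => (hs I hI).prod)]
  exact Finset.sum_congr rfl fun I hI => ((hs I hI).tsum_prod).symm

theorem h1_triple_le (S : Finset (Finset O)) (f : O → Finset O → O → ℂ) {a b : O → ℝ}
    (c : Finset O → ℝ) (ha : Summable a) (hb : Summable b) (ha0 : ∀ l, 0 ≤ a l)
    (hb0 : ∀ n, 0 ≤ b n) (h : ∀ l I n, I ∈ S → ‖f l I n‖ ≤ c I * (a l * b n)) :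
    ‖∑' l, ∑ I ∈ S, ∑' n, f l I n‖ ≤ (∑ I ∈ S, c I) * ((∑' l, a l) * ∑' n, b n) := by
  have hab : Summable (fun p : O × O => a p.1 * b p.2) := ha.mul_of_nonneg hb ha0 hb0
  rw [h1_triple S f c ha hb ha0 hb0 h, Finset.sum_mul]
  refine (norm_sum_le _ _).trans (Finset.sum_le_sum fun I hI => ?_)
  rw [ha.tsum_mul_tsum hb hab]
  exact tsum_of_norm_bounded (hab.hasSum.mul_left (c I)) (fun p => h p.1 I p.2 hI)

theorem h1_fub (S : Finset (Finset O)) (F : O → O → Finset O → O → ℂ) {u a b : O → ℝ}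
    (c : Finset O → ℝ) (hu : Summable u) (ha : Summable a) (hb : Summable b) (hu0 : ∀ k, 0 ≤ u k)
    (ha0 : ∀ l, 0 ≤ a l) (hb0 : ∀ n, 0 ≤ b n)
    (h : ∀ k l I n, I ∈ S → ‖F k l I n‖ ≤ u k * c I * (a l * b n)) :
    ∑' k, ∑' l, ∑ I ∈ S, ∑' n, F k l I n = ∑ I ∈ S, ∑' p : O × O, ∑' k, F k p.1 I p.2 := by
  have hab : Summable (fun p : O × O => a p.1 * b p.2) := ha.mul_of_nonneg hb ha0 hb0
  have huab : Summable (fun r : O × (O × O) => u r.1 * (a r.2.1 * b r.2.2)) :=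
    hu.mul_of_nonneg hab hu0 (fun p => mul_nonneg (ha0 _) (hb0 _))
  have hs : ∀ I ∈ S, Summable (fun r : O × (O × O) => F r.1 r.2.1 I r.2.2) := fun I hI =>
    Summable.of_norm_bounded (huab.mul_left (c I)) (fun r => by
      have := h r.1 r.2.1 I r.2.2 hI
      linarith [this, show u r.1 * c I * (a r.2.1 * b r.2.2) =
        c I * (u r.1 * (a r.2.1 * b r.2.2)) by ring])
  rw [tsum_congr fun k => h1_triple S (F k) (fun I => u k * c I) ha hb ha0 hb0 (h k),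
    Summable.tsum_finsetSum (fun I hI => (hs I hI).prod)]
  refine Finset.sum_congr rfl fun I hI => ?_
  exact (Summable.tsum_comm (f := fun k (p : O × O) => F k p.1 I p.2) (hs I hI)).symm

theorem h1_wP_nonneg (y : ℝ) (p : O) : 0 ≤ wP y p :=
  mul_nonneg (Real.log_natCast_nonneg _) (gw_pos _).le

theorem h1_norm_W (y : ℝ) (I : Finset O) :
    ‖∏ p ∈ I, (-(wP y p : ℂ))‖ = ∏ p ∈ I, wP y p := by
  rw [norm_prod]
  refine Finset.prod_congr rfl fun p _ => ?_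
  rw [norm_neg, Complex.norm_real, Real.norm_of_nonneg (h1_wP_nonneg y p)]

theorem h1_P0_slot {Q : Lev} {y R : ℝ} {p : O} (hp : p ∈ slot Q y R) : P0 Q p := by
  obtain ⟨h1, h2, h3, -⟩ := loc_mem_slot.1 hp
  exact ⟨h2, h1.coprime_iff_not_dvd.2 h3⟩

theorem h1_P0_prod {Q : Lev} {y R : ℝ} {J : ℕ} {I : Finset O}
    (hI : I ∈ (slot Q y R).powersetCard J) : P0 Q (∏ p ∈ I, p) :=
  Finset.prod_induction _ (P0 Q) (fun _ _ => P0.mul) (P0.one Q)
    fun _ hp => h1_P0_slot ((Finset.mem_powersetCard.1 hI).1 hp)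

/-- summand of `Row` -/
def h1T (Q : Lev) (η : O → ℂ) (J : ℕ) (z : ℝ) (d l : O) (I : Finset O) (n : O) : ℂ :=
  if P0 Q l ∧ P0 Q n then
    (∏ p ∈ I, (-(wP (yP J z) p : ℂ))) * cc d l (n * ∏ p ∈ I, p) * η n /
      (Real.sqrt (N l * N (n * ∏ p ∈ I, p)) : ℂ) *
    (gw (Real.log (N l) - y1 z) : ℂ) * (gw (Real.log (N n) - y0 z) : ℂ) *
    (Om (KK z * N d / (N l * N (n * ∏ p ∈ I, p))) : ℂ)
  else 0

/-- summand of `Psi` -/
def h1P (Q : Lev) (η : O → ℂ) (J : ℕ) (z : ℝ) (k l : O) (I : Finset O) (n : O) : ℂ :=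
  if P0 Q l ∧ P0 Q n then
    sg l (n * ∏ p ∈ I, p) * conj (gs l (chi l) k) / (Real.sqrt (N l) : ℂ) *
      (gw (Real.log (N l) - y1 z) : ℂ) *
    (∏ p ∈ I, (-(wP (yP J z) p : ℂ))) * η n * f1 (n * ∏ p ∈ I, p) * tt (n * ∏ p ∈ I, p) *
      conj (chi (n * ∏ p ∈ I, p) k) * (gw (Real.log (N n) - y0 z) : ℂ)
  else 0

theorem h1_Row_eq (Q : Lev) (η : O → ℂ) (J : ℕ) (ρ z : ℝ) (d : O) :
    Row Q η J ρ z d =
      ∑' l : O, ∑ I ∈ (slot Q (yP J z) (ρ * z)).powersetCard J, ∑' n : O, h1T Q η J z d l I n := rfl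

theorem h1_Psi_eq (Q : Lev) (η : O → ℂ) (J : ℕ) (ρ z : ℝ) :
    Psi Q η J ρ z = ∑' k : O, (Om (N k / KK z) : ℂ) *
      ∑' l : O, ∑ I ∈ (slot Q (yP J z) (ρ * z)).powersetCard J, ∑' n : O, h1P Q η J z k l I n := rfl

theorem h1_KK_pos (z : ℝ) : 0 < KK z := Real.exp_pos _

theorem h1T_norm {Q : Lev} {η : O → ℂ} (hη : η ∈ hchars Q.q) (J : ℕ) (z : ℝ) (d : O) {l n : O}
    (I : Finset O) (hl : P0 Q l) (hn : P0 Q n) :
    ‖h1T Q η J z d l I n‖ ≤ (∏ p ∈ I, wP (yP J z) p) *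
      (‖cc d l (n * ∏ p ∈ I, p)‖ / Real.sqrt (N l * N (n * ∏ p ∈ I, p))) *
      gw (Real.log (N l) - y1 z) * gw (Real.log (N n) - y0 z) *
      Om (KK z * N d / (N l * N (n * ∏ p ∈ I, p))) := by
  unfold h1T
  rw [if_pos ⟨hl, hn⟩]
  simp only [norm_mul, norm_div, Complex.norm_real, h1_norm_W,
    Real.norm_of_nonneg (gw_pos _).le, Real.norm_of_nonneg (Om_pos _).le,
    Real.norm_of_nonneg (Real.sqrt_nonneg _)]
  have hW : 0 ≤ ∏ p ∈ I, wP (yP J z) p := Finset.prod_nonneg fun p _ => h1_wP_nonneg _ _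
  have h1 := norm_hchar_le Q hη n
  have := gw_pos (Real.log (N l) - y1 z)
  have := gw_pos (Real.log (N n) - y0 z)
  have := Om_pos (KK z * N d / (N l * N (n * ∏ p ∈ I, p)))
  rw [← mul_div_assoc]
  have h2 : (∏ p ∈ I, wP (yP J z) p) * ‖cc d l (n * ∏ p ∈ I, p)‖ * ‖η n‖ ≤
      (∏ p ∈ I, wP (yP J z) p) * ‖cc d l (n * ∏ p ∈ I, p)‖ :=
    mul_le_of_le_one_right (by positivity) h1
  gcongr ?_ / _ * _ * _ * _

/-- weight of the row `d` -/
def h1u (j : ℕ) (K : ℝ) (d : O) : ℝ := if d = 0 then 1 else (j.factorial : ℝ) * ((K * N d) ^ j)⁻¹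

theorem h1u_nonneg (j : ℕ) {K : ℝ} (hK : 0 < K) (d : O) : 0 ≤ h1u j K d := by
  unfold h1u
  have := N_nonneg d
  split_ifs
  · exact zero_le_one
  · positivity

theorem h1u_eq (j : ℕ) (K : ℝ) {d : O} (hd : d ≠ 0) :
    h1u j K d = (j.factorial : ℝ) * (K ^ j)⁻¹ * N d ^ (-(j : ℝ)) := by
  unfold h1u
  rw [if_neg hd, Real.rpow_neg (N_nonneg d), Real.rpow_natCast, mul_pow, mul_inv, mul_assoc]

theorem h1u_summable {K : ℝ} (hK : 0 < K) : Summable (h1u 2 K) := by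
  have h := (summable_N_rpow (σ := (2 : ℕ)) (by norm_num)).mul_left
    (((2 : ℕ).factorial : ℝ) * (K ^ 2)⁻¹)
  refine (h.update 0 1).congr fun d => ?_
  by_cases hd : d = 0
  · subst hd; simp [h1u]
  · rw [Function.update_of_ne hd, h1u_eq 2 K hd]

theorem h1_Om_le (j : ℕ) {K X : ℝ} (hK : 0 < K) (hX : 1 ≤ X) (d : O) :
    Om (K * N d / X) ≤ h1u j K d * X ^ j := by
  unfold h1u
  split_ifs with hd
  · subst hd
    rw [one_mul]
    exact (Om_le_one (by simp)).trans (one_le_pow₀ hX)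
  · have h0 := N_pos hd
    have hX0 : 0 < X := by linarith
    refine (Om_le_pow j (by positivity)).trans (le_of_eq ?_)
    rw [div_pow]
    field_simp

/-- Rankin constant -/
def h1c (j : ℕ) (y : ℝ) : ℝ := Real.exp (((j : ℝ) + 2) * y + ((j : ℝ) + 2) ^ 2 / 4)

theorem h1c_le (j : ℕ) (y : ℝ) {n : O} (hn : n ≠ 0) :
    N n ^ j * gw (Real.log (N n) - y) ≤ h1c j y * N n ^ (-(2 : ℝ)) := by
  have := bl1_pt j y 2 hn
  rwa [Real.rpow_natCast] at this

theorem h1a_nonneg (j : ℕ) (y : ℝ) (n : O) : 0 ≤ h1c j y * N n ^ (-(2 : ℝ)) :=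
  mul_nonneg (Real.exp_pos _).le (Real.rpow_nonneg (N_nonneg n) _)

theorem h1a_summable (j : ℕ) (y : ℝ) : Summable (fun n : O => h1c j y * N n ^ (-(2 : ℝ))) :=
  (summable_N_rpow (σ := 2) (by norm_num)).mul_left _

theorem h1T_le {Q : Lev} {η : O → ℂ} (hη : η ∈ hchars Q.q) {J : ℕ} {R z : ℝ} (j : ℕ) (d l : O)
    (I : Finset O) (n : O) (hI : I ∈ (slot Q (yP J z) R).powersetCard J) :
    ‖h1T Q η J z d l I n‖ ≤ h1u j (KK z) d * (∏ p ∈ I, wP (yP J z) p * N p ^ (j + 1)) *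
      ((h1c (j + 1) (y1 z) * N l ^ (-(2 : ℝ))) * (h1c (j + 1) (y0 z) * N n ^ (-(2 : ℝ)))) := by
  have hu := h1u_nonneg j (h1_KK_pos z) d
  have hW : 0 ≤ ∏ p ∈ I, wP (yP J z) p := Finset.prod_nonneg fun p _ => h1_wP_nonneg _ _
  have hL := N_nonneg (∏ p ∈ I, p)
  have e : (∏ p ∈ I, wP (yP J z) p * N p ^ (j + 1)) =
      (∏ p ∈ I, wP (yP J z) p) * N (∏ p ∈ I, p) ^ (j + 1) := by
    rw [Finset.prod_mul_distrib, Finset.prod_pow, N_prod]
  rw [e]
  have ha := h1a_nonneg (j + 1) (y1 z) l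
  have hb := h1a_nonneg (j + 1) (y0 z) n
  by_cases h : P0 Q l ∧ P0 Q n
  · obtain ⟨hl, hn⟩ := h
    have hm : P0 Q (n * ∏ p ∈ I, p) := hn.mul (h1_P0_prod hI)
    have hX : 1 ≤ N l * N (n * ∏ p ∈ I, p) :=
      one_le_mul_of_one_le_of_one_le (one_le_N hl.1.ne_zero) (one_le_N hm.1.ne_zero)
    have h1 : ‖cc d l (n * ∏ p ∈ I, p)‖ / Real.sqrt (N l * N (n * ∏ p ∈ I, p)) ≤
        N l * N (n * ∏ p ∈ I, p) :=
      (div_le_self (norm_nonneg _) (Real.one_le_sqrt.2 hX)).trans (norm_cc_le d hl hm)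
    have h2 := h1_Om_le j (h1_KK_pos z) hX d
    have g1 := gw_pos (Real.log (N l) - y1 z)
    have g2 := gw_pos (Real.log (N n) - y0 z)
    have hO := Om_pos (KK z * N d / (N l * N (n * ∏ p ∈ I, p)))
    have h3 := h1c_le (j + 1) (y1 z) hl.1.ne_zero
    have h4 := h1c_le (j + 1) (y0 z) hn.1.ne_zero
    have hNl := N_nonneg l
    have hNn := N_nonneg n
    refine (h1T_norm hη J z d I hl hn).trans ?_
    calc _ ≤ (∏ p ∈ I, wP (yP J z) p) * (N l * N (n * ∏ p ∈ I, p)) *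
          gw (Real.log (N l) - y1 z) * gw (Real.log (N n) - y0 z) *
          (h1u j (KK z) d * (N l * N (n * ∏ p ∈ I, p)) ^ j) := by gcongr
      _ = h1u j (KK z) d * ((∏ p ∈ I, wP (yP J z) p) * N (∏ p ∈ I, p) ^ (j + 1)) *
          ((N l ^ (j + 1) * gw (Real.log (N l) - y1 z)) *
            (N n ^ (j + 1) * gw (Real.log (N n) - y0 z))) := by rw [N_mul]; ring
      _ ≤ _ := by gcongr
  · unfold h1T
    rw [if_neg h, norm_zero]
    positivity

theorem h1P_le {Q : Lev} {η : O → ℂ} (hη : η ∈ hchars Q.q) {J : ℕ} {R z : ℝ} (k l : O)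
    (I : Finset O) (n : O) (hI : I ∈ (slot Q (yP J z) R).powersetCard J) :
    ‖h1P Q η J z k l I n‖ ≤ ((∏ p ∈ I, wP (yP J z) p) * N (∏ p ∈ I, p)) *
      ((h1c 1 (y1 z) * N l ^ (-(2 : ℝ))) * (h1c 1 (y0 z) * N n ^ (-(2 : ℝ)))) := by
  have hW : 0 ≤ ∏ p ∈ I, wP (yP J z) p := Finset.prod_nonneg fun p _ => h1_wP_nonneg _ _
  have hL := N_nonneg (∏ p ∈ I, p)
  have ha := h1a_nonneg 1 (y1 z) l
  have hb := h1a_nonneg 1 (y0 z) n
  unfold h1P
  split_ifs with h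
  · obtain ⟨hl, hn⟩ := h
    have hm : P0 Q (n * ∏ p ∈ I, p) := hn.mul (h1_P0_prod hI)
    have h3 := h1c_le 1 (y1 z) hl.1.ne_zero
    have h4 := h1c_le 1 (y0 z) hn.1.ne_zero
    rw [pow_one] at h3 h4
    have g1 := gw_pos (Real.log (N l) - y1 z)
    have g2 := gw_pos (Real.log (N n) - y0 z)
    have hNl := N_nonneg l
    have hNn := N_nonneg n
    have e1 : ‖gs l (chi l) k‖ / Real.sqrt (N l) ≤ N l :=
      (div_le_self (norm_nonneg _) (Real.one_le_sqrt.2 (one_le_N hl.1.ne_zero))).trans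
        (norm_gs_le hl.1.ne_zero (norm_sym_le (k := 6) (by norm_num)
          (by exact_mod_cast hl.isCoprime_six)) k)
    have e2 : ‖chi (n * ∏ p ∈ I, p) k‖ ≤ 1 :=
      norm_sym_le (k := 6) (by norm_num) (by exact_mod_cast hm.isCoprime_six) k
    have e3 : ‖tt (n * ∏ p ∈ I, p)‖ ≤ N n * N (∏ p ∈ I, p) := by
      unfold tt
      rw [norm_mul, norm_ang hm.1.ne_zero, mul_one, ← N_mul]
      refine (norm_tau_le hm.1).trans ?_
      exact Real.rpow_le_self_of_one_le (one_le_N hm.1.ne_zero) (by norm_num)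
    have e4 := norm_hchar_le Q hη n
    simp only [norm_mul, norm_div, Complex.norm_real, h1_norm_W, RCLike.norm_conj,
      Real.norm_of_nonneg (gw_pos _).le, Real.norm_of_nonneg (Real.sqrt_nonneg _),
      norm_sg hl.isCoprime_two hm.isCoprime_two, norm_f1 hm.isCoprime_six, one_mul, mul_one]
    calc _ ≤ N l * gw (Real.log (N l) - y1 z) * (∏ p ∈ I, wP (yP J z) p) * 1 *
          (N n * N (∏ p ∈ I, p)) * 1 * gw (Real.log (N n) - y0 z) := by gcongr
      _ = ((∏ p ∈ I, wP (yP J z) p) * N (∏ p ∈ I, p)) *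
          ((N l * gw (Real.log (N l) - y1 z)) * (N n * gw (Real.log (N n) - y0 z))) := by ring
      _ ≤ _ := by gcongr
  · rw [norm_zero]
    positivity

/-- Poisson summation for one summand -/
theorem h1_pois {Q : Lev} (η : O → ℂ) {J : ℕ} {R z : ℝ} (l : O)
    (I : Finset O) (n : O) (hI : I ∈ (slot Q (yP J z) R).powersetCard J) :
    ∑' k : O, (Om (N k / KK z) : ℂ) * h1P Q η J z k l I n =
      (KK z : ℂ) * ∑' d : O, h1T Q η J z d l I n := by
  unfold h1P h1T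
  by_cases h : P0 Q l ∧ P0 Q n
  · simp only [if_pos h]
    obtain ⟨hl, hn⟩ := h
    have hm : P0 Q (n * ∏ p ∈ I, p) := hn.mul (h1_P0_prod hI)
    generalize (n * ∏ p ∈ I, p) = m at hm ⊢
    generalize (∏ p ∈ I, (-(wP (yP J z) p : ℂ))) = W
    generalize (gw (Real.log (N l) - y1 z) : ℂ) = g1
    generalize (gw (Real.log (N n) - y0 z) : ℂ) = g2
    have hq : l * m ≠ 0 := mul_ne_zero hl.1.ne_zero hm.1.ne_zero
    have hper : Per (l * m) (fun k => conj (gs l (chi l) k) * conj (chi m k)) := by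
      intro x t
      have e1 := (gs_per l (chi l)).of_dvd (dvd_mul_right l m) x t
      have e2 : chi m (x + l * m * t) = chi m x := ((sym_per 6 m).of_dvd (dvd_mul_left m l)) x t
      simp only [e1, e2]
    have hP := poisson_per hq hper (h1_KK_pos z)
    have hF : ∀ d, gs (l * m) (fun k => conj (gs l (chi l) k) * conj (chi m k)) d = FTc l m d :=
      fun d => Finset.sum_congr rfl fun x _ => by rw [mul_comm d x]
    simp only [hF, N_mul] at hP
    have hsl : (Real.sqrt (N l) : ℂ) ≠ 0 :=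
      Complex.ofReal_ne_zero.2 (Real.sqrt_pos.2 (N_pos hl.1.ne_zero)).ne'
    have hsm : (Real.sqrt (N m) : ℂ) ≠ 0 :=
      Complex.ofReal_ne_zero.2 (Real.sqrt_pos.2 (N_pos hm.1.ne_zero)).ne'
    have el : (N l : ℂ) = (Real.sqrt (N l) : ℂ) ^ 2 := by
      rw [← Complex.ofReal_pow, Real.sq_sqrt (N_nonneg l)]
    have em : (N m : ℂ) = (Real.sqrt (N m) : ℂ) ^ 2 := by
      rw [← Complex.ofReal_pow, Real.sq_sqrt (N_nonneg m)]
    obtain ⟨A, hA⟩ : ∃ A : ℂ, A = sg l m / (Real.sqrt (N l) : ℂ) * g1 * W * η n * f1 m * tt m * g2 :=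
      ⟨_, rfl⟩
    have e1 : ∀ k : O, (Om (N k / KK z) : ℂ) * (sg l m * conj (gs l (chi l) k) /
        (Real.sqrt (N l) : ℂ) * g1 * W * η n * f1 m * tt m * conj (chi m k) * g2) =
        A * (conj (gs l (chi l) k) * conj (chi m k) * (Om (N k / KK z) : ℂ)) := fun k => by
      rw [hA]; ring
    have e2 : ∀ d : O, W * cc d l m * η n / (Real.sqrt (N l * N m) : ℂ) * g1 * g2 *
        (Om (KK z * N d / (N l * N m)) : ℂ) =
        A / ((N l : ℂ) * (N m : ℂ)) * (FTc l m d * (Om (KK z * N d / (N l * N m)) : ℂ)) := fun d => by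
      rw [hA, Real.sqrt_mul (N_nonneg l), Complex.ofReal_mul]
      unfold cc
      generalize (Real.sqrt (N l) : ℂ) = sl at *
      generalize (Real.sqrt (N m) : ℂ) = sm at *
      rw [el, em]
      field_simp
    simp only [e1, e2, tsum_mul_left, hP]
    push_cast
    ring
  · simp only [if_neg h, mul_zero, tsum_zero]

theorem h1_row_le {Q : Lev} {η : O → ℂ} (hη : η ∈ hchars Q.q) (J : ℕ) (ρ z : ℝ) (j : ℕ) (d : O) :
    ‖Row Q η J ρ z d‖ ≤ h1u j (KK z) d *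
      ((∑ I ∈ (slot Q (yP J z) (ρ * z)).powersetCard J, ∏ p ∈ I, wP (yP J z) p * N p ^ (j + 1)) *
      ((h1c (j + 1) (y1 z) * ∑' l : O, N l ^ (-(2 : ℝ))) *
        (h1c (j + 1) (y0 z) * ∑' l : O, N l ^ (-(2 : ℝ))))) := by
  rw [h1_Row_eq]
  refine (h1_triple_le _ _ (fun I => h1u j (KK z) d * ∏ p ∈ I, wP (yP J z) p * N p ^ (j + 1))
    (h1a_summable (j + 1) (y1 z)) (h1a_summable (j + 1) (y0 z)) (h1a_nonneg _ _) (h1a_nonneg _ _)
    (fun l I n hI => h1T_le hη j d l I n hI)).trans (le_of_eq ?_)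
  rw [← Finset.mul_sum, tsum_mul_left, tsum_mul_left, mul_assoc]

end Crest.Agent.R17
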