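import Crest.Agent.R17.CC
import Crest.Agent.R17.Poisson
import Crest.Agent.R17.Local
import Crest.Agent.R17.High1Aux

/-!
# R17 / High1 : Poisson summation for the probe, far rows, the zero row

Throughout `m = n ∏ I`.  Trivial bounds: `norm_cc_le`, `tsum_gw_rpow` for the `l` and `n` sums, and
`∑_{p ∈ slot} w_p N(p)^x ≤ C z e^{(x+1) yP}` (`log N p ≤ yP + ρ z ≤ z`, `tsum_gw_rpow`) with `esymm_le`-type
bounds for the sum over `I`.
-/

set_option autoImplicit false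

noncomputable section

open scoped Classical ComplexConjugate

namespace Crest.Agent.R17

/-- Fubini, and `poisson_per` for `k ↦ conj G(l;k) conj χ_m(k)` modulo `l m`:
`cc/√(N l N m) = sg f1 tt FTc/(N(lm) √N l)`. -/
theorem psi_eq (Q : Lev) {η : O → ℂ} (hη : η ∈ hchars Q.q) (J : ℕ) (ρ z : ℝ) :
    Summable (fun d : O => ‖Row Q η J ρ z d‖) ∧
      Psi Q η J ρ z = (KK z : ℂ) * ∑' d : O, Row Q η J ρ z d := by
  have hK := h1_KK_pos z
  refine ⟨Summable.of_nonneg_of_le (fun _ => norm_nonneg _) (fun d => h1_row_le hη J ρ z 2 d)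
    ((h1u_summable hK).mul_right _), ?_⟩
  have hO : Summable (fun k : O => Om (N k / KK z)) := by simpa using summable_Om hK 0
  have e1 := h1_fub ((slot Q (yP J z) (ρ * z)).powersetCard J)
    (fun k l I n => (Om (N k / KK z) : ℂ) * h1P Q η J z k l I n)
    (fun I => (∏ p ∈ I, wP (yP J z) p) * N (∏ p ∈ I, p)) hO (h1a_summable 1 (y1 z))
    (h1a_summable 1 (y0 z)) (fun _ => (Om_pos _).le) (h1a_nonneg _ _) (h1a_nonneg _ _)
    (fun k l I n hI => by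
      rw [norm_mul, Complex.norm_real, Real.norm_of_nonneg (Om_pos _).le, mul_assoc]
      exact mul_le_mul_of_nonneg_left (h1P_le hη k l I n hI) (Om_pos _).le)
  have e2 := h1_fub ((slot Q (yP J z) (ρ * z)).powersetCard J)
    (fun d l I n => h1T Q η J z d l I n)
    (fun I => ∏ p ∈ I, wP (yP J z) p * N p ^ (2 + 1)) (h1u_summable hK)
    (h1a_summable (2 + 1) (y1 z)) (h1a_summable (2 + 1) (y0 z)) (h1u_nonneg 2 hK)
    (h1a_nonneg _ _) (h1a_nonneg _ _) (fun d l I n hI => h1T_le hη 2 d l I n hI)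
  simp only [h1_Psi_eq, h1_Row_eq]
  rw [e2, Finset.mul_sum]
  simp only [← tsum_mul_left, Finset.mul_sum] at e1 ⊢
  rw [e1]
  refine Finset.sum_congr rfl fun I hI => tsum_congr fun p => ?_
  rw [h1_pois η p.1 I p.2 hI, tsum_mul_left]

theorem h1_sumI (Q : Lev) (J j : ℕ) (y R : ℝ) :
    ∑ I ∈ (slot Q y R).powersetCard J, ∏ p ∈ I, wP y p * N p ^ j ≤
      (h1c (j + 1) y * ∑' l : O, N l ^ (-(2 : ℝ))) ^ J := by
  have h0 : ∀ p ∈ slot Q y R, 0 ≤ wP y p * N p ^ j := fun p _ =>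
    mul_nonneg (h1_wP_nonneg _ _) (pow_nonneg (N_nonneg p) _)
  refine (h1_esymm _ J h0).trans (pow_le_pow_left₀ (Finset.sum_nonneg h0) ?_ J)
  rw [← tsum_mul_left]
  refine le_trans (Finset.sum_le_sum fun p hp => ?_)
    ((h1a_summable (j + 1) y).sum_le_tsum _ fun p _ => h1a_nonneg _ _ p)
  have hp0 := (h1_P0_slot hp).1.ne_zero
  refine le_trans ?_ (h1c_le (j + 1) y hp0)
  unfold wP
  have h1 : Real.log (N p) ≤ N p := (Real.log_le_sub_one_of_pos (N_pos hp0)).trans (by linarith)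
  have := gw_pos (Real.log (N p) - y)
  have := N_nonneg p
  calc _ ≤ N p * gw (Real.log (N p) - y) * N p ^ j := by gcongr
    _ = _ := by ring

theorem h1_JyP {J : ℕ} (hJ : 1 ≤ J) (z : ℝ) : J * yP J z = 5 / 24 * z := by
  have : (J : ℝ) ≠ 0 := by positivity
  unfold yP
  field_simp

theorem h1_far (J j : ℕ) (hJ : 1 ≤ J) : ∃ C : ℝ, 0 ≤ C ∧ ∀ (Q : Lev), ∀ η ∈ hchars Q.q,
    ∀ ρ z : ℝ, 0 ≤ z → ∀ d : O, d ≠ 0 →
      ‖Row Q η J ρ z d‖ ≤ C * Real.exp ((j + 9) * z) * N d ^ (-(j : ℝ)) := by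
  obtain ⟨Z, hZ⟩ : ∃ Z : ℝ, Z = ∑' l : O, N l ^ (-(2 : ℝ)) := ⟨_, rfl⟩
  have hZ0 : 0 ≤ Z := hZ ▸ tsum_nonneg fun l => Real.rpow_nonneg (N_nonneg l) _
  obtain ⟨c, hc⟩ : ∃ c : ℝ, c = ((j : ℝ) + 4) ^ 2 / 4 := ⟨_, rfl⟩
  refine ⟨j.factorial * (Real.exp c * Z) ^ (J + 2), by positivity, fun Q η hη ρ z hz d hd => ?_⟩
  have h1 := h1_row_le hη J ρ z j d
  have h2 := h1_sumI Q J (j + 1) (yP J z) (ρ * z)
  rw [← hZ] at h1 h2
  have hj : (0 : ℝ) ≤ j := Nat.cast_nonneg j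
  have hc1 : ∀ y, 0 ≤ y → h1c (j + 1) y ≤ Real.exp c * Real.exp ((j + 4) * y) := fun y hy => by
    unfold h1c
    rw [← Real.exp_add, hc]
    push_cast
    exact Real.exp_le_exp.2 (by nlinarith)
  have hc2 : h1c (j + 1 + 1) (yP J z) = Real.exp c * Real.exp ((j + 4) * yP J z) := by
    unfold h1c
    rw [← Real.exp_add, hc]
    push_cast
    congr 1
    ring
  have ha := hc1 (y1 z) (by unfold y1; positivity)
  have hb := hc1 (y0 z) (by unfold y0; positivity)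
  rw [hc2] at h2
  have hu := h1u_nonneg j (h1_KK_pos z) d
  have hc0 : ∀ i y, 0 ≤ h1c i y := fun i y => (Real.exp_pos _).le
  have ha0 := hc0 (j + 1) (y1 z)
  have hb0 := hc0 (j + 1) (y0 z)
  have hN := Real.rpow_nonneg (N_nonneg d) (-(j : ℝ))
  refine h1.trans ?_
  calc _ ≤ h1u j (KK z) d * ((Real.exp c * Real.exp ((j + 4) * yP J z) * Z) ^ J *
        ((Real.exp c * Real.exp ((j + 4) * y1 z) * Z) *
          (Real.exp c * Real.exp ((j + 4) * y0 z) * Z))) := by gcongr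
    _ = j.factorial * (Real.exp c * Z) ^ (J + 2) * (((KK z) ^ j)⁻¹ *
        Real.exp ((j + 4) * yP J z) ^ J * Real.exp ((j + 4) * y1 z) *
          Real.exp ((j + 4) * y0 z)) * N d ^ (-(j : ℝ)) := by
        rw [h1u_eq j _ hd]; ring
    _ ≤ _ := by
        gcongr
        unfold KK
        rw [← Real.exp_nat_mul, ← Real.exp_nat_mul, ← Real.exp_neg, ← Real.exp_add, ← Real.exp_add,
          ← Real.exp_add]
        refine Real.exp_le_exp.2 ?_
        have e : (J : ℝ) * ((j + 4) * yP J z) = (j + 4) * (5 / 24 * z) := by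
          rw [← h1_JyP hJ z]; ring
        rw [e]
        unfold y1 y0
        nlinarith

/-- `Om_le_pow j` with `j` large: `|Row d| ≤ C (K N d)^{-j} z^J e^{(j+2)(49/24) z}`, and
`tsum_tail_N_rpow`. -/
theorem far_rows (Q : Lev) {J : ℕ} (hJ : 1 ≤ J) {ε ρ : ℝ} (hε : 0 < ε) (hρ : 0 < ρ)
    (hρ1 : ρ ≤ 5 / (48 * J)) : ∃ C z0 : ℝ, ∀ η ∈ hchars Q.q, ∀ z : ℝ, z0 ≤ z →
    ∑' d : O, (if Real.exp ((1 + ε) * z) < N d then ‖Row Q η J ρ z d‖ else 0) ≤ C := by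
  obtain ⟨j, hj⟩ := exists_nat_ge (2 + 10 / ε)
  have hj2 : (1 : ℝ) < j := by
    have : 0 < 10 / ε := by positivity
    linarith
  have hj3 : ε + 10 ≤ j * ε := by
    have := mul_le_mul_of_nonneg_right hj hε.le
    rw [add_mul, div_mul_cancel₀ _ hε.ne'] at this
    linarith
  obtain ⟨C, hC0, hC⟩ := h1_far J j hJ
  obtain ⟨C', hC'0, hC'⟩ := b2_tail hj2
  refine ⟨C * C', 0, fun η hη z hz => ?_⟩
  refine Real.tsum_le_of_sum_le (fun d => by split_ifs <;> simp) fun s => ?_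
  have h1 := hC' _ (Real.exp_pos ((1 + ε) * z)) s
  calc _ ≤ ∑ d ∈ s, C * Real.exp ((j + 9) * z) *
        (if Real.exp ((1 + ε) * z) < N d then N d ^ (-(j : ℝ)) else 0) := by
        refine Finset.sum_le_sum fun d _ => ?_
        split_ifs with h
        · refine hC Q η hη ρ z hz d fun hd => ?_
          rw [hd, N_zero] at h
          exact absurd h (Real.exp_pos _).le.not_gt
        · simp
    _ ≤ C * Real.exp ((j + 9) * z) * (C' * Real.exp ((1 + ε) * z) ^ (1 - (j : ℝ))) := by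
        rw [← Finset.mul_sum]
        gcongr
    _ = C * C' * Real.exp ((j + 9) * z + (1 + ε) * z * (1 - j)) := by
        rw [← Real.exp_mul, Real.exp_add]; ring
    _ ≤ C * C' := by
        refine mul_le_of_le_one_right (by positivity) (Real.exp_le_one_iff.2 ?_)
        nlinarith

theorem h1_inj {f g : O → ℝ} (hg0 : ∀ a, 0 ≤ g a) (hg : Summable g) (R : O → O → Prop)
    (hR : ∀ n n' a, R n a → R n' a → n = n') (hf : ∀ n, f n ≤ 0 ∨ ∃ a, R n a ∧ f n ≤ g a)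
    (s : Finset O) : ∑ n ∈ s, f n ≤ ∑' a, g a := by
  have h : ∀ n, ∃ a, 0 < f n → R n a ∧ f n ≤ g a := fun n => by
    rcases hf n with h | ⟨a, h⟩
    · exact ⟨0, fun h' => absurd h' h.not_gt⟩
    · exact ⟨a, fun _ => h⟩
  choose φ hφ using h
  calc ∑ n ∈ s, f n ≤ ∑ n ∈ s.filter (fun n => 0 < f n), f n := by
        rw [Finset.sum_filter]
        refine Finset.sum_le_sum fun n _ => ?_
        split_ifs with h
        · exact le_rfl
        · exact not_lt.1 h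
    _ ≤ ∑ n ∈ s.filter (fun n => 0 < f n), g (φ n) :=
        Finset.sum_le_sum fun n hn => (hφ n (Finset.mem_filter.1 hn).2).2
    _ = ∑ a ∈ (s.filter (fun n => 0 < f n)).image φ, g a := by
        rw [Finset.sum_image]
        intro n hn n' hn' h
        refine hR n n' (φ n) (hφ n (Finset.mem_filter.1 (Finset.mem_coe.1 hn)).2).1 ?_
        rw [h]
        exact (hφ n' (Finset.mem_filter.1 (Finset.mem_coe.1 hn')).2).1
    _ ≤ _ := hg.sum_le_tsum _ fun a _ => hg0 a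

theorem h1_count {δ : ℝ} (hδ : 0 < δ) : ∃ C : ℝ, 0 ≤ C ∧ ∀ (Q : Lev) (y R : ℝ) (J : ℕ) (M : O),
    M ≠ 0 → ((((slot Q y R).powersetCard J).filter (fun I => (∏ p ∈ I, p) ∣ M)).card : ℝ) ≤
      C * N M ^ δ := by
  obtain ⟨C, hC⟩ := pow_card_primes_le 2 hδ
  refine ⟨C, ?_, fun Q y R J M hM => le_trans ?_ (hC M hM)⟩
  · have h := hC 1 one_ne_zero
    rw [N_one, Real.one_rpow, mul_one] at h
    exact le_trans (by positivity) h
  · have : (((slot Q y R).powersetCard J).filter (fun I => (∏ p ∈ I, p) ∣ M)) ⊆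
        ((pdiv M).filter Prime).powerset := by
      intro I hI
      obtain ⟨h1, h2⟩ := Finset.mem_filter.1 hI
      refine Finset.mem_powerset.2 fun p hp => ?_
      obtain ⟨h3, h4, -⟩ := loc_mem_slot.1 ((Finset.mem_powersetCard.1 h1).1 hp)
      exact Finset.mem_filter.2 ⟨(mem_pdiv hM).2 ⟨h4, (Finset.dvd_prod_of_mem _ hp).trans h2⟩, h3⟩
    have h := Finset.card_le_card this
    rw [Finset.card_powerset] at h
    exact_mod_cast h

theorem h1_gw_le (w y : ℝ) {n : O} (hn : n ≠ 0) :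
    gw (Real.log (N n) - y) ≤ Real.exp (w * y + w ^ 2 / 4) * N n ^ (-w) := by
  have := bl1_pt 0 y w hn
  rwa [Real.rpow_zero, one_mul, zero_add] at this

theorem h1_wP_le {δ : ℝ} (hδ : 0 < δ) (w y : ℝ) {p : O} (hp : p ≠ 0) :
    wP y p ≤ δ⁻¹ * Real.exp ((δ + w) * y + (δ + w) ^ 2 / 4) * N p ^ (-w) := by
  have h1 := bl1_pt δ y w hp
  have h2 := Real.log_le_rpow_div (N_nonneg p) hδ
  have := gw_pos (Real.log (N p) - y)
  unfold wP
  calc _ ≤ N p ^ δ / δ * gw (Real.log (N p) - y) := by gcongr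
    _ = δ⁻¹ * (N p ^ δ * gw (Real.log (N p) - y)) := by ring
    _ ≤ δ⁻¹ * (Real.exp ((δ + w) * y + (δ + w) ^ 2 / 4) * N p ^ (-w)) := by gcongr
    _ = _ := by ring

/-- the constant in the zero row -/
def h1E (J : ℕ) (δ x w z : ℝ) : ℝ :=
  (δ⁻¹ * Real.exp ((δ + w) * yP J z + (δ + w) ^ 2 / 4)) ^ J *
    Real.exp (x * y1 z + x ^ 2 / 4) * Real.exp (w * y0 z + w ^ 2 / 4)

theorem h1_zero_pt {Q : Lev} {η : O → ℂ} (hη : η ∈ hchars Q.q) {J : ℕ} {R z δ : ℝ} (hδ : 0 < δ)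
    (x w : ℝ) (l : O) (I : Finset O) (n : O) (hI : I ∈ (slot Q (yP J z) R).powersetCard J) :
    ‖h1T Q η J z 0 l I n‖ ≤ 0 ∨ ∃ a, (n * ∏ p ∈ I, p) = l * a ^ 6 ∧ l ≠ 0 ∧ a ≠ 0 ∧
      ‖h1T Q η J z 0 l I n‖ ≤ h1E J δ x w z * (N l ^ (-x) * N (l * a ^ 6) ^ (-w) * N a) := by
  by_cases h : P0 Q l ∧ P0 Q n
  swap
  · left
    unfold h1T
    rw [if_neg h, norm_zero]
  obtain ⟨hl, hn⟩ := h
  have hL := h1_P0_prod hI
  have hm : P0 Q (n * ∏ p ∈ I, p) := hn.mul hL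
  have h1 := h1T_norm hη J z 0 I hl hn
  by_cases hc : cc 0 l (n * ∏ p ∈ I, p) = 0
  · left
    rw [hc] at h1
    simpa using h1
  right
  obtain ⟨a, ha, hma, hb⟩ := cc_zero_row hl hm hc
  refine ⟨a, hma, hl.1.ne_zero, ha.1.ne_zero, h1.trans ?_⟩
  have hX : 0 < Real.sqrt (N l * N (n * ∏ p ∈ I, p)) :=
    Real.sqrt_pos.2 (mul_pos (N_pos hl.1.ne_zero) (N_pos hm.1.ne_zero))
  have h2 : ‖cc 0 l (n * ∏ p ∈ I, p)‖ / Real.sqrt (N l * N (n * ∏ p ∈ I, p)) ≤ N a := by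
    rw [div_le_iff₀ hX, mul_comm (N a)]; exact hb
  have h3 : Om (KK z * N 0 / (N l * N (n * ∏ p ∈ I, p))) ≤ 1 := Om_le_one (by simp)
  have h4 := h1_gw_le x (y1 z) hl.1.ne_zero
  have h5 := h1_gw_le w (y0 z) hn.1.ne_zero
  obtain ⟨hI1, hI2⟩ := Finset.mem_powersetCard.1 hI
  have h6 : ∏ p ∈ I, wP (yP J z) p ≤
      (δ⁻¹ * Real.exp ((δ + w) * yP J z + (δ + w) ^ 2 / 4)) ^ J * N (∏ p ∈ I, p) ^ (-w) := by
    refine (Finset.prod_le_prod (fun p _ => h1_wP_nonneg _ p)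
      fun p hp => h1_wP_le hδ w (yP J z) (h1_P0_slot (hI1 hp)).1.ne_zero).trans (le_of_eq ?_)
    rw [Finset.prod_mul_distrib, Finset.prod_const, hI2, N_prod,
      Real.finsetProd_rpow _ _ (fun p _ => N_nonneg p)]
  have hW : 0 ≤ ∏ p ∈ I, wP (yP J z) p := Finset.prod_nonneg fun p _ => h1_wP_nonneg _ _
  have g1 := gw_pos (Real.log (N l) - y1 z)
  have g2 := gw_pos (Real.log (N n) - y0 z)
  have hO := Om_pos (KK z * N 0 / (N l * N (n * ∏ p ∈ I, p)))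
  have hNa := N_nonneg a
  have r1 := Real.rpow_nonneg (N_nonneg l) (-x)
  have r2 := Real.rpow_nonneg (N_nonneg n) (-w)
  have r3 := Real.rpow_nonneg (N_nonneg (∏ p ∈ I, p)) (-w)
  calc _ ≤ ((δ⁻¹ * Real.exp ((δ + w) * yP J z + (δ + w) ^ 2 / 4)) ^ J * N (∏ p ∈ I, p) ^ (-w)) *
        N a * (Real.exp (x * y1 z + x ^ 2 / 4) * N l ^ (-x)) *
        (Real.exp (w * y0 z + w ^ 2 / 4) * N n ^ (-w)) * 1 := by gcongr
    _ = _ := by
        rw [← hma, N_mul, Real.mul_rpow (N_nonneg _) (N_nonneg _)]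
        unfold h1E
        ring

/-- By `cc_zero_row` only `n ∏I = l a⁶` contribute, with weight `≤ N a · gw(l) gw(n) ∏ w_p`.
Use `gw(log N n - y0) ∏_{p ∈ I} gw(log N p - yP) ≤ exp(-(log N m - y0 - J yP)²/(J+1))`, the number of
`I` with `∏ I ∣ m` is `≤ τ(m) ≤ C N(m)^{ε'}`; sum over `a` (`≲ (e^{35z/24}/N l)^{1/3}`), then over `l`
(`≲ e^{(2/3)(7/12) z}`): `35/72 + 28/72 = 7/8`.  (A Rankin trick is convenient: bound the Gaussian
weights by `C (e^{y}/N ·)^{x}` for suitable `x`, e.g.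
`∑_{I,n} ≤ ∑ … N(a)^{1} (e^{35z/24}/(N l N a⁶))^{1/3+ε'}` with `gw u ≤ e^{x²/4} e^{-xu}`.) -/
theorem zero_row (Q : Lev) {J : ℕ} (hJ : 1 ≤ J) {ε ρ : ℝ} (hε : 0 < ε) (hρ : 0 < ρ)
    (hρ1 : ρ ≤ 5 / (48 * J)) : ∃ C z0 : ℝ, ∀ η ∈ hchars Q.q, ∀ z : ℝ, z0 ≤ z →
    ‖Row Q η J ρ z 0‖ ≤ C * Real.exp ((7 / 8 + ε) * z) := by
  obtain ⟨δ, hδe⟩ : ∃ δ : ℝ, δ = ε / 4 := ⟨_, rfl⟩
  have hδ : 0 < δ := by rw [hδe]; positivity
  obtain ⟨x, hx⟩ : ∃ x : ℝ, x = 2 / 3 := ⟨_, rfl⟩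
  obtain ⟨w, hw⟩ : ∃ w : ℝ, w = 1 / 3 + 2 * δ := ⟨_, rfl⟩
  obtain ⟨C, hC0, hC⟩ := h1_count hδ
  have s1 := summable_N_rpow (σ := 1 + δ) (by linarith)
  have s2 := summable_N_rpow (σ := 1 + 6 * δ) (by linarith)
  have s3 := summable_N_rpow (σ := 1 + 12 * δ) (by linarith)
  obtain ⟨Z1, hZ1⟩ : ∃ Z : ℝ, Z = ∑' l : O, N l ^ (-(1 + δ)) := ⟨_, rfl⟩
  obtain ⟨Z2, hZ2⟩ : ∃ Z : ℝ, Z = ∑' l : O, N l ^ (-(1 + 6 * δ)) := ⟨_, rfl⟩
  have hZ10 : 0 ≤ Z1 := hZ1 ▸ tsum_nonneg fun l => Real.rpow_nonneg (N_nonneg l) _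
  have hZ20 : 0 ≤ Z2 := hZ2 ▸ tsum_nonneg fun l => Real.rpow_nonneg (N_nonneg l) _
  refine ⟨(δ⁻¹ * Real.exp ((δ + w) ^ 2 / 4)) ^ J * Real.exp (x ^ 2 / 4) * Real.exp (w ^ 2 / 4) *
    C * Z2 * Z1, 0, fun η hη z hz => ?_⟩
  obtain ⟨E, hE⟩ : ∃ E : ℝ, E = h1E J δ x w z := ⟨_, rfl⟩
  have hE0 : 0 ≤ E := by rw [hE]; unfold h1E; positivity
  obtain ⟨S, hS⟩ : ∃ S, S = (slot Q (yP J z) (ρ * z)).powersetCard J := ⟨_, rfl⟩
  -- the majorant
  obtain ⟨G, hG⟩ : ∃ G : O → O → ℝ, G = fun l a =>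
    E * (N l ^ (-x) * N (l * a ^ 6) ^ (-w) * N a) := ⟨_, rfl⟩
  have hG0 : ∀ l a, 0 ≤ G l a := fun l a => by
    rw [hG]
    have r1 := Real.rpow_nonneg (N_nonneg l) (-x)
    have r2 := Real.rpow_nonneg (N_nonneg (l * a ^ 6)) (-w)
    have r3 := N_nonneg a
    positivity
  have hGe : ∀ l a, l ≠ 0 → a ≠ 0 → ∀ t : ℝ, N (l * a ^ 6) ^ t * G l a =
      E * N l ^ (-(1 + 2 * δ - t)) * N a ^ (-(1 + 12 * δ - 6 * t)) := fun l a hl ha t => by
    have h1 := N_pos hl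
    have h2 := N_pos ha
    have e1 : ∀ s : ℝ, N (l * a ^ 6) ^ s = N l ^ s * N a ^ (6 * s) := fun s => by
      rw [N_mul, N_pow, Real.mul_rpow h1.le (by positivity), ← Real.rpow_natCast,
        ← Real.rpow_mul h2.le]
      norm_num
    have e2 : N l ^ (-(1 + 2 * δ - t)) = N l ^ t * N l ^ (-x) * N l ^ (-w) := by
      rw [← Real.rpow_add h1, ← Real.rpow_add h1, hx, hw]
      congr 1
      ring
    have e3 : N a ^ (-(1 + 12 * δ - 6 * t)) = N a ^ (6 * t) * N a ^ (6 * -w) * N a := by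
      rw [← Real.rpow_add h2, ← Real.rpow_add_one h2.ne', hw]
      congr 1
      ring
    rw [hG]
    simp only [e1, e2, e3]
    ring
  have key : ∀ l : O, ‖∑ I ∈ S, ∑' n : O, h1T Q η J z 0 l I n‖ ≤
      E * C * Z2 * N l ^ (-(1 + δ)) := fun l => by
    obtain ⟨g, hg⟩ : ∃ g : Finset O → O → ℝ, g = fun I a =>
      if (∏ p ∈ I, p) ∣ l * a ^ 6 ∧ l ≠ 0 ∧ a ≠ 0 then G l a else 0 := ⟨_, rfl⟩
    have hg0 : ∀ I a, 0 ≤ g I a := fun I a => by
      rw [hg]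
      dsimp only
      split_ifs
      · exact hG0 l a
      · exact le_rfl
    have hgs : ∀ I, Summable (g I) := fun I => by
      refine Summable.of_nonneg_of_le (hg0 I) (fun a => ?_)
        (s3.mul_left (E * N l ^ (-(1 + 2 * δ))))
      rw [hg]
      dsimp only
      split_ifs with h
      · have := hGe l a h.2.1 h.2.2 0
        simp only [Real.rpow_zero, one_mul, sub_zero, mul_zero] at this
        exact this.le
      · have r1 := Real.rpow_nonneg (N_nonneg l) (-(1 + 2 * δ))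
        have r2 := Real.rpow_nonneg (N_nonneg a) (-(1 + 12 * δ))
        positivity
    have h1 : ∀ I ∈ S, ‖∑' n : O, h1T Q η J z 0 l I n‖ ≤ ∑' a, g I a := fun I hI => by
      rw [hS] at hI
      have hL := (h1_P0_prod hI).1.ne_zero
      have hb := h1_inj (f := fun n => ‖h1T Q η J z 0 l I n‖) (hg0 I) (hgs I)
        (fun n a => (n * ∏ p ∈ I, p) = l * a ^ 6)
        (fun n n' a h h' => mul_right_cancel₀ hL (h.trans h'.symm)) (fun n => by
          rcases h1_zero_pt hη hδ x w l I n hI with h | ⟨a, h1, h2, h3, h4⟩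
          · exact Or.inl h
          · refine Or.inr ⟨a, h1, ?_⟩
            rw [hg]
            dsimp only
            rw [if_pos ⟨h1 ▸ dvd_mul_left _ _, h2, h3⟩, hG, hE]
            exact h4)
      exact (norm_tsum_le_tsum_norm (summable_of_sum_le (fun _ => norm_nonneg _) hb)).trans
        (Real.tsum_le_of_sum_le (fun _ => norm_nonneg _) hb)
    refine (norm_sum_le _ _).trans ((Finset.sum_le_sum h1).trans ?_)
    rw [← Summable.tsum_finsetSum fun I _ => hgs I, hZ2, mul_right_comm, ← tsum_mul_left]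
    refine (summable_sum fun I _ => hgs I).tsum_le_tsum (fun a => ?_) (s2.mul_left _)
    have r1 := Real.rpow_nonneg (N_nonneg l) (-(1 + δ))
    have r2 := Real.rpow_nonneg (N_nonneg a) (-(1 + 6 * δ))
    by_cases h : l ≠ 0 ∧ a ≠ 0
    · have e : ∑ I ∈ S, g I a =
          ((S.filter (fun I => (∏ p ∈ I, p) ∣ l * a ^ 6)).card : ℝ) * G l a := by
        rw [hg]
        simp only [h.1, h.2, ne_eq, not_false_eq_true, and_true]
        rw [← Finset.sum_filter, Finset.sum_const, nsmul_eq_mul]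
      have h2 := hC Q (yP J z) (ρ * z) J (l * a ^ 6) (mul_ne_zero h.1 (pow_ne_zero _ h.2))
      rw [← hS] at h2
      have h3 := hGe l a h.1 h.2 δ
      rw [show 1 + 2 * δ - δ = 1 + δ by ring, show 1 + 12 * δ - 6 * δ = 1 + 6 * δ by ring] at h3
      rw [e]
      refine (mul_le_mul_of_nonneg_right h2 (hG0 l a)).trans (le_of_eq ?_)
      rw [mul_assoc, h3]
      ring
    · have e : ∑ I ∈ S, g I a = 0 := Finset.sum_eq_zero fun I _ => by
        rw [hg]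
        exact if_neg fun h' => h h'.2
      rw [e]
      positivity
  rw [h1_Row_eq, ← hS]
  refine (tsum_of_norm_bounded (s1.hasSum.mul_left (E * C * Z2)) key).trans ?_
  rw [← hZ1]
  have hEe : E = (δ⁻¹ * Real.exp ((δ + w) ^ 2 / 4)) ^ J * Real.exp (x ^ 2 / 4) *
      Real.exp (w ^ 2 / 4) * Real.exp ((δ + w) * (5 / 24 * z) + x * y1 z + w * y0 z) := by
    rw [hE, ← h1_JyP hJ z, show (δ + w) * (J * yP J z) = J * ((δ + w) * yP J z) by ring]
    unfold h1E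
    simp only [Real.exp_add, Real.exp_nat_mul]
    ring
  have hle : Real.exp ((δ + w) * (5 / 24 * z) + x * y1 z + w * y0 z) ≤
      Real.exp ((7 / 8 + ε) * z) := by
    refine Real.exp_le_exp.2 ?_
    have : ε = 4 * δ := by rw [hδe]; ring
    rw [hx, hw, this]
    unfold y1 y0
    nlinarith [mul_nonneg hδ.le hz]
  rw [hEe]
  calc _ = (δ⁻¹ * Real.exp ((δ + w) ^ 2 / 4)) ^ J * Real.exp (x ^ 2 / 4) * Real.exp (w ^ 2 / 4) *
        C * Z2 * Z1 * Real.exp ((δ + w) * (5 / 24 * z) + x * y1 z + w * y0 z) := by ring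
    _ ≤ _ := by gcongr

end Crest.Agent.R17
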