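import Crest.Agent.R17.CC
import Crest.Agent.R17.Euler4
import Crest.Agent.R17.Block2

/-!
# R17 / High2_Defs : definitions for `hs_bound` (owner helper77; do not change)

`d = d' a⁶`, `χ n = chi n d'`.  Tuples `v = ![l, n, i] : Fin 3 → O` (`i` = product of the marks).
* `High2_Mul`    : multiplicativity of `Fv`, `Hv`, `maj`; `Fv` in terms of `Hv`.
* `High2_Loc`    : the values of `Hv` at tuples of powers of one prime.
* `High2_Euler`  : support of `Hv`, Euler product bound for `∑ maj`.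
* `High2_Mellin` : `‖Row‖ ≤ ∫ Gm ‖Rs‖`.
* `High2_Triv`   : trivial bound for `Rs`.
* `High2_Fac`    : `Rs = ∑_h (∑_I u_I Hv) B0 B1`.
* `High2_Blk`    : `B0`, `B1` are blocks.
* `High2_Split`  : the sum over the marks for fixed `h`.
-/

set_option autoImplicit false

noncomputable section

open scoped Classical ComplexConjugate

namespace Crest.Agent.R17.H2

/-- `F(l,n,i) = μ(i) cc d l (n i)` -/
def Fv (d : O) (v : Fin 3 → O) : ℂ := mu (v 2) * cc d (v 0) (v 1 * v 2)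

/-- `F` with the generic Euler factors removed -/
def Hv (d d' : O) : (Fin 3 → O) → ℂ :=
  conv 0 (mm fun n => conj (chi n d')) (conv 1 (fun n => chi n d') (Fv d))

/-- the weight of a mark -/
def up (yp ε τ : ℝ) (p : O) : ℂ :=
  (wP yp p : ℂ) * (N p : ℂ) ^ (-(1 / 2 : ℂ) + ε + τ * Complex.I)

/-- the weight of `l`, `n` -/
def Wt (y ε τ : ℝ) (n : O) : ℂ :=
  (N n : ℂ) ^ (-(1 / 2 : ℂ) + ε + τ * Complex.I) * (gw (Real.log (N n) - y) : ℂ)

/-- the Mellin transform of a row -/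
def Rs (Q : Lev) (η : O → ℂ) (J : ℕ) (ρ z : ℝ) (d : O) (ε τ : ℝ) : ℂ :=
  ∑ I ∈ (slot Q (yP J z) (ρ * z)).powersetCard J, (∏ p ∈ I, up (yP J z) ε τ p) *
    ∑' l : O, ∑' n : O, if P0 Q l ∧ P0 Q n then
      Fv d ![l, n, ∏ p ∈ I, p] * Wt (y1 z) ε τ l * (η n * Wt (y0 z) ε τ n) else 0

/-- the inner sum in the variable `l` -/
def B0 (Q : Lev) (d' : O) (y ε τ : ℝ) (h : O) : ℂ :=
  ∑' e : O, if P0 Q e then conj (chi e d') * Wt y ε τ (h * e) else 0

/-- the inner sum in the variable `n` -/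
def B1 (Q : Lev) (η : O → ℂ) (d' : O) (y ε τ : ℝ) (h : O) : ℂ :=
  ∑' e : O, if P0 Q e then mm (fun m => chi m d') e * (η (h * e) * Wt y ε τ (h * e)) else 0

/-- `1` if every prime factor of `v 2` divides `v 0 * v 1 * d`, else `0` -/
def kill (d : O) (v : Fin 3 → O) : ℝ :=
  if ∀ p : O, Prime p → p ∣ v 2 → p ∣ v 0 * v 1 * d then 1 else 0

/-- the multiplicative majorant -/
def maj (d d' : O) (ε : ℝ) (v : Fin 3 → O) : ℝ :=
  ‖Hv d d' v‖ * N (v 0) ^ (-(1 / 2 : ℝ)) * N (v 1) ^ (-(1 / 2 + ε / 2)) *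
    N (v 2) ^ (-(1 / 2 + ε)) * kill d v

/-- the shape of the local terms -/
def box (m : ℕ) (e : Fin 3 → ℕ) : ℝ := if e 0 ≤ 2 ∧ e 2 ≤ 1 then (1 / 2) ^ (e 1 - m) else 0

theorem norm_chi_le {Q : Lev} {n : O} (hn : P0 Q n) (d : O) : ‖chi n d‖ ≤ 1 :=
  norm_sym_le (k := 6) (by simp) (by simpa using hn.isCoprime_six) d

theorem chi_mul_left {a b : O} (ha : a ≠ 0) (hb : b ≠ 0) (d : O) :
    chi (a * b) d = chi a d * chi b d := sym_mul_left 6 ha hb d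

theorem chi_pow_left {a : O} (ha : a ≠ 0) (j : ℕ) (d : O) : chi (a ^ j) d = chi a d ^ j :=
  sym_pow_left 6 ha j d

theorem chi_one_left (d : O) : chi 1 d = 1 := sym_one 6 d

theorem chi_isChar {Q : Lev} {n : O} (hn : P0 Q n) : IsChar n (chi n) :=
  sym_isChar (k := 6) (by simp) (by simpa using hn.isCoprime_six)

theorem chi_eq_zero {Q : Lev} {p d : O} (hp : Prime p) (hp0 : P0 Q p) (h : p ∣ d) : chi p d = 0 :=
  ((chi_isChar hp0).zero_iff d).2 fun h' => hp.coprime_iff_not_dvd.1 h'.symm h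

theorem chi_sixth {Q : Lev} {p a : O} (hp : Prime p) (hp0 : P0 Q p) (d' : O) (h : ¬ p ∣ a) :
    chi p (d' * a ^ 6) = chi p d' := by
  rw [(chi_isChar hp0).mul, ChA.chi_pow_six hp0.isCoprime_six,
    if_pos (hp.coprime_iff_not_dvd.2 h), mul_one]

theorem P0_pow {Q : Lev} {p : O} (hp : P0 Q p) (j : ℕ) : P0 Q (p ^ j) :=
  ⟨hp.1.pow j, hp.2.pow_left⟩

theorem P0_prod {Q : Lev} {I : Finset O} (hI : ∀ p ∈ I, P0 Q p) : P0 Q (∏ p ∈ I, p) :=
  Finset.prod_induction _ _ (fun _ _ => P0.mul) (P0.one Q) hI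

theorem P0_div {Q : Lev} {n e : O} (hn : P0 Q n) (he : e ∈ pdiv n) : P0 Q e ∧ P0 Q (n / e) := by
  obtain ⟨h1, h2⟩ := (mem_pdiv hn.1.ne_zero).1 he
  exact ⟨hn.of_dvd h1 h2, hn.of_dvd (hn.1.div h1 h2)
    (Dvd.intro_left _ (EuclideanDomain.mul_div_cancel' h1.ne_zero h2))⟩

theorem four_le_N {Q : Lev} {p : O} (hp : Prime p) (hp0 : P0 Q p) : 4 ≤ N p := by
  have h0 := nm_pos hp.ne_zero
  have h1 : nm p ≠ 1 := fun h => hp.not_isUnit (isUnit_iff_nm.2 h)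
  have h2 : ¬ 2 ∣ nm p := fun h => by
    have := isUnit_iff_nm.1 (hp0.isCoprime_two.isUnit_of_dvd' (b1_two_dvd_iff_nm.2 h) dvd_rfl)
    revert this; decide
  have h3 : ¬ 3 ∣ nm p := fun h => prime_lam.not_isUnit
    (hp0.1.isCoprime_lam.isUnit_of_dvd' (b1_lam_dvd_iff_nm.2 h) dvd_rfl)
  have : 4 ≤ nm p := by omega
  unfold N
  exact_mod_cast this

theorem mem_slot {Q : Lev} {yp R : ℝ} {p : O} (hp : p ∈ slot Q yp R) :
    Prime p ∧ P0 Q p ∧ N p ≤ Real.exp (yp + R) := by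
  unfold slot at hp
  rw [Finset.mem_filter, mem_ball] at hp
  exact ⟨hp.2.1, ⟨hp.2.2.1, hp.2.1.coprime_iff_not_dvd.2 hp.2.2.2.1⟩, hp.1.2⟩

/-- a set of primary primes is determined by its product -/
theorem prod_primes_inj {I I' : Finset O} (hI : ∀ p ∈ I, Prime p ∧ Prim p)
    (hI' : ∀ p ∈ I', Prime p ∧ Prim p) (h : ∏ p ∈ I, p = ∏ p ∈ I', p) : I = I' := by
  have key : ∀ {A B : Finset O}, (∀ p ∈ A, Prime p ∧ Prim p) → (∀ p ∈ B, Prime p ∧ Prim p) →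
      ∏ p ∈ A, p = ∏ p ∈ B, p → A ⊆ B := by
    intro A B hA hB e p hp
    obtain ⟨q, hq, hpq⟩ := (hA p hp).1.exists_mem_finset_dvd (e ▸ Finset.dvd_prod_of_mem _ hp)
    rwa [(hA p hp).2.eq_of_associated (hB q hq).2 ((hA p hp).1.associated_of_dvd (hB q hq).1 hpq)]
  exact Finset.Subset.antisymm (key hI hI' h) (key hI' hI h.symm)

theorem norm_cpow_N {n : O} (hn : n ≠ 0) (ε τ : ℝ) :
    ‖(N n : ℂ) ^ (-(1 / 2 : ℂ) + ε + τ * Complex.I)‖ = N n ^ (-(1 / 2) + ε) := by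
  rw [Complex.norm_cpow_eq_rpow_re_of_pos (N_pos hn)]
  simp

theorem norm_Wt {n : O} (hn : n ≠ 0) (y ε τ : ℝ) :
    ‖Wt y ε τ n‖ = N n ^ (-(1 / 2) + ε) * gw (Real.log (N n) - y) := by
  rw [Wt, norm_mul, norm_cpow_N hn, Complex.norm_real, Real.norm_of_nonneg (gw_pos _).le]

theorem wP_nonneg (yp : ℝ) {p : O} (hp : p ≠ 0) : 0 ≤ wP yp p :=
  mul_nonneg (Real.log_nonneg (one_le_N hp)) (gw_pos _).le

theorem norm_up {p : O} (hp : p ≠ 0) (yp ε τ : ℝ) :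
    ‖up yp ε τ p‖ = wP yp p * N p ^ (-(1 / 2) + ε) := by
  rw [up, norm_mul, norm_cpow_N hp, Complex.norm_real, Real.norm_of_nonneg (wP_nonneg yp hp)]

/-- the size of the marks -/
theorem norm_up_le {p : O} (hp : p ≠ 0) (yp τ : ℝ) {ε L : ℝ} (hε : 0 ≤ ε) (hL : N p ≤ Real.exp L) :
    ‖up yp ε τ p‖ ≤ L * Real.exp (2 * ε * L) * N p ^ (-(1 / 2 + ε)) := by
  have h0 := N_pos hp
  have h1 : Real.log (N p) ≤ L := (Real.log_le_iff_le_exp h0).2 hL
  have h2 : wP yp p ≤ L :=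
    (mul_le_of_le_one_right (Real.log_nonneg (one_le_N hp)) (gw_le_one _)).trans h1
  have h3 : N p ^ (2 * ε) ≤ Real.exp (2 * ε * L) := by
    rw [Real.rpow_def_of_pos h0, mul_comm]
    exact Real.exp_le_exp.2 (mul_le_mul_of_nonneg_left h1 (by positivity))
  rw [norm_up hp, show -(1 / 2) + ε = 2 * ε + -(1 / 2 + ε) by ring, Real.rpow_add h0, mul_assoc]
  exact mul_le_mul h2 (mul_le_mul_of_nonneg_right h3 (by positivity)) (by positivity)
    ((wP_nonneg yp hp).trans h2)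

/-- the total length of the marks is at most `5z/16` -/
theorem J_mul_L_le {J : ℕ} (hJ : 1 ≤ J) {ρ z : ℝ} (hρ1 : ρ ≤ 5 / (48 * J)) (hz : 0 ≤ z) :
    J * (yP J z + ρ * z) ≤ 5 / 16 * z := by
  have hJ' : (0 : ℝ) < J := by exact_mod_cast hJ
  have h1 : J * yP J z = 5 / 24 * z := by unfold yP; field_simp
  have h2 : J * ρ ≤ 5 / 48 := by
    rw [le_div_iff₀ (by positivity)] at hρ1
    linarith
  nlinarith

theorem L_nonneg (J : ℕ) {ρ z : ℝ} (hρ : 0 < ρ) (hz : 0 ≤ z) : 0 ≤ yP J z + ρ * z := by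
  unfold yP; positivity

theorem kill_nonneg (d : O) (v : Fin 3 → O) : 0 ≤ kill d v := by
  unfold kill; split_ifs <;> norm_num

theorem kill_le_one (d : O) (v : Fin 3 → O) : kill d v ≤ 1 := by
  unfold kill; split_ifs <;> norm_num

theorem maj_nonneg (d d' : O) (ε : ℝ) (v : Fin 3 → O) : 0 ≤ maj d d' ε v :=
  mul_nonneg (mul_nonneg (mul_nonneg (mul_nonneg (norm_nonneg _)
    (Real.rpow_nonneg (N_nonneg _) _)) (Real.rpow_nonneg (N_nonneg _) _))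
    (Real.rpow_nonneg (N_nonneg _) _)) (kill_nonneg d v)

theorem box_nonneg (m : ℕ) (e : Fin 3 → ℕ) : 0 ≤ box m e := by
  unfold box; split_ifs <;> positivity

end Crest.Agent.R17.H2
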