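import Crest.Agent.R17.High2_Defs

/-!
# R17 / High2_Mul : multiplicativity of `Fv`, `Hv`, `maj`
-/

set_option autoImplicit false

noncomputable section

open scoped Classical ComplexConjugate

namespace Crest.Agent.R17.H2

theorem hm_upd0 (l n i x : O) : Function.update ![l, n, i] 0 x = ![x, n, i] := by
  funext j; fin_cases j <;> simp

theorem hm_upd1 (l n i x : O) : Function.update ![l, n, i] 1 x = ![l, x, i] := by
  funext j; fin_cases j <;> simp

/-- unfolding a double convolution -/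
theorem hm_conv (f g : O → ℂ) (F : (Fin 3 → O) → ℂ) (l n i : O) :
    conv 0 f (conv 1 g F) ![l, n, i] =
      ∑ e0 ∈ pdiv l, (∑ e1 ∈ pdiv n, F ![l / e0, n / e1, i] * g e1) * f e0 := by
  simp only [conv, Matrix.cons_val_zero, hm_upd0, Matrix.cons_val_one, hm_upd1]

theorem hm_mul1_mm {Q : Lev} {f : O → ℂ} (hf : Mul1 Q f) : Mul1 Q (mm f) := by
  refine ⟨by rw [mm, mu_one, hf.1, one_mul], fun a b ha hb hab => ?_⟩
  simp only [mm]
  rw [mu_mul hab, hf.2 a b ha hb hab]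
  ring

theorem hm_chi_mul {Q : Lev} (d : O) (a b : O) (ha : P0 Q a) (hb : P0 Q b) :
    chi (a * b) d = chi a d * chi b d := chi_mul_left ha.1.ne_zero hb.1.ne_zero d

theorem hm_cchi_mul {Q : Lev} (d : O) (a b : O) (ha : P0 Q a) (hb : P0 Q b) :
    conj (chi (a * b) d) = conj (chi a d) * conj (chi b d) := by
  rw [hm_chi_mul d a b ha hb, map_mul]

theorem hm_P0v {Q : Lev} {a b c : O} (ha : P0 Q a) (hb : P0 Q b) (hc : P0 Q c) :
    P0v Q ![a, b, c] := by
  intro j; fin_cases j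
  · exact ha
  · exact hb
  · exact hc

/-- `cc_one`, `cc_mul` (with `l₁ = v 0`, `m₁ = v 1 * v 2`), `mu_mul`, `Fin.prod_univ_three` -/
theorem tmul_Fv (Q : Lev) (d : O) : TMul Q (Fv d) := by
  refine ⟨by simp [Fv, mu_one, cc_one], fun v w hv hw h => ?_⟩
  rw [Fin.prod_univ_three, Fin.prod_univ_three] at h
  simp only [Fv, Pi.mul_apply]
  have h2 : IsCoprime (v 2) (w 2) := h.of_mul_left_right.of_mul_right_right
  rw [mu_mul h2, show v 1 * w 1 * (v 2 * w 2) = (v 1 * v 2) * (w 1 * w 2) by ring,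
    cc_mul d (hv 0) ((hv 1).mul (hv 2)) (hw 0) ((hw 1).mul (hw 2))
      (by rwa [← mul_assoc, ← mul_assoc])]
  ring

/-- `TMul.conv` twice; `chi_mul_left`, `chi_one_left`, `mu_mul` for the two `Mul1` -/
theorem tmul_Hv (Q : Lev) (d d' : O) : TMul Q (Hv d d') := by
  have h1 : Mul1 Q (fun n => chi n d') :=
    ⟨chi_one_left d', fun a b ha hb _ => hm_chi_mul d' a b ha hb⟩
  have h2 : Mul1 Q (fun n => conj (chi n d')) :=
    ⟨by simp only [chi_one_left, map_one], fun a b ha hb _ => hm_cchi_mul d' a b ha hb⟩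
  exact ((tmul_Fv Q d).conv 1 h1).conv 0 (hm_mul1_mm h2)

/-- With `χ n = chi n d'`, `G = conv 1 χ F`, `H = conv 0 (mm χ̄) G`:
`conv 0 χ̄ (conv 1 (mm χ) H) = conv 0 χ̄ (conv 0 (mm χ̄) (conv 1 (mm χ) G))` (`conv_comm`)
`= conv 1 (mm χ) G = F` at `![l,n,i]` (`conv_mm_cancel`, `conv_cancel_mm`); then unfold `conv`
(`Function.update ![l,n,i] 0 x = ![x,n,i]` by `funext j; fin_cases j <;> simp`). -/
theorem Fv_expand {Q : Lev} (d d' : O) {l n : O} (hl : P0 Q l) (hn : P0 Q n) (i : O) :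
    Fv d ![l, n, i] = ∑ e0 ∈ pdiv l, (∑ e1 ∈ pdiv n,
      Hv d d' ![l / e0, n / e1, i] * mm (fun m => chi m d') e1) * conj (chi e0 d') := by
  rw [← hm_conv (fun n => conj (chi n d')) (mm fun m => chi m d') (Hv d d') l n i]
  unfold Hv
  rw [conv_comm (i := (1 : Fin 3)) (j := 0) (by decide),
    conv_mm_cancel (Q := Q) (by rw [chi_one_left, map_one]) (hm_cchi_mul d') 0 _ (by simpa using hl),
    conv_cancel_mm (Q := Q) (chi_one_left d') (hm_chi_mul d') 1 _ (by simpa using hn)]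

/-- `norm_cc_le`, `norm_mu_le` -/
theorem norm_Fv_le {Q : Lev} (d : O) {l n i : O} (hl : P0 Q l) (hn : P0 Q n) (hi : P0 Q i) :
    ‖Fv d ![l, n, i]‖ ≤ N l * N n * N i := by
  have h := norm_cc_le d hl (hn.mul hi)
  rw [N_mul, ← mul_assoc] at h
  simp only [Fv, Matrix.cons_val_zero, Matrix.cons_val_one, Matrix.cons_val]
  rw [norm_mul]
  exact (mul_le_of_le_one_left (norm_nonneg _) (norm_mu_le i)).trans h

/-- unfold `conv`; `norm_Fv_le`, `P0_div`, `N_le_of_dvd`, `card_pdiv_le_N` -/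
theorem norm_Hv_le {Q : Lev} (d d' : O) {h1 h2 i : O} (hh1 : P0 Q h1) (hh2 : P0 Q h2)
    (hi : P0 Q i) : ‖Hv d d' ![h1, h2, i]‖ ≤ N i * N h1 ^ 2 * N h2 ^ 2 := by
  unfold Hv
  rw [hm_conv]
  have hN1 := N_nonneg h1
  have hN2 := N_nonneg h2
  have hNi := N_nonneg i
  have key : ∀ e0 ∈ pdiv h1, ‖(∑ e1 ∈ pdiv h2, Fv d ![h1 / e0, h2 / e1, i] * chi e1 d') *
      mm (fun n => conj (chi n d')) e0‖ ≤ N h2 * (N h1 * N h2 * N i) := by
    intro e0 he0
    obtain ⟨a1, a2, a3⟩ := e4_P0_div hh1 he0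
    have b1 : ‖mm (fun n => conj (chi n d')) e0‖ ≤ 1 := by
      simp only [mm]
      rw [norm_mul, Complex.norm_conj]
      exact mul_le_one₀ (norm_mu_le _) (norm_nonneg _) (norm_chi_le a1 d')
    rw [norm_mul]
    refine (mul_le_of_le_one_right (norm_nonneg _) b1).trans ((norm_sum_le _ _).trans ?_)
    refine (Finset.sum_le_card_nsmul _ _ (N h1 * N h2 * N i) (fun e1 he1 => ?_)).trans ?_
    · obtain ⟨c1, c2, c3⟩ := e4_P0_div hh2 he1
      rw [norm_mul]
      refine (mul_le_of_le_one_right (norm_nonneg _) (norm_chi_le c1 d')).trans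
        ((norm_Fv_le d a2 c2 hi).trans ?_)
      have d1 : N (h1 / e0) ≤ N h1 := N_le_of_dvd hh1.1.ne_zero (Dvd.intro_left _ a3.symm)
      have d2 : N (h2 / e1) ≤ N h2 := N_le_of_dvd hh2.1.ne_zero (Dvd.intro_left _ c3.symm)
      exact mul_le_mul_of_nonneg_right (mul_le_mul d1 d2 (N_nonneg _) hN1) hNi
    · rw [nsmul_eq_mul]
      exact mul_le_mul_of_nonneg_right (card_pdiv_le_N hh2.1.ne_zero) (by positivity)
  refine (norm_sum_le _ _).trans ((Finset.sum_le_card_nsmul _ _ _ key).trans ?_)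
  rw [nsmul_eq_mul]
  refine (mul_le_mul_of_nonneg_right (card_pdiv_le_N hh1.1.ne_zero) (by positivity)).trans
    (le_of_eq ?_)
  ring

/-- `pdiv 1 = {1}` (`b3_pdiv_of_isUnit`), `cc_prime`, `mu_prime` -/
theorem Hv_prime {Q : Lev} (d d' : O) {p : O} (hp : Prime p) (hp0 : P0 Q p) :
    Hv d d' ![1, 1, p] = chi p d := by
  unfold Hv
  rw [hm_conv, e4_pdiv_one, Finset.sum_singleton, Finset.sum_singleton]
  simp only [Fv, mm, EuclideanDomain.div_one, Matrix.cons_val_zero, Matrix.cons_val_one,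
    Matrix.cons_val, one_mul, mu_one, chi_one_left, map_one, mul_one]
  rw [cc_prime hp hp0, mu_prime hp]
  ring

/-- induction on `I` with `tmul_Hv` (`![h1,h2,i*p] = ![h1,h2,i] * ![1,1,p]`), `Hv_prime`; distinct
primary primes are coprime (`Prim.b3_isCoprime_of_ne`) -/
theorem Hv_mul_prod {Q : Lev} (d d' : O) {h1 h2 i : O} (hh1 : P0 Q h1) (hh2 : P0 Q h2)
    (hi : P0 Q i) {I : Finset O} (hI : ∀ p ∈ I, Prime p ∧ P0 Q p ∧ ¬ p ∣ h1 * h2 * i) :
    Hv d d' ![h1, h2, i * ∏ p ∈ I, p] = Hv d d' ![h1, h2, i] * ∏ p ∈ I, chi p d := by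
  induction I using Finset.induction_on with
  | empty => simp
  | insert p I hpI ih =>
    obtain ⟨hp, hp0, hpn⟩ := hI p (Finset.mem_insert_self _ _)
    have hI' : ∀ q ∈ I, Prime q ∧ P0 Q q ∧ ¬ q ∣ h1 * h2 * i :=
      fun q hq => hI q (Finset.mem_insert_of_mem hq)
    have hP : P0 Q (∏ q ∈ I, q) := P0_prod (fun q hq => (hI' q hq).2.1)
    have e : (![h1, h2, i * ∏ q ∈ insert p I, q] : Fin 3 → O) =
        ![h1, h2, i * ∏ q ∈ I, q] * ![1, 1, p] := by
      rw [Finset.prod_insert hpI]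
      funext j; fin_cases j
      · simp
      · simp
      · simp only [Fin.reduceFinMk, Matrix.cons_val, Pi.mul_apply]
        ring
    have hc : IsCoprime (∏ j, (![h1, h2, i * ∏ q ∈ I, q] : Fin 3 → O) j)
        (∏ j, (![1, 1, p] : Fin 3 → O) j) := by
      rw [Fin.prod_univ_three, Fin.prod_univ_three]
      simp only [Matrix.cons_val_zero, Matrix.cons_val_one, Matrix.cons_val, one_mul]
      rw [← mul_assoc]
      refine IsCoprime.mul_left (hp.coprime_iff_not_dvd.2 hpn).symm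
        (IsCoprime.prod_left (fun q hq => ?_))
      exact Prim.b3_isCoprime_of_ne (hI' q hq).1 (hI' q hq).2.1.1 hp hp0.1
        (fun h => hpI (h ▸ hq))
    rw [e, (tmul_Hv Q d d').2 _ _ (hm_P0v hh1 hh2 (hi.mul hP)) (hm_P0v (P0.one Q) (P0.one Q) hp0) hc,
      ih hI', Hv_prime d d' hp hp0, Finset.prod_insert hpI]
    ring

theorem hm_kill_aux {d : O} {v w : Fin 3 → O} (h : IsCoprime (v 0 * v 1 * v 2) (w 0 * w 1 * w 2))
    (hk : ∀ p : O, Prime p → p ∣ v 2 * w 2 → p ∣ v 0 * w 0 * (v 1 * w 1) * d) (p : O) (hp : Prime p)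
    (hp2 : p ∣ v 2) : p ∣ v 0 * v 1 * d := by
  have h1 := hk p hp (hp2.mul_right _)
  rw [show v 0 * w 0 * (v 1 * w 1) * d = (v 0 * v 1 * d) * (w 0 * w 1) by ring] at h1
  refine (hp.dvd_or_dvd h1).resolve_right (fun h2 => hp.not_isUnit ?_)
  exact h.isUnit_of_dvd' (hp2.mul_left _) (h2.mul_right _)

/-- if `p ∣ v 2` then `p` divides no entry of `w` (coprimality), so
`p ∣ v 0 w 0 v 1 w 1 d ↔ p ∣ v 0 v 1 d` -/
theorem tmul_kill (Q : Lev) (d : O) : TMul Q (kill d) := by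
  refine ⟨?_, fun v w _ _ h => ?_⟩
  · unfold kill
    exact if_pos (fun p hp h => absurd (isUnit_of_dvd_one h) hp.not_isUnit)
  rw [Fin.prod_univ_three, Fin.prod_univ_three] at h
  unfold kill
  simp only [Pi.mul_apply]
  by_cases hk : ∀ p : O, Prime p → p ∣ v 2 * w 2 → p ∣ v 0 * w 0 * (v 1 * w 1) * d
  · rw [if_pos hk, if_pos (hm_kill_aux h hk), if_pos (hm_kill_aux h.symm (fun p hp h' => ?_)), one_mul]
    rw [mul_comm (w 0), mul_comm (w 1)]
    exact hk p hp (by rwa [mul_comm])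
  · rw [if_neg hk]
    split_ifs with a b
    · refine absurd (fun p hp h' => ?_) hk
      rcases hp.dvd_or_dvd h' with h2 | h2
      · exact (a p hp h2).trans ⟨w 0 * w 1, by ring⟩
      · exact (b p hp h2).trans ⟨v 0 * v 1, by ring⟩
    · simp
    · simp
    · simp

/-- `TMul.mul`, `TMul.norm`, `Mul1.tmul`, `mul1_rpow` -/
theorem tmul_maj (Q : Lev) (d d' : O) (ε : ℝ) : TMul Q (maj d d' ε) :=
  (((((tmul_Hv Q d d').norm.mul ((mul1_rpow Q _).tmul 0)).mul ((mul1_rpow Q _).tmul 1)).mul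
    ((mul1_rpow Q _).tmul 2)).mul (tmul_kill Q d))

end Crest.Agent.R17.H2
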