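import Crest.Agent.R17.LCont
import Crest.Agent.R17.Chars
import Crest.Agent.R17.QLS_Step

/-!
# R17 / QLS : Heath-Brown's quadratic large sieve over `O`  (PART D)

Let `B(M,N)` be the best constant in
`∑_{b squarefree ∈ O, N b ≤ M} |∑_{n} a_n qua n b|² ≤ B ‖a‖²`, `n` running over primary squarefree
elements coprime to `2` of norm `≤ N`.  The theorem `qls` is the dual inequality (operator norm of the
transposed matrix; finite dimensional duality).  By `qua_rec` (rows `b = b₀ b₁`,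
`b₀ = unit·2^i λ^j`, `i,j ≤ 1`, `b₁` primary odd squarefree; split into classes mod `4`) and duality,
`B(M,N) ≤ C B(CN, M)`-type symmetry holds: `B(M,N) ≤ C · B(N, M)`.
**Claim(j)**: if `min(M,N) ≤ Z^{jη}` then `B(M,N) ≤ C_j Z^{ε_j} (max(M,N) + Z^{η} min(M,N))`
(`ε_j = j ε'`; `j = 0` trivial).  **Step**: let `N ≤ M`, split `n` dyadically (`N/2 < N n ≤ N`) and into
classes mod `4` (so that `q = n₁n₂/g²` satisfies `gam q = 1`, `gam_mul_sq`, `gam_sq_class`), enlarge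
`M` to `M' = max(M, N Z^{η+ε'})`, put `B₀ = N² Z^{ε'}/M' ≤ N Z^{-η}`.  Rows with `N b ≤ B₀` are
bounded by `B(B₀,N)`.  The other squarefree rows are bounded by
`S = ∑_{m ≠ 0, N ker(m) > B₀} Om(N m/M') |A(m)|²` where every `m ≠ 0` is counted via
`∑_m f(m) = (1/6) ∑_{b sqfree} ∑_{a ≠ 0} f(b a²)`.  Expand the square, `g = gcd(n₁,n₂)` (primary),
`q = n₁'n₂'`; `qua n₁ m qua n₂ m = 1_{(m,g)=1} qua q m`.  Diagonal `q = 1`: `≤ C M' ‖a‖²`.  For
`q ≠ 1`: (full sum over `m`) − (rows `N b ≤ B₀`).  Full sum: `1_{(m,g)=1} = ∑_{e ∣ g, e ∣ m} μ(e)`,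
`poisson_per`, `gs_qua`: `= ∑_{e∣g} μ(e) (M'/(N e √N q)) ∑_{k ≠ 0} qua q (e k) Om(N k M'/(N e N q))`.
Group `k` by the squarefree kernel `b' = b° b_g` of `e k` (`b_g ∣ g` primary, `b°` coprime to `g`),
`k = k₀ a²`, `k₀ = e b'/(e,b')²`.  By `lattice_mellin` (`k = 2`, applied after Möbius over the divisors
of `q` resp. `gq`, or to `1_{(a,q)=1}` via `Lf_remove`-type product `ζ(2s)∏_{p∣q}(1 - N p^{-2s})`) each
`a`-sum is a main term `c (φ(q)/q) √Υ` plus an integral on `Re s = σ`, `σ ∈ {ε', 1/2 - ε'}`, whose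
integrand factorises as (function of `n₁`)×(function of `n₂`)×(function of `b°`) with factors bounded
by divisor functions.  Main terms: dual side `c φ(q)/q √(M'/N b') (e,b')/e`, and
`∑_{e ∣ g} μ(e) N(e,b')/N e = φ(g)/g · 1_{(b',g)=1}` matches exactly the main term
`c φ(gq)/(gq) √(M'/N b)` of the subtracted rows `b = b°` coprime to `g`, `N b ≤ B₀`.  Terms with
`N b° > B₀` are negligible (`Om_le_pow`; `N b° ≤ N²/(N g M')` is the effective range).  Error terms: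
remove `(n₁',n₂') = 1` by Möbius (`r`), Cauchy–Schwarz, dyadic `N b° ~ B₁ ≤ B₀`:
original side `≤ Z^{Cε'} B(B₁, N/g)`; dual side for fixed `(e, b_g)`, with
`B' = N(e,b_g)² N² Z^{ε'}/(N b_g N g² M')`: if `B₁ ≤ B'` use `σ = ε'`, size `M' N g/(N e N)`; if
`B₁ > B'` use `σ = 1/2 - ε'`, size `√(M'/B₁) N(e,b_g)/(N e √N b_g)`.  With the induction hypothesis
`B(B₁, N/g) ≤ C Z^{ε_j}(N/N g + 2 Z^η B₁)` all terms are `≤ Z^{ε_j + Cε'} M' ‖a^{(g r)}‖²`, and
`∑_{g,r} ‖a^{(gr)}‖² ≤ Z^{ε'} ‖a‖²`.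

The formal proof (files `QLS_*`) follows this plan, but drops the condition `(m,g) = 1` by a
positivity argument (`QL.Phi_eq`), so that no sum over `e ∣ g` is needed.
-/

set_option autoImplicit false

noncomputable section

open scoped Classical ComplexConjugate

namespace Crest.Agent.R17

/-- **Quadratic large sieve.** -/
theorem qls (A : ℝ) {ε : ℝ} (hε : 0 < ε) : ∃ C, ∀ Z : ℝ, 3 ≤ Z → ∀ K X : ℝ, 1 ≤ K → K ≤ Z ^ A →
    1 ≤ X → X ≤ Z ^ A → ∀ a : O → ℂ,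
    ∑ k ∈ (ball K).filter (fun k => Prim k ∧ Squarefree k ∧ IsCoprime k 2),
      ‖∑ b ∈ (ball X).filter Squarefree, a b * qua k b‖ ^ 2 ≤
      C * Z ^ ε * (K + X) * ∑ b ∈ (ball X).filter Squarefree, ‖a b‖ ^ 2 := by
  obtain ⟨C, hC0, hC⟩ := QL.HH_final A hε
  refine ⟨C, fun Z hZ K X hK hKZ hX hXZ a => ?_⟩
  exact QL.Bd.transpose (hC Z hZ K X hK hKZ hX hXZ) (by positivity) a

end Crest.Agent.R17
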