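import Crest.Agent.R17.ThetaNorm_Row

/-!
# R17 / ThetaNorm_Prim : all primary rows (task).  Statements frozen.
-/

set_option autoImplicit false

noncomputable section

open scoped Classical ComplexConjugate
open MeasureTheory

namespace Crest.Agent.R17
namespace TN

/-- `r ↦ (r', f4 r)` is injective, `N (f4 r) N r^{-1/2} = N r'^{-1/2}`, `f4 r ∈ pdiv r'`; `card_pdiv_le`,
`sum_powerful_le` -/
theorem sum_r4 {ε : ℝ} (hε : 0 < ε) : ∃ C, 0 ≤ C ∧ ∀ X : ℝ, 1 ≤ X → ∀ (S : Finset O) (f4 : O → O),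
    (∀ r ∈ S, r ≠ 0 ∧ N r ≤ X ∧ Prim (f4 r) ∧ ∃ r', r = f4 r ^ 2 * r' ∧ f4 r ∣ r' ∧ Pw r') →
    ∑ r ∈ S, N (f4 r) * N r ^ (-(1 / 2) : ℝ) ≤ C * X ^ ε := by
  obtain ⟨C1, h1⟩ := card_pdiv_le (half_pos hε)
  obtain ⟨C2, h2⟩ := sum_powerful_le (half_pos hε)
  refine ⟨|C1| * |C2|, by positivity, fun X hX S f4 hS => ?_⟩
  have hS' : ∀ r, r ∈ S → ∃ r', r = f4 r ^ 2 * r' ∧ f4 r ∣ r' ∧ Pw r' := fun r hr => (hS r hr).2.2.2
  choose! g hg1 hg2 hg3 using hS'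
  have hg0 : ∀ r ∈ S, g r ≠ 0 := fun r hr h => (hS r hr).1 (by rw [hg1 r hr, h, mul_zero])
  have hgX : ∀ r ∈ S, N (g r) ≤ X := fun r hr =>
    (N_le_of_dvd (hS r hr).1 (Dvd.intro_left _ (hg1 r hr).symm)).trans (hS r hr).2.1
  have e1 : ∀ r ∈ S, N (f4 r) * N r ^ (-(1 / 2) : ℝ) = N (g r) ^ (-(1 / 2) : ℝ) := by
    intro r hr
    have hp := N_pos (hS r hr).2.2.1.ne_zero
    have e : N r = N (f4 r) ^ (2 : ℝ) * N (g r) := by
      rw [Real.rpow_two, ← N_pow, ← N_mul, ← hg1 r hr]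
    rw [e, Real.mul_rpow (by positivity) (N_nonneg _), ← Real.rpow_mul hp.le,
      show (2 : ℝ) * -(1 / 2) = -1 by norm_num, Real.rpow_neg_one, ← mul_assoc,
      mul_inv_cancel₀ hp.ne', one_mul]
  rw [Finset.sum_congr rfl e1, Finset.sum_comp (fun x => N x ^ (-(1 / 2) : ℝ)) g]
  have hX0 : 0 ≤ X := by linarith
  calc _ ≤ ∑ x ∈ S.image g, |C1| * X ^ (ε / 2) * N x ^ (-(1 / 2) : ℝ) := by
        refine Finset.sum_le_sum fun x hx => ?_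
        obtain ⟨r₀, hr₀, rfl⟩ := Finset.mem_image.1 hx
        rw [nsmul_eq_mul]
        refine mul_le_mul_of_nonneg_right ?_ (Real.rpow_nonneg (N_nonneg _) _)
        have hc : (S.filter fun r => g r = g r₀).card ≤ (pdiv (g r₀)).card := by
          refine Finset.card_le_card_of_injOn f4 (fun r hr => ?_) fun r hr r' hr' e => ?_
          · obtain ⟨a1, a2⟩ := Finset.mem_filter.1 hr
            exact (mem_pdiv (hg0 r₀ hr₀)).2 ⟨(hS r a1).2.2.1, a2 ▸ hg2 r a1⟩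
          · obtain ⟨a1, a2⟩ := Finset.mem_filter.1 hr
            obtain ⟨b1, b2⟩ := Finset.mem_filter.1 hr'
            rw [hg1 r a1, hg1 r' b1, e, a2, b2]
        refine (Nat.cast_le.2 hc).trans ((h1 _ (hg0 r₀ hr₀)).trans ?_)
        exact mul_le_mul (le_abs_self _) (Real.rpow_le_rpow (N_nonneg _) (hgX r₀ hr₀)
          (half_pos hε).le) (Real.rpow_nonneg (N_nonneg _) _) (abs_nonneg _)
    _ ≤ |C1| * X ^ (ε / 2) * (|C2| * X ^ (ε / 2)) := by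
        rw [← Finset.mul_sum]
        refine mul_le_mul_of_nonneg_left ((h2 X hX _ fun x hx => ?_).trans
          (mul_le_mul_of_nonneg_right (le_abs_self _) (by positivity))) (by positivity)
        obtain ⟨r₀, hr₀, rfl⟩ := Finset.mem_image.1 hx
        exact ⟨hg0 r₀ hr₀, hgX r₀ hr₀, hg3 r₀ hr₀⟩
    _ = |C1| * |C2| * X ^ ε := by
        rw [show X ^ ε = X ^ (ε / 2) * X ^ (ε / 2) by
          rw [← Real.rpow_add (by linarith), add_halves]]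
        ring

/-- Choose `k₁ = s(k₁) * r(k₁)` (`exists_sqfree_powerful`), split `T` along the fibres of `r`; on a fibre
`∑ ‖F1 k₁‖² = ∑_{k ∈ image s} ‖F1 (k * r)‖²`.  `expn` (choose `f4`), `row` with
`W² = 4^ω N r₄ ≤ C Z^ε' N r₄` (`pow_primes_Z`), `sum_r4` with `X = K`, `K^{ε''} ≤ Z^{ε'}`. -/
theorem prim_rows : ∃ B0 : ℕ, ∀ (A ε : ℝ), 0 < ε → ∃ (C : ℝ) (B : ℕ), 0 ≤ C ∧ ∀ Z : ℝ, 3 ≤ Z →
    ∀ Q0 : O, Q0 ≠ 0 → (3 : O) ∣ Q0 → N Q0 ≤ Z ^ A →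
    ∀ φ : O → ℂ, Per Q0 φ → (∀ m, ‖φ m‖ ≤ 1) →
    ∀ (T S : Finset O) (a : O → ℂ) (K L y t : ℝ),
    (∀ k ∈ T, Prim k ∧ IsCoprime k 2 ∧ IsCoprime k Q0 ∧ N k ≤ K) → Sq6 S L →
    (∀ l ∈ S, IsCoprime l Q0) → (∀ l, ‖a l‖ ≤ 1) →
    1 ≤ K → K ≤ Z ^ A → 1 ≤ L → L ≤ Z ^ A → |y| ≤ A * Real.log Z →
    ∑ k ∈ T, ‖F1 φ S a y t k‖ ^ 2 ≤
      C * Z ^ ε * N Q0 ^ B0 * (1 + |t|) ^ B * mainB K L y := by
  obtain ⟨B0, hrow⟩ := row
  refine ⟨B0, fun A ε hε => ?_⟩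
  have hε3 : 0 < ε / 3 := by positivity
  obtain ⟨C1, B, hC1, hrow⟩ := hrow A (ε / 3) hε3
  obtain ⟨C2, hC2, hpp⟩ := pow_primes_Z A hε3
  obtain ⟨C3, hC3, hr4⟩ := sum_r4 (ε := ε / 3 / (|A| + 1)) (by positivity)
  refine ⟨C1 * C2 * C3, B, by positivity, ?_⟩
  intro Z hZ Q0 hQ0 h3 hQZ φ hφ hφ1 T S a K L y t hT hS hSQ ha hK hKZ hL hLZ hy
  have hdec : ∀ k, k ∈ T → ∃ s f, Prim s ∧ Prim f ∧ Squarefree s ∧ IsCoprime s f ∧ Pw f ∧
      k = s * f := fun k hk => exists_sqfree_powerful (hT k hk).1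
  choose! s r hs hr hsq hcop hpw hk using hdec
  have hrk : ∀ k ∈ T, r k ∣ k := fun k hk' => Dvd.intro_left _ (hk k hk').symm
  have hsk : ∀ k ∈ T, s k ∣ k := fun k hk' => Dvd.intro _ (hk k hk').symm
  have hrK : ∀ k ∈ T, N (r k) ≤ K := fun k hk' =>
    (N_le_of_dvd (hT k hk').1.ne_zero (hrk k hk')).trans (hT k hk').2.2.2
  have hexp : ∀ x, x ∈ T.image r → ∃ r4 : O, (Prim r4 ∧ ∃ r', x = r4 ^ 2 * r' ∧ r4 ∣ r' ∧ Pw r') ∧
      Expn x (fun m => conj (chi x m))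
        (2 ^ ((pdiv x).filter Prime).card * Real.sqrt (N r4)) := by
    intro x hx
    obtain ⟨k, hk', rfl⟩ := Finset.mem_image.1 hx
    obtain ⟨r4, r', a1, a2, a3, a4, a5⟩ := expn (hr k hk')
      ((hT k hk').2.1.of_isCoprime_of_dvd_left (hrk k hk')) (hpw k hk')
    exact ⟨r4, ⟨a1, r', a2, a3, a4⟩, a5⟩
  choose! f4 hf4 hE using hexp
  have hZ0 : 0 < Z := by linarith
  have hM : 0 ≤ mainB K L y := by
    unfold mainB
    have : 0 ≤ K := by linarith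
    have : 0 ≤ L := by linarith
    positivity
  have hNQ := N_nonneg Q0
  set M : ℝ := C1 * Z ^ (ε / 3) * N Q0 ^ B0 * (1 + |t|) ^ B * (C2 * Z ^ (ε / 3)) * mainB K L y
    with hMdef
  have hM0 : 0 ≤ M := by positivity
  have key : ∀ x ∈ T.image r, ∑ k ∈ T.filter (fun k => r k = x), ‖F1 φ S a y t k‖ ^ 2 ≤
      M * (N (f4 x) * N x ^ (-(1 / 2) : ℝ)) := by
    intro x hx
    obtain ⟨k₀, hk₀, rfl⟩ := Finset.mem_image.1 hx
    have hx0 := (hr k₀ hk₀).ne_zero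
    have e : ∑ k ∈ T.filter (fun k => r k = r k₀), ‖F1 φ S a y t k‖ ^ 2 =
        ∑ k ∈ (T.filter (fun k => r k = r k₀)).image s, ‖F1 φ S a y t (k * r k₀)‖ ^ 2 := by
      rw [Finset.sum_image]
      · refine Finset.sum_congr rfl fun k hk' => ?_
        obtain ⟨a1, a2⟩ := Finset.mem_filter.1 hk'
        rw [← a2, ← hk k a1]
      · intro k hk1 k' hk2 e
        obtain ⟨a1, a2⟩ := Finset.mem_filter.1 hk1
        obtain ⟨b1, b2⟩ := Finset.mem_filter.1 hk2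
        rw [hk k a1, hk k' b1, e, a2, b2]
    rw [e]
    refine (hrow Z hZ Q0 hQ0 h3 hQZ φ hφ hφ1 (r k₀) _ (hr k₀ hk₀)
      ((hT k₀ hk₀).2.1.of_isCoprime_of_dvd_left (hrk k₀ hk₀))
      ((hT k₀ hk₀).2.2.1.of_isCoprime_of_dvd_left (hrk k₀ hk₀)) (hE _ hx) _ S a K L y t ?_ hS ?_
      hSQ ha (hrK k₀ hk₀) hKZ hL hLZ hy).trans ?_
    · intro l hl
      obtain ⟨k, hk', rfl⟩ := Finset.mem_image.1 hl
      obtain ⟨a1, a2⟩ := Finset.mem_filter.1 hk'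
      refine ⟨hs k a1, hsq k a1, (hT k a1).2.1.of_isCoprime_of_dvd_left (hsk k a1), ?_⟩
      rw [le_div_iff₀ (N_pos hx0), ← a2, ← N_mul, ← hk k a1]
      exact (hT k a1).2.2.2
    · intro l hl
      obtain ⟨k, hk', rfl⟩ := Finset.mem_image.1 hl
      obtain ⟨a1, a2⟩ := Finset.mem_filter.1 hk'
      exact ⟨(hT k a1).2.2.1.of_isCoprime_of_dvd_left (hsk k a1), a2 ▸ hcop k a1⟩
    · have h4 := hpp Z hZ (r k₀) hx0 ((hrK k₀ hk₀).trans hKZ)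
      have e2 : ((2 : ℝ) ^ ((pdiv (r k₀)).filter Prime).card * Real.sqrt (N (f4 (r k₀)))) ^ 2 =
          4 ^ ((pdiv (r k₀)).filter Prime).card * N (f4 (r k₀)) := by
        rw [mul_pow, Real.sq_sqrt (N_nonneg _), ← pow_mul, mul_comm _ 2, pow_mul]
        norm_num
      rw [e2, hMdef]
      have a1 := N_nonneg (f4 (r k₀))
      have a2 := Real.rpow_nonneg (N_nonneg (r k₀)) (-(1 / 2) : ℝ)
      calc _ ≤ C1 * Z ^ (ε / 3) * N Q0 ^ B0 * (1 + |t|) ^ B * (C2 * Z ^ (ε / 3) * N (f4 (r k₀))) *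
            N (r k₀) ^ (-(1 / 2) : ℝ) * mainB K L y := by gcongr
        _ = _ := by ring
  rw [← Finset.sum_fiberwise_of_maps_to (g := r) (t := T.image r)
    (fun k hk' => Finset.mem_image_of_mem r hk')]
  refine (Finset.sum_le_sum key).trans ?_
  rw [← Finset.mul_sum]
  have h5 := hr4 K hK (T.image r) f4 fun x hx => by
    obtain ⟨k₀, hk₀, rfl⟩ := Finset.mem_image.1 hx
    exact ⟨(hr k₀ hk₀).ne_zero, hrK k₀ hk₀, hf4 _ hx⟩
  have h6 := aux_rpow hε3 hZ (by linarith : 0 ≤ K) hKZ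
  refine (mul_le_mul_of_nonneg_left (h5.trans (mul_le_mul_of_nonneg_left h6 hC3)) hM0).trans
    (le_of_eq ?_)
  rw [hMdef, show Z ^ ε = Z ^ (ε / 3) * Z ^ (ε / 3) * Z ^ (ε / 3) by
    rw [← Real.rpow_add hZ0, ← Real.rpow_add hZ0]; congr 1; ring]
  ring

end TN
end Crest.Agent.R17
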