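import Crest.Agent.R17.ThetaNorm_Aux

/-!
# R17 / ThetaNorm_Red : reduction to primary rows (task).  Statements frozen.
-/

set_option autoImplicit false

noncomputable section

open scoped Classical ComplexConjugate
open MeasureTheory

namespace Crest.Agent.R17
namespace TN

/-- the twisted weight -/
def tw (φ : O → ℂ) (k0 x : O) : O → ℂ := fun m => φ m * conj (chi m k0) * conj (sg m x)

theorem red_six {Q0 m : O} (h72 : (72 : O) ∣ Q0) (hm : IsCoprime m Q0) : IsCoprime m 6 :=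
  hm.of_isCoprime_of_dvd_right (Dvd.dvd.trans ⟨12, by norm_num⟩ h72)

theorem red_sg {a a' : O} (b : O) (h : (4 : O) ∣ a - a') : sg a b = sg a' b := by
  obtain ⟨t, ht⟩ := h
  have := sg_per b a' t
  simp only at this
  rw [← this]
  congr 1
  linear_combination ht

/-- if `φ m ≠ 0` then `m` is coprime to `6`; `chi_congr` (primes dividing `k0` divide `Q0`), `sg_per` -/
theorem tw_per {Q0 k0 : O} {j : ℕ} (hQ : Q0 ≠ 0) (h72 : (72 : O) ∣ Q0) (hk : k0 ∣ Q0 ^ j) {φ : O → ℂ}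
    (hφ : Per Q0 φ) (hs : ∀ m, φ m ≠ 0 → Prim m ∧ IsCoprime m Q0) (x : O) :
    Per Q0 (tw φ k0 x) := by
  intro m t
  unfold tw
  rw [hφ m t]
  by_cases h0 : φ m = 0
  · rw [h0]; simp
  have hk0 : k0 ≠ 0 := by
    rintro rfl
    exact pow_ne_zero j hQ (zero_dvd_iff.1 hk)
  have hm := (hs m h0).2
  have hd : Q0 ∣ m - (m + Q0 * t) := ⟨-t, by ring⟩
  have e1 : chi m k0 = chi (m + Q0 * t) k0 :=
    chi_congr hk0 (red_six h72 hm) (h72.trans hd) fun p hp hpk =>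
      (hp.dvd_of_dvd_pow (hpk.trans hk)).trans hd
  have e2 : sg m x = sg (m + Q0 * t) x :=
    red_sg x ((Dvd.dvd.trans ⟨18, by norm_num⟩ h72).trans hd)
  rw [← e1, ← e2]

theorem norm_tw_le {Q0 : O} (h72 : (72 : O) ∣ Q0) {φ : O → ℂ} (hb : ∀ m, ‖φ m‖ ≤ 1)
    (hs : ∀ m, φ m ≠ 0 → Prim m ∧ IsCoprime m Q0) (k0 : O) {x : O} (hx : IsCoprime x 2) (m : O) :
    ‖tw φ k0 x m‖ ≤ 1 := by
  unfold tw
  by_cases h0 : φ m = 0
  · rw [h0]; simp
  have h6 := red_six h72 (hs m h0).2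
  have h2 := rkey_two h6
  rw [norm_mul, norm_mul, RCLike.norm_conj, RCLike.norm_conj, norm_sg h2 hx, mul_one]
  exact mul_le_one₀ (hb m) (norm_nonneg _) ((rkey_chi h6).norm_le (rkey_ne h2) k0)

/-- termwise equality of the coefficient functions (`pb a = blk (prim a)`): `chi m (k0 k1) = chi m k0 * chi m k1`,
`chi_rec`, `sg_comm`, `sg_per` -/
theorem Fth_eq {Q0 : O} (h72 : (72 : O) ∣ Q0) {φ : O → ℂ}
    (hs : ∀ m, φ m ≠ 0 → Prim m ∧ IsCoprime m Q0) (k0 : O) {k1 x : O} (h1 : Prim k1)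
    (h2 : IsCoprime k1 2) (hx : (4 : O) ∣ k1 - x) (S : Finset O) (a : O → ℂ) (y t : ℝ) :
    Fth φ S a (k0 * k1) y t = F1 (tw φ k0 x) S a y t k1 := by
  unfold Fth F1 pb
  refine Finset.sum_congr rfl fun l _ => ?_
  congr 2
  funext m
  unfold prim tw
  by_cases h0 : φ m = 0
  · simp [h0]
  obtain ⟨hp, hm⟩ := hs m h0
  have h6 := red_six h72 hm
  rw [if_pos hp]
  beta_reduce
  by_cases hl : l ∣ m
  · rw [if_pos hl, if_pos hl, (rkey_chi h6).mul, chi_rec hp h1 (rkey_two h6) h2, sg_comm m k1,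
      red_sg m hx, sg_comm x m, map_mul, map_mul]
    ring
  · rw [if_neg hl, if_neg hl]

end TN
end Crest.Agent.R17
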