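import Crest.Agent.R17.Voronoi
import Crest.Agent.R17.QLS
import Crest.Agent.R17.TLS
import Crest.Agent.R17.ThetaNorm_Prim
import Crest.Agent.R17.ThetaNorm_Red

/-!
# R17 / ThetaNorm : mean square of marked theta sums twisted by `conj χ_·(k)`  (PART T)

**Reduction.** `k = k₀ k' r` (`exists_split`, `exists_sqfree_powerful`): `k₀ ∣ Q₀^∞` (at most
`C Z^ε N(Q₀)` choices, `sum_smooth_le`), `k'` squarefree, `r` powerful, coprime.  For `m` in the support,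
`conj χ_m(k) = conj χ_m(k₀) sg(m, k'r) conj χ_{k'}(m) conj χ_r(m)` (`chi_rec`); the first two factors are
`Q₀`-periodic in `m` (`chi_congr`, `sg_per`), put them into `φ` (fix `k' mod 4Q'`).  Only marks `l`
coprime to `k' r` contribute.  Additive expansions: `conj χ_{k'}(m) = gs k' χ_{k'} m / gs k' χ_{k'} 1`;
`r₁ = ∏_{6 ∤ v_p(r)} p`, `ψ_{r₁} = ∏ χ_p^{v_p}`, `conj ψ_{r₁}(m) = gs r₁ ψ m / gs r₁ ψ 1`;
`r₀ = ∏_{6 ∣ v_p} p`, `1_{(m,r₀)=1} = ∑_{e_a ∣ r₀} c(e_a) · gs e_a 1 m`, `|c(e_a)| ≤ 1/N e_a`;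
`1_{l ∣ m} = N(l)⁻¹ ∑_{l_a ∣ l} gs l_a 1 m` (`dvd_eq_sum_ramanujan`), `l = l_a l_i`.  Combine by `gs_mul`
into one `gs c₁ ψ m`, `c₁ = k' r₁ e_a l_a`, apply `voronoi` (fix `l_a mod Q'`) and split the dual Gauss
sum again by `gs_mul`.  Local dual characters `conj ψ · conj cub`: on `k'` it is `qua k'`, on `l_a`
and `e_a` it is `conj cub`, on `r₁` it is primitive except at the primes with `v ≡ 4 mod 6`
(product `r₄`), where it is a Ramanujan sum.  The cross factor between `k'` and `l_a` is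
`conj χ_{k'}(l_a) χ_{k'}(l_a)^{-3} χ_{l_a}(k')^{-2} = cub k' l_a · conj (cub l_a k') = 1` (`cub_rec`);
all other cross factors and `ψ R1 · cub c1 R2 · ang c1 ^ ja · N c1^{-2it}` are products
(function of `k'`)×(function of `l_a`) for fixed `r, e_a`.  Normalised sizes: `k'`-part unimodular
times `qua k' n`; `l_a` part `N(l)⁻¹ √N(l_a) · cub l_a n = N(l_i)⁻¹ N(l_a)^{-1/2} χ_{l_a}(n)²`;
`r`-part bounded by `√N r₄` pointwise; `∑_{r powerful, N r ≤ X} N(r₄) N(r)^{-1/2} ≤ C X^ε`.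
Triangle inequality over `l_i` (`∑ 1/N l_i ≤ C log`), dyadic `N k' ~ K''`, `N l_a ~ L_a`.  Dual length
`M'' = K''² N(r₁e_a)² L_a e^{κQ}/(e^y N l_i)`; terms `N n > X := M'' Z^{ε'}` are negligible by the decay
of `𝒦`; for `N n ≤ X` use `𝒦 t u = e^{u/2} ∫ κ e^{iτu}`, which separates `k', l_a, n` and gives the
prefactor `M''^{-1/2}`.  Remove `(l_a,k') = 1` by `∑_{e ∣ k', e ∣ l_a} μ(e)` and Cauchy–Schwarz over
`e ∣ k'` (divisor bound), rows `k' = e k''`, `N k'' ≤ K''/N e`.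
**Dual norm.** For `|β| ≤ 1` on squarefree `l ~ L_a`, `|u(n)| ≤ √N c` on `CubeShape` elements:
`∑_{k'} |∑_{N n ≤ X} u(n) qua k' n ∑_{(l,k')=1} β(l) χ_l(n)²|² ≲ L_a [K''(X + X^{3/4} L_a^{5/4}) + X²
+ X min(L_a², X L_a)]`.  Proof: `n = n₂ m₀ c³` (fix `n₂ ∣ Q₀²`), dyadic `N c ~ C`, `N m₀ ≤ M₀ = X/C³`,
`c = c₁ c₂²` (`c₁` squarefree), `g = gcd(c₁,m₀)`, `c₁ = g c₁'`, `m₀ = g m₀'`,
`qua k' (m₀ c) = qua k' (c₁' m₀') 1_{(k', g c₂)=1}`; Minkowski over `(c₂,g)`, `qls` in the squarefree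
column `b = c₁' m₀'` (`N b ≤ C M₀/(N c₂² N g²)`), coefficient norm
`≲ τ · C · (C/(N g N c₂²)) · L_a min(M₀/N g + L_a², M₀ L_a/N g)` (`tls_ball` with `j = 2`, or trivially).
`∑_{g ≤ C} N g^{-1/2} min(L_a, √(M₀L_a/N g)) ≲ min(√C L_a, √(M₀ L_a)) log`, and
`C² min(C L_a², M₀ L_a) ≤ min(C³L_a², X L_a/C) ≤ X^{3/4} L_a^{5/4}`.
**Summation.** Dividing by `L_a M''`: `K'' + √K'' L e^{y/4} + M'' + min(L², M''L)` with
`K'' ≤ K/N r`, `M'' ≤ (K²L/e^y)/N r`; sum over `r` with weight `N r₄`: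
`sup_ϱ ϱ^{1/2} min(L², M L/ϱ) = M^{1/2} L^{3/2} ≤ M + L³`.
-/

set_option autoImplicit false

noncomputable section

open scoped Classical ComplexConjugate

namespace Crest.Agent.R17

theorem thetaNorm : ∃ B0 : ℕ, ∀ (A ε : ℝ), 0 < ε → ∃ (C : ℝ) (B : ℕ), ∀ Z : ℝ, 3 ≤ Z →
    ∀ Q0 : O, Q0 ≠ 0 → (72 : O) ∣ Q0 → N Q0 ≤ Z ^ A →
    ∀ φ : O → ℂ, Per Q0 φ → (∀ m, ‖φ m‖ ≤ 1) → (∀ m, φ m ≠ 0 → Prim m ∧ IsCoprime m Q0) →
    ∀ (Ls : Finset O) (a : O → ℂ) (L K y t : ℝ),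
      (∀ l ∈ Ls, Prim l ∧ Squarefree l ∧ IsCoprime l Q0 ∧ N l ≤ L) → (∀ l, ‖a l‖ ≤ 1) →
      1 ≤ L → L ≤ Z ^ A → 1 ≤ K → K ≤ Z ^ A → |y| ≤ A * Real.log Z →
      ∑ k ∈ ball K, ‖Fth φ Ls a k y t‖ ^ 2 ≤
        C * Z ^ ε * N Q0 ^ B0 * (1 + |t|) ^ B *
          (K + K ^ 2 * L / Real.exp y + L ^ 3 + Real.sqrt K * L * Real.exp (y / 4)) := by
  obtain ⟨B0, hB0⟩ := TN.prim_rows
  refine ⟨B0 + 1, fun A ε hε => ?_⟩
  obtain ⟨C, B, hC, h⟩ := hB0 A (ε / 2) (half_pos hε)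
  obtain ⟨C', hC', hsm⟩ := TN.card_smooth_Z A (half_pos hε)
  refine ⟨16 * C' * C, B, fun Z hZ Q0 hQ h72 hQZ φ hφ hb hs Ls a L K y t hL ha hL1 hLZ hK1 hKZ hy => ?_⟩
  have h3 : (3 : O) ∣ Q0 := Dvd.dvd.trans ⟨24, by norm_num⟩ h72
  have h2 : (2 : O) ∣ Q0 := Dvd.dvd.trans ⟨36, by norm_num⟩ h72
  have hsp : ∀ k : O, ∃ p : O × O, k ≠ 0 →
      (∃ j : ℕ, p.1 ∣ Q0 ^ j) ∧ Prim p.2 ∧ IsCoprime p.2 Q0 ∧ k = p.1 * p.2 := by
    intro k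
    by_cases hk : k = 0
    · exact ⟨(0, 0), fun h => absurd hk h⟩
    · obtain ⟨n0, n1, j, h1, h2, h3, h4⟩ := exists_split hQ h3 hk
      exact ⟨(n0, n1), fun _ => ⟨⟨j, h1⟩, h2, h3, h4⟩⟩
  choose σ hσ using hsp
  have h4 : (4 : O) ≠ 0 := by
    intro h0
    have := congrArg nm h0
    exact absurd this (by decide)
  set bd : ℝ := C * Z ^ (ε / 2) * N Q0 ^ B0 * (1 + |t|) ^ B * TN.mainB K L y with hbd
  have hZ0 : (0 : ℝ) < Z := by linarith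
  have hN := N_nonneg Q0
  have hmain : 0 ≤ TN.mainB K L y := by unfold TN.mainB; positivity
  have hbd0 : 0 ≤ bd := by positivity
  have hSq : TN.Sq6 Ls L := fun l hl =>
    ⟨(hL l hl).1, (hL l hl).2.1, (hL l hl).2.2.1.of_isCoprime_of_dvd_right h2, (hL l hl).2.2.2⟩
  let key : O → O × O := fun k => ((σ k).1, (σ k).2 % 4)
  have hmaps : ∀ k ∈ ball K, key k ∈ ((ball K).image fun k => (σ k).1) ×ˢ res 4 := fun k hk =>
    Finset.mem_product.2 ⟨Finset.mem_image_of_mem _ hk, b4_mod_mem_res h4 _⟩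
  rw [← Finset.sum_fiberwise_of_maps_to hmaps]
  have hfib : ∀ p ∈ ((ball K).image fun k => (σ k).1) ×ˢ res 4,
      ∑ k ∈ (ball K).filter (fun k => key k = p), ‖Fth φ Ls a k y t‖ ^ 2 ≤ bd := by
    rintro ⟨k0, x⟩ -
    rcases ((ball K).filter (fun k => key k = (k0, x))).eq_empty_or_nonempty with he | ⟨k', hk'⟩
    · rw [he, Finset.sum_empty]; exact hbd0
    have hinfo : ∀ k ∈ (ball K).filter (fun k => key k = (k0, x)),
        (∃ j : ℕ, k0 ∣ Q0 ^ j) ∧ Prim (σ k).2 ∧ IsCoprime (σ k).2 Q0 ∧ k = k0 * (σ k).2 ∧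
          (4 : O) ∣ (σ k).2 - x ∧ N (σ k).2 ≤ K := by
      intro k hk
      obtain ⟨hk1, hk2⟩ := Finset.mem_filter.1 hk
      obtain ⟨hk0, hkK⟩ := mem_ball.1 hk1
      obtain ⟨a1, a2, a3, a4⟩ := hσ k hk0
      have e1 : (σ k).1 = k0 := congrArg Prod.fst hk2
      have e2 : (σ k).2 % 4 = x := congrArg Prod.snd hk2
      refine ⟨e1 ▸ a1, a2, a3, e1 ▸ a4, e2 ▸ b4_dvd_sub_mod _ _, ?_⟩
      exact (N_le_of_dvd hk0 ⟨(σ k).1, by rw [mul_comm]; exact a4⟩).trans hkK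
    obtain ⟨⟨j, hj⟩, -, c1, -, ⟨w, c2⟩, -⟩ := hinfo k' hk'
    have hx : IsCoprime x 2 := by
      have e : x = (σ k').2 + 2 * (-(2 * w)) := by linear_combination -c2
      rw [e]
      exact (c1.of_isCoprime_of_dvd_right h2).add_mul_left_left _
    have := h Z hZ Q0 hQ h3 hQZ (TN.tw φ k0 x) (TN.tw_per hQ h72 hj hφ hs x)
      (TN.norm_tw_le h72 hb hs k0 hx)
      (((ball K).filter (fun k => key k = (k0, x))).image fun k => (σ k).2) Ls a K L y t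
      (fun k hk => by
        obtain ⟨k2, hk2, rfl⟩ := Finset.mem_image.1 hk
        obtain ⟨-, b1, b2, -, -, b3⟩ := hinfo k2 hk2
        exact ⟨b1, b2.of_isCoprime_of_dvd_right h2, b2, b3⟩)
      hSq (fun l hl => (hL l hl).2.2.1) ha hK1 hKZ hL1 hLZ hy
    rw [Finset.sum_image fun k hk k2 hk2 he => by
      rw [(hinfo k hk).2.2.2.1, (hinfo k2 hk2).2.2.2.1]
      exact congrArg (k0 * ·) he] at this
    refine le_trans (le_of_eq (Finset.sum_congr rfl fun k hk => ?_)) this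
    obtain ⟨-, b1, b2, b3, b4, -⟩ := hinfo k hk
    rw [← TN.Fth_eq h72 hs k0 b1 (b2.of_isCoprime_of_dvd_right h2) b4, ← b3]
  refine (Finset.sum_le_card_nsmul _ _ _ hfib).trans ?_
  have hcard := hsm Z hZ Q0 hQ ((ball K).image fun k => (σ k).1) fun f hf => by
    obtain ⟨k, hk, rfl⟩ := Finset.mem_image.1 hf
    obtain ⟨hk0, hkK⟩ := mem_ball.1 hk
    obtain ⟨a1, -, -, a4⟩ := hσ k hk0
    exact ⟨((N_le_of_dvd hk0 ⟨(σ k).2, a4⟩).trans hkK).trans hKZ, a1⟩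
  rw [Finset.card_product, card_res h4, nsmul_eq_mul, show nm (4 : O) = 16 by decide]
  push_cast
  have e : Z ^ ε = Z ^ (ε / 2) * Z ^ (ε / 2) := by rw [← Real.rpow_add hZ0]; ring_nf
  calc _ ≤ (C' * Z ^ (ε / 2) * N Q0) * 16 * bd := by gcongr
    _ = _ := by rw [hbd, e, TN.mainB]; ring

end Crest.Agent.R17
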