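import Crest.Agent.R17.Gram
import Crest.Agent.R17.ThetaNorm
import Crest.Agent.R17.Local
import Crest.Agent.R17.FMoment_W

/-!
# R17 / Low : the low side bound for the probe

By `expand_sg`, `Psi = ∑_{ν,ν'} c ν ν' ∑_k Om(N k/K) Amp ν k · T_{ν'}(k)` with (`L_I = ∏ I`, `m = n L_I`,
`η(n) = η(m) conj η(L_I)`, `φ = η ν' f1 1_{𝒫₀}`, which is `Q.q`-periodic by `f1_congr`)
`T(k) = ∑_I (∏ -w_p) conj η(L_I) blks (1_{L_I ∣ m} tt m φ m conj χ_m(k)) (y0 + log N L_I) 0`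
(`tsum_dvd`); `blks_shift` with `x = 1/2` gives
`T(k) = e^{y0/2 + 1/16} Λ · Fth φ Ls a k (y0 + 1/4) 0`, `Ls = {L_I}` (the map `I ↦ L_I` is injective),
`a(L_I) = (∏ -w_p) conj η(L_I) √N(L_I)/Λ`, `Λ = z^J √L`, `L = e^{(5/24 + Jρ) z}`.  `T(0) = 0` as `J ≥ 1`.
Cauchy–Schwarz, `gram`, and `thetaNorm` on the ball of radius `K' = K e^{ε' z}` (outside, `Om` makes the
trivial bound negligible): all four terms are `≤ K e^{(2ε' + Jρ) z}` because
`50/24 + 5/24 - 30/24 = 25/24` and `25/48 + 10/48 + 15/48 = 25/24`.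
Total exponent: `(25/24 + 29/48)/2 + (5/4 + 5/24 + 25/24)/2 = 25/24 + 33/32`.
-/

set_option autoImplicit false

noncomputable section

open scoped Classical ComplexConjugate

namespace Crest.Agent.R17

theorem low_cs {ι : Type*} (P : Finset ι) {w : O → ℝ} (hw : ∀ k, 0 ≤ w k) {c : ι → ℂ}
    (hc : ∀ i, ‖c i‖ ≤ 1) {a b : ι → O → ℂ} {t G1 G2 : ℝ} (ht : 0 < t)
    (ha : ∀ i ∈ P, Summable (fun k => w k * ‖a i k‖ ^ 2) ∧ ∑' k, w k * ‖a i k‖ ^ 2 ≤ G1)
    (hb : ∀ i ∈ P, Summable (fun k => w k * ‖b i k‖ ^ 2) ∧ ∑' k, w k * ‖b i k‖ ^ 2 ≤ G2) :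
    ‖∑' k, (w k : ℂ) * ∑ i ∈ P, c i * a i k * b i k‖ ≤ P.card * (t * G1 + t⁻¹ * G2) := by
  have h1 := hasSum_sum fun i (hi : i ∈ P) =>
    ((ha i hi).1.hasSum.mul_left t).add ((hb i hi).1.hasSum.mul_left t⁻¹)
  refine (tsum_of_norm_bounded h1 fun k => ?_).trans ?_
  · rw [Finset.mul_sum]
    refine (norm_sum_le _ _).trans (Finset.sum_le_sum fun i _ => ?_)
    rw [norm_mul, norm_mul, norm_mul, Complex.norm_real, Real.norm_of_nonneg (hw k)]
    have h2 : ‖c i‖ * ‖a i k‖ * ‖b i k‖ ≤ t * ‖a i k‖ ^ 2 + t⁻¹ * ‖b i k‖ ^ 2 := by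
      have h3 : ‖c i‖ * ‖a i k‖ * ‖b i k‖ ≤ ‖a i k‖ * ‖b i k‖ := by
        rw [mul_assoc]
        exact mul_le_of_le_one_left (by positivity) (hc i)
      have h4 : t * ‖a i k‖ ^ 2 + t⁻¹ * ‖b i k‖ ^ 2 - 2 * (‖a i k‖ * ‖b i k‖) =
          t⁻¹ * (t * ‖a i k‖ - ‖b i k‖) ^ 2 := by
        field_simp
        ring
      have h5 : 0 ≤ t⁻¹ * (t * ‖a i k‖ - ‖b i k‖) ^ 2 := by positivity
      have h6 : 0 ≤ ‖a i k‖ * ‖b i k‖ := by positivity
      linarith
    refine (mul_le_mul_of_nonneg_left h2 (hw k)).trans_eq (by ring)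
  · rw [← nsmul_eq_mul]
    exact Finset.sum_le_card_nsmul _ _ _ fun i hi =>
      add_le_add (mul_le_mul_of_nonneg_left (ha i hi).2 ht.le)
        (mul_le_mul_of_nonneg_left (hb i hi).2 (inv_pos.2 ht).le)

theorem low_term_le {Q : Lev} {φ : O → ℂ} (hb : ∀ m, ‖φ m‖ ≤ 1) (hs : ∀ m, φ m ≠ 0 → P0 Q m)
    (k m : O) : ‖tt m * φ m * conj (chi m k)‖ ≤ N m ^ (1 / 2 : ℝ) := by
  by_cases h : φ m = 0
  · rw [h, mul_zero, zero_mul, norm_zero]
    exact Real.rpow_nonneg (N_nonneg _) _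
  · have h1 := hs m h
    rw [norm_mul, norm_mul, tt, norm_mul, norm_ang h1.1.ne_zero, mul_one, Complex.norm_conj,
      mul_assoc]
    refine (mul_le_of_le_one_right (norm_nonneg _) (mul_le_one₀ (hb m) (norm_nonneg _)
      (TL.norm_chi_le h1.isCoprime_six k))).trans ((norm_tau_le h1.1).trans ?_)
    exact Real.rpow_le_rpow_of_exponent_le (one_le_N h1.1.ne_zero) (by norm_num)

theorem low_triv : ∃ C, 0 ≤ C ∧ ∀ a : O → ℂ, (∀ m, ‖a m‖ ≤ N m ^ (1 / 2 : ℝ)) → ∀ y t : ℝ,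
    ‖blk a y t‖ ≤ C * Real.exp y := by
  obtain ⟨C, hC⟩ := tsum_gw_rpow 0
  refine ⟨max C 0, le_max_right _ _, fun a ha y t => ?_⟩
  have h1 := hC y
  rw [zero_add, one_mul] at h1
  refine (tsum_of_norm_bounded (summable_gw_rpow 0 y).hasSum fun n => ?_).trans
    (h1.trans (mul_le_mul_of_nonneg_right (le_max_left _ _) (Real.exp_pos _).le))
  split_ifs with hn
  · simp
  · have e : (1 / 2 + (t : ℂ) * Complex.I).re = 1 / 2 := by simp
    rw [bl1_norm a y _ hn, e, ← mul_assoc, ← add_neg_cancel (1 / 2 : ℝ), Real.rpow_add (N_pos hn)]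
    exact mul_le_mul_of_nonneg_right
      (mul_le_mul_of_nonneg_right (ha n) (Real.rpow_nonneg (N_nonneg _) _)) (gw_pos _).le

theorem low_Fth_zero {Q : Lev} {φ : O → ℂ} (hs : ∀ m, φ m ≠ 0 → P0 Q m) {Ls : Finset O}
    (hL : ∀ l ∈ Ls, ¬ IsUnit l) (a : O → ℂ) (y t : ℝ) : Fth φ Ls a 0 y t = 0 := by
  refine Finset.sum_eq_zero fun l hl => ?_
  have e : (fun m => if l ∣ m then tt m * φ m * conj (chi m 0) else 0) = fun _ => 0 := by
    funext m
    split_ifs with h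
    · by_cases h0 : φ m = 0
      · rw [h0, mul_zero, zero_mul]
      · rw [((TL.chi_isChar (hs m h0).isCoprime_six).zero_iff 0).2 fun h1 =>
          hL l hl (isUnit_of_dvd_unit h (isCoprime_zero_left.1 h1)), map_zero, mul_zero]
    · rfl
  rw [e]
  simp [blk, blks]

theorem low_theta (Q : Lev) {δ r : ℝ} (hδ : 0 < δ) (hr : 0 ≤ r) : ∃ C z0 : ℝ, 0 ≤ C ∧
    ∀ z : ℝ, z0 ≤ z → ∀ φ : O → ℂ, Per Q.q φ → (∀ m, ‖φ m‖ ≤ 1) → (∀ m, φ m ≠ 0 → P0 Q m) →
    ∀ (Ls : Finset O) (a : O → ℂ),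
      (∀ l ∈ Ls, P0 Q l ∧ Squarefree l ∧ ¬ IsUnit l ∧ N l ≤ Real.exp ((5 / 24 + r) * z)) →
      (∀ l, ‖a l‖ ≤ 1) →
      Summable (fun k => Om (N k / KK z) * ‖Fth φ Ls a k (y0 z + 1 / 4) 0‖ ^ 2) ∧
      ∑' k, Om (N k / KK z) * ‖Fth φ Ls a k (y0 z + 1 / 4) 0‖ ^ 2 ≤
        C * KK z * Real.exp ((3 * δ + 3 * r) * z) := by
  obtain ⟨B0, hB0⟩ := thetaNorm
  obtain ⟨C, B, hC⟩ := hB0 (2 + δ + r) δ hδ
  obtain ⟨C0, hC00, hC0⟩ := low_triv
  obtain ⟨C1, hC10, hC1⟩ := TL.tsum_Om_le'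
  obtain ⟨j, hj⟩ := exists_nat_ge ((4 + 4 * r) / δ)
  rw [div_le_iff₀ hδ] at hj
  have hq := N_pos Q.ne
  refine ⟨max C 0 * N Q.q ^ B0 * (4 * Real.exp 1) + (18 * C0) ^ 2 * (j.factorial * 2 ^ j) * (1 + 2 * C1),
    max 2 (N Q.q), by positivity, fun z hz φ hφ hb hs Ls a hL ha => ?_⟩
  have hz2 : 2 ≤ z := (le_max_left _ _).trans hz
  have hz0 : 0 ≤ z := by linarith
  have hK : 0 < KK z := Real.exp_pos _
  have hK1 : 1 ≤ KK z := Real.one_le_exp (by positivity)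
  have hE1 : 1 ≤ Real.exp ((3 * δ + 3 * r) * z) := Real.one_le_exp (by positivity)
  set F : O → ℝ := fun k => ‖Fth φ Ls a k (y0 z + 1 / 4) 0‖ ^ 2 with hF
  have hF0 : ∀ k, 0 ≤ F k := fun k => sq_nonneg _
  have t1 : ∀ k, ‖Fth φ Ls a k (y0 z + 1 / 4) 0‖ ≤ 18 * C0 * Real.exp ((2 + 2 * r) * z) := by
    intro k
    have h1 : (Ls.card : ℝ) ≤ 18 * Real.exp ((5 / 24 + r) * z) :=
      (Nat.cast_le.2 (Finset.card_le_card fun l hl =>
        mem_ball.2 ⟨(hL l hl).1.1.ne_zero, (hL l hl).2.2.2⟩)).trans (card_ball_le (Real.exp_pos _).le)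
    refine (norm_sum_le _ _).trans ((Finset.sum_le_card_nsmul _ _
      (C0 * Real.exp (y0 z + 1 / 4 + (5 / 24 + r) * z)) fun l hl => ?_).trans ?_)
    · rw [norm_mul]
      refine (mul_le_of_le_one_left (norm_nonneg _) (ha l)).trans ((hC0 _ (fun m => ?_) _ _).trans ?_)
      · split_ifs
        · exact low_term_le hb hs k m
        · rw [norm_zero]
          exact Real.rpow_nonneg (N_nonneg _) _
      · refine mul_le_mul_of_nonneg_left (Real.exp_le_exp.2 ?_) hC00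
        have := (Real.log_le_iff_le_exp (N_pos (hL l hl).1.1.ne_zero)).2 (hL l hl).2.2.2
        linarith
    · rw [nsmul_eq_mul]
      refine (mul_le_mul_of_nonneg_right h1 (by positivity)).trans ?_
      rw [mul_mul_mul_comm, ← Real.exp_add]
      refine mul_le_mul_of_nonneg_left (Real.exp_le_exp.2 ?_) (by positivity)
      unfold y0
      linarith
  set b : ℝ := (18 * C0) ^ 2 * (j.factorial * 2 ^ j) with hbd
  have t2 : ∀ k, Om (N k / KK z) * F k ≤
      (if k ∈ ball (KK z * Real.exp (δ * z)) then F k else 0) + b * Om (N k / (2 * KK z)) := by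
    intro k
    have h0 : 0 ≤ b * Om (N k / (2 * KK z)) := mul_nonneg (by positivity) (Om_pos _).le
    split_ifs with hk
    · exact (mul_le_of_le_one_left (hF0 k) (Om_le_one (div_nonneg (N_nonneg _) hK.le))).trans
        (le_add_of_nonneg_right h0)
    rw [zero_add]
    by_cases hk0 : k = 0
    · simp only [hF, hk0, low_Fth_zero hs fun l hl => (hL l hl).2.2.1] at h0 ⊢
      simpa using h0
    have h1 : KK z * Real.exp (δ * z) < N k := not_le.1 fun h => hk (mem_ball.2 ⟨hk0, h⟩)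
    have h2 : Om (N k / (2 * KK z)) ≤ j.factorial * ((Real.exp (δ * z) / 2) ^ j)⁻¹ := by
      refine (QL.Om_anti ?_).trans (Om_le_pow j (by positivity))
      rw [div_le_div_iff₀ two_pos (by positivity)]
      linarith
    have h3 : F k ≤ (18 * C0) ^ 2 * Real.exp (δ * z) ^ j := by
      refine (pow_le_pow_left₀ (norm_nonneg _) (t1 k) 2).trans ?_
      rw [mul_pow, ← Real.exp_nat_mul, ← Real.exp_nat_mul]
      refine mul_le_mul_of_nonneg_left (Real.exp_le_exp.2 ?_) (by positivity)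
      push_cast
      nlinarith
    rw [show N k / KK z = N k / (2 * KK z) + N k / (2 * KK z) by field_simp; ring, QL.Om_add,
      mul_right_comm]
    refine mul_le_mul_of_nonneg_right ((mul_le_mul h2 h3 (hF0 k) (by positivity)).trans_eq ?_)
      (Om_pos _).le
    rw [hbd, div_pow]
    field_simp
  have s1 : HasSum (fun k => if k ∈ ball (KK z * Real.exp (δ * z)) then F k else 0)
      (∑ k ∈ ball (KK z * Real.exp (δ * z)), F k) := by
    have := hasSum_sum_of_ne_finset_zero (L := SummationFilter.unconditional O)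
      (s := ball (KK z * Real.exp (δ * z)))
      (f := fun k => if k ∈ ball (KK z * Real.exp (δ * z)) then F k else 0) fun k hk => if_neg hk
    rwa [Finset.sum_congr rfl fun k hk => if_pos hk] at this
  have s2 := s1.add ((TL.summ_Om (X := 2 * KK z) (by positivity)).hasSum.mul_left b)
  have s3 := Summable.of_nonneg_of_le (fun k => mul_nonneg (Om_pos _).le (hF0 k)) t2 s2.summable
  refine ⟨s3, (hasSum_le t2 s3.hasSum s2).trans ?_⟩
  have p : ∀ x : ℝ, x ≤ 2 + δ + r → Real.exp (x * z) ≤ Real.exp z ^ (2 + δ + r) := fun x hx => by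
    rw [← Real.exp_mul]
    exact Real.exp_le_exp.2 (by nlinarith)
  have eK : KK z * Real.exp (δ * z) = Real.exp ((25 / 24 + δ) * z) := by
    rw [KK, ← Real.exp_add, add_mul]
  have m1 := hC (Real.exp z) (by linarith [Real.add_one_le_exp z]) Q.q Q.ne Q.dvd
    (by
      refine le_trans ?_ (p 1 (by linarith))
      rw [one_mul]
      linarith [Real.add_one_le_exp z, (le_max_right _ _).trans hz])
    φ hφ hb hs Ls a (Real.exp ((5 / 24 + r) * z)) (KK z * Real.exp (δ * z)) (y0 z + 1 / 4) 0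
    (fun l hl => ⟨(hL l hl).1.1, (hL l hl).2.1, (hL l hl).1.2, (hL l hl).2.2.2⟩) ha
    (Real.one_le_exp (by positivity)) (p _ (by linarith))
    (eK ▸ Real.one_le_exp (by positivity)) (eK ▸ p _ (by linarith))
    (by
      rw [Real.log_exp, y0, abs_of_nonneg (by positivity)]
      nlinarith)
  have m2 : KK z * Real.exp (δ * z) + (KK z * Real.exp (δ * z)) ^ 2 * Real.exp ((5 / 24 + r) * z) /
      Real.exp (y0 z + 1 / 4) + Real.exp ((5 / 24 + r) * z) ^ 3 +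
      Real.sqrt (KK z * Real.exp (δ * z)) * Real.exp ((5 / 24 + r) * z) *
        Real.exp ((y0 z + 1 / 4) / 4) ≤ 4 * Real.exp (1 + (25 / 24 + 2 * δ + 3 * r) * z) := by
    have hδz : 0 ≤ δ * z := by positivity
    have hrz : 0 ≤ r * z := by positivity
    rw [eK, ← Real.exp_half, ← Real.exp_nat_mul, ← Real.exp_nat_mul, ← Real.exp_add, ← Real.exp_sub,
      ← Real.exp_add, ← Real.exp_add, y0]
    have q : ∀ x, x ≤ 1 + (25 / 24 + 2 * δ + 3 * r) * z →
      Real.exp x ≤ Real.exp (1 + (25 / 24 + 2 * δ + 3 * r) * z) := fun x hx => Real.exp_le_exp.2 hx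
    refine (add_le_add (add_le_add (add_le_add (q _ ?_) (q _ ?_)) (q _ ?_)) (q _ ?_)).trans_eq
      (by ring) <;> push_cast <;> linarith
  have m3 : ∑ k ∈ ball (KK z * Real.exp (δ * z)), F k ≤
      max C 0 * N Q.q ^ B0 * (4 * Real.exp 1) * KK z * Real.exp ((3 * δ + 3 * r) * z) := by
    refine m1.trans ?_
    rw [abs_zero, add_zero, one_pow, mul_one, ← Real.exp_mul]
    refine (mul_le_mul (mul_le_mul_of_nonneg_right (mul_le_mul_of_nonneg_right (le_max_left C 0)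
      (Real.exp_pos _).le) (by positivity)) m2 (by positivity) (by positivity)).trans_eq ?_
    have e : Real.exp (z * δ) * Real.exp (1 + (25 / 24 + 2 * δ + 3 * r) * z) =
        Real.exp 1 * KK z * Real.exp ((3 * δ + 3 * r) * z) := by
      rw [KK, ← Real.exp_add, ← Real.exp_add, ← Real.exp_add]
      congr 1
      ring
    linear_combination (4 * max C 0 * N Q.q ^ B0) * e
  have m4 : ∑' k : O, Om (N k / (2 * KK z)) ≤
      (1 + 2 * C1) * KK z * Real.exp ((3 * δ + 3 * r) * z) :=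
    (hC1 _ (by positivity)).trans (le_trans (by nlinarith)
      (le_mul_of_one_le_right (by positivity) hE1))
  refine (add_le_add m3 (mul_le_mul_of_nonneg_left m4 (by positivity))).trans_eq ?_
  ring

theorem low_blk {e : O} (he : e ≠ 0) (a : O → ℂ) (y : ℝ) :
    blks (fun n => a (e * n)) y 0 = ((Real.exp (y / 2 + 1 / 16) * Real.sqrt (N e) : ℝ) : ℂ) *
      blk (fun m => if e ∣ m then a m else 0) (y + 1 / 4 + Real.log (N e)) 0 := by
  have h1 := blks_dvd he a (y + Real.log (N e)) 0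
  have h2 := blks_shift (fun m => if e ∣ m then a m else 0) (y + Real.log (N e)) (1 / 2)
    (1 / 2 + (0 : ℝ) * Complex.I)
  rw [neg_zero, Complex.cpow_zero, one_mul, add_sub_cancel_right] at h1
  rw [show (1 / 2 + ((0 : ℝ) : ℂ) * Complex.I - ((1 / 2 : ℝ) : ℂ)) = 0 by simp, h1] at h2
  rw [h2, blk]
  congr 2
  · rw [Real.sqrt_eq_rpow, Real.rpow_def_of_pos (N_pos he), ← Real.exp_add]
    congr 1
    ring
  · ring

/-- the periodic factor -/
def low_phi (Q : Lev) (η ν : O → ℂ) (m : O) : ℂ := if P0 Q m then η m * ν m * f1 m else 0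

theorem low_phi_supp (Q : Lev) (η ν : O → ℂ) (m : O) (h : low_phi Q η ν m ≠ 0) : P0 Q m := by
  by_contra h1
  exact h (if_neg h1)

theorem low_phi_le {Q : Lev} {η ν : O → ℂ} (hη : η ∈ hchars Q.q) (hν : ν ∈ hchars Q.q) (m : O) :
    ‖low_phi Q η ν m‖ ≤ 1 := by
  unfold low_phi
  split_ifs with h
  · rw [norm_mul, norm_mul, norm_f1 h.isCoprime_six, mul_one]
    exact mul_le_one₀ (norm_hchar_le Q hη m) (norm_nonneg _) (norm_hchar_le Q hν m)
  · simp

theorem low_phi_per {Q : Lev} {η ν : O → ℂ} (hη : η ∈ hchars Q.q) (hν : ν ∈ hchars Q.q) :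
    Per Q.q (low_phi Q η ν) := by
  intro x t
  have h3 : (3 : O) ∣ Q.q * t := (Dvd.dvd.trans ⟨24, by norm_num⟩ Q.dvd).mul_right t
  have e : P0 Q (x + Q.q * t) ↔ P0 Q x := by
    refine and_congr ?_ IsCoprime.add_mul_left_left_iff
    unfold Prim
    rw [show x + Q.q * t - 1 = x - 1 + Q.q * t by ring]
    exact dvd_add_left h3
  unfold low_phi
  by_cases h : P0 Q x
  · rw [if_pos h, if_pos (e.2 h), ((mem_hchars Q.ne).1 hη).1.per, ((mem_hchars Q.ne).1 hν).1.per,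
      f1_congr (e.2 h).isCoprime_six (n' := x) (by
        rw [add_sub_cancel_left]
        exact Q.dvd.mul_right t)]
  · rw [if_neg h, if_neg (mt e.1 h)]

/-- the summand on the theta side -/
def low_B (Q : Lev) (η ν : O → ℂ) (W : ℂ) (y : ℝ) (k e n : O) : ℂ :=
  if P0 Q n then W * η n * ν (n * e) * f1 (n * e) * tt (n * e) * conj (chi (n * e) k) *
    (gw (Real.log (N n) - y) : ℂ) else 0

theorem low_B_sum {Q : Lev} {η ν : O → ℂ} (hη : η ∈ hchars Q.q) (hν : ν ∈ hchars Q.q) (W : ℂ)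
    (y : ℝ) (k : O) {e : O} (he : P0 Q e) :
    HasSum (low_B Q η ν W y k e) (W * conj (η e) *
      (((Real.exp (y / 2 + 1 / 16) * Real.sqrt (N e) : ℝ) : ℂ) *
        blk (fun m => if e ∣ m then tt m * low_phi Q η ν m * conj (chi m k) else 0)
          (y + 1 / 4 + Real.log (N e)) 0)) := by
  have hp : PolyBd fun n => tt (e * n) * low_phi Q η ν (e * n) * conj (chi (e * n) k) := by
    refine ⟨N e, 1, fun n hn => (low_term_le (low_phi_le hη hν) (low_phi_supp Q η ν) k _).trans ?_⟩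
    rw [pow_one, ← N_mul]
    exact Real.rpow_le_self_of_one_le (one_le_N (mul_ne_zero he.1.ne_zero hn)) (by norm_num)
  have hc := ((mem_hchars Q.ne).1 hη).1
  have h2 : conj (η e) * η e = 1 := by
    rw [mul_comm, Complex.mul_conj, Complex.normSq_eq_norm_sq, hc.norm_eq_one Q.ne he.2]
    simp
  rw [← low_blk he.1.ne_zero fun m => tt m * low_phi Q η ν m * conj (chi m k)]
  refine ((summable_blks hp y 0).of_norm.hasSum.mul_left (W * conj (η e))).congr_fun ?_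
  intro n
  unfold low_B low_phi
  by_cases hn : P0 Q n
  · rw [if_pos hn, if_neg hn.1.ne_zero, if_pos (he.mul hn), hc.mul, neg_zero, Complex.cpow_zero,
      mul_comm n e]
    linear_combination -(W * η n * ν (e * n) * f1 (e * n) * tt (e * n) * conj (chi (e * n) k) *
      (gw (Real.log (N n) - y) : ℂ)) * h2
  · rw [if_neg hn, if_neg (c := P0 Q (e * n)) fun h =>
      hn (h.of_dvd (h.1.of_mul_left he.1) (dvd_mul_left _ _))]
    simp

theorem low_slot {Q : Lev} {yp R : ℝ} {J : ℕ} {I : Finset O}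
    (hI : I ∈ (slot Q yp R).powersetCard J) : P0 Q (∏ p ∈ I, p) := by
  have h := (Finset.mem_powersetCard.1 hI).1
  exact ⟨Prim.prod fun p hp => (loc_mem_slot.1 (h hp)).2.1, IsCoprime.prod_left fun p hp =>
    (loc_mem_slot.1 (h hp)).1.coprime_iff_not_dvd.2 (loc_mem_slot.1 (h hp)).2.2.1⟩

/-- the theta side -/
def low_T (Q : Lev) (η ν : O → ℂ) (J : ℕ) (ρ z : ℝ) (k : O) : ℂ :=
  ∑ I ∈ (slot Q (yP J z) (ρ * z)).powersetCard J,
    ∑' n, low_B Q η ν (∏ p ∈ I, (-(wP (yP J z) p : ℂ))) (y0 z) k (∏ p ∈ I, p) n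

theorem low_summ_amp {Q : Lev} {ν : O → ℂ} (hν : ν ∈ hchars Q.q) (y : ℝ) (k : O) :
    Summable fun l : O => if P0 Q l then ν l * conj (gs l (chi l) k) / (Real.sqrt (N l) : ℂ) *
      (gw (Real.log (N l) - y) : ℂ) else 0 := by
  refine Summable.of_norm_bounded (summable_gw_rpow 1 y) fun l => ?_
  by_cases h : P0 Q l
  · have h0 := h.1.ne_zero
    rw [if_pos h, if_neg h0, norm_mul, norm_div, norm_mul, Complex.norm_conj, Complex.norm_real,
      Complex.norm_real, Real.norm_of_nonneg (Real.sqrt_nonneg _), Real.norm_of_nonneg (gw_pos _).le,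
      Real.rpow_one]
    refine mul_le_mul_of_nonneg_right ((div_le_self (by positivity)
      (Real.one_le_sqrt.2 (one_le_N h0))).trans ?_) (gw_pos _).le
    exact (mul_le_of_le_one_left (norm_nonneg _) (norm_hchar_le Q hν l)).trans
      (norm_gs_le h0 (TL.norm_chi_le h.isCoprime_six) k)
  · rw [if_neg h, norm_zero]
    exact bl1_nonneg _ _ _

theorem low_psi (Q : Lev) {c : (O → ℂ) → (O → ℂ) → ℂ}
    (hc : ∀ a b, P0 Q a → P0 Q b →
      sg a b = ∑ ν ∈ hchars Q.q, ∑ ν' ∈ hchars Q.q, c ν ν' * ν a * ν' b)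
    {η : O → ℂ} (hη : η ∈ hchars Q.q) (J : ℕ) (ρ z : ℝ) :
    Psi Q η J ρ z = ∑' k : O, (Om (N k / KK z) : ℂ) * ∑ i ∈ hchars Q.q ×ˢ hchars Q.q,
      c i.1 i.2 * Amp Q i.1 z k * low_T Q η i.2 J ρ z k := by
  refine tsum_congr fun k => ?_
  congr 1
  set A : (O → ℂ) → O → ℂ := fun ν l => if P0 Q l then ν l * conj (gs l (chi l) k) /
    (Real.sqrt (N l) : ℂ) * (gw (Real.log (N l) - y1 z) : ℂ) else 0 with hA
  have h1 := hasSum_sum fun i (hi : i ∈ hchars Q.q ×ˢ hchars Q.q) =>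
    ((low_summ_amp (Finset.mem_product.1 hi).1 (y1 z) k).hasSum.mul_left (c i.1 i.2)).mul_right
      (low_T Q η i.2 J ρ z k)
  refine Eq.trans (tsum_congr fun l => ?_) h1.tsum_eq
  simp only [low_T, Finset.mul_sum]
  rw [Finset.sum_comm]
  refine Finset.sum_congr rfl fun I hI => ?_
  have he := low_slot hI
  have h2 := hasSum_sum fun i (hi : i ∈ hchars Q.q ×ˢ hchars Q.q) =>
    (low_B_sum hη (Finset.mem_product.1 hi).2 (∏ p ∈ I, (-(wP (yP J z) p : ℂ))) (y0 z) k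
      he).summable.hasSum.mul_left (c i.1 i.2 * A i.1 l)
  refine Eq.trans (tsum_congr fun n => ?_) h2.tsum_eq
  simp only [hA, low_B]
  by_cases hl : P0 Q l
  · by_cases hn : P0 Q n
    · simp only [hl, hn, and_self, if_true]
      rw [hc _ _ hl (hn.mul he), ← Finset.sum_product' (f := fun ν ν' : O → ℂ =>
        c ν ν' * ν l * ν' (n * ∏ p ∈ I, p))]
      simp only [Finset.sum_mul, Finset.sum_div]
      exact Finset.sum_congr rfl fun i _ => by ring
    · simp [hn]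
  · simp [hl]

theorem low_T_eq {Q : Lev} {η ν : O → ℂ} (hη : η ∈ hchars Q.q) (hν : ν ∈ hchars Q.q) {J : ℕ}
    (hJ : 1 ≤ J) {ρ z : ℝ} (hρ : 0 < ρ) (hz : 0 < z) : ∃ (Ls : Finset O) (a : O → ℂ),
      (∀ l ∈ Ls, P0 Q l ∧ Squarefree l ∧ ¬ IsUnit l ∧ N l ≤ Real.exp ((5 / 24 + J * ρ) * z)) ∧
      (∀ l, ‖a l‖ ≤ 1) ∧ ∀ k, low_T Q η ν J ρ z k =
        ((Real.exp (y0 z / 2 + 1 / 16) * (((1 + ρ) * z) ^ J *
          Real.sqrt (Real.exp ((5 / 24 + J * ρ) * z))) : ℝ) : ℂ) *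
        Fth (low_phi Q η ν) Ls a k (y0 z + 1 / 4) 0 := by
  set S := slot Q (yP J z) (ρ * z) with hSd
  have hS : ∀ p ∈ S, Prime p ∧ Prim p := fun p hp =>
    ⟨(loc_mem_slot.1 hp).1, (loc_mem_slot.1 hp).2.1⟩
  have hJ' : (1 : ℝ) ≤ J := by exact_mod_cast hJ
  set Λ : ℝ := ((1 + ρ) * z) ^ J * Real.sqrt (Real.exp ((5 / 24 + J * ρ) * z)) with hΛ
  have hΛ0 : 0 < Λ := by positivity
  have hN : ∀ I ∈ S.powersetCard J, N (FM.pr I) ≤ Real.exp ((5 / 24 + J * ρ) * z) := by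
    intro I hI
    obtain ⟨h1, h2⟩ := Finset.mem_powersetCard.1 hI
    refine (FM.N_pr_le fun p hp => (loc_mem_slot.1 (h1 hp)).2.2.2.2).trans_eq ?_
    rw [h2, ← Real.exp_nat_mul, yP]
    congr 1
    field_simp
  refine ⟨(S.powersetCard J).image FM.pr, fun l => if l ∈ (S.powersetCard J).image FM.pr then
    (∏ p ∈ S.filter (fun p => p ∣ l), (-(wP (yP J z) p : ℂ))) * conj (η l) *
      ((Real.sqrt (N l) / Λ : ℝ) : ℂ) else 0, fun l hl => ?_, fun l => ?_, fun k => ?_⟩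
  · obtain ⟨I, hI, rfl⟩ := Finset.mem_image.1 hl
    obtain ⟨h1, h2⟩ := Finset.mem_powersetCard.1 hI
    refine ⟨low_slot hI, FM.pr_squarefree hS h1, fun hu => ?_, hN I hI⟩
    obtain ⟨p, hp⟩ := Finset.card_pos.1 (show 0 < I.card by omega)
    exact (hS p (h1 hp)).1.not_isUnit (isUnit_of_dvd_unit (Finset.dvd_prod_of_mem _ hp) hu)
  · beta_reduce
    split_ifs with hl
    · obtain ⟨I, hI, rfl⟩ := Finset.mem_image.1 hl
      obtain ⟨h1, h2⟩ := Finset.mem_powersetCard.1 hI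
      have h3 : ‖∏ p ∈ I, (-(wP (yP J z) p : ℂ))‖ ≤ ((1 + ρ) * z) ^ J := by
        rw [norm_prod, ← h2, ← Finset.prod_const]
        refine Finset.prod_le_prod (fun _ _ => norm_nonneg _) fun p hp => ?_
        have h4 := (hS p (h1 hp)).1.ne_zero
        have h5 := Real.log_nonneg (one_le_N h4)
        have h6 := (Real.log_le_iff_le_exp (N_pos h4)).2 (loc_mem_slot.1 (h1 hp)).2.2.2.2
        have h7 : yP J z ≤ z := mul_le_of_le_one_left hz.le
          ((div_le_one (by positivity)).2 (by linarith))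
        rw [norm_neg, Complex.norm_real, wP, Real.norm_of_nonneg (mul_nonneg h5 (gw_pos _).le)]
        exact (mul_le_of_le_one_right h5 (gw_le_one _)).trans (by linarith)
      rw [FM.filter_dvd_pr hS h1, norm_mul, norm_mul, Complex.norm_conj, Complex.norm_real,
        Real.norm_of_nonneg (by positivity), ← mul_div_assoc, div_le_one hΛ0]
      exact mul_le_mul ((mul_le_of_le_one_right (norm_nonneg _) (norm_hchar_le Q hη _)).trans h3)
        (Real.sqrt_le_sqrt (hN I hI)) (Real.sqrt_nonneg _) (by positivity)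
    · simp
  · rw [Fth, Finset.sum_image fun I hI I' hI' => FM.pr_injOn hS
      (Finset.mem_powersetCard.1 hI).1 (Finset.mem_powersetCard.1 hI').1, Finset.mul_sum]
    refine Finset.sum_congr rfl fun I hI => ?_
    rw [(low_B_sum hη hν _ _ k (low_slot hI)).tsum_eq, if_pos (Finset.mem_image_of_mem _ hI),
      FM.filter_dvd_pr hS (Finset.mem_powersetCard.1 hI).1]
    have h0 : (Λ : ℂ) ≠ 0 := Complex.ofReal_ne_zero.2 hΛ0.ne'
    simp only [Complex.ofReal_mul, Complex.ofReal_div]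
    field_simp

theorem low_T_bound (Q : Lev) {J : ℕ} (hJ : 1 ≤ J) {δ ρ : ℝ} (hδ : 0 < δ) (hρ : 0 < ρ) :
    ∃ C z0 : ℝ, 0 ≤ C ∧ ∀ η ∈ hchars Q.q, ∀ ν ∈ hchars Q.q, ∀ z : ℝ, z0 ≤ z →
      Summable (fun k => Om (N k / KK z) * ‖low_T Q η ν J ρ z k‖ ^ 2) ∧
      ∑' k, Om (N k / KK z) * ‖low_T Q η ν J ρ z k‖ ^ 2 ≤
        C * KK z * Real.exp ((35 / 24 + 5 * δ + 4 * (J * ρ)) * z) := by
  have hr : 0 ≤ J * ρ := by positivity
  obtain ⟨C2, z2, hC2, h2⟩ := low_theta Q hδ hr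
  refine ⟨Real.exp (1 / 8) * (((1 + ρ) / δ) ^ J * J.factorial) ^ 2 * C2, max 1 z2, by positivity,
    fun η hη ν hν z hz => ?_⟩
  have hz1 : 1 ≤ z := (le_max_left _ _).trans hz
  obtain ⟨Ls, a, hL, ha, hT⟩ := low_T_eq hη hν hJ hρ (by linarith : 0 < z)
  obtain ⟨s1, s2⟩ := h2 z ((le_max_right _ _).trans hz) _
    (low_phi_per hη hν) (low_phi_le hη hν) (low_phi_supp Q η ν) Ls a hL ha
  have b1 : ((1 + ρ) * z) ^ J ≤ ((1 + ρ) / δ) ^ J * J.factorial * Real.exp (δ * z) := by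
    have := Real.pow_div_factorial_le_exp (δ * z) (by positivity) J
    rw [div_le_iff₀' (by positivity)] at this
    rw [show (1 + ρ) * z = (1 + ρ) / δ * (δ * z) by field_simp, mul_pow, mul_assoc]
    exact mul_le_mul_of_nonneg_left this (by positivity)
  have b2 : (Real.exp (y0 z / 2 + 1 / 16) * (((1 + ρ) * z) ^ J *
      Real.sqrt (Real.exp ((5 / 24 + J * ρ) * z)))) ^ 2 ≤
      Real.exp (1 / 8) * (((1 + ρ) / δ) ^ J * J.factorial) ^ 2 *
        Real.exp ((35 / 24 + 2 * δ + J * ρ) * z) := by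
    rw [mul_pow, mul_pow, Real.sq_sqrt (Real.exp_pos _).le]
    refine (mul_le_mul_of_nonneg_left (mul_le_mul_of_nonneg_right
      (pow_le_pow_left₀ (by positivity) b1 2) (Real.exp_pos _).le) (by positivity)).trans_eq ?_
    have e2 : Real.exp (y0 z / 2 + 1 / 16) ^ 2 * Real.exp (δ * z) ^ 2 *
        Real.exp ((5 / 24 + J * ρ) * z) =
        Real.exp (1 / 8) * Real.exp ((35 / 24 + 2 * δ + J * ρ) * z) := by
      rw [← Real.exp_nat_mul, ← Real.exp_nat_mul, ← Real.exp_add, ← Real.exp_add, ← Real.exp_add,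
        y0]
      congr 1
      push_cast
      ring
    linear_combination (((1 + ρ) / δ) ^ J * J.factorial) ^ 2 * e2
  generalize Real.exp (y0 z / 2 + 1 / 16) * (((1 + ρ) * z) ^ J *
      Real.sqrt (Real.exp ((5 / 24 + J * ρ) * z))) = κ at hT b2
  have e : ∀ k, Om (N k / KK z) * ‖low_T Q η ν J ρ z k‖ ^ 2 =
      κ ^ 2 * (Om (N k / KK z) * ‖Fth (low_phi Q η ν) Ls a k (y0 z + 1 / 4) 0‖ ^ 2) := fun k => by
    rw [hT, norm_mul, mul_pow, Complex.norm_real, Real.norm_eq_abs, sq_abs]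
    ring
  simp only [e]
  refine ⟨s1.mul_left _, ?_⟩
  rw [tsum_mul_left]
  refine (mul_le_mul b2 s2 (tsum_nonneg fun k => mul_nonneg (Om_pos _).le (sq_nonneg _))
    (by positivity)).trans_eq ?_
  have e3 : Real.exp ((35 / 24 + 2 * δ + J * ρ) * z) * Real.exp ((3 * δ + 3 * (J * ρ)) * z) =
      Real.exp ((35 / 24 + 5 * δ + 4 * (J * ρ)) * z) := by
    rw [← Real.exp_add]
    congr 1
    ring
  linear_combination Real.exp (1 / 8) * (((1 + ρ) / δ) ^ J * J.factorial) ^ 2 * C2 * KK z * e3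

theorem low (Q : Lev) {J : ℕ} (hJ : 1 ≤ J) {ε ρ : ℝ} (hε : 0 < ε) (hρ : 0 < ρ)
    (hρε : J * ρ ≤ ε / 10) : ∃ C z0 : ℝ, ∀ η ∈ hchars Q.q, ∀ z : ℝ, z0 ≤ z →
    ‖Psi Q η J ρ z‖ ≤ C * KK z * Real.exp ((33 / 32 + ε) * z) := by
  have hδ : 0 < ε / 5 := by positivity
  obtain ⟨c, hc1, hc⟩ := expand_sg Q
  obtain ⟨C0, hC0⟩ := norm_Amp_le
  obtain ⟨C1, z1, h1⟩ := gram Q hδ
  obtain ⟨C2, z2, hC2, h2⟩ := low_T_bound Q hJ hδ hρ
  refine ⟨(hchars Q.q ×ˢ hchars Q.q).card * (C1 + C2), max 0 (max z1 z2), fun η hη z hz => ?_⟩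
  have hz1 : 0 ≤ z := (le_max_left _ _).trans hz
  have hK : 0 < KK z := Real.exp_pos _
  rw [low_psi Q hc hη]
  refine (low_cs (hchars Q.q ×ˢ hchars Q.q) (w := fun k => Om (N k / KK z)) (fun k => (Om_pos _).le)
    (c := fun i => c i.1 i.2) (fun i => hc1 i.1 i.2) (a := fun i k => Amp Q i.1 z k)
    (b := fun i k => low_T Q η i.2 J ρ z k)
    (t := Real.exp ((33 / 32 + ε - (29 / 48 + ε / 5)) * z)) (Real.exp_pos _)
    (fun i hi => ⟨?_, h1 _ (Finset.mem_product.1 hi).1 z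
      (((le_max_left _ _).trans (le_max_right _ _)).trans hz)⟩)
    fun i hi => h2 η hη _ (Finset.mem_product.1 hi).2 z
      (((le_max_right _ _).trans (le_max_right _ _)).trans hz)).trans ?_
  · exact Summable.of_nonneg_of_le (fun k => mul_nonneg (Om_pos _).le (sq_nonneg _))
      (fun k => mul_le_mul_of_nonneg_left (pow_le_pow_left₀ (norm_nonneg _)
        (hC0 Q _ (Finset.mem_product.1 hi).1 z k) 2) (Om_pos _).le) ((TL.summ_Om hK).mul_right _)
  · rw [mul_assoc _ (C1 + C2), mul_assoc _ ((C1 + C2) * KK z)]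
    refine mul_le_mul_of_nonneg_left ?_ (Nat.cast_nonneg _)
    have e1 : Real.exp ((33 / 32 + ε - (29 / 48 + ε / 5)) * z) * Real.exp ((29 / 48 + ε / 5) * z) =
        Real.exp ((33 / 32 + ε) * z) := by
      rw [← Real.exp_add]
      congr 1
      ring
    have e2 : (Real.exp ((33 / 32 + ε - (29 / 48 + ε / 5)) * z))⁻¹ *
        Real.exp ((35 / 24 + 5 * (ε / 5) + 4 * (J * ρ)) * z) ≤ Real.exp ((33 / 32 + ε) * z) := by
      rw [← Real.exp_neg, ← Real.exp_add, ← neg_mul, ← add_mul]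
      exact Real.exp_le_exp.2 (mul_le_mul_of_nonneg_right (by linarith) hz1)
    have e3 := mul_le_mul_of_nonneg_left e2 (mul_nonneg hC2 hK.le)
    linear_combination C1 * KK z * e1 + e3

end Crest.Agent.R17
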