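import Crest.Agent.R17.PStepAux

/-!
# R17 / PStep : one Poisson step
-/

set_option autoImplicit false

noncomputable section

open scoped Classical ComplexConjugate
open MeasureTheory

namespace Crest.Agent.R17

theorem ps_T_term {Q : Lev} {α ν : O → ℂ} (hs : SuppSq Q 1 α) (hν : ν ∈ hchars Q.q) (r k m : O)
    {s : ℂ} (hs1 : s.re ≤ 1) :
    ‖α (r * m) * (N (r * m) : ℂ) ^ s * gt m * ν m * chi m (1 * r ^ 2) * conj (chi m k)‖ ≤
      ‖α (r * m)‖ * N (r * m) ^ 1 := by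
  by_cases h : α (r * m) = 0
  · simp [h]
  obtain ⟨h1, h2, -⟩ := ps_supp hs h
  simp only [norm_mul, Complex.norm_conj, norm_gt h1 h2, mul_one, pow_one]
  have := N_nonneg (r * m)
  calc _ ≤ ‖α (r * m)‖ * N (r * m) * 1 * 1 * 1 := by
        gcongr
        · exact ps_norm_cpow (hs _ h).1.1.ne_zero hs1
        · exact norm_hchar_le Q hν m
        · exact ps_chi_le h1 _
        · exact ps_chi_le h1 _
    _ = _ := by ring

theorem ps_re {σ : ℝ} (hσ1 : σ ≤ 1) (τ : ℝ) : (-(1 / 2 : ℂ) + σ + τ * Complex.I).re ≤ 1 := by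
  simp; linarith

theorem continuous_Tsum {Q : Lev} {α ν : O → ℂ} (hs : SuppSq Q 1 α) (hα : Rapid α)
    (hν : ν ∈ hchars Q.q) {r : O} (hr : r ≠ 0) (k : O) {σ : ℝ} (hσ1 : σ ≤ 1) :
    Continuous fun τ => Tsum α ν r 1 k σ τ := by
  refine continuous_tsum (fun m => ?_) ((hα 1).comp_injective (mul_right_injective₀ hr))
    fun m τ => ps_T_term hs hν r k m (ps_re hσ1 τ)
  by_cases h : α (r * m) = 0
  · simp only [h, zero_mul]; exact continuous_const
  have n1 : (N (r * m) : ℂ) ≠ 0 := Complex.ofReal_ne_zero.2 (N_pos (hs _ h).1.1.ne_zero).ne'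
  exact ((((continuous_const.mul (Continuous.const_cpow (by fun_prop) (Or.inl n1))).mul
    continuous_const).mul continuous_const).mul continuous_const).mul continuous_const

theorem norm_Tsum_le {Q : Lev} {α ν : O → ℂ} (hs : SuppSq Q 1 α) (hα : Rapid α)
    (hν : ν ∈ hchars Q.q) {r : O} (hr : r ≠ 0) (k : O) {σ : ℝ} (hσ1 : σ ≤ 1) (τ : ℝ) :
    ‖Tsum α ν r 1 k σ τ‖ ^ 2 ≤ mom α 2 ^ 2 * N r ^ (-2 : ℝ) := by
  have hr0 := N_pos hr
  have s3 := (hα 2).comp_injective (mul_right_injective₀ hr)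
  have h1 := tsum_of_norm_bounded (s3.hasSum.mul_right (N r)⁻¹) fun m =>
    (ps_T_term hs hν r k m (ps_re hσ1 τ)).trans (by
      by_cases h : α (r * m) = 0
      · simp [h]
      have := one_le_N (ps_supp hs h).2.2
      simp only [Function.comp, N_mul]
      rw [← div_eq_mul_inv, le_div_iff₀ hr0, mul_assoc]
      gcongr
      rw [pow_one, sq]
      gcongr
      exact le_mul_of_one_le_right hr0.le this)
  have h2 := tsum_comp_le_tsum_of_inj (hα 2)
    (fun n => mul_nonneg (norm_nonneg _) (pow_nonneg (N_nonneg _) _)) (mul_right_injective₀ hr)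
  have h3 : ‖Tsum α ν r 1 k σ τ‖ ≤ mom α 2 * (N r)⁻¹ :=
    h1.trans (mul_le_mul_of_nonneg_right h2 (by positivity))
  rw [Real.rpow_neg hr0.le, Real.rpow_two, ← inv_pow, ← mul_pow]
  gcongr

theorem integrable_Tsum {Q : Lev} {α ν : O → ℂ} (hs : SuppSq Q 1 α) (hα : Rapid α)
    (hν : ν ∈ hchars Q.q) {r : O} (hr : r ≠ 0) (k : O) {σ : ℝ} (hσ : 0 < σ) (hσ1 : σ ≤ 1) :
    Integrable fun τ => Gm σ τ * ‖Tsum α ν r 1 k σ τ‖ ^ 2 := by
  refine ((ps_int hσ).mul_const (mom α 2 ^ 2 * N r ^ (-2 : ℝ))).mono'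
    ((continuous_Gm hσ).mul ((continuous_Tsum hs hα hν hr k hσ1).norm.pow 2)).aestronglyMeasurable
    (.of_forall fun τ => ?_)
  rw [Real.norm_of_nonneg (mul_nonneg (show 0 ≤ Gm σ τ from norm_nonneg _) (sq_nonneg _))]
  exact mul_le_mul_of_nonneg_left (norm_Tsum_le hs hα hν hr k hσ1 τ) (norm_nonneg _)

theorem summable_Tsum {Q : Lev} {α ν : O → ℂ} (hs : SuppSq Q 1 α) (hα : Rapid α)
    (hν : ν ∈ hchars Q.q) (k : O) {σ : ℝ} (hσ : 0 < σ) (hσ1 : σ ≤ 1) :
    Summable fun r => if Prim r then ∫ τ, Gm σ τ * ‖Tsum α ν r 1 k σ τ‖ ^ 2 else 0 := by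
  have h0 : 0 ≤ ∫ τ, Gm σ τ := integral_nonneg fun _ => norm_nonneg _
  refine Summable.of_nonneg_of_le (fun r => ?_) (fun r => ?_)
    ((summable_N_rpow (σ := 2) (by norm_num)).mul_left ((∫ τ, Gm σ τ) * mom α 2 ^ 2))
  · split_ifs
    · exact integral_nonneg fun _ => mul_nonneg (norm_nonneg _) (sq_nonneg _)
    · exact le_rfl
  · split_ifs with h
    · rw [mul_assoc, ← integral_mul_const]
      exact integral_mono (integrable_Tsum hs hα hν h.ne_zero k hσ hσ1) ((ps_int hσ).mul_const _)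
        fun τ => mul_le_mul_of_nonneg_left (norm_Tsum_le hs hα hν h.ne_zero k hσ1 τ) (norm_nonneg _)
    · have := Real.rpow_nonneg (N_nonneg r) (-2)
      positivity

/-- the coefficients after the Möbius step -/
def psU (α ν : O → ℂ) (r k m : O) : ℂ := if r ∣ m then α m * psW m k * ν m else 0

theorem norm_psU {Q : Lev} {α ν : O → ℂ} (hs : SuppSq Q 1 α) (hν : ν ∈ hchars Q.q) (r k m : O) :
    ‖psU α ν r k m‖ ≤ ‖α m‖ := by
  unfold psU
  split_ifs
  · by_cases h : α m = 0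
    · simp [h]
    obtain ⟨h1, h2, -⟩ := hs _ h
    rw [norm_mul, norm_mul, mul_assoc]
    exact mul_le_of_le_one_right (norm_nonneg _) (mul_le_one₀ ((norm_psW h1.isCoprime_six h2 k).trans
      (ps_chi_le h1.isCoprime_six _)) (norm_nonneg _) (norm_hchar_le Q hν m))
  · simp

theorem ps_X_le {Q : Lev} {α ν : O → ℂ} (hs : SuppSq Q 1 α) (hν : ν ∈ hchars Q.q) {r : O}
    (hr : Prim r) (k : O) (σ τ : ℝ) :
    ‖psX (psU α ν r k) σ τ‖ ^ 2 ≤ ∑ ν' ∈ hchars Q.q, ‖Tsum α ν' r 1 k σ τ‖ ^ 2 := by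
  have e1 : psX (psU α ν r k) σ τ = ∑' m, α (r * m) * psW (r * m) k * ν (r * m) *
      (N (r * m) : ℂ) ^ (σ + τ * Complex.I : ℂ) := by
    rw [← tsum_dvd hr.ne_zero
      fun m => α m * psW m k * ν m * (N m : ℂ) ^ (σ + τ * Complex.I : ℂ)]
    exact tsum_congr fun m => by unfold psU; split_ifs <;> simp
  by_cases h : ∀ m, α (r * m) = 0
  · rw [e1]
    simp only [h, zero_mul, tsum_zero, norm_zero]
    exact (zero_pow two_ne_zero).trans_le (Finset.sum_nonneg fun _ _ => sq_nonneg _)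
  obtain ⟨m0, hm0⟩ := not_forall.1 h
  obtain ⟨r6, rs, -⟩ := ps_supp hs (r := m0) (m := r) (by rwa [mul_comm])
  obtain ⟨νr, h1, h2⟩ := exists_hchar_sg Q (rkey_two r6)
  refine le_trans ?_ (Finset.single_le_sum (f := fun ν' => ‖Tsum α ν' r 1 k σ τ‖ ^ 2)
    (fun _ _ => sq_nonneg _) (mul_mem_hchars Q hν h1))
  have e2 : psX (psU α ν r k) σ τ =
      (conj (chi r k) * gt r * ν r) * Tsum α (fun n => ν n * νr n) r 1 k σ τ := by
    rw [e1, Tsum, ← tsum_mul_left]
    refine tsum_congr fun m => ?_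
    by_cases hm : α (r * m) = 0
    · simp [hm]
    obtain ⟨a1, a2, -⟩ := hs _ hm
    obtain ⟨m6, -, m0⟩ := ps_supp hs hm
    have mp : Prim m := a1.1.of_mul_left hr
    have n0 := N_pos a1.1.ne_zero
    have e3 : (N (r * m) : ℂ) ^ (-(1 / 2 : ℂ) + σ + τ * Complex.I) =
        (N (r * m) : ℂ) ^ (σ + τ * Complex.I : ℂ) / (Real.sqrt (N (r * m)) : ℂ) := by
      rw [add_assoc, Complex.cpow_add _ _ (Complex.ofReal_ne_zero.2 n0.ne'), Complex.cpow_neg,
        Real.sqrt_eq_rpow, Complex.ofReal_cpow n0.le, div_eq_inv_mul (_ ^ _)]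
      simp
    rw [e3, psW, gt_mul hr mp (rkey_two r6) (rkey_two m6) (IsRelPrime.isCoprime
      (IsRelPrime.of_squarefree_mul a2)), h2 m (a1.of_dvd mp (dvd_mul_left _ _)),
      ((mem_hchars Q.ne).1 hν).1.mul, show chi (r * m) k = chi r k * chi m k from
        sym_mul_left 6 hr.ne_zero m0 k, one_mul, sq r, (rkey_chi m6).mul, sg_comm m r, map_mul]
    ring
  rw [e2, norm_mul]
  gcongr
  refine mul_le_of_le_one_left (norm_nonneg _) ?_
  rw [norm_mul, norm_mul, norm_gt r6 rs, mul_one, Complex.norm_conj]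
  exact mul_le_one₀ (ps_chi_le r6 _) (norm_nonneg _) (norm_hchar_le Q hν _)

theorem ps_zero {Q : Lev} {α : O → ℂ} (hs : SuppSq Q 1 α) : α 0 = 0 :=
  by_contra fun h => (hs _ h).1.1.ne_zero rfl

theorem ps_mid_r {Q : Lev} {α : O → ℂ} (hs : SuppSq Q 1 α) (hα : Rapid α) {σ : ℝ} (hσ : 0 < σ)
    (hσ1 : σ ≤ 1) {D : ℝ} (hD : 0 < D) {k r : O} (hk : k ≠ 0) (hr : Prim r) :
    ‖∑' p : O × O, if r ∣ p.1 ∧ r ∣ p.2 then α p.1 * conj (α p.2) * psK D p.1 p.2 k else 0‖ ≤
      ((hchars Q.q).card : ℝ) ^ 2 * ((D * N k) ^ (-σ) *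
        ∑ ν ∈ hchars Q.q, ∫ τ, Gm σ τ * ‖Tsum α ν r 1 k σ τ‖ ^ 2) := by
  obtain ⟨c, c1, c2⟩ := expand_sg Q
  obtain ⟨νm, m1, m2⟩ := exists_hchar_smooth Q (d0 := -1) (j := 0) (by simp)
  have hF : ∀ ν ∈ hchars Q.q, (fun n => conj (ν n * νm n)) ∈ hchars Q.q := fun ν hν =>
    conj_mem_hchars Q (mul_mem_hchars Q hν m1)
  have x0 : 0 < D * N k := mul_pos hD (N_pos hk)
  have e1 : ∀ p : O × O,
      (if r ∣ p.1 ∧ r ∣ p.2 then α p.1 * conj (α p.2) * psK D p.1 p.2 k else 0) =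
      ∑ ν ∈ hchars Q.q, ∑ ν' ∈ hchars Q.q, c ν ν' * (psU α ν r k p.1 *
        conj (psU α (fun n => conj (ν' n * νm n)) r k p.2) *
          (Om (D * N k / (N p.1 * N p.2)) : ℂ)) := by
    intro p
    unfold psU
    by_cases a : α p.1 = 0
    · simp [a]
    by_cases b : α p.2 = 0
    · simp [b]
    by_cases a' : r ∣ p.1
    swap
    · simp [a']
    by_cases b' : r ∣ p.2
    swap
    · simp [b']
    rw [if_pos ⟨a', b'⟩, psK, c2 _ _ (hs _ a).1 (hs _ b).1, ← m2 _ (hs _ b).1.2]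
    simp only [if_pos a', if_pos b', Finset.sum_mul, Finset.mul_sum, map_mul, Complex.conj_conj]
    exact Finset.sum_congr rfl fun _ _ => Finset.sum_congr rfl fun _ _ => by ring
  have su : ∀ ν ∈ hchars Q.q, Summable fun m => ‖psU α ν r k m‖ * N m := fun ν hν =>
    Summable.of_nonneg_of_le (fun m => mul_nonneg (norm_nonneg _) (N_nonneg _))
      (fun m => by rw [pow_one]; exact mul_le_mul_of_nonneg_right (norm_psU hs hν r k m) (N_nonneg _))
      (hα 1)
  have s0 : Summable fun m => ‖α m‖ := by simpa using hα 0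
  have sp : ∀ ν ∈ hchars Q.q, ∀ ν' ∈ hchars Q.q, ∀ z : ℂ, Summable fun p : O × O =>
      z * (psU α ν r k p.1 * conj (psU α ν' r k p.2) * (Om (D * N k / (N p.1 * N p.2)) : ℂ)) := by
    intro ν hν ν' hν' z
    refine (Summable.of_norm_bounded (s0.mul_of_nonneg s0 (fun _ => norm_nonneg _)
      fun _ => norm_nonneg _) fun p => ?_).mul_left z
    rw [norm_mul, norm_mul, Complex.norm_conj, Complex.norm_real, Real.norm_of_nonneg (Om_pos _).le]
    refine (mul_le_of_le_one_right (by positivity) (Om_le_one (div_nonneg x0.le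
      (mul_nonneg (N_nonneg _) (N_nonneg _))))).trans ?_
    gcongr
    · exact norm_psU hs hν r k _
    · exact norm_psU hs hν' r k _
  have hI := fun ν hν => integrable_Tsum hs hα (ν := ν) hν hr.ne_zero k hσ hσ1
  rw [tsum_congr e1, Summable.tsum_finsetSum fun ν hν =>
    summable_sum fun ν' hν' => sp ν hν _ (hF ν' hν') _, ← integral_finsetSum _ hI, sq, mul_assoc,
    ← nsmul_eq_mul, ← Finset.sum_const]
  refine norm_sum_le_of_le _ fun ν hν => ?_
  rw [Summable.tsum_finsetSum fun ν' hν' => sp ν hν _ (hF ν' hν') _, ← nsmul_eq_mul,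
    ← Finset.sum_const]
  refine norm_sum_le_of_le _ fun ν' hν' => ?_
  rw [tsum_mul_left, norm_mul]
  refine (mul_le_of_le_one_left (norm_nonneg _) (c1 _ _)).trans ?_
  simp only [← Finset.mul_sum]
  exact ps_sep hσ hσ1 (by simp [psU, ps_zero hs]) (by simp [psU, ps_zero hs]) (su ν hν)
    (su _ (hF ν' hν')) x0 (by simpa only [Finset.mul_sum] using integrable_finsetSum _ hI)
    (ps_X_le hs hν hr k σ) (ps_X_le hs (hF ν' hν') hr k σ)

theorem ps_mid {Q : Lev} {α : O → ℂ} (hs : SuppSq Q 1 α) (hα : Rapid α) {D : ℝ} (hD : 0 < D)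
    (k : O) {B : O → ℝ} (hB : Summable fun r => if Prim r then B r else 0)
    (h : ∀ r, Prim r → ‖∑' p : O × O,
      if r ∣ p.1 ∧ r ∣ p.2 then α p.1 * conj (α p.2) * psK D p.1 p.2 k else 0‖ ≤ B r) :
    ‖∑' p : O × O, (if IsCoprime p.1 p.2 then α p.1 * conj (α p.2) else 0) * psK D p.1 p.2 k‖ ≤
      ∑' r, if Prim r then B r else 0 := by
  set f : O → O × O → ℂ := fun r p => if Prim r then mu r *
    (if r ∣ p.1 ∧ r ∣ p.2 then α p.1 * conj (α p.2) * psK D p.1 p.2 k else 0) else 0 with hf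
  have sf : Summable (Function.uncurry f) := by
    have n0 : ∀ j : ℕ, (0 : O → ℝ) ≤ fun m => ‖α m‖ * N m ^ j := fun j m =>
      mul_nonneg (norm_nonneg _) (pow_nonneg (N_nonneg _) _)
    refine Summable.of_norm_bounded ((summable_N_rpow (σ := 2) (by norm_num)).mul_of_nonneg
      ((hα 2).mul_of_nonneg (hα 0) (n0 2) (n0 0)) (fun r => Real.rpow_nonneg (N_nonneg _) _)
      fun p => mul_nonneg (n0 2 _) (n0 0 _)) ?_
    rintro ⟨r, a, b⟩
    have z := mul_nonneg (Real.rpow_nonneg (N_nonneg r) (-2)) (mul_nonneg (n0 2 a) (n0 0 b))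
    simp only [Function.uncurry, hf]
    split_ifs with h1 h2
    · by_cases ha : α a = 0
      · simp [ha]
      by_cases hb : α b = 0
      · simp [hb]
      obtain ⟨a1, a2, -⟩ := hs _ ha
      obtain ⟨b1, b2, -⟩ := hs _ hb
      have r0 := N_pos h1.ne_zero
      have k1 := (norm_psK' a1.isCoprime_six b1.isCoprime_six a2 b2 D k).trans
        (Om_le_one (div_nonneg (mul_nonneg hD.le (N_nonneg _))
          (mul_nonneg (N_nonneg _) (N_nonneg _))))
      have k2 : 1 ≤ N r ^ (-2 : ℝ) * N a ^ 2 := by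
        rw [Real.rpow_neg r0.le, Real.rpow_two, ← div_eq_inv_mul, one_le_div (by positivity)]
        gcongr
        exact N_le_of_dvd a1.1.ne_zero h2.1
      rw [norm_mul, norm_mul, norm_mul, Complex.norm_conj]
      calc _ ≤ 1 * (‖α a‖ * ‖α b‖ * 1) := by gcongr; exact norm_mu_le r
        _ ≤ (N r ^ (-2 : ℝ) * N a ^ 2) * (‖α a‖ * ‖α b‖ * 1) := by gcongr
        _ = _ := by ring
    · simpa using z
    · simpa using z
  have e1 : ∀ p : O × O, (if IsCoprime p.1 p.2 then α p.1 * conj (α p.2) else 0) *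
      psK D p.1 p.2 k = ∑' r, f r p := by
    intro p
    by_cases ha : α p.1 = 0
    · simp [hf, ha]
    have a1 := (hs _ ha).1.1
    rw [tsum_eq_sum (s := (pdiv p.1).filter fun e => e ∣ p.2), Finset.sum_congr rfl
      (g := fun r => mu r * (α p.1 * conj (α p.2) * psK D p.1 p.2 k)), ← Finset.sum_mul,
      sum_mu_coprime a1, isCoprime_comm]
    · split_ifs <;> simp
    · intro r hr
      rw [Finset.mem_filter, mem_pdiv a1.ne_zero] at hr
      simp only [hf, if_pos hr.1.1, if_pos (And.intro hr.1.2 hr.2)]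
    · intro r hr
      rw [Finset.mem_filter, mem_pdiv a1.ne_zero] at hr
      simp only [hf]
      split_ifs with h1 h2
      · exact (hr ⟨⟨h1, h2.1⟩, h2.2⟩).elim
      · simp
      · rfl
  rw [tsum_congr e1, sf.tsum_comm]
  refine tsum_of_norm_bounded hB.hasSum fun r => ?_
  simp only [hf]
  split_ifs with hr
  · rw [tsum_mul_left, norm_mul]
    exact (mul_le_of_le_one_left (norm_nonneg _) (norm_mu_le r)).trans (h r hr)
  · simp

theorem ps_coef (α : O → ℂ) (p : O × O) :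
    ‖(if IsCoprime p.1 p.2 then α p.1 * conj (α p.2) else 0)‖ ≤ ‖α p.1‖ * ‖α p.2‖ := by
  split_ifs
  · rw [norm_mul, Complex.norm_conj]
  · rw [norm_zero]; positivity

theorem ps_Qform {Q : Lev} {α : O → ℂ} (hs : SuppSq Q 1 α) (hα : Rapid α) {D : ℝ} (hD : 0 < D) :
    HasSum (fun p : O × O => (if IsCoprime p.1 p.2 then α p.1 * conj (α p.2) else 0) *
      ∑' d : O, (Om (N d / D) : ℂ) * (chi p.1 d * conj (chi p.2 d))) (Qform α 1 D) := by
  set f : O × O → O → ℂ := fun p d => (if IsCoprime p.1 p.2 then α p.1 * conj (α p.2) else 0) *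
    ((Om (N d / D) : ℂ) * (chi p.1 d * conj (chi p.2 d))) with hf
  have s0 : Summable fun m => ‖α m‖ := by simpa using hα 0
  have s1 : Summable fun d => Om (N d / D) := by simpa using summable_Om hD 0
  have sf : Summable (Function.uncurry f) := by
    refine Summable.of_norm_bounded ((s0.mul_of_nonneg s0 (fun _ => norm_nonneg _)
      fun _ => norm_nonneg _).mul_of_nonneg s1 (fun _ => by positivity) fun _ => (Om_pos _).le) ?_
    rintro ⟨⟨a, b⟩, d⟩
    simp only [Function.uncurry, hf]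
    by_cases ha : α a = 0
    · simp [ha]
    by_cases hb : α b = 0
    · simp [hb]
    rw [norm_mul, norm_mul, norm_mul, Complex.norm_conj, Complex.norm_real,
      Real.norm_of_nonneg (Om_pos _).le]
    exact mul_le_mul (ps_coef α (a, b)) (mul_le_of_le_one_right (Om_pos _).le
      (mul_le_one₀ (ps_chi_le (hs _ ha).1.isCoprime_six _) (norm_nonneg _)
        (ps_chi_le (hs _ hb).1.isCoprime_six _))) (mul_nonneg (Om_pos _).le (by positivity))
      (by positivity)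
  have e1 : Qform α 1 D = ∑' d, ∑' p, f p d := by
    refine tsum_congr fun d => ?_
    have sd : Summable fun p => f p d := sf.prod_symm.prod_factor d
    rw [if_pos isCoprime_one_right, sd.tsum_prod, ← tsum_mul_left]
    refine tsum_congr fun a => ?_
    rw [← tsum_mul_left]
    refine tsum_congr fun b => ?_
    simp only [hf]
    split_ifs
    · ring
    · simp
  rw [e1, sf.tsum_comm]
  simpa only [hf, Function.uncurry, tsum_mul_left] using sf.prod.hasSum

/-- **Poisson step.**  For coprime `m₁, m₂` (`q = m₁m₂`, `ψ = χ_{m₁} conj χ_{m₂}`):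
`∑_d Om(Nd/D) ψ(d) = (D/Nq) ∑_k gs q ψ k Om(D Nk/Nq)` (`poisson_per`), and by `gs_mul`, `chi_rec`,
`gs_chi_pow`, `gs_conj_chi`:
`gs q ψ k = sg m₁ m₂ · conj χ_{m₁}(k) gt m₁ √N m₁ · χ_{m₂}(k) χ_{m₂}(-1) conj(gt m₂) √N m₂`.
`k = 0` only occurs for `m₁ = m₂ = 1` and gives `D |α 1|²`.
`N k > U`: `Om_le_pow A0` and `tsum_tail_N_rpow` give the last term.
`0 < N k ≤ U`: `mellin_Om`, `expand_sg`, Möbius for `(m₁,m₂) = 1` (`m_i = r m_i'`),
`gt_mul r m`, `exists_hchar_sg`, `exists_hchar_smooth` (for `χ_·(-1)`); the two factors are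
unimodular multiples of `Tsum α ν r 1 k σ τ` and of `conj (Tsum α ν' r 1 k σ (-τ))`; use
`|XY| ≤ (|X|²+|Y|²)/2` and `Gm_neg`. -/
theorem pstep (Q : Lev) {σ : ℝ} (hσ : 0 < σ) (hσ1 : σ ≤ 1) {A0 : ℕ} (hA0 : 2 ≤ A0) :
    ∃ C, ∀ α : O → ℂ, SuppSq Q 1 α → Rapid α → ∀ D U : ℝ, 0 < D → 0 < U →
    ‖Qform α 1 D‖ ≤ C * D * ‖α 1‖ ^ 2 +
      C * D * ∑' r : O, (if Prim r then
        ∑ ν ∈ hchars Q.q, ∫ τ : ℝ, Gm σ τ * ∑ k ∈ ball U,
          (D * N k) ^ (-σ) * ‖Tsum α ν r 1 k σ τ‖ ^ 2 else 0) +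
      C * (D * U) * ((D * U) ^ A0)⁻¹ * mom α A0 ^ 2 := by
  obtain ⟨C1, hC1, H1⟩ := ps_point hA0
  set H : ℝ := ((hchars Q.q).card : ℝ) ^ 2 with hH
  have hH0 : 0 ≤ H := by positivity
  refine ⟨1 + H + C1, fun α hs hα D U hD hU => ?_⟩
  have s0 : Summable fun m => ‖α m‖ := by simpa using hα 0
  have n0 : (0 : O → ℝ) ≤ fun m => ‖α m‖ * N m ^ A0 := fun m =>
    mul_nonneg (norm_nonneg _) (pow_nonneg (N_nonneg _) _)
  have sK : ∀ k, Summable fun p : O × O =>
      (if IsCoprime p.1 p.2 then α p.1 * conj (α p.2) else 0) * psK D p.1 p.2 k := by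
    intro k
    refine Summable.of_norm_bounded (s0.mul_of_nonneg s0 (fun _ => norm_nonneg _)
      fun _ => norm_nonneg _) fun p => ?_
    by_cases ha : α p.1 = 0
    · simp [ha]
    by_cases hb : α p.2 = 0
    · simp [hb]
    obtain ⟨a1, a2, -⟩ := hs _ ha
    obtain ⟨b1, b2, -⟩ := hs _ hb
    rw [norm_mul]
    exact (mul_le_of_le_one_right (norm_nonneg _) ((norm_psK' a1.isCoprime_six b1.isCoprime_six
      a2 b2 D k).trans (Om_le_one (div_nonneg (mul_nonneg hD.le (N_nonneg _))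
        (mul_nonneg (N_nonneg _) (N_nonneg _)))))).trans (ps_coef α p)
  have h1 := (ps_Qform hs hα hD).sub
    ((hasSum_sum (s := ball U) fun k _ => (sK k).hasSum).mul_left (D : ℂ))
  have h2 := ((hasSum_ite_eq ((1, 1) : O × O) (D * ‖α 1‖ ^ 2)).add
    ((((hα A0).hasSum.mul (hα A0).hasSum ((hα A0).mul_of_nonneg (hα A0) n0 n0))).mul_left
      (C1 * (D * U) * ((D * U) ^ A0)⁻¹)))
  have h3 := h1.norm_le_of_bounded h2 fun p => by
    rw [← Finset.mul_sum, mul_left_comm, ← mul_sub]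
    have z : (0 : ℝ) ≤ (if p = (1, 1) then D * ‖α 1‖ ^ 2 else 0) + C1 * (D * U) * ((D * U) ^ A0)⁻¹ *
        (‖α p.1‖ * N p.1 ^ A0 * (‖α p.2‖ * N p.2 ^ A0)) :=
      add_nonneg (by split_ifs <;> positivity) (mul_nonneg (by positivity) (mul_nonneg (n0 _) (n0 _)))
    by_cases ha : α p.1 = 0
    · simpa [ha] using z
    by_cases hb : α p.2 = 0
    · simpa [hb] using z
    by_cases hc : IsCoprime p.1 p.2
    swap
    · rw [if_neg hc, zero_mul, norm_zero]; exact z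
    obtain ⟨a1, a2, -⟩ := hs _ ha
    obtain ⟨b1, b2, -⟩ := hs _ hb
    rw [norm_mul]
    refine (mul_le_mul (ps_coef α p) (H1 _ _ a1.1 b1.1 a1.isCoprime_six b1.isCoprime_six a2 b2 hc
      D U hD hU) (norm_nonneg _) (by positivity)).trans_eq ?_
    obtain ⟨a, b⟩ := p
    simp only [Prod.mk.injEq]
    split_ifs with h
    · rw [h.1, h.2]; ring
    · ring
  have sI := fun ν hν k => summable_Tsum hs hα (ν := ν) hν k hσ hσ1
  have sB : ∀ k, Summable fun r => if Prim r then H * ((D * N k) ^ (-σ) *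
      ∑ ν ∈ hchars Q.q, ∫ τ, Gm σ τ * ‖Tsum α ν r 1 k σ τ‖ ^ 2) else 0 := by
    intro k
    refine (((summable_sum fun ν hν => sI ν hν k).mul_left ((D * N k) ^ (-σ))).mul_left H).congr
      fun r => ?_
    split_ifs <;> simp
  have h4 : ‖∑ k ∈ ball U, ∑' p : O × O,
      (if IsCoprime p.1 p.2 then α p.1 * conj (α p.2) else 0) * psK D p.1 p.2 k‖ ≤
      H * ∑' r : O, (if Prim r then ∑ ν ∈ hchars Q.q, ∫ τ : ℝ, Gm σ τ * ∑ k ∈ ball U,
        (D * N k) ^ (-σ) * ‖Tsum α ν r 1 k σ τ‖ ^ 2 else 0) := by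
    refine (norm_sum_le_of_le _ fun k hk => ps_mid hs hα hD k (sB k) fun r hr =>
      ps_mid_r hs hα hσ hσ1 hD (mem_ball.1 hk).1 hr).trans_eq ?_
    rw [← Summable.tsum_finsetSum fun k _ => sB k, ← tsum_mul_left]
    refine tsum_congr fun r => ?_
    split_ifs with hr
    · rw [← Finset.mul_sum]
      congr 1
      simp only [Finset.mul_sum]
      rw [Finset.sum_comm]
      refine Finset.sum_congr rfl fun ν hν => ?_
      simp only [mul_left_comm (Gm σ _)]
      rw [integral_finsetSum _ fun k _ =>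
        (integrable_Tsum hs hα hν hr.ne_zero k hσ hσ1).const_mul _]
      simp only [integral_const_mul]
    · simp
  have t0 : 0 ≤ ∑' r : O, (if Prim r then ∑ ν ∈ hchars Q.q, ∫ τ : ℝ, Gm σ τ * ∑ k ∈ ball U,
      (D * N k) ^ (-σ) * ‖Tsum α ν r 1 k σ τ‖ ^ 2 else 0) := tsum_nonneg fun r => by
    split_ifs
    · exact Finset.sum_nonneg fun _ _ => integral_nonneg fun _ => mul_nonneg (norm_nonneg _)
        (Finset.sum_nonneg fun k _ => mul_nonneg (Real.rpow_nonneg (mul_nonneg hD.le (N_nonneg _)) _)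
          (sq_nonneg _))
    · exact le_rfl
  have h5 := (norm_le_norm_sub_add _ _).trans (add_le_add h3 ((norm_mul_le _ _).trans
    (mul_le_mul_of_nonneg_left h4 (norm_nonneg _))))
  rw [Complex.norm_real, Real.norm_of_nonneg hD.le, ← mom, ← sq] at h5
  refine h5.trans ?_
  generalize ∑' r : O, (if Prim r then ∑ ν ∈ hchars Q.q, ∫ τ : ℝ, Gm σ τ * ∑ k ∈ ball U,
      (D * N k) ^ (-σ) * ‖Tsum α ν r 1 k σ τ‖ ^ 2 else 0) = T at t0
  have t1 : 0 ≤ D * ‖α 1‖ ^ 2 := by positivity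
  have t2 : 0 ≤ D * U * ((D * U) ^ A0)⁻¹ * mom α A0 ^ 2 := by positivity
  have t3 := mul_nonneg hD.le t0
  nlinarith [mul_nonneg hH0 t1, mul_nonneg hC1 t1, mul_nonneg hH0 t2, mul_nonneg hC1 t3]

end Crest.Agent.R17
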