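import Crest.Agent.R17.TLS

/-!
# R17 / PStepAux : tools for the Poisson step
-/

set_option autoImplicit false

noncomputable section

open scoped Classical ComplexConjugate
open MeasureTheory

namespace Crest.Agent.R17

theorem ps_supp {Q : Lev} {α : O → ℂ} (hs : SuppSq Q 1 α) {r m : O} (h : α (r * m) ≠ 0) :
    IsCoprime m 6 ∧ Squarefree m ∧ m ≠ 0 := by
  obtain ⟨h1, h2, -⟩ := hs _ h
  have := h1.isCoprime_six.of_mul_left_right
  exact ⟨this, h2.of_mul_right, rkey_ne (rkey_two this)⟩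

theorem ps_chi_le {m : O} (h : IsCoprime m 6) (d : O) : ‖chi m d‖ ≤ 1 :=
  (rkey_chi h).norm_le (rkey_ne (rkey_two h)) d

theorem ps_sqrt_ne {m : O} (h : m ≠ 0) : (Real.sqrt (N m) : ℂ) ≠ 0 :=
  Complex.ofReal_ne_zero.2 (Real.sqrt_pos.2 (N_pos h)).ne'

/-- the dual coefficient -/
def psW (m k : O) : ℂ := conj (chi m k) * gt m / (Real.sqrt (N m) : ℂ)

theorem norm_psW {m : O} (h : IsCoprime m 6) (hs : Squarefree m) (k : O) :
    ‖psW m k‖ ≤ ‖chi m k‖ := by
  have h0 := rkey_ne (rkey_two h)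
  rw [psW, norm_div, norm_mul, norm_gt h hs, mul_one, Complex.norm_conj, Complex.norm_real,
    Real.norm_eq_abs, abs_of_nonneg (Real.sqrt_nonneg _)]
  exact div_le_self (norm_nonneg _) (Real.one_le_sqrt.2 (one_le_N h0))

theorem ps_gs {a b : O} (ha : Prim a) (hb : Prim b) (ha6 : IsCoprime a 6) (hb6 : IsCoprime b 6)
    (sa : Squarefree a) (sb : Squarefree b) (hab : IsCoprime a b) (k : O) :
    gs (a * b) (fun x => chi a x * conj (chi b x)) k =
      (N (a * b) : ℂ) * (psW a k * conj (psW b k) * (sg a b * chi b (-1))) := by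
  have a0 := ha.ne_zero
  have b0 := hb.ne_zero
  have e1 := gs_chi_pow ha6 sa (j := 1) (by norm_num) k
  simp only [pow_one] at e1
  have e2 : gs a (chi a) 1 = gt a * (Real.sqrt (N a) : ℂ) := by
    rw [gt, div_mul_cancel₀ _ (ps_sqrt_ne a0)]
  have e3 := rkey_mul_conj ((rkey_chi hb6).norm_eq_one b0 hab)
  have e4 : ∀ m : O, (N m : ℂ) = (Real.sqrt (N m) : ℂ) * (Real.sqrt (N m) : ℂ) := fun m => by
    rw [← Complex.ofReal_mul, Real.mul_self_sqrt (N_nonneg m)]
  rw [gs_mul a0 b0 hab (rkey_chi ha6) (rkey_chi hb6).conj, gs_conj_chi hb6 sb, e1, e2,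
    chi_rec ha hb (rkey_two ha6) (rkey_two hb6), N_mul, Complex.ofReal_mul, e4 a, e4 b,
    mul_assoc (sg a b), e3]
  simp only [psW, map_div₀, map_mul, Complex.conj_conj, Complex.conj_ofReal]
  have := ps_sqrt_ne a0
  have := ps_sqrt_ne b0
  field_simp

/-- the dual kernel -/
def psK (D : ℝ) (a b k : O) : ℂ :=
  psW a k * conj (psW b k) * (sg a b * chi b (-1)) * (Om (D * N k / (N a * N b)) : ℂ)

theorem norm_psK {a b : O} (ha6 : IsCoprime a 6) (hb6 : IsCoprime b 6)
    (sa : Squarefree a) (sb : Squarefree b) (D : ℝ) (k : O) :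
    ‖psK D a b k‖ ≤ ‖chi a k‖ * ‖chi b k‖ * Om (D * N k / (N a * N b)) := by
  rw [psK, norm_mul, norm_mul, norm_mul, norm_mul, norm_sg (rkey_two ha6) (rkey_two hb6), one_mul,
    Complex.norm_conj, Complex.norm_real, Real.norm_eq_abs, abs_of_pos (Om_pos _)]
  have := Om_pos (D * N k / (N a * N b))
  refine mul_le_mul_of_nonneg_right ?_ this.le
  refine (mul_le_of_le_one_right (by positivity) (ps_chi_le hb6 _)).trans ?_
  gcongr
  · exact norm_psW ha6 sa k
  · exact norm_psW hb6 sb k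

theorem norm_psK' {a b : O} (ha6 : IsCoprime a 6) (hb6 : IsCoprime b 6)
    (sa : Squarefree a) (sb : Squarefree b) (D : ℝ) (k : O) :
    ‖psK D a b k‖ ≤ Om (D * N k / (N a * N b)) :=
  (norm_psK ha6 hb6 sa sb D k).trans (mul_le_of_le_one_left (Om_pos _).le
    (mul_le_one₀ (ps_chi_le ha6 _) (norm_nonneg _) (ps_chi_le hb6 _)))

theorem ps_point {A0 : ℕ} (hA0 : 2 ≤ A0) : ∃ C, 0 ≤ C ∧ ∀ a b : O, Prim a → Prim b →
    IsCoprime a 6 → IsCoprime b 6 → Squarefree a → Squarefree b → IsCoprime a b →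
    ∀ D U : ℝ, 0 < D → 0 < U →
    ‖∑' d : O, (Om (N d / D) : ℂ) * (chi a d * conj (chi b d)) -
        D * ∑ k ∈ ball U, psK D a b k‖ ≤
      D * (if a = 1 ∧ b = 1 then 1 else 0) +
        C * (D * U) * ((D * U) ^ A0)⁻¹ * (N a ^ A0 * N b ^ A0) := by
  have hA1 : (1 : ℝ) < A0 := by exact_mod_cast hA0
  obtain ⟨C, hC⟩ := tsum_tail_N_rpow hA1
  have hC0 : 0 ≤ C := by
    have := hC 1 one_pos
    rw [Real.one_rpow, mul_one] at this
    exact (tsum_nonneg fun n => by
      split_ifs; exacts [Real.rpow_nonneg (N_nonneg _) _, le_rfl]).trans this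
  refine ⟨A0.factorial * C, by positivity, fun a b ha hb ha6 hb6 sa sb hab D U hD hU => ?_⟩
  have a0 := N_pos ha.ne_zero
  have b0 := N_pos hb.ne_zero
  have hq := mul_ne_zero ha.ne_zero hb.ne_zero
  have e1 := poisson_per hq ((rkey_chi ha6).mul_moduli (rkey_chi hb6).conj).per hD
  have e2 : ∑' d : O, (Om (N d / D) : ℂ) * (chi a d * conj (chi b d)) =
      D * ∑' k, psK D a b k := by
    simp only [mul_comm (Om _ : ℂ)]
    rw [e1, ← tsum_mul_left, ← tsum_mul_left]
    refine tsum_congr fun k => ?_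
    rw [ps_gs ha hb ha6 hb6 sa sb hab, psK, N_mul]
    have : ((N a * N b : ℝ) : ℂ) ≠ 0 := Complex.ofReal_ne_zero.2 (by positivity)
    rw [Complex.ofReal_div]
    field_simp
  have sK : Summable fun k => ‖psK D a b k‖ := by
    refine Summable.of_nonneg_of_le (fun _ => norm_nonneg _) (fun k => ?_)
      (summable_Om (X := N a * N b / D) (by positivity) 0)
    refine (norm_psK' ha6 hb6 sa sb D k).trans_eq ?_
    rw [pow_zero, one_mul]; congr 1; field_simp
  have hb0 : (0 : O) ∉ ball U := fun h => (mem_ball.1 h).1 rfl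
  have e3 : ∑' k, psK D a b k = ∑ k ∈ insert 0 (ball U), psK D a b k +
      ∑' k, if U < N k then psK D a b k else 0 := by
    have s2 : Summable fun k => if U < N k then psK D a b k else 0 :=
      Summable.of_norm_bounded sK fun k => by split_ifs <;> simp
    have e4 : ∑' k, (if k ∈ insert 0 (ball U) then psK D a b k else 0) =
        ∑ k ∈ insert 0 (ball U), psK D a b k :=
      (tsum_eq_sum (s := insert 0 (ball U)) fun k hk => if_neg hk).trans
        (Finset.sum_congr rfl fun k hk => if_pos hk)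
    rw [← e4,
      ← Summable.tsum_add (Summable.of_norm_bounded sK fun k => by split_ifs <;> simp) s2]
    refine tsum_congr fun k => ?_
    by_cases h : U < N k
    · rw [if_pos h, if_neg, zero_add]
      rw [Finset.mem_insert, mem_ball]
      rintro (rfl | h')
      · simp [N] at h; linarith
      · linarith [h'.2]
    · rw [if_neg h, if_pos, add_zero]
      rw [Finset.mem_insert, mem_ball]
      by_cases hk : k = 0
      · exact Or.inl hk
      · exact Or.inr ⟨hk, not_lt.1 h⟩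
  rw [e2, e3, Finset.sum_insert hb0, ← mul_sub, add_right_comm, add_sub_cancel_right, norm_mul,
    Complex.norm_real, Real.norm_eq_abs, abs_of_pos hD]
  have z : ‖psK D a b 0‖ ≤ if a = 1 ∧ b = 1 then 1 else 0 := by
    split_ifs with h
    · exact (norm_psK' ha6 hb6 sa sb D 0).trans (Om_le_one (by simp [N]))
    · refine (norm_psK ha6 hb6 sa sb D 0).trans_eq ?_
      have key : ∀ c : O, Prim c → IsCoprime c 6 → c ≠ 1 → chi c 0 = 0 := fun c hc h6 h1 =>
        ((rkey_chi h6).zero_iff 0).2 fun h =>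
          h1 (hc.eq_one_of_isUnit (isCoprime_zero_left.1 h))
      rcases not_and_or.1 h with h | h
      · simp [key a ha ha6 h]
      · simp [key b hb hb6 h]
  have s3 : Summable fun k : O => if U < N k then N k ^ (-(A0 : ℝ)) else 0 :=
    Summable.of_norm_bounded (summable_N_rpow hA1) fun k => by
      split_ifs
      · exact (Real.norm_of_nonneg (Real.rpow_nonneg (N_nonneg _) _)).le
      · rw [norm_zero]; exact Real.rpow_nonneg (N_nonneg _) _
  have t := tsum_of_norm_bounded (f := fun k => if U < N k then psK D a b k else 0)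
    (s3.hasSum.mul_left (A0.factorial * ((N a * N b / D) ^ A0))) fun k => by
      split_ifs with h
      · have hk := hU.trans h
        refine (norm_psK' ha6 hb6 sa sb D k).trans ((Om_le_pow A0 (by positivity)).trans_eq ?_)
        rw [Real.rpow_neg hk.le, Real.rpow_natCast]
        simp only [div_pow, mul_pow]
        field_simp
      · simp
  have t2 := t.trans (mul_le_mul_of_nonneg_left (hC U hU) (by positivity))
  refine (mul_le_mul_of_nonneg_left (norm_add_le_of_le z t2) hD.le).trans_eq ?_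
  rw [Real.rpow_sub hU, Real.rpow_one, Real.rpow_natCast]
  simp only [div_pow, mul_pow]
  field_simp

/-- Dirichlet polynomial with exponent `σ + iτ` -/
def psX (u : O → ℂ) (σ τ : ℝ) : ℂ := ∑' m, u m * (N m : ℂ) ^ (σ + τ * Complex.I : ℂ)

theorem ps_norm_cpow {m : O} (hm : m ≠ 0) {s : ℂ} (hs : s.re ≤ 1) : ‖(N m : ℂ) ^ s‖ ≤ N m := by
  rw [Complex.norm_cpow_eq_rpow_re_of_pos (N_pos hm)]
  simpa using Real.rpow_le_rpow_of_exponent_le (one_le_N hm) hs

theorem ps_summable {u : O → ℂ} (h0 : u 0 = 0) (hu : Summable fun m => ‖u m‖ * N m) {s : ℂ}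
    (hs : s.re ≤ 1) : Summable fun m => ‖u m * (N m : ℂ) ^ s‖ := by
  refine Summable.of_nonneg_of_le (fun _ => norm_nonneg _) (fun m => ?_) hu
  by_cases hm : m = 0
  · simp [hm, h0]
  · rw [norm_mul]
    exact mul_le_mul_of_nonneg_left (ps_norm_cpow hm hs) (norm_nonneg _)

theorem ps_int {σ : ℝ} (hσ : 0 < σ) : Integrable (Gm σ) := by
  simpa using integrable_Gm hσ 0

/-- separation of variables by the Mellin transform -/
theorem ps_sep {σ : ℝ} (hσ : 0 < σ) (hσ1 : σ ≤ 1) {u v : O → ℂ} (u0 : u 0 = 0) (v0 : v 0 = 0)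
    (hu : Summable fun m => ‖u m‖ * N m) (hv : Summable fun m => ‖v m‖ * N m) {x : ℝ}
    (hx : 0 < x) {G : ℝ → ℝ} (hG : Integrable fun τ => Gm σ τ * G τ)
    (h1 : ∀ τ, ‖psX u σ τ‖ ^ 2 ≤ G τ) (h2 : ∀ τ, ‖psX v σ τ‖ ^ 2 ≤ G τ) :
    ‖∑' p : O × O, u p.1 * conj (v p.2) * (Om (x / (N p.1 * N p.2)) : ℂ)‖ ≤
      x ^ (-σ) * ∫ τ, Gm σ τ * G τ := by
  have hc0 : 0 < c0 := one_pos.trans one_lt_c0
  have hpi := Real.pi_gt_three
  set F : O × O → ℝ → ℂ := fun p τ => ((1 / (2 * Real.pi) : ℂ) *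
    (Complex.Gamma (σ + τ * Complex.I) * ((c0 * x : ℝ) : ℂ) ^ (-(σ + τ * Complex.I)))) *
      ((u p.1 * (N p.1 : ℂ) ^ (σ + τ * Complex.I : ℂ)) *
        conj (v p.2 * (N p.2 : ℂ) ^ (σ + (-τ : ℝ) * Complex.I : ℂ))) with hF
  have hK : ∀ τ : ℝ, ‖(1 / (2 * Real.pi) : ℂ) * (Complex.Gamma (σ + τ * Complex.I) *
      ((c0 * x : ℝ) : ℂ) ^ (-(σ + τ * Complex.I)))‖ ≤ x ^ (-σ) * Gm σ τ := by
    intro τ
    rw [norm_mul, norm_mul, Complex.norm_cpow_eq_rpow_re_of_pos (by positivity), mul_comm (_ ^ _)]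
    have a1 : ‖(1 / (2 * Real.pi) : ℂ)‖ ≤ 1 := by
      rw [norm_div, norm_one, norm_mul, Complex.norm_real, Real.norm_eq_abs, abs_of_pos Real.pi_pos,
        Complex.norm_ofNat, div_le_one (by positivity)]
      linarith
    refine (mul_le_of_le_one_left (by positivity) a1).trans ?_
    refine mul_le_mul_of_nonneg_left ?_ (norm_nonneg _)
    simp only [Complex.neg_re, Complex.add_re, Complex.ofReal_re, Complex.mul_re, Complex.I_re,
      mul_zero, Complex.ofReal_im, Complex.I_im, zero_mul, sub_zero, add_zero]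
    exact Real.rpow_le_rpow_of_nonpos hx (le_mul_of_one_le_left hx.le one_lt_c0.le) (by linarith)
  have re1 : ∀ τ : ℝ, (σ + τ * Complex.I : ℂ).re ≤ 1 := fun τ => by simpa using hσ1
  have hFn : ∀ p τ, ‖F p τ‖ ≤ x ^ (-σ) * Gm σ τ * ((‖u p.1‖ * N p.1) * (‖v p.2‖ * N p.2)) := by
    intro p τ
    rw [hF, norm_mul]
    refine mul_le_mul (hK τ) ?_ (norm_nonneg _) ((norm_nonneg _).trans (hK τ))
    by_cases a : p.1 = 0
    · simp [a, u0]
    by_cases b : p.2 = 0
    · simp [b, v0]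
    rw [norm_mul, Complex.norm_conj, norm_mul, norm_mul]
    have := N_nonneg p.1
    gcongr
    · exact ps_norm_cpow a (re1 τ)
    · exact ps_norm_cpow b (re1 _)
  have hFc : ∀ p, Continuous (F p) := by
    intro p
    by_cases a : p.1 = 0
    · simp only [hF, a, u0, zero_mul, mul_zero]; exact continuous_const
    by_cases b : p.2 = 0
    · simp only [hF, b, v0, zero_mul, mul_zero, map_zero]; exact continuous_const
    have c1 := Po.continuous_Gamma_line hσ
    have n1 : ((c0 * x : ℝ) : ℂ) ≠ 0 := Complex.ofReal_ne_zero.2 (by positivity)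
    have n2 : (N p.1 : ℂ) ≠ 0 := Complex.ofReal_ne_zero.2 (N_pos a).ne'
    have n3 : (N p.2 : ℂ) ≠ 0 := Complex.ofReal_ne_zero.2 (N_pos b).ne'
    refine (continuous_const.mul (c1.mul (Continuous.const_cpow (by fun_prop) (Or.inl n1)))).mul
      ((continuous_const.mul (Continuous.const_cpow (by fun_prop) (Or.inl n2))).mul
        (Complex.continuous_conj.comp (continuous_const.mul
          (Continuous.const_cpow (by fun_prop) (Or.inl n3)))))
  have hFb : ∀ p : O × O, Integrable fun τ =>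
      x ^ (-σ) * Gm σ τ * ((‖u p.1‖ * N p.1) * (‖v p.2‖ * N p.2)) :=
    fun p => ((ps_int hσ).const_mul _).mul_const _
  have hFi : ∀ p, Integrable (F p) := fun p =>
    (hFb p).mono' (hFc p).aestronglyMeasurable (.of_forall (hFn p))
  have hFs : Summable fun p => ∫ τ, ‖F p τ‖ := by
    refine Summable.of_nonneg_of_le (fun _ => integral_nonneg fun _ => norm_nonneg _) (fun p => ?_)
      ((hu.mul_of_nonneg hv (fun m => mul_nonneg (norm_nonneg _) (N_nonneg _))
        (fun m => mul_nonneg (norm_nonneg _) (N_nonneg _))).mul_left (∫ τ, x ^ (-σ) * Gm σ τ))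
    rw [← integral_mul_const]
    exact integral_mono (hFi p).norm (hFb p) (hFn p)
  have e1 : ∀ p : O × O, u p.1 * conj (v p.2) * (Om (x / (N p.1 * N p.2)) : ℂ) = ∫ τ, F p τ := by
    intro p
    by_cases a : p.1 = 0
    · simp [hF, a, u0]
    by_cases b : p.2 = 0
    · simp [hF, b, v0]
    have a' := N_pos a
    have b' := N_pos b
    rw [mellin_Om hσ (by positivity), ← integral_const_mul, ← integral_const_mul]
    refine integral_congr_ae (.of_forall fun τ => ?_)
    have c1 : conj ((N p.2 : ℂ) ^ (σ + (-τ : ℝ) * Complex.I : ℂ)) =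
        (N p.2 : ℂ) ^ (σ + τ * Complex.I : ℂ) := by
      have := Complex.cpow_conj (N p.2 : ℂ) (σ + (-τ : ℝ) * Complex.I : ℂ) (by
        rw [Complex.arg_ofReal_of_nonneg b'.le]; exact Real.pi_ne_zero.symm)
      rw [Complex.conj_ofReal] at this
      rw [← this]
      simp
    have c2 : ((c0 * x : ℝ) : ℂ) ^ (-(σ + τ * Complex.I)) =
        ((c0 * (x / (N p.1 * N p.2)) : ℝ) : ℂ) ^ (-(σ + τ * Complex.I)) *
          ((N p.1 : ℂ) ^ (-(σ + τ * Complex.I)) * (N p.2 : ℂ) ^ (-(σ + τ * Complex.I))) := by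
      rw [← Complex.mul_cpow_ofReal_nonneg a'.le b'.le, ← Complex.ofReal_mul,
        ← Complex.mul_cpow_ofReal_nonneg (by positivity) (by positivity), ← Complex.ofReal_mul]
      congr 2
      field_simp
    have n2 : (N p.1 : ℂ) ^ (σ + τ * Complex.I : ℂ) ≠ 0 :=
      Complex.cpow_ne_zero_iff.2 (Or.inl (Complex.ofReal_ne_zero.2 a'.ne'))
    have n3 : (N p.2 : ℂ) ^ (σ + τ * Complex.I : ℂ) ≠ 0 :=
      Complex.cpow_ne_zero_iff.2 (Or.inl (Complex.ofReal_ne_zero.2 b'.ne'))
    simp only [hF]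
    rw [map_mul, c1, c2, Complex.cpow_neg (N p.1 : ℂ), Complex.cpow_neg (N p.2 : ℂ)]
    field_simp
  have hG' : Integrable fun τ => Gm σ τ * G (-τ) := by
    simpa only [Gm_neg] using hG.comp_neg
  have e2 : ∫ τ, Gm σ τ * G (-τ) = ∫ τ, Gm σ τ * G τ := by
    simpa only [Gm_neg] using integral_neg_eq_self (fun τ => Gm σ τ * G τ) volume
  rw [tsum_congr e1, integral_tsum_of_summable_integral_norm hFi hFs]
  refine (norm_integral_le_of_norm_le (g := fun τ => x ^ (-σ) / 2 *
    (Gm σ τ * G τ + Gm σ τ * G (-τ))) ((hG.add hG').const_mul _) (.of_forall fun τ => ?_)).trans_eq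
    (by rw [integral_const_mul, integral_add hG hG', e2]; ring)
  have s2 : Summable fun m => ‖conj (v m * (N m : ℂ) ^ (σ + (-τ : ℝ) * Complex.I : ℂ))‖ := by
    simpa only [Complex.norm_conj] using ps_summable v0 hv (re1 (-τ))
  simp only [hF]
  rw [tsum_mul_left, ← tsum_mul_tsum_of_summable_norm (ps_summable u0 hu (re1 τ)) s2,
    ← Complex.conj_tsum, norm_mul, norm_mul (∑' _, _), Complex.norm_conj]
  refine (mul_le_mul_of_nonneg_right (hK τ) (by positivity)).trans ?_
  have a1 := h1 τ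
  have a2 := h2 (-τ)
  have a3 : 0 ≤ x ^ (-σ) * Gm σ τ := (norm_nonneg _).trans (hK τ)
  unfold psX at a1 a2
  refine (mul_le_mul_of_nonneg_left (show _ ≤ (G τ + G (-τ)) / 2 by
    nlinarith [sq_nonneg (‖∑' m, u m * (N m : ℂ) ^ (σ + τ * Complex.I : ℂ)‖ -
      ‖∑' m, v m * (N m : ℂ) ^ (σ + (-τ : ℝ) * Complex.I : ℂ)‖)]) a3).trans_eq (by ring)

end Crest.Agent.R17
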