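import Crest.Agent.R17.Prin_Defs

/-!
# R17 / Prin_Blk : the sums `Av`, `Bv` are blocks

`blks a Y (1/3) = exp (Y/6 + 1/144) · blk a (Y + 1/12) 0` (`blks_shift` with `s = 1/2`, `x = 1/6`).
-/

set_option autoImplicit false

noncomputable section

open scoped Classical ComplexConjugate

namespace Crest.Agent.R17.Pr

theorem blks_third (a : O → ℂ) (Y : ℝ) :
    blks (prim a) Y (1 / 3) = (Real.exp (Y / 6 + 1 / 144) : ℂ) * pb a (Y + 1 / 12) 0 := by
  have h := blks_shift (prim a) Y (1 / 6) (1 / 2 + (0 : ℝ) * Complex.I)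
  have e1 : (1 / 2 + ((0 : ℝ) : ℂ) * Complex.I) - ((1 / 6 : ℝ) : ℂ) = 1 / 3 := by
    push_cast; ring
  have e2 : (1 / 6 : ℝ) * Y + (1 / 6) ^ 2 / 4 = Y / 6 + 1 / 144 := by ring
  have e3 : Y + (1 / 6 : ℝ) / 2 = Y + 1 / 12 := by ring
  rw [e1, e2, e3] at h
  exact h

theorem blk_third_split {h l : O} (hh : h ≠ 0) (hl : l ≠ 0) (y : ℝ) :
    ((N (h * l) ^ (-(1 / 3) : ℝ) * gw (Real.log (N (h * l)) - y) : ℝ) : ℂ) =
      (N h : ℂ) ^ (-(1 / 3 : ℂ)) * ((N l : ℂ) ^ (-(1 / 3 : ℂ)) *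
        (gw (Real.log (N l) - (y - Real.log (N h))) : ℂ)) := by
  have e : (-(1 / 3 : ℂ)) = ((-(1 / 3) : ℝ) : ℂ) := by push_cast; ring
  have e2 : Real.log (N h) + Real.log (N l) - y = Real.log (N l) - (y - Real.log (N h)) := by ring
  rw [N_mul, Real.mul_rpow (N_nonneg _) (N_nonneg _), Real.log_mul (N_pos hh).ne' (N_pos hl).ne', e2,
    e, ← Complex.ofReal_cpow (N_nonneg _), ← Complex.ofReal_cpow (N_nonneg _)]
  push_cast
  ring

theorem blk_cpow_third (h : O) :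
    ((N h ^ (-(1 / 3) : ℝ) : ℝ) : ℂ) = (N h : ℂ) ^ (-(1 / 3 : ℂ)) := by
  rw [Complex.ofReal_cpow (N_nonneg _)]
  congr 1
  push_cast; ring

/-- `N_mul`, `Real.mul_rpow`, `Real.log_mul`, `Complex.ofReal_cpow`, `tsum_mul_left` -/
theorem Av_eq (Q : Lev) (y : ℝ) {h : O} (hh : h ≠ 0) : (Av Q y h : ℂ) =
    ((N h ^ (-(1 / 3) : ℝ) : ℝ) : ℂ) * blks (prim (one0 Q)) (y - Real.log (N h)) (1 / 3) := by
  rw [Av, Complex.ofReal_tsum, blks, ← tsum_mul_left, blk_cpow_third]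
  refine tsum_congr fun l => ?_
  by_cases hl : P0 Q l
  · rw [if_pos hl, if_neg hl.1.ne_zero, blk_third_split hh hl.1.ne_zero, R17.prim, if_pos hl.1, one0,
      if_pos hl.2]
    ring
  · have : prim (one0 Q) l = 0 := by
      unfold R17.prim one0
      split_ifs with h1 h2
      exacts [absurd ⟨h1, h2⟩ hl, rfl, rfl]
    simp [hl, this]

/-- `η (h n) = η h η n`, and `η n = 0` unless `n` is coprime to `Q.q` (`mem_hchars Q.ne`) -/
theorem Bv_eq {Q : Lev} {η : O → ℂ} (hη : η ∈ hchars Q.q) (y : ℝ) {h : O} (hh : h ≠ 0) :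
    Bv Q η y h = η h * (N h : ℂ) ^ (-(1 / 3 : ℂ)) *
      blks (prim (mm η)) (y - Real.log (N h)) (1 / 3) := by
  have hc := ((mem_hchars Q.ne).1 hη).1
  rw [Bv, blks, ← tsum_mul_left]
  refine tsum_congr fun l => ?_
  by_cases hl : P0 Q l
  · rw [if_pos hl, if_neg hl.1.ne_zero, blk_third_split hh hl.1.ne_zero, R17.prim, if_pos hl.1, mm,
      hc.mul]
    ring
  · have : prim (mm η) l = 0 := by
      unfold R17.prim mm
      split_ifs with h1
      · rw [(hc.zero_iff l).2 fun h2 => hl ⟨h1, h2⟩, mul_zero]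
      · rfl
    simp [hl, this]

/-- `c = r √π e^{1/9}`, `r = Ef (prim (one0 Q)) 1` (`Ef_one_one0`).  For `Y ≥ 0` use `block_asymp`
(`ν = one0 Q`, `a = 1`, `t = 0`, `e4_pdiv_one`): the error is `≤ C e^{Y/6 - Y/2} ≤ C e^{Y/2}`; for `Y ≤ 0`
both terms are `≤ C e^{2Y/3} ≤ C e^{Y/2}` (`norm_blk_le`). -/
theorem blks_one0 (Q : Lev) : ∃ c C : ℝ, 0 < c ∧ 0 ≤ C ∧ ∀ Y : ℝ,
    ‖blks (prim (one0 Q)) Y (1 / 3) - ((c * Real.exp (2 / 3 * Y) : ℝ) : ℂ)‖ ≤
      C * Real.exp (Y / 2) := by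
  obtain ⟨r, hr, hE⟩ := Ef_one_one0 Q
  obtain ⟨C, B, hC⟩ := block_asymp Q
  obtain ⟨M, -, -, hM, hb⟩ := hC _ (one0_mem Q) 1 Prim.one
  obtain ⟨C2, hC2⟩ := norm_blk_le
  set c := r * Real.sqrt Real.pi * Real.exp (1 / 9) with hc
  have hc0 : 0 < c := by have := Real.pi_pos; positivity
  refine ⟨c, Real.exp 1 * |C| + (Real.exp 1 * |C2| + c), hc0, by positivity, fun Y => ?_⟩
  have hn : ‖(Real.exp (Y / 6 + 1 / 144) : ℂ)‖ = Real.exp (Y / 6 + 1 / 144) := by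
    rw [Complex.norm_real, Real.norm_of_nonneg (Real.exp_pos _).le]
  have hY2 := Real.exp_pos (Y / 2)
  rw [blks_third]
  rcases le_total 0 Y with hY | hY
  · have h1 := hb (Y + 1 / 12) 0
    simp only [isCoprime_one_right, if_true, e4_pdiv_one, Finset.card_singleton, Nat.cast_one,
      abs_zero, add_zero, one_pow, mul_one] at h1
    rw [hM rfl, hE] at h1
    have e : ((c * Real.exp (2 / 3 * Y) : ℝ) : ℂ) = (Real.exp (Y / 6 + 1 / 144) : ℂ) *
        ((r : ℂ) * (Real.sqrt Real.pi * Complex.exp ((1 / 2 - ((0 : ℝ) : ℂ) * Complex.I) ^ 2 / 4 +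
          (1 / 2 - ((0 : ℝ) : ℂ) * Complex.I) * ((Y + 1 / 12 : ℝ) : ℂ)))) := by
      have e1 : (1 / 2 - ((0 : ℝ) : ℂ) * Complex.I) ^ 2 / 4 +
          (1 / 2 - ((0 : ℝ) : ℂ) * Complex.I) * ((Y + 1 / 12 : ℝ) : ℂ) =
          ((1 / 16 + (Y + 1 / 12) / 2 : ℝ) : ℂ) := by push_cast; ring
      have e2 : Real.exp (1 / 9) * Real.exp (2 / 3 * Y) =
          Real.exp (Y / 6 + 1 / 144) * Real.exp (1 / 16 + (Y + 1 / 12) / 2) := by
        rw [← Real.exp_add, ← Real.exp_add]; congr 1; ring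
      rw [e1, ← Complex.ofReal_exp, hc, mul_assoc (r * _), e2]
      push_cast; ring
    rw [e, ← mul_sub, norm_mul, hn]
    calc _ ≤ Real.exp (Y / 6 + 1 / 144) * (|C| * Real.exp (-(Y + 1 / 12) / 2)) :=
          mul_le_mul_of_nonneg_left (h1.trans (by gcongr; exact le_abs_self _)) (Real.exp_pos _).le
      _ = |C| * Real.exp (Y / 6 + 1 / 144 + -(Y + 1 / 12) / 2) := by
          rw [Real.exp_add (Y / 6 + 1 / 144)]; ring
      _ ≤ |C| * Real.exp (1 + Y / 2) := by gcongr |C| * Real.exp ?_; linarith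
      _ = Real.exp 1 * |C| * Real.exp (Y / 2) := by rw [Real.exp_add]; ring
      _ ≤ _ := mul_le_mul_of_nonneg_right (le_add_of_nonneg_right (by positivity)) hY2.le
  · have h1 := hC2 _ (refl2_prim_le (norm_hchar_le Q (one0_mem Q))) (Y + 1 / 12) 0
    refine (norm_sub_le _ _).trans ?_
    rw [norm_mul, hn, Complex.norm_real, Real.norm_of_nonneg (by positivity)]
    calc _ ≤ Real.exp (Y / 6 + 1 / 144) * (|C2| * Real.exp ((Y + 1 / 12) / 2)) +
          c * Real.exp (Y / 2) := by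
          gcongr
          · exact h1.trans (by gcongr; exact le_abs_self _)
          · linarith
      _ = |C2| * Real.exp (Y / 6 + 1 / 144 + (Y + 1 / 12) / 2) + c * Real.exp (Y / 2) := by
          rw [Real.exp_add (Y / 6 + 1 / 144)]; ring
      _ ≤ |C2| * Real.exp (1 + Y / 2) + c * Real.exp (Y / 2) := by
          gcongr |C2| * Real.exp ?_ + _; linarith
      _ = (Real.exp 1 * |C2| + c) * Real.exp (Y / 2) := by rw [Real.exp_add]; ring
      _ ≤ _ := mul_le_mul_of_nonneg_right (le_add_of_nonneg_left (by positivity)) hY2.le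

theorem blk_exp_sub {h : O} (hh : h ≠ 0) (x y : ℝ) :
    Real.exp (x * (y - Real.log (N h))) = Real.exp (x * y) * N h ^ (-x) := by
  rw [Real.rpow_def_of_pos (N_pos hh), ← Real.exp_add]
  congr 1
  ring

/-- `Av_eq`, `blks_one0` with `Y = y - log N h`; `exp (x log N h) = N h ^ x` -/
theorem Av_asymp (Q : Lev) : ∃ c C : ℝ, 0 < c ∧ 0 ≤ C ∧ ∀ (y : ℝ) (h : O), h ≠ 0 →
    |Av Q y h - c * Real.exp (2 / 3 * y) * (N h)⁻¹| ≤
      C * Real.exp (y / 2) * N h ^ (-(5 / 6) : ℝ) := by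
  obtain ⟨c, C, hc, hC, h1⟩ := blks_one0 Q
  refine ⟨c, C, hc, hC, fun y h hh => ?_⟩
  have h0 := N_pos hh
  have h2 := h1 (y - Real.log (N h))
  have e1 : N h ^ (-(1 / 3) : ℝ) * N h ^ (-(2 / 3) : ℝ) = (N h)⁻¹ := by
    rw [← Real.rpow_add h0, ← Real.rpow_neg_one]; norm_num
  have e2 : N h ^ (-(1 / 3) : ℝ) * N h ^ (-(1 / 2) : ℝ) = N h ^ (-(5 / 6) : ℝ) := by
    rw [← Real.rpow_add h0]; norm_num
  have e3 : (y - Real.log (N h)) / 2 = 1 / 2 * (y - Real.log (N h)) := by ring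
  have e4 : 1 / 2 * y = y / 2 := by ring
  rw [e3, blk_exp_sub hh, blk_exp_sub hh, e4] at h2
  have e5 : ((Av Q y h - c * Real.exp (2 / 3 * y) * (N h)⁻¹ : ℝ) : ℂ) =
      ((N h ^ (-(1 / 3) : ℝ) : ℝ) : ℂ) * (blks (prim (one0 Q)) (y - Real.log (N h)) (1 / 3) -
        ((c * (Real.exp (2 / 3 * y) * N h ^ (-(2 / 3) : ℝ)) : ℝ) : ℂ)) := by
    rw [Complex.ofReal_sub, Av_eq Q y hh, ← e1, mul_sub, ← Complex.ofReal_mul]
    congr 2
    ring
  rw [← Real.norm_eq_abs, ← Complex.norm_real, e5, norm_mul, Complex.norm_real,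
    Real.norm_of_nonneg (by positivity), ← e2]
  calc _ ≤ N h ^ (-(1 / 3) : ℝ) * (C * (Real.exp (y / 2) * N h ^ (-(1 / 2) : ℝ))) := by gcongr
    _ = _ := by ring

/-- `Bv_eq`, `blks_third`, `globalM` with `t = 0`; `N(h)^{-1/3-(β-1/3+ε)} ≤ N(h)^{-4/5}` -/
theorem Bv_le (Q : Lev) {β ε : ℝ} (hβ : 7 / 8 ≤ β) (hβ1 : β ≤ 1) (hZ : ZF β) (hε : 0 < ε) :
    ∃ C : ℝ, 0 ≤ C ∧ ∀ η ∈ hchars Q.q, ∀ (y : ℝ) (h : O), h ≠ 0 →
      ‖Bv Q η y h‖ ≤ C * Real.exp ((β - 1 / 3 + ε) * y) * N h ^ (-(4 / 5) : ℝ) := by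
  obtain ⟨C, B, hC⟩ := globalM (by linarith) hβ1 hZ Q hε
  refine ⟨|C| * Real.exp (1 / 144 + (β - 1 / 2 + ε) / 12), by positivity, fun η hη y h hh => ?_⟩
  have h0 := N_pos hh
  have h1 := hC η hη (y - Real.log (N h) + 1 / 12) 0
  simp only [abs_zero, add_zero, one_pow, mul_one] at h1
  have h2 : N h ^ (-(1 / 3) : ℝ) * N h ^ (-(β - 1 / 3 + ε)) ≤ N h ^ (-(4 / 5) : ℝ) := by
    rw [← Real.rpow_add h0]
    exact Real.rpow_le_rpow_of_exponent_le (one_le_N hh) (by linarith)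
  rw [Bv_eq hη y hh, blks_third, ← blk_cpow_third, norm_mul, norm_mul, norm_mul, Complex.norm_real,
    Complex.norm_real, Real.norm_of_nonneg (by positivity), Real.norm_of_nonneg (by positivity)]
  calc _ ≤ 1 * N h ^ (-(1 / 3) : ℝ) * (Real.exp ((y - Real.log (N h)) / 6 + 1 / 144) *
        (|C| * Real.exp ((β - 1 / 2 + ε) * (y - Real.log (N h) + 1 / 12)))) := by
        gcongr
        · exact norm_hchar_le Q hη h
        · exact h1.trans (by gcongr; exact le_abs_self _)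
    _ = |C| * N h ^ (-(1 / 3) : ℝ) * (Real.exp (1 / 144 + (β - 1 / 2 + ε) / 12) *
        Real.exp ((β - 1 / 3 + ε) * (y - Real.log (N h)))) := by
        have : Real.exp ((y - Real.log (N h)) / 6 + 1 / 144) *
            Real.exp ((β - 1 / 2 + ε) * (y - Real.log (N h) + 1 / 12)) =
            Real.exp (1 / 144 + (β - 1 / 2 + ε) / 12) *
              Real.exp ((β - 1 / 3 + ε) * (y - Real.log (N h))) := by
          rw [← Real.exp_add, ← Real.exp_add]; congr 1; ring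
        rw [← this]; ring
    _ = |C| * Real.exp (1 / 144 + (β - 1 / 2 + ε) / 12) * Real.exp ((β - 1 / 3 + ε) * y) *
        (N h ^ (-(1 / 3) : ℝ) * N h ^ (-(β - 1 / 3 + ε))) := by rw [blk_exp_sub hh]; ring
    _ ≤ _ := by gcongr

end Crest.Agent.R17.Pr
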