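import Crest.Agent.R17.High1
import Crest.Agent.R17.High2_Defs

/-!
# R17 / Prin_Defs : definitions for `prin` (owner helper21; do not change)

Principal rows are `d = e a⁶`, `Ex Q e`, `a ∈ 𝒫₀`.  `F(a,l,n,i) = μ(i) cc a⁶ l (n i)` (`Fv`) is
multiplicative; `Gv = cv Fv` is `F` with the generic Euler factors removed in all four variables;
`H3 i h = ∑_{j ∣ i} G(h,j)`, and `F(a,l,n,i) = ∑_{h e = (a,l,n)} H3 i h μ(e₂)`.
* `Prin_Mul`   : multiplicativity, `cv` is linear and kills the model `μ(v 2)`, `Fv_expand`.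
* `Prin_Loc1`  : `‖F(p^e) - μ(p^{e 2})‖ ≤ 2 N(p)^{β·e - γ}`.
* `Prin_Loc2`  : local factors of the majorant `maj`.
* `Prin_Euler` : Euler products: `Good Q` for levels divisible by all small primes.
* `Prin_Fac`   : `Vv i = ∑_h H3 i h · Sv h`.
* `Prin_Theta` : `Th Υ = c Υ^{1/6} + O(Υ^{1/300})`.
* `Prin_Blk`   : the sums `Av`, `Bv` over `l`, `n`.
* `Prin_S`     : `Sv h ≈ c X^{-1/6} N(h₀)⁻¹ Av h₁ Bv h₂`.
* `Prin_Sig`   : the coefficients `bb` and the signal as a sum over triples.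
* `Prin_V`     : `Vv i ≈ c X^{-1/6} e^{2 y₁/3} Sig`.
* `Prin_Rows`  : `∑_{PRow d} Row d = ∑_{Ex e} Uv e`, `Uv e = ∑_I w_I N(i)^{-1/2} Vv i`.
* `Prin_U`     : the estimate for `Uv e`.
* `Prin_EJ`    : lower bound for `EJ`.
The helper lemmas of `High2_Defs` (`H2.chi_pow_left`, `H2.P0_pow`, `H2.mem_slot`, …) may be used.
-/

set_option autoImplicit false

noncomputable section

open scoped Classical ComplexConjugate

namespace Crest.Agent.R17.Pr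

/-- triples `(a, l, n)` -/
abbrev T3 : Type := O × O × O

/-- all entries in `𝒫₀` -/
def P3 (Q : Lev) (v : T3) : Prop := P0 Q v.1 ∧ P0 Q v.2.1 ∧ P0 Q v.2.2

/-- a finite set of primes of `𝒫₀` -/
def PS (Q : Lev) (I : Finset O) : Prop := ∀ p ∈ I, Prime p ∧ P0 Q p

/-- `F(a,l,n,i) = μ(i) cc a⁶ l (n i)` -/
def Fv (v : Fin 4 → O) : ℂ := mu (v 3) * cc (v 0 ^ 6) (v 1) (v 2 * v 3)

/-- removal of the generic Euler factors -/
def cv (F : (Fin 4 → O) → ℂ) : (Fin 4 → O) → ℂ :=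
  conv 0 mu (conv 1 mu (conv 2 (fun _ => 1) (conv 3 mu F)))

/-- `F` without the generic Euler factors -/
def Gv : (Fin 4 → O) → ℂ := cv Fv

def G3 (j : O) (h : T3) : ℂ := Gv ![h.1, h.2.1, h.2.2, j]

def H3 (i : O) (h : T3) : ℂ := ∑ j ∈ pdiv i, G3 j h

/-- the multiplicative majorant -/
def maj (α : Fin 4 → ℝ) (i : O) (v : Fin 4 → O) : ℝ :=
  ‖Gv v‖ * (∏ j, N (v j) ^ (-α j)) * if v 3 ∣ i then 1 else 0

/-- admissible exponents for the local bound -/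
structure Adm (β : Fin 4 → ℝ) (γ : ℝ) : Prop where
  n0 : 0 ≤ β 0
  n1 : 0 ≤ β 1
  n2 : 2 / 3 ≤ β 2
  n3 : 0 ≤ β 3
  p01 : γ ≤ β 0 + β 1
  p02 : γ ≤ β 0 + β 2
  p03 : γ ≤ β 0 + β 3
  p12 : γ ≤ β 1 + β 2
  p13 : γ ≤ β 1 + β 3
  p23 : γ ≤ β 2 + β 3
  p33 : γ ≤ 2 * β 3
  q2 : 1 + γ ≤ β 0 + β 1 + β 2
  q3 : 1 + γ ≤ β 0 + β 1 + β 3
  r2 : 4 + γ ≤ β 0 + 6 * β 2
  r3 : 4 + γ ≤ β 0 + 5 * β 2 + β 3

/-- the exponents of the pointwise bound attached to the weights `α` -/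
def bet (α : Fin 4 → ℝ) (γ : ℝ) : Fin 4 → ℝ :=
  ![α 0 - 1 / 300, α 1 - 1 / 300, α 2 - 1 / 300, α 3 + γ]

theorem admA : Adm (bet ![1, 5 / 6, 4 / 5, -(1 / 2)] (3 / 2)) (3 / 2) := by
  constructor <;> simp [bet] <;> norm_num

theorem admB : Adm (bet ![1 / 50, 1, 1, 0] (101 / 100)) (101 / 100) := by
  constructor <;> simp [bet] <;> norm_num

/-- the weight (A) -/
def wA (h : T3) : ℝ := N h.1 ^ (-1 : ℝ) * N h.2.1 ^ (-(5 / 6) : ℝ) * N h.2.2 ^ (-(4 / 5) : ℝ)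

/-- the weight (B) -/
def wB (h : T3) : ℝ := N h.1 ^ (-(1 / 50) : ℝ) * N h.2.1 ^ (-1 : ℝ) * N h.2.2 ^ (-1 : ℝ)

/-- a summable weight -/
def u2 (h : T3) : ℝ := N h.1 ^ (-2 : ℝ) * (N h.2.1 ^ (-2 : ℝ) * N h.2.2 ^ (-2 : ℝ))

/-- `ℓ¹` bound over triples in `𝒫₀` -/
def L1 (Q : Lev) (m : T3 → ℝ) (B : ℝ) : Prop :=
  ∀ S : Finset T3, (∀ h ∈ S, P3 Q h) → ∑ h ∈ S, m h ≤ B

/-- the output of the Euler product bounds -/
structure Good (Q : Lev) : Prop where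
  one : G3 1 1 = 1
  G : L1 Q (fun h => ‖G3 1 h‖ * wA h) (3 / 2)
  A : ∀ I, PS Q I → L1 Q (fun h => ‖H3 (∏ p ∈ I, p) h‖ * wA h) (2 * 33 ^ I.card)
  B : ∀ I, PS Q I → L1 Q (fun h => ‖H3 (∏ p ∈ I, p) h‖ * wB h) (2 * 33 ^ I.card)
  D : ∀ I, PS Q I → ∀ L : ℝ, 0 < L → (∀ p ∈ I, L ≤ N p) →
    L1 Q (fun h => ‖H3 (∏ p ∈ I, p) h - G3 1 h‖ * wA h) (2 * 33 ^ I.card * L ^ (-(1 / 2) : ℝ))

/-- the analytic weight of `(a, l, n)`; `X = K N(e) / N(i)` -/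
def Wt (η : O → ℂ) (y1 y0 X : ℝ) (v : T3) : ℂ :=
  η v.2.2 * (((N v.2.1 * N v.2.2) ^ (-(1 / 2) : ℝ) * gw (Real.log (N v.2.1) - y1) *
    gw (Real.log (N v.2.2) - y0) * Om (X * N v.1 ^ 6 / (N v.2.1 * N v.2.2)) : ℝ) : ℂ)

/-- the sum over `(a, l, n)` for fixed marks `i` -/
def Vv (Q : Lev) (η : O → ℂ) (y1 y0 X : ℝ) (i : O) : ℂ :=
  ∑' v : T3, if P3 Q v then Fv ![v.1, v.2.1, v.2.2, i] * Wt η y1 y0 X v else 0

/-- the generic sum -/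
def Sv (Q : Lev) (η : O → ℂ) (y1 y0 X : ℝ) (h : T3) : ℂ :=
  ∑' e : T3, if P3 Q e then mu e.2.2 * Wt η y1 y0 X (h * e) else 0

/-- the lattice sum -/
def Th (Q : Lev) (Υ : ℝ) : ℝ := ∑' a : O, if P0 Q a then Om (N a ^ 6 / Υ) else 0

/-- the sum over `l` in the main term -/
def Av (Q : Lev) (y : ℝ) (h : O) : ℝ :=
  ∑' l : O, if P0 Q l then N (h * l) ^ (-(1 / 3) : ℝ) * gw (Real.log (N (h * l)) - y) else 0

/-- the sum over `n` in the main term -/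
def Bv (Q : Lev) (η : O → ℂ) (y : ℝ) (h : O) : ℂ :=
  ∑' n : O, if P0 Q n then mu n * η (h * n) *
    ((N (h * n) ^ (-(1 / 3) : ℝ) * gw (Real.log (N (h * n)) - y) : ℝ) : ℂ) else 0

/-- the coefficients of the signal -/
def bb (Q : Lev) (h : O) : ℂ :=
  if P0 Q h then ∑' x : O × O, (if P0 Q x.1 ∧ P0 Q x.2 then
    G3 1 (x.1, x.2, h) * (((N x.1)⁻¹ * (N x.2)⁻¹ : ℝ) : ℂ) else 0) else 0

/-- the level-smooth parts of principal rows -/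
def Ex (Q : Lev) (e : O) : Prop := (∃ j : ℕ, e ∣ Q.q ^ j) ∧ ∀ n, P0 Q n → chi n e = 1

/-- the principal rows with a given level-smooth part -/
def Uv (Q : Lev) (η : O → ℂ) (J : ℕ) (ρ z : ℝ) (e : O) : ℂ :=
  ∑' a : O, if P0 Q a then Row Q η J ρ z (e * a ^ 6) else 0

variable {Q : Lev}

theorem P3.mul {v w : T3} (hv : P3 Q v) (hw : P3 Q w) : P3 Q (v * w) :=
  ⟨hv.1.mul hw.1, hv.2.1.mul hw.2.1, hv.2.2.mul hw.2.2⟩

theorem P3.one (Q : Lev) : P3 Q 1 := ⟨P0.one Q, P0.one Q, P0.one Q⟩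

theorem PS.prod {I : Finset O} (hI : PS Q I) : P0 Q (∏ p ∈ I, p) :=
  H2.P0_prod fun p hp => (hI p hp).2

theorem Ex.ne_zero {e : O} (he : Ex Q e) : e ≠ 0 := by
  obtain ⟨j, hj⟩ := he.1
  exact ne_zero_of_dvd_ne_zero (pow_ne_zero j Q.ne) hj

theorem wA_nonneg (h : T3) : 0 ≤ wA h :=
  mul_nonneg (mul_nonneg (Real.rpow_nonneg (N_nonneg _) _) (Real.rpow_nonneg (N_nonneg _) _))
    (Real.rpow_nonneg (N_nonneg _) _)

theorem wB_nonneg (h : T3) : 0 ≤ wB h :=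
  mul_nonneg (mul_nonneg (Real.rpow_nonneg (N_nonneg _) _) (Real.rpow_nonneg (N_nonneg _) _))
    (Real.rpow_nonneg (N_nonneg _) _)

theorem u2_nonneg (h : T3) : 0 ≤ u2 h :=
  mul_nonneg (Real.rpow_nonneg (N_nonneg _) _)
    (mul_nonneg (Real.rpow_nonneg (N_nonneg _) _) (Real.rpow_nonneg (N_nonneg _) _))

theorem summable_u2 : Summable u2 :=
  have h := summable_N_rpow (σ := 2) one_lt_two
  have h0 : ∀ n : O, 0 ≤ N n ^ (-2 : ℝ) := fun n => Real.rpow_nonneg (N_nonneg _) _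
  h.mul_of_nonneg (h.mul_of_nonneg h h0 h0) h0 fun x => mul_nonneg (h0 x.1) (h0 x.2)

theorem u2_mul (h e : T3) : u2 (h * e) = u2 h * u2 e := by
  simp only [u2, Prod.fst_mul, Prod.snd_mul, N_mul, Real.mul_rpow (N_nonneg _) (N_nonneg _)]
  ring

theorem u2_le_wB {h : T3} (hh : P3 Q h) : u2 h ≤ wB h := by
  have h0 := one_le_N hh.1.1.ne_zero
  have h1 := one_le_N hh.2.1.1.ne_zero
  have h2 := one_le_N hh.2.2.1.ne_zero
  rw [u2, wB, ← mul_assoc]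
  gcongr <;> norm_num

theorem L1.mono {m m' : T3 → ℝ} {B : ℝ} (h : L1 Q m B) (h' : ∀ v, P3 Q v → m' v ≤ m v) :
    L1 Q m' B := fun S hS => (Finset.sum_le_sum fun v hv => h' v (hS v hv)).trans (h S hS)

theorem L1.add {m m' : T3 → ℝ} {B B' : ℝ} (h : L1 Q m B) (h' : L1 Q m' B') :
    L1 Q (fun v => m v + m' v) (B + B') := fun S hS => by
  rw [Finset.sum_add_distrib]
  exact add_le_add (h S hS) (h' S hS)

theorem L1.const_mul {m : T3 → ℝ} {B c : ℝ} (h : L1 Q m B) (hc : 0 ≤ c) :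
    L1 Q (fun v => c * m v) (c * B) := fun S hS => by
  rw [← Finset.mul_sum]
  exact mul_le_mul_of_nonneg_left (h S hS) hc

theorem L1.summable {m : T3 → ℝ} {B : ℝ} (h : L1 Q m B) (h0 : ∀ v, P3 Q v → 0 ≤ m v) :
    Summable (fun v => if P3 Q v then m v else 0) ∧ ∑' v, (if P3 Q v then m v else 0) ≤ B := by
  have hnn : 0 ≤ fun v => if P3 Q v then m v else 0 := fun v => by
    dsimp only
    split_ifs with hv
    exacts [h0 v hv, le_rfl]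
  have key : ∀ S : Finset T3, ∑ v ∈ S, (if P3 Q v then m v else 0) ≤ B := fun S => by
    rw [← Finset.sum_filter]
    exact h _ fun v hv => (Finset.mem_filter.1 hv).2
  exact ⟨summable_of_sum_le hnn key, Real.tsum_le_of_sum_le hnn key⟩

theorem L1.tsum {m : T3 → ℝ} {B : ℝ} (h : L1 Q m B) {g : T3 → ℂ}
    (hg : ∀ v, P3 Q v → ‖g v‖ ≤ m v) :
    Summable (fun v => if P3 Q v then g v else 0) ∧ ‖∑' v, if P3 Q v then g v else 0‖ ≤ B := by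
  obtain ⟨h1, h2⟩ := h.summable fun v hv => (norm_nonneg _).trans (hg v hv)
  have h3 : ∀ v, ‖if P3 Q v then g v else 0‖ ≤ if P3 Q v then m v else 0 := fun v => by
    split_ifs with hv
    exacts [hg v hv, norm_zero.le]
  exact ⟨.of_norm_bounded h1 h3, (tsum_of_norm_bounded h1.hasSum h3).trans h2⟩

theorem norm_Wt {η : O → ℂ} (hη : η ∈ hchars Q.q) (y1 y0 X : ℝ) (v : T3) :
    ‖Wt η y1 y0 X v‖ ≤ (N v.2.1 * N v.2.2) ^ (-(1 / 2) : ℝ) * gw (Real.log (N v.2.1) - y1) *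
      gw (Real.log (N v.2.2) - y0) * Om (X * N v.1 ^ 6 / (N v.2.1 * N v.2.2)) := by
  have h : 0 ≤ (N v.2.1 * N v.2.2) ^ (-(1 / 2) : ℝ) * gw (Real.log (N v.2.1) - y1) *
      gw (Real.log (N v.2.2) - y0) * Om (X * N v.1 ^ 6 / (N v.2.1 * N v.2.2)) :=
    mul_nonneg (mul_nonneg (mul_nonneg (Real.rpow_nonneg (mul_nonneg (N_nonneg _) (N_nonneg _)) _)
      (gw_pos _).le) (gw_pos _).le) (Om_pos _).le
  rw [Wt, norm_mul, Complex.norm_real, Real.norm_of_nonneg h]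
  exact mul_le_of_le_one_left h (norm_hchar_le Q hη _)

/-- crude decay of the weight -/
theorem norm_Wt_le {η : O → ℂ} (hη : η ∈ hchars Q.q) (y1 y0 : ℝ) {X : ℝ} (hX : 0 < X) :
    ∃ K, 0 ≤ K ∧ ∀ v, P3 Q v → ‖Wt η y1 y0 X v‖ ≤ K * u2 v := by
  refine ⟨X⁻¹ * (h1c 1 y1 * h1c 1 y0), by unfold h1c; positivity, fun v hv => ?_⟩
  have h0 := one_le_N hv.1.1.ne_zero
  have h1 := one_le_N hv.2.1.1.ne_zero
  have h2 := one_le_N hv.2.2.1.ne_zero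
  have k1 := h1c_le 1 y1 hv.2.1.1.ne_zero
  have k2 := h1c_le 1 y0 hv.2.2.1.ne_zero
  have k3 : Om (X * N v.1 ^ 6 / (N v.2.1 * N v.2.2)) ≤
      X⁻¹ * N v.1 ^ (-2 : ℝ) * (N v.2.1 * N v.2.2) := by
    refine (Om_le_pow 1 (by positivity)).trans ?_
    have : (N v.1 ^ 6)⁻¹ ≤ N v.1 ^ (-2 : ℝ) := by
      rw [← Real.rpow_natCast, ← Real.rpow_neg (by positivity)]
      exact Real.rpow_le_rpow_of_exponent_le h0 (by norm_num)
    rw [Nat.factorial_one, Nat.cast_one, one_mul, pow_one, inv_div, div_eq_inv_mul, mul_inv]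
    gcongr
  have k4 : (N v.2.1 * N v.2.2) ^ (-(1 / 2) : ℝ) ≤ 1 :=
    Real.rpow_le_one_of_one_le_of_nonpos (one_le_mul_of_one_le_of_one_le h1 h2) (by norm_num)
  have g1 := gw_pos (Real.log (N v.2.1) - y1)
  have g2 := gw_pos (Real.log (N v.2.2) - y0)
  refine (norm_Wt hη y1 y0 X v).trans ?_
  calc _ ≤ 1 * gw (Real.log (N v.2.1) - y1) * gw (Real.log (N v.2.2) - y0) *
        (X⁻¹ * N v.1 ^ (-2 : ℝ) * (N v.2.1 * N v.2.2)) := by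
        have := Om_pos (X * N v.1 ^ 6 / (N v.2.1 * N v.2.2))
        gcongr
    _ = X⁻¹ * N v.1 ^ (-2 : ℝ) * ((N v.2.1 ^ 1 * gw (Real.log (N v.2.1) - y1)) *
        (N v.2.2 ^ 1 * gw (Real.log (N v.2.2) - y0))) := by ring
    _ ≤ X⁻¹ * N v.1 ^ (-2 : ℝ) * ((h1c 1 y1 * N v.2.1 ^ (-2 : ℝ)) *
        (h1c 1 y0 * N v.2.2 ^ (-2 : ℝ))) := by
        gcongr
        exact h1a_nonneg _ _ _
    _ = _ := by rw [u2]; ring

end Crest.Agent.R17.Pr
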