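import Crest.Agent.R17.Prin_Loc2

/-!
# R17 / Prin_Euler : Euler product bounds
-/

set_option autoImplicit false

noncomputable section

open scoped Classical ComplexConjugate

namespace Crest.Agent.R17.Pr

theorem eu_maj_nonneg (α : Fin 4 → ℝ) (i : O) (v : Fin 4 → O) : 0 ≤ maj α i v :=
  mul_nonneg (mul_nonneg (norm_nonneg _) (Finset.prod_nonneg fun j _ => Real.rpow_nonneg (N_nonneg _) _))
    (by split_ifs <;> norm_num)

theorem eu_dvd_iff {I : Finset O} (hI : ∀ p ∈ I, Prime p ∧ Prim p) {p : O} (hp : Prime p) (hp' : Prim p) :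
    p ∣ ∏ q ∈ I, q ↔ p ∈ I := by
  refine ⟨fun h => ?_, fun h => Finset.dvd_prod_of_mem _ h⟩
  obtain ⟨q, hq, hpq⟩ := hp.exists_mem_finset_dvd h
  rwa [hp'.eq_of_associated (hI q hq).2 (hp.associated_of_dvd (hI q hq).1 hpq)]

/-- `TMul.tsum_le` for `maj α (∏ I)` (`tmul_maj`) with `T₀ = I`, `g = 33`, `c p = 16 N(p)^{-γ}`,
`M = 1/3` (`exp (1/3) ≤ 3/2`, e.g. `Real.exp_bound_div_one_sub_of_interval`).  Primes of `𝒫₀` have
`P < N p` (otherwise `p ∣ Q.q`), so `∑_{p ∈ T} c p ≤ 16 C P^{1-γ} ≤ 1/3` (`b2_tail`) for `P` large, and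
`P ≥ 4^300`.  For primes `p` of `𝒫₀`: `p ∣ ∏ I ↔ p ∈ I` (as in `H2.prod_primes_inj`) and `p² ∤ ∏ I`
(`mu_prod_primes`, `mu_eq_zero`).  Finally `Summable.sum_le_tsum`. -/
theorem euler {α : Fin 4 → ℝ} {γ : ℝ} (h : Adm (bet α γ) γ) (hγ : 1 < γ) : ∃ P : ℝ, ∀ Q : Lev,
    BigLev Q P → ∀ I, PS Q I → ∀ S : Finset (Fin 4 → O), (∀ v ∈ S, P0v Q v) →
    ∑ v ∈ S, maj α (∏ p ∈ I, p) v ≤ 3 / 2 * 33 ^ I.card := by
  obtain ⟨C, hC0, hC⟩ := b2_tail hγ
  have ht : Filter.Tendsto (fun X : ℝ => 16 * (C * X ^ (1 - γ))) Filter.atTop (nhds (16 * (C * 0))) := by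
    have := tendsto_rpow_neg_atTop (y := γ - 1) (by linarith)
    rw [neg_sub] at this
    exact (this.const_mul C).const_mul 16
  rw [mul_zero, mul_zero] at ht
  obtain ⟨P, hP1, hP2⟩ := ((ht.eventually (gt_mem_nhds (show (0 : ℝ) < 1 / 3 by norm_num))).and
    (Filter.eventually_ge_atTop ((4 : ℝ) ^ 300))).exists
  refine ⟨P, fun Q hQ I hI S hS => ?_⟩
  have hI' : ∀ p ∈ I, Prime p ∧ Prim p := fun p hp => ⟨(hI p hp).1, (hI p hp).2.1⟩
  have hbig : ∀ p, Prime p → P0 Q p → P < N p := fun p hp hp0 =>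
    lt_of_not_ge fun h => hp.coprime_iff_not_dvd.1 hp0.2 (hQ p hp h)
  have hsq : Squarefree (∏ p ∈ I, p) := by
    by_contra h
    have h1 := mu_prod_primes hI'
    rw [mu_eq_zero h] at h1
    exact pow_ne_zero _ (neg_ne_zero.2 one_ne_zero) h1.symm
  have h0 : ∀ v, 0 ≤ maj α (∏ p ∈ I, p) v := eu_maj_nonneg α _
  obtain ⟨hs, hle⟩ := (tmul_maj Q α (∏ p ∈ I, p)).tsum_le (fun v _ => h0 v)
    (c := fun p => 16 * N p ^ (-γ)) (g := fun _ => 33) (M := 1 / 3) I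
    (fun p => mul_nonneg (by norm_num) (Real.rpow_nonneg (N_nonneg p) _)) (fun _ => by norm_num)
    (fun T hT => by
      have h1 := hC P (lt_of_lt_of_le (by positivity) hP2) T
      rw [Finset.sum_congr rfl fun p hp => if_pos (hbig p (hT p hp).1 (hT p hp).2)] at h1
      rw [← Finset.mul_sum]
      linarith)
    (fun p hp hp0 E => by
      have h1 := loc_sum hp hp0 (hP2.trans (hbig p hp hp0).le) h (i := ∏ p ∈ I, p)
        (fun h2 => hp.not_isUnit (hsq p (by rwa [← sq]))) E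
      rwa [if_congr (eu_dvd_iff hI' hp hp0.1) rfl rfl] at h1)
  have h1 : ∑ v ∈ S, maj α (∏ p ∈ I, p) v = ∑ v ∈ S, if P0v Q v then maj α (∏ p ∈ I, p) v else 0 :=
    Finset.sum_congr rfl fun v hv => by rw [if_pos (hS v hv)]
  have h2 := hs.sum_le_tsum S fun v _ => by
    split_ifs
    exacts [h0 v, le_rfl]
  have h3 : Real.exp (1 / 3) ≤ 3 / 2 :=
    (Real.exp_bound_div_one_sub_of_interval (by norm_num) (by norm_num)).trans (by norm_num)
  rw [Finset.prod_const] at hle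
  rw [h1]
  exact h2.trans (hle.trans (mul_le_mul_of_nonneg_right h3 (by positivity)))

/-- `(h, j) ↦ ![h.1, h.2.1, h.2.2, j]` is injective (`Finset.sum_product'`, `Finset.sum_image`);
`P0.of_dvd`; compare `H2.sum_sum_le` in `High2.lean` -/
theorem L1_of_maj {Q : Lev} {α : Fin 4 → ℝ} {i : O} (hi : P0 Q i) {B : ℝ}
    (h : ∀ S : Finset (Fin 4 → O), (∀ v ∈ S, P0v Q v) → ∑ v ∈ S, maj α i v ≤ B) :
    L1 Q (fun v => ∑ j ∈ pdiv i, ‖G3 j v‖ *
      (N v.1 ^ (-α 0) * N v.2.1 ^ (-α 1) * N v.2.2 ^ (-α 2)) * N j ^ (-α 3)) B := by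
  intro S hS
  have hinj : Function.Injective fun x : T3 × O => ![x.1.1, x.1.2.1, x.1.2.2, x.2] := fun x y e =>
    Prod.ext (Prod.ext (congrFun e 0) (Prod.ext (congrFun e 1) (congrFun e 2))) (congrFun e 3)
  have h1 := h ((S ×ˢ pdiv i).image fun x : T3 × O => ![x.1.1, x.1.2.1, x.1.2.2, x.2]) fun v hv => by
    obtain ⟨x, hx, rfl⟩ := Finset.mem_image.1 hv
    obtain ⟨h1, h2⟩ := Finset.mem_product.1 hx
    intro j
    fin_cases j
    exacts [(hS _ h1).1, (hS _ h1).2.1, (hS _ h1).2.2, (e4_P0_div hi h2).1]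
  rw [Finset.sum_image fun x _ y _ e => hinj e, Finset.sum_product] at h1
  refine le_trans (le_of_eq (Finset.sum_congr rfl fun v _ => Finset.sum_congr rfl fun j hj => ?_)) h1
  have h2 : j ∣ i := ((mem_pdiv hi.1.ne_zero).1 hj).2
  simp only [maj, G3, Fin.prod_univ_four, Matrix.cons_val_zero, Matrix.cons_val_one, Matrix.cons_val, if_pos h2]
  ring

/-- `euler` with `admA`, `admB` (`P` = the maximum), `L1_of_maj`, `L1.mono`.  `one`: `(tmul_Gv Q).1`.
`G`: `I = ∅`, `e4_pdiv_one`.  `A`: `1 ≤ N(j)^{1/2}`.  `D`: `H3 i h - G3 1 h = ∑_{j ∈ (pdiv i).erase 1} G3 j h`,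
and a primary `j ≠ 1` dividing `∏ I` has a primary prime factor, which lies in `I`, so `L ≤ N j`,
`1 ≤ L^{-1/2} N(j)^{1/2}` (`L1.const_mul`). -/
theorem exists_good : ∃ P : ℝ, ∀ Q : Lev, BigLev Q P → Good Q := by
  obtain ⟨P1, h1⟩ := euler admA (by norm_num)
  obtain ⟨P2, h2⟩ := euler admB (by norm_num)
  refine ⟨max P1 P2, fun Q hQ => ?_⟩
  have hA : ∀ I, PS Q I → L1 Q (fun v => ∑ j ∈ pdiv (∏ p ∈ I, p), ‖G3 j v‖ * wA v * N j ^ (1 / 2 : ℝ))
      (3 / 2 * 33 ^ I.card) := fun I hI => by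
    have := L1_of_maj hI.prod (h1 Q (fun p hp h => hQ p hp (h.trans (le_max_left _ _))) I hI)
    simpa only [wA, Matrix.cons_val_zero, Matrix.cons_val_one, Matrix.cons_val, neg_neg] using this
  have hB : ∀ I, PS Q I → L1 Q (fun v => ∑ j ∈ pdiv (∏ p ∈ I, p), ‖G3 j v‖ * wB v)
      (3 / 2 * 33 ^ I.card) := fun I hI => by
    have := L1_of_maj hI.prod (h2 Q (fun p hp h => hQ p hp (h.trans (le_max_right _ _))) I hI)
    simpa only [wB, Matrix.cons_val_zero, Matrix.cons_val_one, Matrix.cons_val, neg_zero, Real.rpow_zero,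
      mul_one] using this
  have up : ∀ {m : T3 → ℝ} {B B' : ℝ}, L1 Q m B → B ≤ B' → L1 Q m B' := fun h h' S hS => (h S hS).trans h'
  have h32 : ∀ I : Finset O, (3 / 2 : ℝ) * 33 ^ I.card ≤ 2 * 33 ^ I.card := fun I => by gcongr; norm_num
  refine ⟨?_, ?_, fun I hI => up ((hA I hI).mono fun v _ => ?_) (h32 I),
    fun I hI => up ((hB I hI).mono fun v _ => ?_) (h32 I), fun I hI L hL hIL =>
      up (((hA I hI).const_mul (Real.rpow_nonneg hL.le (-(1 / 2)))).mono fun v _ => ?_) ?_⟩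
  · rw [← (tmul_Gv Q).1, G3]
    congr 1
    funext j
    fin_cases j <;> rfl
  · have := hA ∅ fun p hp => absurd hp (Finset.notMem_empty p)
    simpa only [Finset.prod_empty, e4_pdiv_one, Finset.sum_singleton, N_one, Real.one_rpow, mul_one,
      Finset.card_empty, pow_zero] using this
  · refine (mul_le_mul_of_nonneg_right (norm_sum_le _ _) (wA_nonneg v)).trans ?_
    rw [Finset.sum_mul]
    refine Finset.sum_le_sum fun j hj => le_mul_of_one_le_right (mul_nonneg (norm_nonneg _) (wA_nonneg v)) ?_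
    exact Real.one_le_rpow (one_le_N (e4_P0_div hI.prod hj).1.1.ne_zero) (by norm_num)
  · refine (mul_le_mul_of_nonneg_right (norm_sum_le _ _) (wB_nonneg v)).trans ?_
    rw [Finset.sum_mul]
  · have hi := hI.prod
    have h0 : ∀ j, 0 ≤ L ^ (-(1 / 2) : ℝ) * (‖G3 j v‖ * wA v * N j ^ (1 / 2 : ℝ)) := fun j =>
      mul_nonneg (Real.rpow_nonneg hL.le _) (mul_nonneg (mul_nonneg (norm_nonneg _) (wA_nonneg v))
        (Real.rpow_nonneg (N_nonneg _) _))
    rw [H3, ← Finset.sum_erase_eq_sub (f := fun j => G3 j v) (one_mem_pdiv hi.1.ne_zero), Finset.mul_sum]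
    refine (mul_le_mul_of_nonneg_right (norm_sum_le _ _) (wA_nonneg v)).trans ?_
    rw [Finset.sum_mul]
    refine le_trans (Finset.sum_le_sum fun j hj => ?_)
      (Finset.sum_le_sum_of_subset_of_nonneg (Finset.erase_subset 1 _) fun j _ _ => h0 j)
    obtain ⟨hj1, hj2⟩ := Finset.mem_erase.1 hj
    obtain ⟨hj3, hj4⟩ := (mem_pdiv hi.1.ne_zero).1 hj2
    obtain ⟨p, hp, hp', hpj⟩ := hj3.exists_prime_dvd hj1
    have hpI := (eu_dvd_iff (fun p hp => ⟨(hI p hp).1, (hI p hp).2.1⟩) hp hp').1 (hpj.trans hj4)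
    have h3 : L ^ (1 / 2 : ℝ) ≤ N j ^ (1 / 2 : ℝ) :=
      Real.rpow_le_rpow hL.le ((hIL p hpI).trans (N_le_of_dvd hj3.ne_zero hpj)) (by norm_num)
    rw [mul_left_comm, Real.rpow_neg hL.le]
    refine le_mul_of_one_le_right (mul_nonneg (norm_nonneg _) (wA_nonneg v)) ?_
    rwa [inv_mul_eq_div, one_le_div (Real.rpow_pos_of_pos hL _)]
  · rw [mul_comm]
    exact mul_le_mul_of_nonneg_right (h32 I) (Real.rpow_nonneg hL.le _)

end Crest.Agent.R17.Pr
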