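import Crest.Agent.R17.Prin_Mul

/-!
# R17 / Prin_Fac : factorisation of `Vv`
-/

set_option autoImplicit false

noncomputable section

open scoped Classical ComplexConjugate

namespace Crest.Agent.R17.Pr

theorem fac_fiber {α β : Type} {G : α × β → ℂ} (hG : Summable G) (π : α × β → α) (s : α → Finset β)
    (σ : α → β → α) (h1 : ∀ x, G x ≠ 0 → x.2 ∈ s (π x) ∧ x.1 = σ (π x) x.2)
    (h2 : ∀ a, ∀ e ∈ s a, π (σ a e, e) = a) :
    ∑' a, ∑ e ∈ s a, G (σ a e, e) = ∑' x, G x := by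
  rw [← (hG.hasSum.tsum_fiberwise π).tsum_eq]
  refine tsum_congr fun a => ?_
  rw [tsum_subtype, tsum_eq_sum (s := (s a).image (fun e => (σ a e, e))), Finset.sum_image]
  · refine Finset.sum_congr rfl fun e he => ?_
    rw [Set.indicator_of_mem]
    exact h2 a e he
  · intro e _ e' _ h
    exact (Prod.mk.inj h).2
  · intro x hx
    by_contra h
    have hm : x ∈ π ⁻¹' {a} := Set.mem_of_indicator_ne_zero h
    rw [Set.indicator_of_mem hm] at h
    obtain ⟨h3, h4⟩ := h1 x h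
    have ha : π x = a := hm
    rw [ha] at h3 h4
    exact hx (Finset.mem_image.2 ⟨x.2, h3, Prod.ext h4.symm rfl⟩)

theorem fac_div {Q : Lev} {v e : T3} (hv : P3 Q v) (he : e ∈ pdiv v.1 ×ˢ pdiv v.2.1 ×ˢ pdiv v.2.2) :
    P3 Q e ∧ P3 Q (v.1 / e.1, v.2.1 / e.2.1, v.2.2 / e.2.2) ∧
      ((v.1 / e.1, v.2.1 / e.2.1, v.2.2 / e.2.2) : T3) * e = v := by
  rw [Finset.mem_product, Finset.mem_product] at he
  obtain ⟨a0, a1, a2⟩ := e4_P0_div hv.1 he.1
  obtain ⟨b0, b1, b2⟩ := e4_P0_div hv.2.1 he.2.1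
  obtain ⟨c0, c1, c2⟩ := e4_P0_div hv.2.2 he.2.2
  refine ⟨⟨a0, b0, c0⟩, ⟨a1, b1, c1⟩, Prod.ext ?_ (Prod.ext ?_ ?_)⟩
  · exact (mul_comm _ _).trans a2.symm
  · exact (mul_comm _ _).trans b2.symm
  · exact (mul_comm _ _).trans c2.symm

/-- Reindexing `v = h * e`.  Let `G (h,e)` be the summand.  `hG.hasSum.prod_fiberwise` gives the left
side; `(hG.hasSum.tsum_fiberwise fun x => x.1 * x.2).tsum_eq` and `tsum_subtype`, `tsum_eq_sum` give
the right side (copy the proofs of `e4_fiber`, `tsum_conv1` with `O` replaced by `T3`;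
`e4_P0_div`, `e4_mul_div'`, `mem_pdiv`). -/
theorem fac3 (Q : Lev) {H f W : T3 → ℂ}
    (hs : Summable fun x : T3 × T3 =>
      if P3 Q x.1 ∧ P3 Q x.2 then H x.1 * (f x.2 * W (x.1 * x.2)) else 0) :
    HasSum (fun h => if P3 Q h then H h * ∑' e, (if P3 Q e then f e * W (h * e) else 0) else 0)
      (∑' v, if P3 Q v then (∑ e ∈ pdiv v.1 ×ˢ pdiv v.2.1 ×ˢ pdiv v.2.2,
        H (v.1 / e.1, v.2.1 / e.2.1, v.2.2 / e.2.2) * f e) * W v else 0) := by
  have key := fac_fiber hs (fun x => x.1 * x.2)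
    (fun v => if P3 Q v then pdiv v.1 ×ˢ pdiv v.2.1 ×ˢ pdiv v.2.2 else ∅)
    (fun v e => (v.1 / e.1, v.2.1 / e.2.1, v.2.2 / e.2.2)) ?_ ?_
  · have e1 : (∑' v, if P3 Q v then (∑ e ∈ pdiv v.1 ×ˢ pdiv v.2.1 ×ˢ pdiv v.2.2,
        H (v.1 / e.1, v.2.1 / e.2.1, v.2.2 / e.2.2) * f e) * W v else 0) = ∑' x : T3 × T3,
        if P3 Q x.1 ∧ P3 Q x.2 then H x.1 * (f x.2 * W (x.1 * x.2)) else 0 := by
      rw [← key]
      refine tsum_congr fun v => ?_
      split_ifs with hv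
      · rw [Finset.sum_mul]
        refine Finset.sum_congr rfl fun e he => ?_
        obtain ⟨a0, a1, a2⟩ := fac_div hv he
        simp only
        rw [if_pos ⟨a1, a0⟩, a2, mul_assoc]
      · rw [Finset.sum_empty]
    rw [e1]
    refine hs.hasSum.prod_fiberwise fun h => ?_
    have h3 := (hs.prod_factor h).hasSum
    have e2 : (if P3 Q h then H h * ∑' e, (if P3 Q e then f e * W (h * e) else 0) else 0) =
        ∑' b : T3, if P3 Q h ∧ P3 Q b then H h * (f b * W (h * b)) else 0 := by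
      split_ifs with hh
      · rw [← tsum_mul_left]
        simp only [hh, true_and, mul_ite, mul_zero]
      · simp only [hh, false_and, if_false, tsum_zero]
    rw [e2]
    exact h3
  · intro x hx
    have hx' : P3 Q x.1 ∧ P3 Q x.2 := by
      by_contra h
      exact hx (if_neg h)
    have hm := hx'.1.mul hx'.2
    simp only [if_pos hm, Finset.mem_product]
    exact ⟨⟨(mem_pdiv hm.1.1.ne_zero).2 ⟨hx'.2.1.1, dvd_mul_left _ _⟩,
      (mem_pdiv hm.2.1.1.ne_zero).2 ⟨hx'.2.2.1.1, dvd_mul_left _ _⟩,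
      (mem_pdiv hm.2.2.1.ne_zero).2 ⟨hx'.2.2.2.1, dvd_mul_left _ _⟩⟩,
      Prod.ext (e4_mul_div' hx'.2.1.1.ne_zero _).symm
        (Prod.ext (e4_mul_div' hx'.2.2.1.1.ne_zero _).symm (e4_mul_div' hx'.2.2.2.1.ne_zero _).symm)⟩
  · intro v e he
    by_cases hv : P3 Q v
    · simp only [if_pos hv] at he
      exact (fac_div hv he).2.2
    · simp only [if_neg hv] at he
      exact absurd he (Finset.notMem_empty e)

/-- `Fv_expand`, `fac3` with `f e = mu e.2.2`.  Summability: the summand is bounded by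
`(if P3 Q h then ‖H3 i h‖ wB h else 0) · (K u2 e)` (`norm_Wt_le`, `u2_mul`, `u2_le_wB`, `P3.mul`,
`L1.summable`, `summable_u2`, `Summable.mul_of_nonneg`). -/
theorem Vv_hasSum {Q : Lev} {η : O → ℂ} (hη : η ∈ hchars Q.q) (y1 y0 : ℝ) {X : ℝ} (hX : 0 < X)
    {i : O} (hi : P0 Q i) {B : ℝ} (hB : L1 Q (fun h => ‖H3 i h‖ * wB h) B) :
    HasSum (fun h => if P3 Q h then H3 i h * Sv Q η y1 y0 X h else 0) (Vv Q η y1 y0 X i) := by
  obtain ⟨K, hK, hW⟩ := norm_Wt_le hη y1 y0 hX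
  have h0 : ∀ h : T3, 0 ≤ ‖H3 i h‖ * wB h := fun h => mul_nonneg (norm_nonneg _) (wB_nonneg h)
  have s1 := (hB.summable fun v _ => h0 v).1
  have s2 := s1.mul_of_nonneg (summable_u2.mul_left K)
    (fun v => by dsimp only; split_ifs; exacts [h0 v, le_rfl]) fun v => mul_nonneg hK (u2_nonneg v)
  have key := fac3 Q (H := H3 i) (f := fun e => mu e.2.2) (W := Wt η y1 y0 X) (.of_norm_bounded s2 fun x => by
    by_cases hx : P3 Q x.1 ∧ P3 Q x.2
    · rw [if_pos hx, if_pos hx.1, norm_mul, norm_mul, mul_assoc]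
      refine mul_le_mul_of_nonneg_left ?_ (norm_nonneg _)
      refine (mul_le_of_le_one_left (norm_nonneg _) (norm_mu_le _)).trans ((hW _ (hx.1.mul hx.2)).trans ?_)
      rw [u2_mul, mul_left_comm]
      exact mul_le_mul_of_nonneg_right (u2_le_wB hx.1) (mul_nonneg hK (u2_nonneg _))
    · rw [if_neg hx, norm_zero]
      refine mul_nonneg ?_ (mul_nonneg hK (u2_nonneg _))
      split_ifs
      exacts [h0 _, le_rfl])
  have e1 : Vv Q η y1 y0 X i = ∑' v, if P3 Q v then (∑ e ∈ pdiv v.1 ×ˢ pdiv v.2.1 ×ˢ pdiv v.2.2,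
      H3 i (v.1 / e.1, v.2.1 / e.2.1, v.2.2 / e.2.2) * mu e.2.2) * Wt η y1 y0 X v else 0 := by
    refine tsum_congr fun v => ?_
    split_ifs with hv
    · rw [Fv_expand hv hi]
    · rfl
  rw [e1]
  exact key

end Crest.Agent.R17.Pr
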