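import Crest.Agent.R17.Prin_Defs

/-!
# R17 / Prin_Loc1 : `Fv` at tuples of powers of one prime

`P = N p ≥ 1`.  `F(p^k,p^a,p^b,p^c) = μ(p^c) cc (p^{6k}) (p^a) (p^{b+c})`.
-/

set_option autoImplicit false

noncomputable section

open scoped Classical ComplexConjugate

namespace Crest.Agent.R17.Pr

variable {Q : Lev} {p : O}

/-- `b = 0`: `cc_left`, `H2.norm_chi_le`; `a ≥ 2`, `b ≥ 1`: `cc_eq_zero_of_two_le`; `a ≤ 1`, `b ≥ 1`: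
`ccx_local'` (if `6 ∣ a + 5b` then `b % 6 = a`, `3 ⌊b/3⌋ = b - a`; otherwise `3 ⌊b/3⌋ ≤ b`). -/
theorem norm_cc_pow_le (hp : Prime p) (hp0 : P0 Q p) (d : O) (a b : ℕ) :
    ‖cc d (p ^ a) (p ^ b)‖ ≤ N p ^ (((a : ℝ) + 2 * b) / 3) := by
  have h1 := one_le_N hp.ne_zero
  rcases Nat.eq_zero_or_pos b with rfl | hb
  · rw [pow_zero, cc_left d (H2.P0_pow hp0 a), RCLike.norm_conj]
    exact (H2.norm_chi_le (H2.P0_pow hp0 a) d).trans (Real.one_le_rpow h1 (by positivity))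
  by_cases ha : 2 ≤ a
  · rw [cc_eq_zero_of_two_le hp hp0 d ha hb, norm_zero]
    positivity
  have ha' : a ≤ 1 := by omega
  have k1 : (a : ℝ) ≤ 1 := by exact_mod_cast ha'
  have k2 : 3 * ((b / 3 : ℕ) : ℝ) ≤ b := by exact_mod_cast (by omega : 3 * (b / 3) ≤ b)
  refine (ccx_local' hp hp0 d ha' hb).trans ?_
  split_ifs with h2 h3 h3
  · have k3 : 3 * ((b / 3 : ℕ) : ℝ) + a ≤ b := by
      have := (ccx_mod ha' b).1 h3
      exact_mod_cast (by omega : 3 * (b / 3) + a ≤ b)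
    exact Real.rpow_le_rpow_of_exponent_le h1 (by linarith)
  · positivity
  all_goals exact Real.rpow_le_rpow_of_exponent_le h1 (by linarith)

/-- the support of `cc (p^{6k}) (p^a) (p^b)`, `b ≥ 1`: for `k = 0` use `dvd_of_cc_ne_zero`
(`p^{a+b-1} ∣ 1`); for `k ≥ 1` use `cc_eq_zero_of_two_le` and `norm_cc_zero_left`
(`b ≤ 5` gives `p^b ∣ p^{6k}`, `6 ∤ b`). -/
theorem cc_pow_supp (hp : Prime p) (hp0 : P0 Q p) {k a b : ℕ} (hb : 1 ≤ b)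
    (h : cc ((p ^ k) ^ 6) (p ^ a) (p ^ b) ≠ 0) :
    (k = 0 ∧ a = 0 ∧ b = 1) ∨ (1 ≤ k ∧ a = 1) ∨ (1 ≤ k ∧ a = 0 ∧ 6 ≤ b) := by
  rcases Nat.eq_zero_or_pos k with rfl | hk
  · have h1 := dvd_of_cc_ne_zero hp hp0 hb h
    rw [pow_zero, one_pow] at h1
    have : a + b - 1 = 0 := by_contra fun h2 =>
      hp.not_isUnit (isUnit_of_dvd_one ((dvd_pow_self p h2).trans h1))
    omega
  have ha : a ≤ 1 := by_contra fun h2 => h (cc_eq_zero_of_two_le hp hp0 _ (by omega) hb)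
  have hb6 : a = 0 → 6 ≤ b := fun h0 => by_contra fun h2 => by
    have h3 := norm_cc_zero_left hp hp0 ((p ^ k) ^ 6) hb
    rw [if_pos (by rw [← pow_mul]; exact pow_dvd_pow p (by omega)), if_neg (by omega)] at h3
    rw [h0, pow_zero] at h
    exact h (norm_le_zero_iff.1 h3)
  omega

theorem l1_mu (hp : Prime p) {i : ℕ} (hi : 2 ≤ i) : mu (p ^ i) = 0 :=
  mu_eq_zero fun h => hp.not_isUnit (h p (by rw [← sq]; exact pow_dvd_pow p hi))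

theorem l1_F (e : Fin 4 → ℕ) : Fv (fun j => p ^ e j) =
    mu (p ^ e 3) * cc ((p ^ e 0) ^ 6) (p ^ e 1) (p ^ (e 2 + e 3)) := by rw [Fv, pow_add]

/-- `F - μ(p^{e 2})` vanishes on the axes and at `(0,0,0,1)`: `cc_one`, `cc_left` with
`chi l 1 = 1`, `cc_prime`, `mu_one`, `mu_prime`, `μ(p^b) = 0` for `b ≥ 2` and `cc_pow_supp`. -/
theorem D_eq_zero (hp : Prime p) (hp0 : P0 Q p) {e : Fin 4 → ℕ}
    (he : (e 3 = 0 ∧ ((e 0 = 0 ∧ e 1 = 0) ∨ (e 0 = 0 ∧ e 2 = 0) ∨ (e 1 = 0 ∧ e 2 = 0))) ∨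
      (e 0 = 0 ∧ e 1 = 0 ∧ e 2 = 0 ∧ e 3 = 1)) :
    Fv (fun j => p ^ e j) - mu (p ^ e 2) = 0 := by
  have h1 : ∀ l, P0 Q l → chi l 1 = 1 := fun l hl => (H2.chi_isChar hl).one
  rw [l1_F, sub_eq_zero]
  rcases he with ⟨h3, ⟨h, h'⟩ | ⟨h, h'⟩ | ⟨h, h'⟩⟩ | ⟨h, h', h2, h3⟩
  · rcases hb : e 2 with _ | _ | b
    · simp [h3, h', mu_one, cc_one]
    · simp [h3, h, h', mu_one, mu_prime hp, cc_prime hp hp0, h1 p hp0]
    · rw [l1_mu hp (i := b + 1 + 1) (by omega)]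
      refine mul_eq_zero_of_right _ (by_contra fun h4 => ?_)
      have := cc_pow_supp hp hp0 (by omega) h4
      omega
  · simp [h3, h, h', mu_one, cc_left _ (H2.P0_pow hp0 _), h1 _ (H2.P0_pow hp0 _)]
  · simp [h3, h, h', mu_one, cc_one]
  · simp [h3, h, h', h2, mu_one, mu_prime hp, cc_prime hp hp0, h1 p hp0]

theorem l1_ge {x y : ℝ} (h : y ≤ x) {m n : ℕ} (hm : m ≤ n) : x * m + y * (n - m) ≤ x * n := by
  have : (0 : ℝ) ≤ n - m := sub_nonneg.2 (Nat.cast_le.2 hm)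
  nlinarith [mul_le_mul_of_nonneg_right h this]

theorem l1_A {β : Fin 4 → ℝ} {γ : ℝ} (h : Adm β γ) {a b c d : ℕ}
    (he : (1 ≤ a ∧ 1 ≤ b) ∨ (1 ≤ a ∧ 1 ≤ c) ∨ (1 ≤ a ∧ 1 ≤ d) ∨ (1 ≤ b ∧ 1 ≤ c) ∨ (1 ≤ b ∧ 1 ≤ d) ∨
      (1 ≤ c ∧ 1 ≤ d) ∨ 2 ≤ d) : 0 ≤ β 0 * a + β 1 * b + β 2 * c + β 3 * d - γ := by
  have n2 : 0 ≤ β 2 := by linarith [h.n2]
  have o : ∀ {x : ℝ} {m n : ℕ}, 0 ≤ x → m ≤ n → x * m ≤ x * n := fun hx hm => by gcongr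
  have z0 := o h.n0 a.zero_le
  have z1 := o h.n1 b.zero_le
  have z2 := o n2 c.zero_le
  have z3 := o h.n3 d.zero_le
  rcases he with k | k | k | k | k | k | k
  · have := o h.n0 k.1; have := o h.n1 k.2; push_cast at *; linarith [h.p01]
  · have := o h.n0 k.1; have := o n2 k.2; push_cast at *; linarith [h.p02]
  · have := o h.n0 k.1; have := o h.n3 k.2; push_cast at *; linarith [h.p03]
  · have := o h.n1 k.1; have := o n2 k.2; push_cast at *; linarith [h.p12]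
  · have := o h.n1 k.1; have := o h.n3 k.2; push_cast at *; linarith [h.p13]
  · have := o n2 k.1; have := o h.n3 k.2; push_cast at *; linarith [h.p23]
  · have := o h.n3 k; push_cast at *; linarith [h.p33]

theorem l1_B {β : Fin 4 → ℝ} {γ : ℝ} (h : Adm β γ) {a b c d : ℕ} (ha : 1 ≤ a)
    (he : (b = 1 ∧ d = 0 ∧ 1 ≤ c) ∨ (b = 1 ∧ d = 1 ∧ 0 ≤ c) ∨ (b = 0 ∧ d = 0 ∧ 6 ≤ c) ∨
      (b = 0 ∧ d = 1 ∧ 5 ≤ c)) :
    ((b : ℝ) + 2 * (c + d : ℕ)) / 3 ≤ β 0 * a + β 1 * b + β 2 * c + β 3 * d - γ := by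
  have k0 := l1_ge h.n0 ha
  rcases he with ⟨rfl, rfl, k⟩ | ⟨rfl, rfl, k⟩ | ⟨rfl, rfl, k⟩ | ⟨rfl, rfl, k⟩ <;>
  · have := l1_ge h.n2 k
    push_cast at *
    linarith [h.q2, h.q3, h.r2, h.r3]

/-- If `D_eq_zero` does not apply then `γ ≤ β·e` (by `n*`, `p*`), so `‖μ‖ ≤ 1 ≤ P^{β·e - γ}`, and
`‖F‖ ≤ P^{β·e-γ}`: `F = 0` for `e 3 ≥ 2`; `‖F‖ ≤ 1` if `e 2 + e 3 = 0`; otherwise by `cc_pow_supp` with
`b = e 2 + e 3` (the first alternative is excluded) and `norm_cc_pow_le`: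
`(a + 2b)/3 ≤ β·e - γ` by `n0`, `n2` and `q2`, `r2` (`e 3 = 0`), `q3`, `r3` (`e 3 = 1`).
`Fin.sum_univ_four`. -/
theorem norm_D_le (hp : Prime p) (hp0 : P0 Q p) {β : Fin 4 → ℝ} {γ : ℝ} (h : Adm β γ)
    (e : Fin 4 → ℕ) :
    ‖Fv (fun j => p ^ e j) - mu (p ^ e 2)‖ ≤ 2 * N p ^ (∑ j, β j * e j - γ) := by
  have h1 := one_le_N hp.ne_zero
  by_cases he : (e 3 = 0 ∧ ((e 0 = 0 ∧ e 1 = 0) ∨ (e 0 = 0 ∧ e 2 = 0) ∨ (e 1 = 0 ∧ e 2 = 0))) ∨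
      (e 0 = 0 ∧ e 1 = 0 ∧ e 2 = 0 ∧ e 3 = 1)
  · rw [D_eq_zero hp hp0 he, norm_zero]
    positivity
  rw [Fin.sum_univ_four, two_mul, l1_F]
  have k := Real.one_le_rpow h1 (l1_A h (a := e 0) (b := e 1) (c := e 2) (d := e 3) (by omega))
  refine (norm_sub_le _ _).trans (add_le_add ?_ ((norm_mu_le _).trans k))
  by_cases h3 : 2 ≤ e 3
  · rw [l1_mu hp h3, zero_mul, norm_zero]
    positivity
  rw [norm_mul]
  refine (mul_le_of_le_one_left (norm_nonneg _) (norm_mu_le _)).trans ?_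
  by_cases hb : e 2 + e 3 = 0
  · rw [hb, pow_zero, cc_left _ (H2.P0_pow hp0 _), RCLike.norm_conj]
    exact (H2.norm_chi_le (H2.P0_pow hp0 _) _).trans k
  by_cases h0 : cc ((p ^ e 0) ^ 6) (p ^ e 1) (p ^ (e 2 + e 3)) = 0
  · rw [h0, norm_zero]
    positivity
  have hs := cc_pow_supp hp hp0 (by omega) h0
  exact (norm_cc_pow_le hp hp0 _ _ _).trans
    (Real.rpow_le_rpow_of_exponent_le h1 (l1_B h (by omega) (by omega)))

end Crest.Agent.R17.Pr
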