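import Crest.Agent.R17.Prin_Mul
import Crest.Agent.R17.Prin_Loc1

/-!
# R17 / Prin_Loc2 : local factors of the majorant
-/

set_option autoImplicit false

noncomputable section

open scoped Classical ComplexConjugate

namespace Crest.Agent.R17.Pr

variable {Q : Lev} {p : O}

/-- `conv_prime_pow`: `e i + 1 ≤ 2^{e i}` terms, each `≤ m (update e i (e i - k)) ≤ m e` -/
theorem norm_conv_loc (hp : Prime p) (hp' : Prim p) {D : (Fin 4 → O) → ℂ} {m : (Fin 4 → ℕ) → ℝ}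
    (hm : Monotone m) (hD : ∀ e, ‖D (fun j => p ^ e j)‖ ≤ m e) {f : O → ℂ} (hf : ∀ n, ‖f n‖ ≤ 1)
    (i : Fin 4) (e : Fin 4 → ℕ) : ‖conv i f D (fun j => p ^ e j)‖ ≤ 2 ^ e i * m e := by
  rw [conv_prime_pow hp hp']
  refine (norm_sum_le _ _).trans ((Finset.sum_le_card_nsmul _ _ (m e) fun k _ => ?_).trans ?_)
  · rw [norm_mul]
    refine (mul_le_of_le_one_right (norm_nonneg _) (hf _)).trans ((hD _).trans (hm ?_))
    exact update_le_self_iff.2 (Nat.sub_le _ _)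
  · rw [Finset.card_range, nsmul_eq_mul]
    exact mul_le_mul_of_nonneg_right (by exact_mod_cast Nat.lt_two_pow_self)
      ((norm_nonneg _).trans (hD e))

theorem l2_mono {m : (Fin 4 → ℕ) → ℝ} (hm : Monotone m) (h0 : ∀ e, 0 ≤ m e) (i : Fin 4) :
    (Monotone fun e : Fin 4 → ℕ => 2 ^ e i * m e) ∧ ∀ e : Fin 4 → ℕ, 0 ≤ 2 ^ e i * m e :=
  ⟨fun _ b h => mul_le_mul (pow_le_pow_right₀ one_le_two (h i)) (hm h) (h0 _) (by positivity),
    fun e => mul_nonneg (by positivity) (h0 e)⟩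

/-- `Gv - δ = cv (Fv - μ(v 2))` (`cv_sub`, `cv_model`; `(fun j => p ^ e j) = 1 ↔ e = 0`), `norm_D_le`,
and `norm_conv_loc` four times (`e ↦ 2^{e i} m e` is again monotone; all `β j ≥ 0`). -/
theorem norm_Gv_sub (hp : Prime p) (hp0 : P0 Q p) {β : Fin 4 → ℝ} {γ : ℝ} (h : Adm β γ)
    (e : Fin 4 → ℕ) : ‖Gv (fun j => p ^ e j) - if e = 0 then 1 else 0‖ ≤
      2 ^ (e 0 + e 1 + e 2 + e 3) * (2 * N p ^ (∑ j, β j * e j - γ)) := by
  have h1 := one_le_N hp.ne_zero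
  have hβ : ∀ j, 0 ≤ β j := fun j => by
    fin_cases j
    exacts [h.n0, h.n1, le_trans (by norm_num) h.n2, h.n3]
  have m0 : Monotone fun e : Fin 4 → ℕ => 2 * N p ^ (∑ j, β j * e j - γ) := fun a b hab => by
    have := fun j => hab j
    dsimp only
    gcongr with j
    exacts [hβ j, this j]
  have z0 : ∀ e : Fin 4 → ℕ, 0 ≤ 2 * N p ^ (∑ j, β j * e j - γ) := fun e => by positivity
  have m1 := l2_mono m0 z0 3
  have m2 := l2_mono m1.1 m1.2 2
  have m3 := l2_mono m2.1 m2.2 1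
  have k := norm_conv_loc hp hp0.1 m3.1 (norm_conv_loc hp hp0.1 m2.1 (norm_conv_loc hp hp0.1 m1.1
    (norm_conv_loc hp hp0.1 (D := fun w => Fv w - mu (w 2)) m0 (norm_D_le hp hp0 h) norm_mu_le 3)
      (f := fun _ => 1) (by simp) 2) norm_mu_le 1) norm_mu_le 0 e
  have e1 : (fun j => p ^ e j) = 1 ↔ e = 0 := ⟨fun h => funext fun j =>
    pow_injective_of_not_isUnit hp.not_isUnit hp.ne_zero ((congrFun h j).trans (pow_zero p).symm),
    fun h => funext fun j => by simp [h]⟩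
  have e2 := cv_sub Fv (fun w => mu (w 2)) fun j => p ^ e j
  rw [cv_model (Q := Q) fun j => H2.P0_pow hp0 _, if_congr e1 rfl rfl] at e2
  rw [Gv, ← e2]
  exact k.trans_eq (by ring)

/-- `e ↦ (e 0, e 1, e 2)` is injective on `{e 3 = c}`; `∑_k (1/2)^k ≤ 2` (`sum_geometric_two_le`),
compare `H2.sum_box_le` in `High2_Euler.lean` -/
theorem sum_half_le (c : ℕ) (E : Finset (Fin 4 → ℕ)) :
    ∑ e ∈ E, (if e 3 = c then (1 / 2 : ℝ) ^ (e 0 + e 1 + e 2) else 0) ≤ 8 := by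
  have h := hasSum_geometric_two
  have h0 : ∀ n : ℕ, (0 : ℝ) ≤ (1 / 2) ^ n := fun n => by positivity
  have h2 := h.mul h (h.summable.mul_of_nonneg h.summable h0 h0)
  have h3 := h.mul h2 (h.summable.mul_of_nonneg h2.summable h0 fun x => mul_nonneg (h0 x.1) (h0 x.2))
  have k := sum_le_hasSum ((E.filter fun e => e 3 = c).image fun e => (e 0, e 1, e 2))
    (fun x _ => mul_nonneg (h0 x.1) (mul_nonneg (h0 x.2.1) (h0 x.2.2))) h3
  rw [Finset.sum_image fun a ha b hb hab => funext fun j => ?_, Finset.sum_filter] at k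
  · simp only [pow_add, mul_assoc]
    exact k.trans_eq (by norm_num)
  · simp only [Prod.mk.injEq] at hab
    fin_cases j
    exacts [hab.1, hab.2.1, hab.2.2, (Finset.mem_filter.1 ha).2.trans (Finset.mem_filter.1 hb).2.symm]

/-- With `β = bet α γ`: `β·e - γ - α·e = -(e 0 + e 1 + e 2)/300 + γ (e 3 - 1)` and `P^{-1/300} ≤ 1/4`.
`p^{e 3} ∣ i` forces `e 3 = 0`, or `e 3 = 1` and `p ∣ i`. -/
theorem maj_loc (hp : Prime p) (hp0 : P0 Q p) (hP : 4 ^ 300 ≤ N p) {α : Fin 4 → ℝ} {γ : ℝ}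
    (h : Adm (bet α γ) γ) {i : O} (hi : ¬ p ^ 2 ∣ i) (e : Fin 4 → ℕ) :
    maj α i (fun j => p ^ e j) ≤ (if e = 0 then 1 else 0) +
      2 * N p ^ (-γ) * (if e 3 = 0 then (1 / 2 : ℝ) ^ (e 0 + e 1 + e 2) else 0) +
      (if p ∣ i then 4 else 0) * (if e 3 = 1 then (1 / 2 : ℝ) ^ (e 0 + e 1 + e 2) else 0) := by
  have hP0 := N_pos hp.ne_zero
  have hw : ∏ j, N (p ^ e j) ^ (-α j) = N p ^ (-∑ j, α j * e j) := by
    simp only [N_pow, ← Real.rpow_natCast_mul hP0.le, ← Real.rpow_sum_of_pos hP0,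
      ← Finset.sum_neg_distrib, mul_neg, mul_comm]
  have hq : N p ^ (-(1 / 300 : ℝ)) ≤ 1 / 4 := by
    refine (Real.rpow_le_rpow_of_nonpos (by positivity) hP (by norm_num)).trans_eq ?_
    rw [← Real.rpow_natCast_mul (by norm_num)]
    norm_num
  have key : ‖Gv fun j => p ^ e j‖ * N p ^ (-∑ j, α j * e j) ≤ (if e = 0 then 1 else 0) +
      2 ^ (e 3 + 1) * N p ^ (γ * e 3 - γ) * (1 / 2) ^ (e 0 + e 1 + e 2) := by
    refine (mul_le_mul_of_nonneg_right ((norm_le_norm_add_norm_sub' _ _).trans (add_le_add le_rfl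
      (norm_Gv_sub hp hp0 h e))) (by positivity)).trans ?_
    rw [add_mul]
    refine add_le_add (by split_ifs with h0 <;> simp [h0]) ?_
    have : N p ^ (∑ j, bet α γ j * e j - γ) * N p ^ (-∑ j, α j * e j) =
        N p ^ (γ * e 3 - γ) * (N p ^ (-(1 / 300 : ℝ))) ^ (e 0 + e 1 + e 2) := by
      rw [← Real.rpow_mul_natCast hP0.le, ← Real.rpow_add hP0, ← Real.rpow_add hP0]
      congr 1
      simp [Fin.sum_univ_four, bet]
      ring
    rw [mul_assoc, mul_assoc, this]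
    calc _ ≤ 2 ^ (e 0 + e 1 + e 2 + e 3) * (2 * (N p ^ (γ * e 3 - γ) *
          (1 / 2 * (1 / 2)) ^ (e 0 + e 1 + e 2))) := by gcongr; exact hq.trans_eq (by norm_num)
      _ = _ := by
        rw [mul_pow, pow_add _ _ (e 3), one_div, inv_pow]
        field_simp
        ring
  rw [maj, hw]
  have z : (0 : ℝ) ≤ if e = 0 then 1 else 0 := by positivity
  by_cases hd : p ^ e 3 ∣ i
  · rw [if_pos hd, mul_one]
    refine key.trans_eq ?_
    rcases h3 : e 3 with _ | _ | c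
    · simp
    · rw [if_pos (c := p ∣ i) (by simpa [h3] using hd)]
      norm_num
    · exact absurd ((pow_dvd_pow p (by omega)).trans hd) hi
  · rw [if_neg hd, mul_zero]
    positivity

/-- `maj_loc`, `sum_half_le`: the sum is `≤ 1 + 16 P^{-γ} + 32·[p ∣ i]` -/
theorem loc_sum (hp : Prime p) (hp0 : P0 Q p) (hP : 4 ^ 300 ≤ N p) {α : Fin 4 → ℝ} {γ : ℝ}
    (h : Adm (bet α γ) γ) {i : O} (hi : ¬ p ^ 2 ∣ i) (E : Finset (Fin 4 → ℕ)) :
    ∑ e ∈ E, maj α i (fun j => p ^ e j) ≤ (1 + 16 * N p ^ (-γ)) * if p ∣ i then 33 else 1 := by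
  have hP0 := N_pos hp.ne_zero
  refine (Finset.sum_le_sum fun e _ => maj_loc hp hp0 hP h hi e).trans ?_
  simp only [Finset.sum_add_distrib, ← Finset.mul_sum]
  have k0 : ∑ e ∈ E, (if e = 0 then (1 : ℝ) else 0) ≤ 1 := by
    rw [Finset.sum_ite_eq']
    split_ifs <;> norm_num
  have k1 := mul_le_mul_of_nonneg_left (sum_half_le 0 E) (by positivity : 0 ≤ 2 * N p ^ (-γ))
  have k2 := sum_half_le 1 E
  have k3 : 0 ≤ N p ^ (-γ) := by positivity
  split_ifs <;> linarith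

end Crest.Agent.R17.Pr
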