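import Crest.Agent.R17.Prin_Defs

/-!
# R17 / Prin_Mul : algebra of `Fv`, `Gv`, `cv`

Compare `High2_Mul.lean`.  For the cancellation lemmas use `ψ = fun _ => 1` and `mm_one`.
-/

set_option autoImplicit false

noncomputable section

open scoped Classical ComplexConjugate

namespace Crest.Agent.R17.Pr

theorem mm_one : mm (fun _ => 1) = mu := funext fun n => mul_one (mu n)

theorem pm_upd0 (a l n i x : O) : Function.update ![a, l, n, i] 0 x = ![x, l, n, i] := by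
  funext j; fin_cases j <;> simp

theorem pm_upd1 (a l n i x : O) : Function.update ![a, l, n, i] 1 x = ![a, x, n, i] := by
  funext j; fin_cases j <;> simp

theorem pm_upd2 (a l n i x : O) : Function.update ![a, l, n, i] 2 x = ![a, l, x, i] := by
  funext j; fin_cases j <;> simp

theorem pm_upd3 (a l n i x : O) : Function.update ![a, l, n, i] 3 x = ![a, l, n, x] := by
  funext j; fin_cases j <;> simp

/-- unfolding a fourfold convolution -/
theorem pm_conv (f0 f1 f2 f3 : O → ℂ) (F : (Fin 4 → O) → ℂ) (a l n i : O) :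
    conv 0 f0 (conv 1 f1 (conv 2 f2 (conv 3 f3 F))) ![a, l, n, i] =
      ∑ e0 ∈ pdiv a, (∑ e1 ∈ pdiv l, (∑ e2 ∈ pdiv n, (∑ e3 ∈ pdiv i,
        F ![a / e0, l / e1, n / e2, i / e3] * f3 e3) * f2 e2) * f1 e1) * f0 e0 := by
  simp only [conv, Matrix.cons_val_zero, pm_upd0, Matrix.cons_val_one, pm_upd1, Matrix.cons_val, pm_upd2,
    pm_upd3]

theorem pm_cc_six {Q : Lev} (d : O) {l m b : O} (hl : P0 Q l) (hm : P0 Q m) (hb : IsCoprime b (l * m)) :
    cc (d * b ^ 6) l m = cc d l m := by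
  rw [cc_hom d hl hm hb.pow_left, ChA.chi_pow_six hl.isCoprime_six, ChA.chi_pow_six hm.isCoprime_six,
    if_pos hb.of_mul_right_left.symm, if_pos hb.of_mul_right_right.symm, map_one, one_mul, one_mul]

theorem pm_mul1_mu (Q : Lev) : Mul1 Q mu := ⟨mu_one, fun _ _ _ _ h => mu_mul h⟩

theorem pm_mul1_one (Q : Lev) : Mul1 Q (fun _ => (1 : ℂ)) := ⟨rfl, fun _ _ _ _ _ => (one_mul _).symm⟩

theorem pm_conv_sub (i : Fin 4) (f : O → ℂ) (F G : (Fin 4 → O) → ℂ) :
    conv i f (fun w => F w - G w) = fun v => conv i f F v - conv i f G v := by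
  funext v
  simp only [conv, sub_mul, Finset.sum_sub_distrib]

theorem pm_cancel {Q : Lev} {ψ : O → ℂ} (h1 : ψ 1 = 1)
    (hψ : ∀ a b, P0 Q a → P0 Q b → ψ (a * b) = ψ a * ψ b) (F : (Fin 4 → O) → ℂ) {v : Fin 4 → O}
    (h0 : P0 Q (v 0)) (h1' : P0 Q (v 1)) (h2 : P0 Q (v 2)) (h3 : P0 Q (v 3)) :
    conv 0 ψ (conv 1 ψ (conv 2 (mm ψ) (conv 3 ψ
      (conv 0 (mm ψ) (conv 1 (mm ψ) (conv 2 ψ (conv 3 (mm ψ) F))))))) v = F v := by
  rw [conv_comm (i := (3 : Fin 4)) (j := 0) (by decide) ψ (mm ψ),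
    conv_comm (i := (2 : Fin 4)) (j := 0) (by decide) (mm ψ) (mm ψ),
    conv_comm (i := (1 : Fin 4)) (j := 0) (by decide) ψ (mm ψ),
    conv_comm (i := (3 : Fin 4)) (j := 1) (by decide) ψ (mm ψ),
    conv_comm (i := (2 : Fin 4)) (j := 1) (by decide) (mm ψ) (mm ψ),
    conv_comm (i := (3 : Fin 4)) (j := 2) (by decide) ψ ψ,
    conv_mm_cancel h1 hψ 0 _ h0, conv_mm_cancel h1 hψ 1 _ h1', conv_cancel_mm h1 hψ 2 _ h2,
    conv_mm_cancel h1 hψ 3 _ h3]

/-- `cc_one`; `cc_mul` with `l₁ = v 1`, `m₁ = v 2 * v 3`, and `cc ((a b)⁶) l m = cc (a⁶) l m` for `b`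
coprime to `l m` (`mul_pow`, `cc_hom`, `ChA.chi_pow_six`); `mu_mul`, `Fin.prod_univ_four`. -/
theorem tmul_Fv (Q : Lev) : TMul Q Fv := by
  refine ⟨by simp [Fv, mu_one, cc_one], fun v w hv hw h => ?_⟩
  rw [Fin.prod_univ_four, Fin.prod_univ_four] at h
  simp only [Fv, Pi.mul_apply]
  have h' : IsCoprime (v 0 * (v 1 * (v 2 * v 3))) (w 0 * (w 1 * (w 2 * w 3))) := by
    simpa only [mul_assoc] using h
  have h3 : IsCoprime (v 3) (w 3) := h.of_mul_left_right.of_mul_right_right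
  rw [mu_mul h3, show v 2 * w 2 * (v 3 * w 3) = (v 2 * v 3) * (w 2 * w 3) by ring,
    cc_mul _ (hv 1) ((hv 2).mul (hv 3)) (hw 1) ((hw 2).mul (hw 3)) h'.of_mul_left_right.of_mul_right_right,
    mul_pow]
  rw [pm_cc_six _ (hv 1) ((hv 2).mul (hv 3)) h'.of_mul_left_right.of_mul_right_left.symm,
    mul_comm (v 0 ^ 6), pm_cc_six _ (hw 1) ((hw 2).mul (hw 3)) h'.of_mul_left_left.of_mul_right_right]
  ring

/-- `TMul.conv` four times -/
theorem tmul_Gv (Q : Lev) : TMul Q Gv :=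
  ((((tmul_Fv Q).conv 3 (pm_mul1_mu Q)).conv 2 (pm_mul1_one Q)).conv 1 (pm_mul1_mu Q)).conv 0 (pm_mul1_mu Q)

/-- `TMul.mul`, `TMul.norm`, `Mul1.tmul`, `mul1_rpow` (or directly `N_mul`, `Real.mul_rpow`,
`Finset.prod_mul_distrib`); `a b ∣ i ↔ a ∣ i ∧ b ∣ i` for coprime `a, b` (`IsCoprime.mul_dvd`). -/
theorem tmul_maj (Q : Lev) (α : Fin 4 → ℝ) (i : O) : TMul Q (maj α i) := by
  have h1 : TMul Q fun v : Fin 4 → O => ∏ j, N (v j) ^ (-α j) := by
    refine ⟨by simp only [Pi.one_apply, N_one, Real.one_rpow, Finset.prod_const_one], fun v w _ _ _ => ?_⟩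
    simp only [Pi.mul_apply, N_mul, Real.mul_rpow (N_nonneg _) (N_nonneg _), Finset.prod_mul_distrib]
  have h2 : Mul1 Q fun a => if a ∣ i then (1 : ℝ) else 0 := by
    refine ⟨if_pos (one_dvd i), fun a b _ _ h => ?_⟩
    by_cases ha : a ∣ i
    · by_cases hb : b ∣ i
      · simp only [if_pos ha, if_pos hb, if_pos (h.mul_dvd ha hb), one_mul]
      · simp only [if_neg hb, mul_zero]
        exact if_neg fun h' => hb (dvd_of_mul_left_dvd h')
    · simp only [if_neg ha, zero_mul]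
      exact if_neg fun h' => ha (dvd_of_mul_right_dvd h')
  exact ((tmul_Gv Q).norm.mul h1).mul (h2.tmul 3)

/-- `conv i f` is additive (`sub_mul`, `Finset.sum_sub_distrib`) -/
theorem cv_sub (F G : (Fin 4 → O) → ℂ) (v : Fin 4 → O) :
    cv (fun w => F w - G w) v = cv F v - cv G v := by
  simp only [cv, pm_conv_sub]

/-- unfold `conv`: the sum is `(∑_{e ∣ v 0} μ e)(∑_{e ∣ v 1} μ e)(∑_{e ∣ v 2} μ(v 2 / e))(∑_{e ∣ v 3} μ e)`;
`sum_mu_pdiv`, `e4_sum_flip`. -/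
theorem cv_model {Q : Lev} {v : Fin 4 → O} (hv : P0v Q v) :
    cv (fun w => mu (w 2)) v = if v = 1 then 1 else 0 := by
  have e : v = ![v 0, v 1, v 2, v 3] := by
    funext j; fin_cases j <;> rfl
  have h2 : ∑ e ∈ pdiv (v 2), mu (v 2 / e) = if v 2 = 1 then 1 else 0 := by
    rw [← sum_mu_pdiv (hv 2).1]
    exact e4_sum_flip (hv 2).1 fun _ b => mu b
  have h : cv (fun w => mu (w 2)) v = (∑ e ∈ pdiv (v 2), mu (v 2 / e)) * (∑ e ∈ pdiv (v 3), mu e) *
      (∑ e ∈ pdiv (v 1), mu e) * ∑ e ∈ pdiv (v 0), mu e := by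
    conv_lhs => rw [e, cv, pm_conv]
    simp only [Matrix.cons_val, mul_one, ← Finset.mul_sum, ← Finset.sum_mul]
  rw [h, h2, sum_mu_pdiv (hv 0).1, sum_mu_pdiv (hv 1).1, sum_mu_pdiv (hv 3).1]
  by_cases h1 : v = 1
  · simp [h1]
  · rw [if_neg h1]
    by_contra hne
    apply h1
    funext j
    fin_cases j
    · by_contra h0
      exact hne (by simp only [Fin.zero_eta, Pi.one_apply] at h0; simp [h0])
    · by_contra h0
      exact hne (by simp only [Fin.mk_one, Pi.one_apply] at h0; simp [h0])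
    · by_contra h0
      exact hne (by simp only [Fin.reduceFinMk, Pi.one_apply] at h0; simp [h0])
    · by_contra h0
      exact hne (by simp only [Fin.reduceFinMk, Pi.one_apply] at h0; simp [h0])

/-- `conv 0 1 (conv 1 1 (conv 2 μ (conv 3 1 Gv))) = Fv` on `𝒫₀`: move the convolutions with
`conv_comm` (an equality of functions) into the order `0,0,1,1,2,2,3,3` and cancel from the outside
(`conv_mm_cancel`, `conv_cancel_mm`, `mm_one`).  Then unfold `conv`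
(`Function.update ![a,l,n,i] 0 x = ![x,l,n,i]` by `funext j; fin_cases j <;> simp`), and
`conv 3 1 Gv ![h₀,h₁,h₂,i] = H3 i h` by `e4_sum_flip`; `Finset.sum_product`. -/
theorem Fv_expand {Q : Lev} {v : T3} (hv : P3 Q v) {i : O} (hi : P0 Q i) :
    Fv ![v.1, v.2.1, v.2.2, i] = ∑ e ∈ pdiv v.1 ×ˢ pdiv v.2.1 ×ˢ pdiv v.2.2,
      H3 i (v.1 / e.1, v.2.1 / e.2.1, v.2.2 / e.2.2) * mu e.2.2 := by
  have key := pm_cancel (Q := Q) (ψ := fun _ => 1) rfl (fun _ _ _ _ => (one_mul _).symm) Fv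
    (v := ![v.1, v.2.1, v.2.2, i]) hv.1 hv.2.1 hv.2.2 hi
  rw [mm_one] at key
  change conv 0 (fun _ => 1) (conv 1 (fun _ => 1) (conv 2 mu (conv 3 (fun _ => 1) Gv))) _ = _ at key
  rw [← key, pm_conv, Finset.sum_product]
  refine Finset.sum_congr rfl fun e0 _ => ?_
  rw [mul_one, Finset.sum_product]
  refine Finset.sum_congr rfl fun e1 _ => ?_
  rw [mul_one]
  refine Finset.sum_congr rfl fun e2 _ => ?_
  have h := e4_sum_flip hi.1 fun a _ => Gv ![v.1 / e0, v.2.1 / e1, v.2.2 / e2, a]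
  simp only [mul_one, H3, G3]
  rw [h]

end Crest.Agent.R17.Pr
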