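import Crest.Agent.R17.Prin_Theta

/-!
# R17 / Prin_S : the generic sum `Sv`
-/

set_option autoImplicit false

noncomputable section

open scoped Classical ComplexConjugate

namespace Crest.Agent.R17.Pr

/-- `N(h l)^x gw(log N(hl) - y) = N(h)^x · N(l)^x gw(log N l - (y - log N h))`, `summable_gw_rpow`,
`tsum_gw_rpow` -/
theorem tsum_gw_shift (Q : Lev) (x : ℝ) : ∃ C : ℝ, 0 ≤ C ∧ ∀ (y : ℝ) (h : O), h ≠ 0 →
    Summable (fun l : O => if P0 Q l then N (h * l) ^ x * gw (Real.log (N (h * l)) - y) else 0) ∧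
    ∑' l : O, (if P0 Q l then N (h * l) ^ x * gw (Real.log (N (h * l)) - y) else 0) ≤
      C * Real.exp ((x + 1) * y) * N h ^ (-1 : ℝ) := by
  obtain ⟨C, hC⟩ := tsum_gw_rpow x
  refine ⟨max C 0, le_max_right _ _, fun y h hh => ?_⟩
  have hN := N_pos hh
  have hs := (summable_gw_rpow x (y - Real.log (N h))).mul_left (N h ^ x)
  have h0 : ∀ l : O, 0 ≤ if P0 Q l then N (h * l) ^ x * gw (Real.log (N (h * l)) - y) else 0 :=
    fun l => by
      split_ifs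
      exacts [mul_nonneg (Real.rpow_nonneg (N_nonneg _) _) (gw_pos _).le, le_rfl]
  have h1 : ∀ l : O, (if P0 Q l then N (h * l) ^ x * gw (Real.log (N (h * l)) - y) else 0) ≤
      N h ^ x * if l = 0 then 0 else N l ^ x * gw (Real.log (N l) - (y - Real.log (N h))) :=
    fun l => by
      by_cases hl : P0 Q l
      · rw [if_pos hl, if_neg hl.1.ne_zero, N_mul, Real.mul_rpow hN.le (N_nonneg l),
          Real.log_mul hN.ne' (N_pos hl.1.ne_zero).ne', mul_assoc]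
        refine le_of_eq ?_
        congr 3
        ring
      · rw [if_neg hl]
        exact mul_nonneg (Real.rpow_nonneg hN.le _) (bl1_nonneg _ _ _)
  have h2 := Summable.of_nonneg_of_le h0 h1 hs
  refine ⟨h2, (h2.tsum_le_tsum h1 hs).trans ?_⟩
  rw [tsum_mul_left]
  refine (mul_le_mul_of_nonneg_left ((hC (y - Real.log (N h))).trans
    (mul_le_mul_of_nonneg_right (le_max_left C 0) (Real.exp_pos _).le))
    (Real.rpow_nonneg hN.le x)).trans (le_of_eq ?_)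
  rw [Real.rpow_def_of_pos hN, Real.rpow_def_of_pos hN, mul_left_comm, mul_assoc, ← Real.exp_add,
    ← Real.exp_add]
  congr 2
  ring

/-- sum over `e.1` first: `Summable.of_norm_bounded` (`norm_Wt_le`, `u2_mul`, `summable_u2`),
`Summable.tsum_comm`/`(Equiv.prodComm _ _).tsum_eq` and `Summable.tsum_prod`, `Complex.ofReal_tsum`,
`tsum_mul_left`; `X N(h₀ a)⁶/(N l N n) = N(a)⁶/Υ`. -/
theorem Sv_eq {Q : Lev} {η : O → ℂ} (hη : η ∈ hchars Q.q) (y1 y0 : ℝ) {X : ℝ} (hX : 0 < X)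
    {h : T3} (hh : P3 Q h) : HasSum (fun x : O × O => if P0 Q x.1 ∧ P0 Q x.2 then
      mu x.2 * η (h.2.2 * x.2) * (((N (h.2.1 * x.1) * N (h.2.2 * x.2)) ^ (-(1 / 2) : ℝ) *
        gw (Real.log (N (h.2.1 * x.1)) - y1) * gw (Real.log (N (h.2.2 * x.2)) - y0) *
        Th Q (N (h.2.1 * x.1) * N (h.2.2 * x.2) / (X * N h.1 ^ 6)) : ℝ) : ℂ) else 0)
      (Sv Q η y1 y0 X h) := by
  obtain ⟨K, hK0, hK⟩ := norm_Wt_le hη y1 y0 hX
  have hs : Summable fun e : T3 => if P3 Q e then mu e.2.2 * Wt η y1 y0 X (h * e) else 0 := by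
    refine .of_norm_bounded (summable_u2.mul_left (K * u2 h)) fun e => ?_
    split_ifs with he
    · rw [norm_mul, mul_assoc, ← u2_mul]
      exact (mul_le_of_le_one_left (norm_nonneg _) (norm_mu_le _)).trans (hK _ (hh.mul he))
    · rw [norm_zero]
      exact mul_nonneg (mul_nonneg hK0 (u2_nonneg _)) (u2_nonneg _)
  refine ((Equiv.prodComm (O × O) O).hasSum_iff.2 hs.hasSum).prod_fiberwise fun x => ?_
  by_cases hx : P0 Q x.1 ∧ P0 Q x.2
  · have hA := N_pos (hh.2.1.mul hx.1).1.ne_zero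
    have hB := N_pos (hh.2.2.mul hx.2).1.ne_zero
    have hH := N_pos hh.1.1.ne_zero
    have h1 := (Complex.hasSum_ofReal.2 ((summable_Th Q
      (Υ := N (h.2.1 * x.1) * N (h.2.2 * x.2) / (X * N h.1 ^ 6)) (by positivity)).hasSum.mul_left
      ((N (h.2.1 * x.1) * N (h.2.2 * x.2)) ^ (-(1 / 2) : ℝ) *
        gw (Real.log (N (h.2.1 * x.1)) - y1) * gw (Real.log (N (h.2.2 * x.2)) - y0)))).mul_left
      (mu x.2 * η (h.2.2 * x.2))
    rw [if_pos hx]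
    refine (congrArg (fun f => HasSum f _) (funext fun a => ?_)).mp h1
    change _ = if P3 Q (a, x) then mu x.2 * Wt η y1 y0 X (h * (a, x)) else 0
    by_cases ha : P0 Q a
    · have e : X * N (h.1 * a) ^ 6 / (N (h.2.1 * x.1) * N (h.2.2 * x.2)) =
          N a ^ 6 / (N (h.2.1 * x.1) * N (h.2.2 * x.2) / (X * N h.1 ^ 6)) := by
        rw [N_mul h.1]
        field_simp
      rw [if_pos ha, if_pos (show P3 Q (a, x) from ⟨ha, hx⟩), Wt]
      simp only [Prod.fst_mul, Prod.snd_mul, e, mul_assoc]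
    · rw [if_neg ha, if_neg fun h' : P3 Q (a, x) => ha h'.1]
      simp
  · rw [if_neg hx]
    have : (fun a : O => ((fun e : T3 => if P3 Q e then mu e.2.2 * Wt η y1 y0 X (h * e) else 0) ∘
        (Equiv.prodComm (O × O) O)) (x, a)) = fun _ => 0 :=
      funext fun a => if_neg fun h' => hx h'.2
    rw [this]
    exact hasSum_zero

theorem ps_pow {A B X H : ℝ} (hA : 0 < A) (hB : 0 < B) (hX : 0 < X) (hH : 0 < H) {s t u v : ℝ}
    (ht : t = -s) (hu : u = -(6 * s)) (hv : v = s - 1 / 2) :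
    (A * B) ^ (-(1 / 2) : ℝ) * (A * B / (X * H ^ 6)) ^ s = X ^ t * H ^ u * (A ^ v * B ^ v) := by
  rw [Real.rpow_def_of_pos (by positivity), Real.rpow_def_of_pos (by positivity),
    Real.rpow_def_of_pos hX, Real.rpow_def_of_pos hH, Real.rpow_def_of_pos hA,
    Real.rpow_def_of_pos hB, Real.log_div (by positivity) (by positivity),
    Real.log_mul hA.ne' hB.ne', Real.log_mul hX.ne' (by positivity), Real.log_pow]
  simp only [← Real.exp_add]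
  rw [ht, hu, hv]
  congr 1
  push_cast
  ring

theorem ps_term {m : ℂ} (hm : ‖m‖ ≤ 1) {A B X H G1 G2 T c C : ℝ} (hA : 0 < A) (hB : 0 < B)
    (hX : 0 < X) (hH : 0 < H) (g1 : 0 < G1) (g2 : 0 < G2)
    (hT : |T - c * (A * B / (X * H ^ 6)) ^ (1 / 6 : ℝ)| ≤ C * (A * B / (X * H ^ 6)) ^ (1 / 300 : ℝ)) :
    ‖m * (((A * B) ^ (-(1 / 2) : ℝ) * G1 * G2 * T : ℝ) : ℂ) -
      ((c * X ^ (-(1 / 6) : ℝ) * H⁻¹ * (A ^ (-(1 / 3) : ℝ) * G1) : ℝ) : ℂ) *
        (m * ((B ^ (-(1 / 3) : ℝ) * G2 : ℝ) : ℂ))‖ ≤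
      C * (X ^ (-(1 / 300) : ℝ) * H ^ (-(1 / 50) : ℝ)) *
        (A ^ (-(149 / 300) : ℝ) * G1 * (B ^ (-(149 / 300) : ℝ) * G2)) := by
  have e1 := ps_pow hA hB hX hH (s := 1 / 6) (t := -(1 / 6)) (u := -1) (v := -(1 / 3)) rfl
    (by norm_num) (by norm_num)
  have e2 := ps_pow hA hB hX hH (s := 1 / 300) (t := -(1 / 300)) (u := -(1 / 50))
    (v := -(149 / 300)) rfl (by norm_num) (by norm_num)
  have hr := Real.rpow_pos_of_pos (mul_pos hA hB) (-(1 / 2))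
  rw [Real.rpow_neg_one] at e1
  rw [mul_left_comm _ m, ← mul_sub, ← Complex.ofReal_mul, ← Complex.ofReal_sub, norm_mul,
    Complex.norm_real, Real.norm_eq_abs]
  refine (mul_le_of_le_one_left (abs_nonneg _) hm).trans ?_
  calc _ = |(A * B) ^ (-(1 / 2) : ℝ) * G1 * G2 * (T - c * (A * B / (X * H ^ 6)) ^ (1 / 6 : ℝ))| := by
        congr 1
        linear_combination (c * G1 * G2) * e1
    _ ≤ (A * B) ^ (-(1 / 2) : ℝ) * G1 * G2 * (C * (A * B / (X * H ^ 6)) ^ (1 / 300 : ℝ)) := by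
        rw [abs_mul, abs_of_pos (by positivity)]
        exact mul_le_mul_of_nonneg_left hT (by positivity)
    _ = _ := by linear_combination (C * G1 * G2) * e2

theorem ps_abs {f1 F1 F2 : O → ℝ} {f2 : O → ℂ} {g : O × O → ℂ} {S : ℂ} {κ D : ℝ} (hg : HasSum g S)
    (h1 : Summable f1) (h2 : Summable fun n => ‖f2 n‖) (H1 : Summable F1) (H2 : Summable F2)
    (n1 : 0 ≤ F1) (n2 : 0 ≤ F2)
    (hb : ∀ x, ‖g x - ((κ * f1 x.1 : ℝ) : ℂ) * f2 x.2‖ ≤ D * (F1 x.1 * F2 x.2)) :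
    ‖S - ((κ * ∑' l, f1 l : ℝ) : ℂ) * ∑' n, f2 n‖ ≤ D * ((∑' l, F1 l) * ∑' n, F2 n) := by
  have a1 : HasSum (fun l => ((κ * f1 l : ℝ) : ℂ)) ((κ * ∑' l, f1 l : ℝ) : ℂ) :=
    Complex.hasSum_ofReal.2 (h1.hasSum.mul_left κ)
  have a2 : Summable fun x : O × O => ((κ * f1 x.1 : ℝ) : ℂ) * f2 x.2 :=
    summable_mul_of_summable_norm (f := fun l => ((κ * f1 l : ℝ) : ℂ)) (g := f2)
      a1.summable.norm h2
  have a3 : HasSum (fun x : O × O => ((κ * f1 x.1 : ℝ) : ℂ) * f2 x.2)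
      (((κ * ∑' l, f1 l : ℝ) : ℂ) * ∑' n, f2 n) :=
    HasSum.mul (f := fun l => ((κ * f1 l : ℝ) : ℂ)) (g := f2) a1 h2.of_norm.hasSum a2
  have a4 : HasSum (fun x : O × O => F1 x.1 * F2 x.2) ((∑' l, F1 l) * ∑' n, F2 n) :=
    HasSum.mul (f := F1) (g := F2) H1.hasSum H2.hasSum (H1.mul_of_nonneg H2 n1 n2)
  exact (hg.sub a3).norm_le_of_bounded (a4.mul_left D) hb

/-- The main term is the sum over `x = (l, n)` with `Th Υ` replaced by `c Υ^{1/6}`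
(`Υ^{1/6} = X^{-1/6} N(h₀)⁻¹ N(h₁l)^{1/6} N(h₂n)^{1/6}`; `HasSum.mul_of_norm`-type lemma
`tsum_mul_tsum_of_summable_norm` with `tsum_gw_shift (-1/3)`).  The difference is bounded termwise by
`C X^{-1/300} N(h₀)^{-1/50} f₁(l) f₂(n)` with `f = N(h·)^{-149/300} gw`, and `tsum_gw_shift (-149/300)`
(`HasSum.norm_le_of_bounded`/`tsum_of_norm_bounded`, `HasSum.mul_of_nonneg`). -/
theorem Sv_est (Q : Lev) {c C : ℝ} (hC : 0 ≤ C)
    (hT : ∀ Υ : ℝ, 0 < Υ → |Th Q Υ - c * Υ ^ (1 / 6 : ℝ)| ≤ C * Υ ^ (1 / 300 : ℝ)) :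
    ∃ C' : ℝ, 0 ≤ C' ∧ ∀ η ∈ hchars Q.q, ∀ y1 y0 X : ℝ, 0 < X → ∀ h : T3, P3 Q h →
      ‖Sv Q η y1 y0 X h -
          ((c * X ^ (-(1 / 6) : ℝ) * (N h.1)⁻¹ * Av Q y1 h.2.1 : ℝ) : ℂ) * Bv Q η y0 h.2.2‖ ≤
        C' * X ^ (-(1 / 300) : ℝ) * Real.exp (151 / 300 * (y1 + y0)) * wB h := by
  obtain ⟨C1, -, h1⟩ := tsum_gw_shift Q (-(1 / 3))
  obtain ⟨C2, hC2, h2⟩ := tsum_gw_shift Q (-(149 / 300))
  refine ⟨C * C2 ^ 2, by positivity, fun η hη y1 y0 X hX h hh => ?_⟩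
  have hH := N_pos hh.1.1.ne_zero
  have hn : ∀ (x y : ℝ) (g l : O),
      0 ≤ if P0 Q l then N (g * l) ^ x * gw (Real.log (N (g * l)) - y) else 0 := fun x y g l => by
    split_ifs
    exacts [mul_nonneg (Real.rpow_nonneg (N_nonneg _) _) (gw_pos _).le, le_rfl]
  have hme : ∀ n : O, ‖mu n * η (h.2.2 * n)‖ ≤ 1 := fun n => by
    rw [norm_mul]
    exact mul_le_one₀ (norm_mu_le _) (norm_nonneg _) (norm_hchar_le Q hη _)
  have a2 : Summable fun n : O => ‖if P0 Q n then mu n * η (h.2.2 * n) *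
      ((N (h.2.2 * n) ^ (-(1 / 3) : ℝ) * gw (Real.log (N (h.2.2 * n)) - y0) : ℝ) : ℂ) else 0‖ := by
    refine .of_nonneg_of_le (fun _ => norm_nonneg _) (fun n => ?_) (h1 y0 _ hh.2.2.1.ne_zero).1
    have := hn (-(1 / 3)) y0 h.2.2 n
    split_ifs at this ⊢ with hp
    · rw [norm_mul, Complex.norm_real, Real.norm_of_nonneg this]
      exact mul_le_of_le_one_left this (hme n)
    · exact norm_zero.le
  obtain ⟨b1, b1'⟩ := h2 y1 _ hh.2.1.1.ne_zero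
  obtain ⟨b2, b2'⟩ := h2 y0 _ hh.2.2.1.ne_zero
  have hD : 0 ≤ C * (X ^ (-(1 / 300) : ℝ) * N h.1 ^ (-(1 / 50) : ℝ)) := by positivity
  refine (ps_abs (κ := c * X ^ (-(1 / 6) : ℝ) * (N h.1)⁻¹)
    (D := C * (X ^ (-(1 / 300) : ℝ) * N h.1 ^ (-(1 / 50) : ℝ))) (Sv_eq hη y1 y0 hX hh)
    (h1 y1 _ hh.2.1.1.ne_zero).1 a2 b1 b2 (hn _ _ _) (hn _ _ _) fun x => ?_).trans ?_
  · by_cases hx : P0 Q x.1 ∧ P0 Q x.2
    · have hA := N_pos (hh.2.1.mul hx.1).1.ne_zero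
      have hB := N_pos (hh.2.2.mul hx.2).1.ne_zero
      simp only [if_pos hx, if_pos hx.1, if_pos hx.2]
      exact ps_term (hme _) hA hB hX hH (gw_pos _) (gw_pos _) (hT _ (by positivity))
    · rw [if_neg hx]
      refine le_trans (le_of_eq ?_) (mul_nonneg hD (mul_nonneg (hn _ _ _ _) (hn _ _ _ _)))
      by_cases h1 : P0 Q x.1
      · rw [if_neg fun h2 => hx ⟨h1, h2⟩, mul_zero, sub_zero, norm_zero]
      · rw [if_neg h1, mul_zero, Complex.ofReal_zero, zero_mul, sub_zero, norm_zero]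
  · refine (mul_le_mul_of_nonneg_left (mul_le_mul b1' b2' (tsum_nonneg (hn _ _ _))
      (le_trans (tsum_nonneg (hn _ _ _)) b1')) hD).trans (le_of_eq ?_)
    rw [wB, mul_add, Real.exp_add, show (-(149 / 300) + 1 : ℝ) = 151 / 300 by norm_num]
    ring

end Crest.Agent.R17.Pr
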