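import Crest.Agent.R17.Prin_Blk

/-!
# R17 / Prin_Sig : the coefficients of the signal
-/

set_option autoImplicit false

noncomputable section

open scoped Classical ComplexConjugate

namespace Crest.Agent.R17.Pr

variable {Q : Lev}

/-- reindexing `(n, (a, l)) ↦ (a, l, n)` -/
def sig_e : O × (O × O) ≃ T3 := (Equiv.prodComm O (O × O)).trans (Equiv.prodAssoc O O O)

theorem sig_e_apply (n : O) (x : O × O) : sig_e (n, x) = (x.1, x.2, n) := rfl

theorem sig_c_le {a l : O} (hl : l ≠ 0) :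
    ‖(((N a)⁻¹ * (N l)⁻¹ : ℝ) : ℂ)‖ ≤ N a ^ (-1 : ℝ) * N l ^ (-(5 / 6) : ℝ) := by
  have h0 := N_nonneg a
  have h1 := one_le_N hl
  rw [Complex.norm_real, Real.norm_of_nonneg (by positivity), Real.rpow_neg_one]
  refine mul_le_mul_of_nonneg_left ?_ (by positivity)
  rw [← Real.rpow_neg_one]
  exact Real.rpow_le_rpow_of_exponent_le h1 (by norm_num)

theorem sig_L1 (hQ : Good Q) : L1 Q (fun h => if h = 1 then 0 else ‖G3 1 h‖ * wA h) (1 / 2) := by
  intro S hS
  have h1 := hQ.G (insert 1 (S.erase 1)) fun h hh => by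
    rcases Finset.mem_insert.1 hh with rfl | hh
    exacts [P3.one Q, hS h (Finset.mem_of_mem_erase hh)]
  rw [Finset.sum_insert (Finset.notMem_erase _ _), hQ.one] at h1
  have h2 : wA 1 = 1 := by simp [wA]
  rw [h2, norm_one] at h1
  rw [← Finset.sum_erase S (a := 1) (by simp),
    Finset.sum_congr rfl fun h hh => if_neg (Finset.ne_of_mem_erase hh)]
  linarith

/-- Let `m h = if P3 Q h ∧ h ≠ 1 then ‖G3 1 h‖ wA h else 0`; it is summable with sum `≤ 3/2 - 1`
(`hQ.G`, `hQ.one`, `wA 1 = 1`; insert `1` into the finite set).  Sum it over `(h.1, h.2.1)` first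
(`(Equiv.prodAssoc O O O)`, `Summable.prod_symm`, `Summable.tsum_prod`): for every `n`,
`‖bb Q n - δ n‖ N(n)^{-4/5} ≤ ∑_x m (x.1, x.2, n)` for primary `n` (the term `x = (1,1)` of `bb Q 1` is
`1`; `(N l)⁻¹ ≤ N(l)^{-5/6}`; if `n ∉ 𝒫₀` then `bb Q n = 0` and `n ≠ 1`). -/
theorem bb_l1 (hQ : Good Q) :
    Summable (fun h : O => if Prim h then
      ‖bb Q h - if h = 1 then 1 else 0‖ * N h ^ (-(4 / 5 : ℝ)) else 0) ∧
    ∑' h : O, (if Prim h then ‖bb Q h - if h = 1 then 1 else 0‖ * N h ^ (-(4 / 5 : ℝ)) else 0)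
      ≤ 1 / 2 := by
  obtain ⟨hs, hle⟩ := (sig_L1 hQ).summable fun v _ => by
    split_ifs
    exacts [le_rfl, mul_nonneg (norm_nonneg _) (wA_nonneg v)]
  set M : T3 → ℝ := fun v => if P3 Q v then (if v = 1 then 0 else ‖G3 1 v‖ * wA v) else 0 with hM
  have hM0 : ∀ v, 0 ≤ M v := fun v => by
    simp only [hM]
    split_ifs
    exacts [le_rfl, mul_nonneg (norm_nonneg _) (wA_nonneg v), le_rfl]
  have hs' : Summable fun p => M (sig_e p) := sig_e.summable_iff.2 hs
  have key : ∀ n : O, (if Prim n then ‖bb Q n - if n = 1 then 1 else 0‖ * N n ^ (-(4 / 5 : ℝ)) else 0) ≤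
      ∑' x : O × O, M (sig_e (n, x)) := by
    intro n
    by_cases hn : P0 Q n
    swap
    · have h1 : n ≠ 1 := fun h => hn (h ▸ P0.one Q)
      rw [bb, if_neg hn, if_neg h1]
      simpa using tsum_nonneg fun x => hM0 _
    have hw : 0 < N n ^ (-(4 / 5 : ℝ)) := Real.rpow_pos_of_pos (N_pos hn.1.ne_zero) _
    set g : O × O → ℂ := fun x => if P0 Q x.1 ∧ P0 Q x.2 then (if (x.1, x.2, n) = 1 then 0 else
      G3 1 (x.1, x.2, n) * (((N x.1)⁻¹ * (N x.2)⁻¹ : ℝ) : ℂ)) else 0 with hg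
    have hb : ∀ x, ‖g x‖ ≤ M (sig_e (n, x)) / N n ^ (-(4 / 5 : ℝ)) := by
      intro x
      rw [le_div_iff₀ hw]
      by_cases hx : P0 Q x.1 ∧ P0 Q x.2
      · simp only [hg, hM, sig_e_apply, if_pos hx, if_pos (show P3 Q (x.1, x.2, n) from ⟨hx.1, hx.2, hn⟩)]
        split_ifs
        · simp
        · rw [norm_mul, mul_assoc, wA]
          exact mul_le_mul_of_nonneg_left (mul_le_mul_of_nonneg_right (sig_c_le hx.2.1.ne_zero) hw.le)
            (norm_nonneg _)
      · simpa [hg, if_neg hx] using hM0 _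
    have hsn := (hs'.prod_factor n).hasSum.div_const (N n ^ (-(4 / 5 : ℝ)))
    have hsg : Summable g := .of_norm_bounded hsn.summable hb
    have hbb : bb Q n = ∑' x, g x + if n = 1 then 1 else 0 := by
      rw [bb, if_pos hn, ← tsum_ite_eq (1 : O × O) fun _ => (if n = 1 then 1 else 0 : ℂ),
        ← hsg.tsum_add (hasSum_ite_eq _ _).summable]
      refine tsum_congr fun x => ?_
      by_cases hx : x = 1
      · subst hx
        by_cases h1 : n = 1
        · subst h1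
          have := hQ.one
          simp [hg, P0.one, show ((1, 1, 1) : T3) = 1 from rfl, this]
        · simp [hg, h1, Prod.ext_iff]
      · have : (x.1, x.2, n) ≠ (1 : T3) := fun h => hx (by
          simp only [Prod.ext_iff] at h ⊢
          exact ⟨h.1, h.2.1⟩)
        simp only [hg, if_neg hx, if_neg this, add_zero]
    rw [if_pos hn.1, hbb, add_sub_cancel_right, ← le_div_iff₀ hw]
    exact tsum_of_norm_bounded hsn hb
  have h0 : ∀ n : O, 0 ≤ (if Prim n then ‖bb Q n - if n = 1 then 1 else 0‖ * N n ^ (-(4 / 5 : ℝ))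
      else 0) := fun n => by
    have := Real.rpow_nonneg (N_nonneg n) (-(4 / 5 : ℝ))
    split_ifs <;> positivity
  have hsum := Summable.of_nonneg_of_le h0 key hs'.prod
  refine ⟨hsum, (hsum.tsum_le_tsum key hs'.prod).trans ?_⟩
  rw [← hs'.tsum_prod, sig_e.tsum_eq M]
  exact hle

/-- summable by `hQ.G.const_mul`, `L1.tsum`; sum over `(h.1, h.2.1)` first (`tsum_mul_right`), `Bv_eq` -/
theorem Sig_hasSum (hQ : Good Q) {η : O → ℂ} (hη : η ∈ hchars Q.q) {y E : ℝ} (hE : 0 ≤ E)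
    (hB : ∀ h : O, h ≠ 0 → ‖Bv Q η y h‖ ≤ E * N h ^ (-(4 / 5) : ℝ)) :
    HasSum (fun h : T3 => if P3 Q h then
      G3 1 h * ((((N h.1)⁻¹ * (N h.2.1)⁻¹ : ℝ) : ℂ) * Bv Q η y h.2.2) else 0)
      (Sig (bb Q) η y) := by
  have hs := ((hQ.G.const_mul hE).tsum (g := fun h =>
    G3 1 h * ((((N h.1)⁻¹ * (N h.2.1)⁻¹ : ℝ) : ℂ) * Bv Q η y h.2.2)) fun v hv => by
      rw [norm_mul, norm_mul, wA]
      have := mul_le_mul (sig_c_le (a := v.1) hv.2.1.1.ne_zero) (hB _ hv.2.2.1.ne_zero) (norm_nonneg _)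
        (mul_nonneg (Real.rpow_nonneg (N_nonneg _) _) (Real.rpow_nonneg (N_nonneg _) _))
      refine (mul_le_mul_of_nonneg_left this (norm_nonneg _)).trans (le_of_eq ?_)
      ring).1
  refine hs.hasSum_iff.2 ?_
  rw [← sig_e.tsum_eq]
  refine (sig_e.summable_iff.2 hs).tsum_prod.trans ?_
  rw [Sig]
  refine tsum_congr fun n => ?_
  by_cases hn : P0 Q n
  · rw [if_pos hn.1, mul_assoc, mul_assoc, ← mul_assoc (η n), ← Bv_eq hη y hn.1.ne_zero, bb, if_pos hn,
      ← tsum_mul_right]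
    refine tsum_congr fun x => ?_
    simp only [Function.comp, sig_e_apply, P3, hn, and_true]
    split_ifs
    · ring
    · simp
  · simp [Function.comp, sig_e_apply, P3, hn, bb]

end Crest.Agent.R17.Pr
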