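import Crest.Agent.R17.Prin_Defs

/-!
# R17 / Prin_Theta : the lattice sum `Th`
-/

set_option autoImplicit false

noncomputable section

open scoped Classical ComplexConjugate

namespace Crest.Agent.R17.Pr

/-- `Om_le_pow 1`, `summable_N_rpow` -/
theorem summable_Th (Q : Lev) {Υ : ℝ} (hΥ : 0 < Υ) :
    Summable fun a : O => if P0 Q a then Om (N a ^ 6 / Υ) else 0 := by
  refine .of_nonneg_of_le (fun a => ?_) (fun a => ?_)
    ((summable_N_rpow (σ := 6) (by norm_num)).mul_left Υ)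
  · split_ifs
    exacts [(Om_pos _).le, le_rfl]
  · split_ifs with h
    · have h0 := N_pos h.1.ne_zero
      refine (Om_le_pow 1 (by positivity)).trans_eq ?_
      rw [Real.rpow_neg h0.le, Real.rpow_ofNat]
      simp [div_eq_mul_inv]
    · exact mul_nonneg hΥ.le (Real.rpow_nonneg (N_nonneg _) _)

/-- `lattice_mellin` with `q = Q.q`, `φ = prim (one0 Q)` (`IsHChar.per_prim`, `one0_mem`, `mem_hchars`),
`k = 6`, `σ = 1/300`; `Complex.ofReal_tsum`; `Ef_one_one0`; `c = (r/6) Γ(1/6) c0^{-1/6}`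
(`Complex.Gamma_ofReal`, `Real.Gamma_pos_of_pos`, `Complex.ofReal_cpow`); the integral is bounded by
`(Υ/c0)^σ ∫ ‖Lf‖ Gm` (`norm_integral_le_integral_norm`, `Complex.norm_cpow_eq_rpow_re_of_pos`). -/
theorem Th_asymp (Q : Lev) : ∃ c C : ℝ, 0 < c ∧ 0 ≤ C ∧ ∀ Υ : ℝ, 0 < Υ →
    |Th Q Υ - c * Υ ^ (1 / 6 : ℝ)| ≤ C * Υ ^ (1 / 300 : ℝ) := by
  obtain ⟨r, hr, hE⟩ := Ef_one_one0 Q
  obtain ⟨hI, h⟩ := lattice_mellin Q.ne (IsHChar.per_prim Q ((mem_hchars Q.ne).1 (one0_mem Q)))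
    (k := 6) (by norm_num) (σ := 1 / 300) (by norm_num) (by norm_num)
  have hc : 0 < c0 := one_pos.trans one_lt_c0
  have hG := Real.Gamma_pos_of_pos (show (0 : ℝ) < 1 / 6 by norm_num)
  refine ⟨r / 6 * Real.Gamma (1 / 6) * (c0 ^ (1 / 6 : ℝ))⁻¹, 1 / (2 * Real.pi) *
    ((∫ τ : ℝ, ‖Lf (prim (one0 Q)) ((6 : ℕ) * ((1 / 300 : ℝ) + τ * Complex.I))‖ * Gm (1 / 300) τ) *
      (c0 ^ (1 / 300 : ℝ))⁻¹), by positivity, ?_, fun Υ hΥ => ?_⟩
  · have := MeasureTheory.integral_nonneg (μ := MeasureTheory.volume) (f := fun τ : ℝ =>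
      ‖Lf (prim (one0 Q)) ((6 : ℕ) * ((1 / 300 : ℝ) + τ * Complex.I))‖ * Gm (1 / 300) τ)
      fun τ => mul_nonneg (norm_nonneg _) (norm_nonneg _)
    positivity
  have e1 : (Th Q Υ : ℂ) =
      ∑' n : O, if n = 0 then 0 else prim (one0 Q) n * (Om (N n ^ 6 / Υ) : ℂ) := by
    rw [Th, Complex.ofReal_tsum]
    refine tsum_congr fun n => ?_
    by_cases h : P0 Q n
    · simp [h, h.1, h.2, h.1.ne_zero, prim, one0]
    · rw [P0, not_and_or] at h
      rcases h with h | h <;> simp [h, P0, prim, one0]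
  have e2 : ((r / 6 * Real.Gamma (1 / 6) * (c0 ^ (1 / 6 : ℝ))⁻¹ * Υ ^ (1 / 6 : ℝ) : ℝ) : ℂ) =
      (r : ℂ) / (6 : ℕ) * Complex.Gamma (1 / (6 : ℕ)) * ((Υ / c0 : ℝ) : ℂ) ^ (1 / (6 : ℕ) : ℂ) := by
    have e : (1 / (6 : ℕ) : ℂ) = ((1 / 6 : ℝ) : ℂ) := by push_cast; rfl
    rw [e, Complex.Gamma_ofReal, ← Complex.ofReal_cpow (by positivity), Real.div_rpow hΥ.le hc.le]
    push_cast
    ring
  rw [← Real.norm_eq_abs, ← Complex.norm_real, Complex.ofReal_sub, e1, e2, h Υ hΥ, hE,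
    add_sub_cancel_left, norm_mul, mul_assoc, mul_assoc]
  refine mul_le_mul (le_of_eq ?_) ((MeasureTheory.norm_integral_le_integral_norm _).trans_eq ?_)
    (norm_nonneg _) (by positivity)
  · simp [abs_of_pos Real.pi_pos]
  · rw [← MeasureTheory.integral_mul_const]
    refine congrArg _ (funext fun τ => ?_)
    rw [norm_mul, norm_mul, Complex.norm_cpow_eq_rpow_re_of_pos (by positivity), Gm,
      ← div_eq_inv_mul, ← Real.div_rpow hΥ.le hc.le]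
    simp

end Crest.Agent.R17.Pr
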