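import Crest.Agent.R17.Prin_Fac
import Crest.Agent.R17.Prin_S
import Crest.Agent.R17.Prin_Sig

/-!
# R17 / Prin_V : the estimate for `Vv`
-/

set_option autoImplicit false

noncomputable section

open scoped Classical ComplexConjugate

namespace Crest.Agent.R17.Pr

/-- `c = c₁ c₂` (`Th_asymp`, `Av_asymp`).  Put `m = c X^{-1/6} e^{2y₁/3}`,
`Sm h = m N(h₀)⁻¹ N(h₁)⁻¹ Bv h₂`, `E = C_B e^{(β-1/3+ε) y₀}` (`Bv_le`).  By `Vv_hasSum` and `Sig_hasSum`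
the difference is `∑_h [H3 i h (Sv h - Sm h) + (H3 i h - G3 1 h) Sm h]`, and for `P3 Q h`
`‖Sv h - Sm h‖ ≤ C' X^{-1/300} e^{…} wB h + c₁ C_A X^{-1/6} e^{y₁/2} E wA h` (`Sv_est`, `Av_asymp`),
`‖Sm h‖ ≤ m E wA h`.  Conclude with `L1.const_mul`, `L1.add`, `L1.tsum` from `hQ.B`, `hQ.A`, `hQ.D`. -/
theorem Vv_est {Q : Lev} (hQ : Good Q) : ∃ c : ℝ, 0 < c ∧ ∀ β ε : ℝ, 7 / 8 ≤ β → β ≤ 1 → ZF β →
    0 < ε → ∃ C : ℝ, 0 ≤ C ∧ ∀ η ∈ hchars Q.q, ∀ y1 y0 X L : ℝ, 0 < X → 0 < L → ∀ I, PS Q I →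
    (∀ p ∈ I, L ≤ N p) →
      ‖Vv Q η y1 y0 X (∏ p ∈ I, p) -
          ((c * X ^ (-(1 / 6) : ℝ) * Real.exp (2 / 3 * y1) : ℝ) : ℂ) * Sig (bb Q) η y0‖ ≤
        C * 33 ^ I.card * (X ^ (-(1 / 6) : ℝ) * Real.exp ((β - 1 / 3 + ε) * y0) *
            (Real.exp (y1 / 2) + Real.exp (2 / 3 * y1) * L ^ (-(1 / 2) : ℝ)) +
          X ^ (-(1 / 300) : ℝ) * Real.exp (151 / 300 * (y1 + y0))) := by
  obtain ⟨c1, C1, hc1, hC1, hT⟩ := Th_asymp Q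
  obtain ⟨c2, CA, hc2, hCA, hA⟩ := Av_asymp Q
  obtain ⟨C', hC', hS⟩ := Sv_est Q hC1 hT
  refine ⟨c1 * c2, mul_pos hc1 hc2, fun β ε hβ hβ1 hZ hε => ?_⟩
  obtain ⟨CB, hCB, hB⟩ := Bv_le Q hβ hβ1 hZ hε
  refine ⟨2 * (C' + c1 * CA * CB + c1 * c2 * CB), by positivity,
    fun η hη y1 y0 X L hX hL I hI hIL => ?_⟩
  set i := ∏ p ∈ I, p
  set a := X ^ (-(1 / 6) : ℝ) with ha
  set e0 := Real.exp ((β - 1 / 3 + ε) * y0) with he0
  set e1 := Real.exp (y1 / 2) with he1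
  set e2 := Real.exp (2 / 3 * y1) with he2
  set b := X ^ (-(1 / 300) : ℝ) with hb
  set e3 := Real.exp (151 / 300 * (y1 + y0)) with he3
  set l := L ^ (-(1 / 2) : ℝ) with hl
  have a0 : 0 < a := by positivity
  have b0 : 0 < b := by positivity
  have l0 : 0 < l := by positivity
  have p0 : 0 < e0 := Real.exp_pos _
  have p1 : 0 < e1 := Real.exp_pos _
  have p2 : 0 < e2 := Real.exp_pos _
  have p3 : 0 < e3 := Real.exp_pos _
  have h1 := Vv_hasSum hη y1 y0 hX hI.prod (hQ.B I hI)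
  have h2 := (Sig_hasSum hQ hη (y := y0) (E := CB * e0) (by positivity) (hB η hη y0)).mul_left
    ((c1 * c2 * a * e2 : ℝ) : ℂ)
  have h3 := h1.sub h2
  have hL1 := ((((hQ.B I hI).const_mul (c := C' * b * e3) (by positivity)).add
    ((hQ.A I hI).const_mul (c := c1 * CA * CB * a * e0 * e1) (by positivity))).add
    ((hQ.D I hI L hL hIL).const_mul (c := c1 * c2 * CB * a * e0 * e2) (by positivity)))
  have h4 := (hL1.tsum (g := fun h => H3 i h * Sv Q η y1 y0 X h - ((c1 * c2 * a * e2 : ℝ) : ℂ) *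
      (G3 1 h * ((((N h.1)⁻¹ * (N h.2.1)⁻¹ : ℝ) : ℂ) * Bv Q η y0 h.2.2))) fun h hh => by
    have n0 := one_le_N hh.1.1.ne_zero
    have n1 := one_le_N hh.2.1.1.ne_zero
    have n2 := one_le_N hh.2.2.1.ne_zero
    have k1 := hS η hη y1 y0 X hX h hh
    have k2 := hA y1 h.2.1 hh.2.1.1.ne_zero
    have k3 := hB η hη y0 h.2.2 hh.2.2.1.ne_zero
    have k4 : (N h.2.1)⁻¹ ≤ N h.2.1 ^ (-(5 / 6) : ℝ) := by
      rw [← Real.rpow_neg_one]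
      exact Real.rpow_le_rpow_of_exponent_le n1 (by norm_num)
    have k5 : ‖((c1 * a * (N h.1)⁻¹ * (Av Q y1 h.2.1 - c2 * e2 * (N h.2.1)⁻¹) : ℝ) : ℂ) *
        Bv Q η y0 h.2.2‖ ≤ c1 * CA * CB * a * e0 * e1 * wA h := by
      rw [norm_mul, Complex.norm_real, Real.norm_eq_abs, abs_mul, abs_of_nonneg (by positivity)]
      calc _ ≤ c1 * a * (N h.1)⁻¹ * (CA * e1 * N h.2.1 ^ (-(5 / 6) : ℝ)) *
            (CB * e0 * N h.2.2 ^ (-(4 / 5) : ℝ)) := by gcongr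
        _ = _ := by rw [wA, Real.rpow_neg_one]; ring
    have k6 : ‖((c1 * c2 * a * e2 * ((N h.1)⁻¹ * (N h.2.1)⁻¹) : ℝ) : ℂ) * Bv Q η y0 h.2.2‖ ≤
        c1 * c2 * CB * a * e0 * e2 * wA h := by
      rw [norm_mul, Complex.norm_real, Real.norm_of_nonneg (by positivity)]
      calc _ ≤ c1 * c2 * a * e2 * ((N h.1)⁻¹ * N h.2.1 ^ (-(5 / 6) : ℝ)) *
            (CB * e0 * N h.2.2 ^ (-(4 / 5) : ℝ)) := by gcongr
        _ = _ := by rw [wA, Real.rpow_neg_one]; ring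
    calc _ = ‖H3 i h * (Sv Q η y1 y0 X h -
          ((c1 * a * (N h.1)⁻¹ * Av Q y1 h.2.1 : ℝ) : ℂ) * Bv Q η y0 h.2.2) +
          H3 i h * (((c1 * a * (N h.1)⁻¹ * (Av Q y1 h.2.1 - c2 * e2 * (N h.2.1)⁻¹) : ℝ) : ℂ) *
            Bv Q η y0 h.2.2) + (H3 i h - G3 1 h) *
          (((c1 * c2 * a * e2 * ((N h.1)⁻¹ * (N h.2.1)⁻¹) : ℝ) : ℂ) * Bv Q η y0 h.2.2)‖ := by
          congr 1
          push_cast
          ring
      _ ≤ ‖H3 i h‖ * (C' * b * e3 * wB h) + ‖H3 i h‖ * (c1 * CA * CB * a * e0 * e1 * wA h) +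
          ‖H3 i h - G3 1 h‖ * (c1 * c2 * CB * a * e0 * e2 * wA h) := by
          refine norm_add₃_le.trans ?_
          rw [norm_mul (H3 i h), norm_mul (H3 i h), norm_mul (H3 i h - G3 1 h)]
          gcongr
      _ = _ := by ring).2
  rw [← h3.tsum_eq]
  refine le_trans (le_of_eq ?_) (h4.trans ?_)
  · congr 2
    funext h
    split_ifs
    exacts [rfl, by simp]
  · have : (0 : ℝ) ≤ 33 ^ I.card * (2 * (c1 * CA * CB + c1 * c2 * CB) * (b * e3) +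
        2 * (C' + c1 * c2 * CB) * (a * e0 * e1) + 2 * (C' + c1 * CA * CB) * (a * e0 * (e2 * l))) := by
      positivity
    linarith

end Crest.Agent.R17.Pr
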