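import Crest.Agent.R17.QLS_Pos

/-!
# R17 / QLS_Bil : bounds for coprime bilinear forms
-/

set_option autoImplicit false

noncomputable section

open scoped Classical ComplexConjugate
open MeasureTheory

namespace Crest.Agent.R17.QL

theorem CF_congr {U : Finset O} (α : O → ℂ) {G G' : O → O → ℂ}
    (h : ∀ k1 ∈ U, ∀ k2 ∈ U, IsCoprime k1 k2 → G k1 k2 = G' k1 k2) : CF U α G = CF U α G' := by
  unfold CF
  refine Finset.sum_congr rfl (fun k1 h1 => Finset.sum_congr rfl (fun k2 h2 => ?_))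
  split_ifs with hc
  · rw [h k1 h1 k2 h2 hc]
  · rfl

theorem CF_comb (U : Finset O) (α : O → ℂ) (G1 G2 G3 G4 : O → O → ℂ) (x : ℂ) :
    CF U α (fun k1 k2 => x * G1 k1 k2 + x * G2 k1 k2 - G3 k1 k2 + 6 * G4 k1 k2) =
      x * CF U α G1 + x * CF U α G2 - CF U α G3 + 6 * CF U α G4 := by
  unfold CF
  simp only [Finset.mul_sum, ← Finset.sum_add_distrib, ← Finset.sum_sub_distrib]
  refine Finset.sum_congr rfl (fun k1 _ => Finset.sum_congr rfl (fun k2 _ => ?_))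
  split_ifs
  · ring
  · simp

theorem CF_mul (U : Finset O) (α : O → ℂ) (G : O → O → ℂ) (x : ℂ) :
    CF U α (fun k1 k2 => x * G k1 k2) = x * CF U α G := by
  unfold CF
  simp only [Finset.mul_sum]
  refine Finset.sum_congr rfl (fun k1 _ => Finset.sum_congr rfl (fun k2 _ => ?_))
  split_ifs
  · ring
  · simp

theorem norm_CF_le {U : Finset O} (α : O → ℂ) {G : O → O → ℂ} {c : ℝ} (hc : 0 ≤ c)
    (h : ∀ k1 ∈ U, ∀ k2 ∈ U, IsCoprime k1 k2 → ‖G k1 k2‖ ≤ c) :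
    ‖CF U α G‖ ≤ c * U.card * ∑ k ∈ U, ‖α k‖ ^ 2 := by
  unfold CF
  calc _ ≤ ∑ k1 ∈ U, ∑ k2 ∈ U, c * (‖α k1‖ * ‖α k2‖) := by
        refine (norm_sum_le _ _).trans (Finset.sum_le_sum (fun k1 h1 =>
          (norm_sum_le _ _).trans (Finset.sum_le_sum (fun k2 h2 => ?_))))
        split_ifs with hk
        · rw [norm_mul, norm_mul, Complex.norm_conj, mul_comm c]
          exact mul_le_mul_of_nonneg_left (h k1 h1 k2 h2 hk) (by positivity)
        · rw [norm_zero]; positivity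
    _ = c * (∑ k ∈ U, ‖α k‖) ^ 2 := by
        rw [pow_two, Finset.sum_mul_sum, Finset.mul_sum]
        simp only [Finset.mul_sum]
    _ ≤ _ := by
        rw [mul_assoc]
        exact mul_le_mul_of_nonneg_left sq_sum_le_card_mul_sum_sq hc

theorem sum_dvd_le {U P : Finset O} (hU : ∀ n ∈ U, n ≠ 0) (hP : ∀ r ∈ P, Prim r) {τ : ℝ}
    (hτ : ∀ n ∈ U, ((pdiv n).card : ℝ) ≤ τ) (f : O → ℝ) (hf : ∀ n, 0 ≤ f n) :
    ∑ r ∈ P, ∑ n ∈ U, (if r ∣ n then f n else 0) ≤ τ * ∑ n ∈ U, f n := by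
  rw [Finset.sum_comm, Finset.mul_sum]
  refine Finset.sum_le_sum (fun n hn => ?_)
  rw [← Finset.sum_filter, Finset.sum_const, nsmul_eq_mul]
  refine mul_le_mul_of_nonneg_right (le_trans ?_ (hτ n hn)) (hf n)
  exact_mod_cast Finset.card_le_card (fun r hr => by
    rw [Finset.mem_filter] at hr
    exact (mem_pdiv (hU n hn)).2 ⟨hP r hr.1, hr.2⟩)

/-- removing the coprimality condition -/
theorem bil {R U : Finset O} {ω : O → ℝ} {k : O → O → ℂ} {D τ : ℝ} (hU : ∀ n ∈ U, Prim n)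
    (hτ : ∀ n ∈ U, ((pdiv n).card : ℝ) ≤ τ) (hD : 0 ≤ D) (h : WB R ω U k D) (z : O → ℂ)
    (hz : ∀ b ∈ R, ‖z b‖ ≤ ω b) (β γ : O → ℂ) :
    ‖∑ b ∈ R, z b * ∑ n1 ∈ U, ∑ n2 ∈ U,
      (if IsCoprime n1 n2 then (β n1 * k b n1) * (γ n2 * k b n2) else 0)‖ ≤
      D * τ * ((∑ n ∈ U, ‖β n‖ ^ 2 + ∑ n ∈ U, ‖γ n‖ ^ 2) / 2) := by
  set P := U.biUnion pdiv with hP
  have hPp : ∀ r ∈ P, Prim r := by
    intro r hr
    obtain ⟨n, hn, hr⟩ := Finset.mem_biUnion.1 hr
    exact ((mem_pdiv (hU n hn).ne_zero).1 hr).1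
  set A : (O → ℂ) → O → O → ℂ := fun β r b => ∑ n ∈ U, (if r ∣ n then β n else 0) * k b n with hA
  have e1 : ∀ b, ∑ n1 ∈ U, ∑ n2 ∈ U,
      (if IsCoprime n1 n2 then (β n1 * k b n1) * (γ n2 * k b n2) else 0) =
      ∑ r ∈ P, mu r * (A β r b * A γ r b) := by
    intro b
    simp only [hA, Finset.sum_mul_sum]
    simp only [Finset.mul_sum]
    rw [Finset.sum_comm (s := P)]
    refine Finset.sum_congr rfl (fun n1 h1 => ?_)
    rw [Finset.sum_comm (s := P)]
    refine Finset.sum_congr rfl (fun n2 h2 => ?_)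
    have h3 := sum_mu_coprime (hU n2 h2) n1
    have h4 : (pdiv n2).filter (fun e => e ∣ n1) = P.filter (fun r => r ∣ n1 ∧ r ∣ n2) := by
      ext r
      simp only [Finset.mem_filter, mem_pdiv (hU n2 h2).ne_zero]
      constructor
      · rintro ⟨⟨a, b⟩, c⟩
        exact ⟨Finset.mem_biUnion.2 ⟨n2, h2, (mem_pdiv (hU n2 h2).ne_zero).2 ⟨a, b⟩⟩, c, b⟩
      · rintro ⟨a, b, c⟩
        exact ⟨⟨hPp r a, c⟩, b⟩
    rw [h4, Finset.sum_filter] at h3
    have : (if IsCoprime n1 n2 then (β n1 * k b n1) * (γ n2 * k b n2) else 0) =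
        (if IsCoprime n1 n2 then 1 else 0) * ((β n1 * k b n1) * (γ n2 * k b n2)) := by
      split_ifs <;> simp
    rw [this, ← h3, Finset.sum_mul]
    refine Finset.sum_congr rfl (fun r _ => ?_)
    by_cases a : r ∣ n1 <;> by_cases a' : r ∣ n2 <;> simp [a, a']
  have e2 : ∀ β : O → ℂ, ∑ r ∈ P, ∑ b ∈ R, ω b * ‖A β r b‖ ^ 2 ≤ D * τ * ∑ n ∈ U, ‖β n‖ ^ 2 := by
    intro β
    calc _ ≤ ∑ r ∈ P, D * ∑ n ∈ U, (if r ∣ n then ‖β n‖ ^ 2 else 0) := by
          refine Finset.sum_le_sum (fun r _ => (h _).trans (le_of_eq ?_))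
          congr 1
          refine Finset.sum_congr rfl (fun n _ => ?_)
          split_ifs <;> simp
      _ ≤ _ := by
          rw [← Finset.mul_sum, mul_assoc]
          exact mul_le_mul_of_nonneg_left (sum_dvd_le (fun n hn => (hU n hn).ne_zero) hPp hτ _
            (fun n => by positivity)) hD
  simp_rw [e1]
  calc _ ≤ ∑ b ∈ R, ∑ r ∈ P, (ω b * ‖A β r b‖ ^ 2 + ω b * ‖A γ r b‖ ^ 2) / 2 := by
        refine (norm_sum_le _ _).trans (Finset.sum_le_sum (fun b hb => ?_))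
        rw [Finset.mul_sum]
        refine (norm_sum_le _ _).trans (Finset.sum_le_sum (fun r _ => ?_))
        rw [norm_mul, norm_mul, norm_mul]
        have h1 := hz b hb
        have h2 := norm_mu_le r
        have h3 : ‖A β r b‖ * ‖A γ r b‖ ≤ (‖A β r b‖ ^ 2 + ‖A γ r b‖ ^ 2) / 2 := by
          nlinarith [sq_nonneg (‖A β r b‖ - ‖A γ r b‖)]
        calc ‖z b‖ * (‖mu r‖ * (‖A β r b‖ * ‖A γ r b‖))
            ≤ ω b * (1 * ((‖A β r b‖ ^ 2 + ‖A γ r b‖ ^ 2) / 2)) := by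
              refine mul_le_mul h1 (mul_le_mul h2 h3 (by positivity) (by positivity))
                (by positivity) ((norm_nonneg _).trans h1)
          _ = _ := by ring
    _ = (∑ r ∈ P, ∑ b ∈ R, ω b * ‖A β r b‖ ^ 2 + ∑ r ∈ P, ∑ b ∈ R, ω b * ‖A γ r b‖ ^ 2) / 2 := by
        rw [Finset.sum_comm, ← Finset.sum_add_distrib, Finset.sum_div]
        refine Finset.sum_congr rfl (fun r _ => ?_)
        rw [← Finset.sum_add_distrib, Finset.sum_div]
    _ ≤ _ := by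
        have := e2 β
        have := e2 γ
        linarith

/-- the bound for one error term -/
theorem err_bound {R U : Finset O} {w : ℝ → ℂ} (hw : Integrable w) {σ D τ V lm : ℝ} (hσ : 0 ≤ σ)
    (hlm : 0 < lm) (hU : ∀ n ∈ U, Prim n) (hR : ∀ b ∈ R, b ≠ 0)
    (hτ : ∀ n ∈ U, ((pdiv n).card : ℝ) ≤ τ) (hτ0 : 0 ≤ τ) (hD : 0 ≤ D) (p u : O → ℝ)
    (hp : ∀ n ∈ U, 0 ≤ p n) (hu : ∀ n ∈ U, 0 < u n) (hV : ∀ n ∈ U, p n * u n ^ σ ≤ V)
    (h : WB R (fun b => (lm / N b) ^ σ) U qk D) (α : O → ℂ) :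
    ‖CF U α (fun k1 k2 => ∑ b ∈ R, qua (k1 * k2) b *
      (((p k1 * p k2 : ℝ) : ℂ) * Ierr w σ (k1 * k2) (lm * (u k1 * u k2) / N b)))‖ ≤
      (∫ t, ‖w t‖) * (D * τ ^ 3 * V ^ 2 * ∑ n ∈ U, ‖α n‖ ^ 2) := by
  set K : ℝ → O → O → O → ℂ := fun t k1 k2 b =>
    if IsCoprime k1 k2 then α k1 * conj (α k2) * (qua (k1 * k2) b * (((p k1 * p k2 : ℝ) : ℂ) *
      (w t * (((lm * (u k1 * u k2) / N b : ℝ) : ℂ) ^ sl σ t * PP (k1 * k2) (sl σ t))))) else 0
    with hK
  have hKi : ∀ k1 ∈ U, ∀ k2 ∈ U, ∀ b ∈ R, Integrable (fun t => K t k1 k2 b) := by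
    intro k1 h1 k2 h2 b hb
    simp only [hK]
    have := hu k1 h1
    have := hu k2 h2
    have := N_pos (hR b hb)
    split_ifs
    · exact (((integrable_Ierr hw hσ _ (by positivity)).const_mul _).const_mul _).const_mul _
    · exact integrable_zero _ _ _
  have e1 : CF U α (fun k1 k2 => ∑ b ∈ R, qua (k1 * k2) b *
      (((p k1 * p k2 : ℝ) : ℂ) * Ierr w σ (k1 * k2) (lm * (u k1 * u k2) / N b))) =
      ∫ t, ∑ k1 ∈ U, ∑ k2 ∈ U, ∑ b ∈ R, K t k1 k2 b := by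
    unfold CF
    rw [integral_finsetSum _ (fun k1 h1 => integrable_finsetSum _ (fun k2 h2 =>
      integrable_finsetSum _ (fun b hb => hKi k1 h1 k2 h2 b hb)))]
    refine Finset.sum_congr rfl (fun k1 h1 => ?_)
    rw [integral_finsetSum _ (fun k2 h2 =>
      integrable_finsetSum _ (fun b hb => hKi k1 h1 k2 h2 b hb))]
    refine Finset.sum_congr rfl (fun k2 h2 => ?_)
    rw [integral_finsetSum _ (fun b hb => hKi k1 h1 k2 h2 b hb)]
    simp only [hK]
    split_ifs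
    · rw [Finset.mul_sum]
      refine Finset.sum_congr rfl (fun b _ => ?_)
      rw [integral_const_mul, integral_const_mul, integral_const_mul]
      rfl
    · simp
  rw [e1, ← integral_mul_const]
  refine norm_integral_le_of_norm_le (hw.norm.mul_const _) (Filter.Eventually.of_forall fun t => ?_)
  set β : O → ℂ := fun n => α n * ((p n : ℂ) * ((u n : ℂ) ^ sl σ t * PP n (sl σ t))) with hβ
  set γ : O → ℂ := fun n => conj (α n) * ((p n : ℂ) * ((u n : ℂ) ^ sl σ t * PP n (sl σ t))) with hγ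
  have e2 : ∑ k1 ∈ U, ∑ k2 ∈ U, ∑ b ∈ R, K t k1 k2 b = w t *
      ∑ b ∈ R, ((lm / N b : ℝ) : ℂ) ^ sl σ t * ∑ n1 ∈ U, ∑ n2 ∈ U,
        (if IsCoprime n1 n2 then (β n1 * qk b n1) * (γ n2 * qk b n2) else 0) := by
    simp only [Finset.mul_sum]
    rw [Finset.sum_comm (s := R)]
    refine Finset.sum_congr rfl (fun k1 h1 => ?_)
    rw [Finset.sum_comm (s := R)]
    refine Finset.sum_congr rfl (fun k2 h2 => Finset.sum_congr rfl (fun b hb => ?_))
    simp only [hK, hβ, hγ]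
    split_ifs with hc
    · have a1 := hu k1 h1
      have a2 := hu k2 h2
      have a3 := N_pos (hR b hb)
      have : lm * (u k1 * u k2) / N b = lm / N b * (u k1 * u k2) := by ring
      rw [this, Complex.ofReal_mul (lm / N b), Complex.mul_cpow_ofReal_nonneg (by positivity)
        (by positivity), Complex.ofReal_mul (u k1),
        Complex.mul_cpow_ofReal_nonneg a1.le a2.le,
        PP_mul (hU k1 h1).ne_zero (hU k2 h2).ne_zero hc,
        qua_mul_left (hU k1 h1).ne_zero (hU k2 h2).ne_zero]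
      unfold qk
      push_cast
      ring
    · simp
  have e3 : ∀ n ∈ U, ‖(p n : ℂ) * ((u n : ℂ) ^ sl σ t * PP n (sl σ t))‖ ≤ V * τ := by
    intro n hn
    rw [norm_mul, norm_mul, norm_cpow_sl (hu n hn), Complex.norm_real, Real.norm_of_nonneg (hp n hn),
      ← mul_assoc]
    have a1 := hp n hn
    have a2 := hu n hn
    exact mul_le_mul (hV n hn) ((norm_PP_le n (by rw [sl_re]; exact hσ)).trans (hτ n hn))
      (norm_nonneg _) (le_trans (by positivity) (hV n hn))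
  have e4 : ∑ n ∈ U, ‖β n‖ ^ 2 ≤ (V * τ) ^ 2 * ∑ n ∈ U, ‖α n‖ ^ 2 := by
    rw [Finset.mul_sum]
    refine Finset.sum_le_sum (fun n hn => ?_)
    simp only [hβ]
    rw [norm_mul, mul_pow, mul_comm]
    exact mul_le_mul_of_nonneg_right (pow_le_pow_left₀ (norm_nonneg _) (e3 n hn) 2) (by positivity)
  have e5 : ∑ n ∈ U, ‖γ n‖ ^ 2 ≤ (V * τ) ^ 2 * ∑ n ∈ U, ‖α n‖ ^ 2 := by
    rw [Finset.mul_sum]
    refine Finset.sum_le_sum (fun n hn => ?_)
    simp only [hγ]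
    rw [norm_mul, mul_pow, mul_comm, Complex.norm_conj]
    exact mul_le_mul_of_nonneg_right (pow_le_pow_left₀ (norm_nonneg _) (e3 n hn) 2) (by positivity)
  rw [e2, norm_mul]
  refine mul_le_mul_of_nonneg_left ?_ (norm_nonneg _)
  refine (bil hU hτ hD h _ (fun b hb => ?_) β γ).trans ?_
  · have := N_pos (hR b hb)
    rw [norm_cpow_sl (by positivity)]
  · calc _ ≤ D * τ * ((V * τ) ^ 2 * ∑ n ∈ U, ‖α n‖ ^ 2) :=
          mul_le_mul_of_nonneg_left (by linarith) (by positivity)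
      _ = _ := by ring

/-- summation of the weight `N b ^ (-1/2)` by dyadic dissection -/
theorem dyadic_weight (f : O → ℝ) (hf : ∀ b, 0 ≤ f b) {α β B' B0 : ℝ} (hα : 0 ≤ α) (hβ : 0 ≤ β)
    (hB' : 0 < B') (hF : ∀ t, 0 ≤ t → t ≤ B0 → ∑ b ∈ SQ t, f b ≤ α + β * t) (J : ℕ) :
    ∀ B, B' ≤ B → B ≤ B0 → B ≤ 4 ^ (J + 1) * B' →
      ∑ b ∈ SQ B \ SQ B', (Real.sqrt (N b))⁻¹ * f b ≤
        3 * α / Real.sqrt B' - 2 * α / Real.sqrt B + 4 * β * Real.sqrt B := by
  have hs' := Real.sqrt_pos.2 hB'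
  have block : ∀ B1 B, 0 < B1 → 0 ≤ B → B ≤ B0 →
      ∑ b ∈ SQ B \ SQ B1, (Real.sqrt (N b))⁻¹ * f b ≤ (Real.sqrt B1)⁻¹ * (α + β * B) := by
    intro B1 B h1 hB0 hB
    have := Real.sqrt_pos.2 h1
    calc _ ≤ ∑ b ∈ SQ B \ SQ B1, (Real.sqrt B1)⁻¹ * f b := by
          refine Finset.sum_le_sum (fun b hb => mul_le_mul_of_nonneg_right ?_ (hf b))
          rw [Finset.mem_sdiff, mem_SQ, mem_SQ] at hb
          have : B1 < N b := by
            by_contra hc
            exact hb.2 ⟨not_lt.1 hc, hb.1.2⟩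
          exact inv_anti₀ (by positivity) (Real.sqrt_le_sqrt this.le)
      _ ≤ ∑ b ∈ SQ B, (Real.sqrt B1)⁻¹ * f b :=
          Finset.sum_le_sum_of_subset_of_nonneg Finset.sdiff_subset
            (fun b _ _ => mul_nonneg (by positivity) (hf b))
      _ ≤ _ := by
          rw [← Finset.mul_sum]
          exact mul_le_mul_of_nonneg_left (hF B hB0 hB) (by positivity)
  have base : ∀ B, B' ≤ B → B ≤ B0 → B ≤ 4 * B' →
      ∑ b ∈ SQ B \ SQ B', (Real.sqrt (N b))⁻¹ * f b ≤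
        3 * α / Real.sqrt B' - 2 * α / Real.sqrt B + 4 * β * Real.sqrt B := by
    intro B h1 h2 h3
    refine (block B' B hB' (by linarith) h2).trans ?_
    have hB : 0 < B := by linarith
    have hs := Real.sqrt_pos.2 hB
    have a1 : Real.sqrt B' ≤ Real.sqrt B := Real.sqrt_le_sqrt h1
    have a2 : Real.sqrt B ≤ 2 * Real.sqrt B' := by
      rw [show 2 * Real.sqrt B' = Real.sqrt (4 * B') by
        rw [Real.sqrt_mul (by norm_num), show (4 : ℝ) = 2 ^ 2 by norm_num, Real.sqrt_sq (by norm_num)]]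
      exact Real.sqrt_le_sqrt h3
    have a3 := Real.mul_self_sqrt hB.le
    have a4 : α / Real.sqrt B ≤ α / Real.sqrt B' := div_le_div_of_nonneg_left hα hs' a1
    have a5 : (Real.sqrt B')⁻¹ * B ≤ 2 * Real.sqrt B := by
      rw [inv_mul_le_iff₀ hs']; nlinarith
    have a6 : (Real.sqrt B')⁻¹ * (α + β * B) = α / Real.sqrt B' + β * ((Real.sqrt B')⁻¹ * B) := by
      ring
    rw [a6, mul_div_assoc, mul_div_assoc]
    nlinarith [mul_le_mul_of_nonneg_left a5 hβ, mul_nonneg hβ hs.le]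
  induction J with
  | zero => intro B h1 h2 h3; exact base B h1 h2 (by simpa using h3)
  | succ J ih =>
    intro B h1 h2 h3
    by_cases h4 : B ≤ 4 * B'
    · exact base B h1 h2 h4
    · have hB : 0 < B := by linarith
      have hs := Real.sqrt_pos.2 hB
      have i1 := ih (B / 4) (by linarith) (by linarith) (by rw [pow_succ] at h3; linarith)
      have i2 := block (B / 4) B (by linarith) hB.le h2
      have a1 : Real.sqrt (B / 4) = Real.sqrt B / 2 := by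
        rw [Real.sqrt_div hB.le, show (4 : ℝ) = 2 ^ 2 by norm_num, Real.sqrt_sq (by norm_num)]
      have hsub : SQ B \ SQ B' = (SQ B \ SQ (B / 4)) ∪ (SQ (B / 4) \ SQ B') :=
        (Finset.sdiff_union_sdiff_cancel (SQ_mono (by linarith)) (SQ_mono (by linarith))).symm
      have i3 := Finset.sum_union_inter (s₁ := SQ B \ SQ (B / 4)) (s₂ := SQ (B / 4) \ SQ B')
        (f := fun b => (Real.sqrt (N b))⁻¹ * f b)
      have i4 : 0 ≤ ∑ b ∈ (SQ B \ SQ (B / 4)) ∩ (SQ (B / 4) \ SQ B'),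
          (Real.sqrt (N b))⁻¹ * f b :=
        Finset.sum_nonneg (fun b _ => mul_nonneg (by positivity) (hf b))
      rw [hsub]
      rw [a1] at i1 i2
      have a3 := Real.mul_self_sqrt hB.le
      have a5 : (Real.sqrt B / 2)⁻¹ * (α + β * B) = 2 * α / Real.sqrt B + 2 * β * Real.sqrt B := by
        field_simp
        rw [Real.sq_sqrt hB.le, mul_comm β]
      have a6 : 2 * α / (Real.sqrt B / 2) = 2 * (2 * α / Real.sqrt B) := by field_simp
      rw [a5] at i2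
      rw [a6] at i1
      linarith

theorem wb_sqrt {U : Finset O} {α β B' B0 : ℝ} (hα : 0 ≤ α) (hβ : 0 ≤ β) (hB' : 0 < B')
    (hB : B' ≤ B0) (h : ∀ t, 0 ≤ t → t ≤ B0 → Bd (SQ t) U qk (α + β * t)) :
    WB (SQ B0 \ SQ B') (fun b => (Real.sqrt (N b))⁻¹) U qk
      (3 * α / Real.sqrt B' + 4 * β * Real.sqrt B0) := by
  intro a
  obtain ⟨J, hJ⟩ := pow_unbounded_of_one_lt (B0 / B') (show (1 : ℝ) < 4 by norm_num)
  have hS := sumsq_nonneg U a
  set S := ∑ n ∈ U, ‖a n‖ ^ 2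
  have := dyadic_weight (fun b => ‖∑ n ∈ U, a n * qk b n‖ ^ 2) (fun b => by positivity)
    (α := α * S) (β := β * S) (B0 := B0) (by positivity) (by positivity) hB'
    (fun t h0 ht => (h t h0 ht a).trans (le_of_eq (by ring))) J B0 hB le_rfl (by
      rw [div_lt_iff₀ hB'] at hJ
      rw [pow_succ]
      have : 0 < 4 ^ J * B' := by positivity
      linarith)
  refine this.trans ?_
  have : 0 ≤ 2 * (α * S) / Real.sqrt B0 := by positivity
  have e : (3 * α / Real.sqrt B' + 4 * β * Real.sqrt B0) * S =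
      3 * (α * S) / Real.sqrt B' + 4 * (β * S) * Real.sqrt B0 := by ring
  linarith

end Crest.Agent.R17.QL
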