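import Crest.Agent.R17.QLS_Bil

/-!
# R17 / QLS_Core : the estimate for one gcd
-/

set_option autoImplicit false

noncomputable section

open scoped Classical ComplexConjugate
open MeasureTheory

namespace Crest.Agent.R17.QL

/-- the parameters of the main step -/
structure Par (σ T M B0 X Y D τ : ℝ) (U : Finset O) : Prop where
  hσ : 0 < σ
  hσ2 : σ < 1 / 2
  hM : 1 ≤ M
  hMT : M ≤ T
  hY : 1 ≤ Y
  hD : 1 ≤ D
  hτ : 1 ≤ τ
  hX : 0 < X
  h1 : T ^ σ * X ^ 2 ≤ M * B0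
  h2 : Y ^ 2 * B0 ≤ M
  h3 : Y * X ≤ M
  hU : U ⊆ PS X
  hlow : ∀ n ∈ U, X / 2 < N n
  hdiv : ∀ n ∈ U, ((pdiv n).card : ℝ) ≤ τ
  IH : ∀ t, 0 ≤ t → t ≤ B0 → HH t X (D * (X + Y * t))

variable {σ T M B0 X Y D τ : ℝ} {U : Finset O}

theorem Par.one_le_E (h : Par σ T M B0 X Y D τ U) : 1 ≤ T ^ σ :=
  Real.one_le_rpow (h.hM.trans h.hMT) h.hσ.le

theorem Par.B'_le (h : Par σ T M B0 X Y D τ U) : X ^ 2 / M ≤ B0 := by
  have := h.one_le_E
  have := h.hM
  have := h.h1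
  rw [div_le_iff₀ (by linarith)]
  nlinarith [sq_nonneg X]

theorem Par.B0_pos (h : Par σ T M B0 X Y D τ U) : 0 < B0 := by
  have := h.hX
  have := h.hM
  exact lt_of_lt_of_le (by positivity) h.B'_le

theorem Par.XM (h : Par σ T M B0 X Y D τ U) : X ≤ M := by
  have := h.hX; have := h.hY; have := h.h3; nlinarith

theorem Par.YB0 (h : Par σ T M B0 X Y D τ U) : Y * B0 ≤ M := by
  have := h.B0_pos; have := h.hY; have := h.h2
  nlinarith [mul_nonneg (mul_nonneg (show 0 ≤ Y by linarith) (show 0 ≤ Y - 1 by linarith))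
    h.B0_pos.le]

theorem Par.B0M (h : Par σ T M B0 X Y D τ U) : B0 ≤ M := by
  have := h.B0_pos; have := h.hY; have := h.YB0; nlinarith

theorem Par.prim (h : Par σ T M B0 X Y D τ U) : ∀ n ∈ U, Prim n :=
  fun _ hn => (mem_PS.1 (h.hU hn)).2.1

theorem Par.bd (h : Par σ T M B0 X Y D τ U) {t : ℝ} (h0 : 0 ≤ t) (ht : t ≤ B0) :
    Bd (SQ t) U qk (D * (X + Y * t)) := Bd.mono_cols (h.IH t h0 ht) h.hU

theorem err1 (h : Par σ T M B0 X Y D τ U) {w : ℝ → ℂ} (hw : Integrable w) (α : O → ℂ) :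
    M * ‖CF U α (fun k1 k2 => ∑ b ∈ SQ (X ^ 2 / M), qua (k1 * k2) b *
      (((Real.sqrt (N (k1 * k2)))⁻¹ : ℝ) * Ierr w σ (k1 * k2) (N (k1 * k2) / M / N b)))‖ ≤
      (∫ t, ‖w t‖) * (4 * τ ^ 3 * (T ^ σ) ^ 2 * D * M * ∑ n ∈ U, ‖α n‖ ^ 2) := by
  have hM := h.hM; have hX := h.hX; have hY := h.hY; have hD := h.hD; have hτ := h.hτ
  have hE := h.one_le_E
  have hb := (h.bd (t := X ^ 2 / M) (by positivity) h.B'_le).wb (W := 1)
    (ω := fun b => (M⁻¹ / N b) ^ σ) zero_le_one (fun b hb => by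
      have := one_le_N (mem_SQ.1 hb).2.ne_zero
      refine Real.rpow_le_one (by positivity) ?_ h.hσ.le
      rw [div_le_one (by positivity)]
      exact (inv_le_one_of_one_le₀ hM).trans this)
  have := err_bound hw h.hσ.le (lm := M⁻¹) (by positivity) h.prim
    (fun b hb => (mem_SQ.1 hb).2.ne_zero) h.hdiv (by positivity) (by positivity)
    (fun n => (Real.sqrt (N n))⁻¹) N (fun n _ => by positivity)
    (fun n hn => N_pos (h.prim n hn).ne_zero) (V := (Real.sqrt (X / 2))⁻¹ * T ^ σ)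
    (fun n hn => mul_le_mul (inv_anti₀ (by positivity) (Real.sqrt_le_sqrt (h.hlow n hn).le))
      (Real.rpow_le_rpow (N_nonneg n) ((mem_PS.1 (h.hU hn)).1.trans (h.XM.trans h.hMT)) h.hσ.le)
      (by have := N_nonneg n; positivity) (by positivity)) hb α
  rw [CF_congr α (G' := fun k1 k2 => ∑ b ∈ SQ (X ^ 2 / M), qua (k1 * k2) b *
      ((((Real.sqrt (N k1))⁻¹ * (Real.sqrt (N k2))⁻¹ : ℝ) : ℂ) *
        Ierr w σ (k1 * k2) (M⁻¹ * (N k1 * N k2) / N b))) (fun k1 _ k2 _ _ => by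
    refine Finset.sum_congr rfl (fun b _ => ?_)
    rw [N_mul, Real.sqrt_mul (N_nonneg _), mul_inv, div_eq_inv_mul (N k1 * N k2) M])]
  refine (mul_le_mul_of_nonneg_left this (by positivity)).trans ?_
  have hI : 0 ≤ ∫ t, ‖w t‖ := integral_nonneg (fun _ => norm_nonneg _)
  have hS := sumsq_nonneg U α
  rw [mul_left_comm]
  refine mul_le_mul_of_nonneg_left ?_ hI
  rw [← mul_assoc]
  refine mul_le_mul_of_nonneg_right ?_ hS
  have e : M * (1 * (D * (X + Y * (X ^ 2 / M))) * τ ^ 3 * ((Real.sqrt (X / 2))⁻¹ * T ^ σ) ^ 2) =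
      2 * τ ^ 3 * (T ^ σ) ^ 2 * D * (M + Y * X) := by
    rw [mul_pow, inv_pow, Real.sq_sqrt (by positivity)]
    field_simp
  rw [e]
  have := h.h3
  have : 0 ≤ 2 * τ ^ 3 * (T ^ σ) ^ 2 * D := by positivity
  nlinarith

theorem err2 (h : Par σ T M B0 X Y D τ U) {w : ℝ → ℂ} (hw : Integrable w) (α : O → ℂ) :
    M * ‖CF U α (fun k1 k2 => ∑ b ∈ SQ B0 \ SQ (X ^ 2 / M), qua (k1 * k2) b *
      (((Real.sqrt (N (k1 * k2)))⁻¹ : ℝ) *
        Ierr w (1 / 2 - σ) (k1 * k2) (N (k1 * k2) / M / N b)))‖ ≤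
      (∫ t, ‖w t‖) * (7 * τ ^ 3 * (T ^ σ) ^ 2 * D * M * ∑ n ∈ U, ‖α n‖ ^ 2) := by
  have hM := h.hM; have hX := h.hX; have hY := h.hY; have hD := h.hD; have hτ := h.hτ
  have hE := h.one_le_E; have hB0 := h.B0_pos; have hσ2 := h.hσ2
  have hsM := Real.sqrt_pos.2 (show 0 < M by linarith)
  have hb0 := wb_sqrt (U := U) (α := D * X) (β := D * Y) (B' := X ^ 2 / M) (B0 := B0)
    (by positivity) (by positivity) (by positivity) h.B'_le
    (fun t h0 ht => (h.bd h0 ht).mono_D (le_of_eq (by ring)))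
  have hb := hb0.mono_w (W := (T ^ σ) ^ 2 * (Real.sqrt M)⁻¹)
    (ω' := fun b => (M⁻¹ / N b) ^ (1 / 2 - σ)) (by positivity) (fun b hb => by
      have hb' := mem_SQ.1 (Finset.mem_sdiff.1 hb).1
      have hN := N_pos hb'.2.ne_zero
      have e1 : (M⁻¹ / N b) ^ (1 / 2 - σ) =
          M ^ σ * N b ^ σ * ((Real.sqrt M)⁻¹ * (Real.sqrt (N b))⁻¹) := by
        rw [Real.rpow_sub (by positivity), ← Real.sqrt_eq_rpow, Real.sqrt_div (by positivity),
          Real.sqrt_inv, Real.div_rpow (by positivity) hN.le, Real.inv_rpow (by positivity)]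
        field_simp
      have a1 : M ^ σ ≤ T ^ σ := Real.rpow_le_rpow (by positivity) h.hMT h.hσ.le
      have a2 : N b ^ σ ≤ T ^ σ :=
        Real.rpow_le_rpow hN.le (hb'.1.trans (h.B0M.trans h.hMT)) h.hσ.le
      rw [e1, mul_assoc ((T ^ σ) ^ 2), pow_two]
      exact mul_le_mul_of_nonneg_right (mul_le_mul a1 a2 (by positivity) (by positivity))
        (by positivity))
  have := err_bound hw (σ := 1 / 2 - σ) (by linarith) (lm := M⁻¹) (by positivity) h.prim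
    (fun b hb => (mem_SQ.1 (Finset.mem_sdiff.1 hb).1).2.ne_zero) h.hdiv (by positivity)
    (by positivity) (fun n => (Real.sqrt (N n))⁻¹) N (fun n _ => by positivity)
    (fun n hn => N_pos (h.prim n hn).ne_zero) (V := 1)
    (fun n hn => by
      have h1 := one_le_N (h.prim n hn).ne_zero
      have h2 : N n ^ (1 / 2 - σ) ≤ Real.sqrt (N n) := by
        rw [Real.sqrt_eq_rpow]
        exact Real.rpow_le_rpow_of_exponent_le h1 (by linarith [h.hσ])
      rw [inv_mul_le_iff₀ (by positivity)]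
      linarith) hb α
  rw [CF_congr α (G' := fun k1 k2 => ∑ b ∈ SQ B0 \ SQ (X ^ 2 / M), qua (k1 * k2) b *
      ((((Real.sqrt (N k1))⁻¹ * (Real.sqrt (N k2))⁻¹ : ℝ) : ℂ) *
        Ierr w (1 / 2 - σ) (k1 * k2) (M⁻¹ * (N k1 * N k2) / N b))) (fun k1 _ k2 _ _ => by
    refine Finset.sum_congr rfl (fun b _ => ?_)
    rw [N_mul, Real.sqrt_mul (N_nonneg _), mul_inv, div_eq_inv_mul (N k1 * N k2) M])]
  refine (mul_le_mul_of_nonneg_left this (by positivity)).trans ?_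
  have hI : 0 ≤ ∫ t, ‖w t‖ := integral_nonneg (fun _ => norm_nonneg _)
  have hS := sumsq_nonneg U α
  rw [mul_left_comm]
  refine mul_le_mul_of_nonneg_left ?_ hI
  rw [← mul_assoc]
  refine mul_le_mul_of_nonneg_right ?_ hS
  have a1 : Real.sqrt (X ^ 2 / M) = X / Real.sqrt M := by
    rw [Real.sqrt_div (by positivity), Real.sqrt_sq hX.le]
  have a2 : Y * Real.sqrt B0 ≤ Real.sqrt M := by
    rw [← Real.sqrt_sq (show 0 ≤ Y by linarith), ← Real.sqrt_mul (by positivity)]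
    exact Real.sqrt_le_sqrt h.h2
  have a3 := Real.mul_self_sqrt (show 0 ≤ M by linarith)
  rw [a1]
  generalize Real.sqrt M = s at *
  generalize Real.sqrt B0 = r at *
  have e : M * ((T ^ σ) ^ 2 * s⁻¹ * (3 * (D * X) / (X / s) + 4 * (D * Y) * r) * τ ^ 3 * 1 ^ 2) =
      τ ^ 3 * (T ^ σ) ^ 2 * D * (3 * M + 4 * s * (Y * r)) := by
    rw [← a3]; field_simp
  rw [e]
  have : 0 ≤ τ ^ 3 * (T ^ σ) ^ 2 * D := by positivity
  have : s * (Y * r) ≤ M := by nlinarith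
  nlinarith

theorem err3 (h : Par σ T M B0 X Y D τ U) {w : ℝ → ℂ} (hw : Integrable w) (α : O → ℂ) :
    ‖CF U α (fun k1 k2 => ∑ b ∈ SQ B0, qua (k1 * k2) b * Ierr w σ (k1 * k2) (M / N b))‖ ≤
      (∫ t, ‖w t‖) * (2 * τ ^ 3 * (T ^ σ) ^ 2 * D * M * ∑ n ∈ U, ‖α n‖ ^ 2) := by
  have hM := h.hM; have hX := h.hX; have hY := h.hY; have hD := h.hD; have hτ := h.hτ
  have hE := h.one_le_E; have hB0 := h.B0_pos
  have hb := (h.bd hB0.le le_rfl).wb (W := T ^ σ)
    (ω := fun b => (M / N b) ^ σ) (by positivity) (fun b hb => by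
      have := one_le_N (mem_SQ.1 hb).2.ne_zero
      exact Real.rpow_le_rpow (by positivity) ((div_le_self (by positivity) this).trans h.hMT)
        h.hσ.le)
  have := err_bound hw h.hσ.le (lm := M) (by positivity) h.prim
    (fun b hb => (mem_SQ.1 hb).2.ne_zero) h.hdiv (by positivity) (by positivity)
    (fun _ => 1) (fun _ => 1) (fun n _ => by positivity)
    (fun n hn => one_pos) (V := 1) (fun n hn => by simp) hb α
  simp only [mul_one, Complex.ofReal_one, one_mul, one_pow] at this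
  refine this.trans ?_
  have hI : 0 ≤ ∫ t, ‖w t‖ := integral_nonneg (fun _ => norm_nonneg _)
  refine mul_le_mul_of_nonneg_left (mul_le_mul_of_nonneg_right ?_ (sumsq_nonneg U α)) hI
  have := h.XM
  have := h.YB0
  calc T ^ σ * (D * (X + Y * B0)) * τ ^ 3 ≤ (T ^ σ) ^ 2 * (D * (2 * M)) * τ ^ 3 := by
        refine mul_le_mul_of_nonneg_right (mul_le_mul (by nlinarith)
          (mul_le_mul_of_nonneg_left (by linarith) (by positivity)) (by positivity)
          (by positivity)) (by positivity)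
    _ = _ := by ring

theorem err4 {C : ℝ} (hC0 : 0 ≤ C) (hC : ∀ q : O, IsCoprime q 2 → ∀ B X : ℝ, 0 < X →
      ‖RS q B X‖ ≤ C * X * Om (B / (2 * X))) {j : ℕ} (hj : 2 ≤ σ * j)
    (h : Par σ T M B0 X Y D τ U) (α : O → ℂ) :
    ‖CF U α (fun k1 k2 => ((M / Real.sqrt (N (k1 * k2)) : ℝ) : ℂ) *
      RS (k1 * k2) B0 (N (k1 * k2) / M))‖ ≤
      18 * C * j.factorial * 2 ^ j * ∑ n ∈ U, ‖α n‖ ^ 2 := by
  have hM := h.hM; have hX := h.hX; have hE := h.one_le_E
  have hT : 1 ≤ T := h.hM.trans h.hMT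
  have hOm : Om (T ^ σ / 2) ≤ j.factorial * 2 ^ j / T ^ 2 := by
    refine (Om_le_pow j (by positivity)).trans ?_
    have : T ^ 2 ≤ (T ^ σ) ^ j := by
      rw [← Real.rpow_natCast, ← Real.rpow_natCast, ← Real.rpow_mul (by positivity)]
      exact Real.rpow_le_rpow_of_exponent_le hT (by simpa using hj)
    rw [div_pow, inv_div, ← mul_div_assoc]
    exact div_le_div_of_nonneg_left (by positivity) (by positivity) this
  refine (norm_CF_le α (c := C * X * (j.factorial * 2 ^ j / T ^ 2)) (by positivity)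
    (fun k1 h1 k2 h2 _ => ?_)).trans (mul_le_mul_of_nonneg_right ?_ (sumsq_nonneg U α))
  · have p1 := mem_PS.1 (h.hU h1)
    have p2 := mem_PS.1 (h.hU h2)
    have hN : 0 < N (k1 * k2) := N_pos (mul_ne_zero p1.2.1.ne_zero p2.2.1.ne_zero)
    have hN2 : N (k1 * k2) ≤ X ^ 2 := by
      rw [N_mul, pow_two]; exact mul_le_mul p1.1 p2.1 (N_nonneg _) hX.le
    have hs := Real.sqrt_pos.2 hN
    have hs2 : Real.sqrt (N (k1 * k2)) ≤ X := by
      rw [← Real.sqrt_sq hX.le]; exact Real.sqrt_le_sqrt hN2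
    have a1 := hC (k1 * k2) (p1.2.2.2.mul_left p2.2.2.2) B0 (N (k1 * k2) / M) (by positivity)
    have a2 : Om (B0 / (2 * (N (k1 * k2) / M))) ≤ Om (T ^ σ / 2) := by
      apply Om_anti
      rw [div_le_div_iff₀ (by positivity) (by positivity), mul_div_assoc', mul_div_assoc',
        div_le_iff₀ (by positivity)]
      have := h.h1
      nlinarith [mul_le_mul_of_nonneg_left hN2 (show 0 ≤ T ^ σ by positivity)]
    rw [norm_mul, Complex.norm_real, Real.norm_of_nonneg (by positivity)]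
    calc _ ≤ M / Real.sqrt (N (k1 * k2)) * (C * (N (k1 * k2) / M) *
          (j.factorial * 2 ^ j / T ^ 2)) :=
          mul_le_mul_of_nonneg_left (a1.trans (mul_le_mul_of_nonneg_left (a2.trans hOm)
            (by positivity))) (by positivity)
      _ = C * Real.sqrt (N (k1 * k2)) * (j.factorial * 2 ^ j / T ^ 2) := by
          have a3 := Real.mul_self_sqrt hN.le
          generalize Real.sqrt (N (k1 * k2)) = s at *
          rw [← a3]; field_simp
      _ ≤ _ := by gcongr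
  · have a1 : (U.card : ℝ) ≤ 18 * X :=
      le_trans (by exact_mod_cast Finset.card_le_card h.hU) (card_PS_le hX.le)
    have a2 : X ^ 2 / T ^ 2 ≤ 1 := by
      rw [div_le_one (by positivity)]
      exact pow_le_pow_left₀ hX.le (h.XM.trans h.hMT) 2
    calc _ ≤ C * X * (j.factorial * 2 ^ j / T ^ 2) * (18 * X) := by gcongr
      _ = 18 * C * j.factorial * 2 ^ j * (X ^ 2 / T ^ 2) := by ring
      _ ≤ _ := mul_le_of_le_one_right (by positivity) a2

/-- the estimate for one gcd -/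
theorem core {σ : ℝ} (hσ : 0 < σ) (hσ2 : σ < 1 / 2) : ∃ C : ℝ, 0 ≤ C ∧
    ∀ (T M B0 X Y D τ : ℝ) (U : Finset O), Par σ T M B0 X Y D τ U →
      (∀ k1 ∈ U, ∀ k2 ∈ U, gam (k1 * k2) = 1) → ∀ α : O → ℂ,
      ‖CF U α (fun k1 k2 => RS (k1 * k2) B0 M)‖ ≤
        C * τ ^ 3 * (T ^ σ) ^ 2 * D * M * ∑ n ∈ U, ‖α n‖ ^ 2 := by
  obtain ⟨c, hc⟩ := sep
  obtain ⟨w1, hw1⟩ := hc σ hσ hσ2
  obtain ⟨w2, hw2⟩ := hc (1 / 2 - σ) (by linarith) (by linarith)
  obtain ⟨C, hC0, hC⟩ := norm_RS_le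
  obtain ⟨j, hj⟩ := exists_nat_ge (2 / σ)
  have hj' : 2 ≤ σ * j := by rw [div_le_iff₀ hσ] at hj; linarith
  have hI1 : 0 ≤ ∫ t, ‖w1 t‖ := integral_nonneg (fun _ => norm_nonneg _)
  have hI2 : 0 ≤ ∫ t, ‖w2 t‖ := integral_nonneg (fun _ => norm_nonneg _)
  refine ⟨36 * C + (∫ t, ‖w1 t‖) + 2 * (∫ t, ‖w2 t‖) + 18 * C * j.factorial * 2 ^ j,
    by positivity, fun T M B0 X Y D τ U h hg α => ?_⟩
  have hM := h.hM; have hX := h.hX; have hD := h.hD; have hτ := h.hτ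
  have hE := h.one_le_E
  have hS := sumsq_nonneg U α
  have hodd : ∀ k ∈ U, IsCoprime k 2 := fun k hk => (mem_PS.1 (h.hU hk)).2.2.2
  have hP : 1 ≤ τ ^ 3 * (T ^ σ) ^ 2 * D :=
    one_le_mul_of_one_le_of_one_le (one_le_mul_of_one_le_of_one_le (one_le_pow₀ hτ)
      (one_le_pow₀ hE)) hD
  set S := ∑ n ∈ U, ‖α n‖ ^ 2 with hSdef
  set Q := τ ^ 3 * (T ^ σ) ^ 2 * D * M * S with hQ
  have hQ1 : M * S ≤ Q := by
    have : 0 ≤ M * S := by positivity
    calc M * S = 1 * (M * S) := by ring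
      _ ≤ (τ ^ 3 * (T ^ σ) ^ 2 * D) * (M * S) := mul_le_mul_of_nonneg_right hP this
      _ = Q := by ring
  have hQ2 : S ≤ Q := le_trans (by nlinarith) hQ1
  have hQ0 : 0 ≤ Q := hS.trans hQ2
  have goal : ∀ x : ℝ, x ≤ (36 * C + (∫ t, ‖w1 t‖) + 2 * (∫ t, ‖w2 t‖) +
      18 * C * j.factorial * 2 ^ j) * Q → x ≤ (36 * C + (∫ t, ‖w1 t‖) + 2 * (∫ t, ‖w2 t‖) +
      18 * C * j.factorial * 2 ^ j) * τ ^ 3 * (T ^ σ) ^ 2 * D * M * S :=
    fun x hx => hx.trans (le_of_eq (by rw [hQ]; ring))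
  apply goal
  have hF : 0 ≤ 18 * C * j.factorial * 2 ^ j := by positivity
  by_cases hX2 : X < 2
  · have a1 : (U.card : ℝ) ≤ 18 * X :=
      le_trans (by exact_mod_cast Finset.card_le_card h.hU) (card_PS_le hX.le)
    refine (norm_CF_le α (c := C * M) (by positivity) (fun k1 h1 k2 h2 _ =>
      (hC _ ((hodd k1 h1).mul_left (hodd k2 h2)) B0 M (by linarith)).1)).trans ?_
    calc C * M * U.card * S ≤ C * M * 36 * S := by gcongr; linarith
      _ = 36 * C * (M * S) := by ring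
      _ ≤ 36 * C * Q := by gcongr
      _ ≤ _ := by
          refine mul_le_mul_of_nonneg_right ?_ hQ0
          linarith
  · have hid := CF_congr α (U := U) (G := fun k1 k2 => 6 * RS (k1 * k2) B0 M)
      (fun k1 h1 k2 h2 hc => by
        have p1 := mem_PS.1 (h.hU h1)
        have p2 := mem_PS.1 (h.hU h2)
        refine RS_identity (c := c) hw1 hw2 (p1.2.1.mul p2.2.1) (p1.2.2.2.mul_left p2.2.2.2)
          (squarefree_mul_iff.2 ⟨hc.isRelPrime, p1.2.2.1, p2.2.2.1⟩) ?_ (hg k1 h1 k2 h2) h.B'_le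
          (by linarith)
        intro h1'
        have := N_unit (IsUnit.of_mul_eq_one _ h1')
        have := h.hlow k1 h1
        linarith)
    rw [CF_mul, CF_comb] at hid
    have b1 := err1 h hw1.1 α
    have b2 := err2 h hw2.1 α
    have b3 := err3 h hw1.1 α
    have b4 := err4 hC0 (fun q hq B X hX => (hC q hq B X hX).2) hj' h α
    have b5 := congrArg norm hid
    rw [norm_mul, show ‖(6 : ℂ)‖ = 6 by simp] at b5
    have b6 : ∀ x y z v : ℂ, ‖(M : ℂ) * x + M * y - z + 6 * v‖ ≤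
        M * ‖x‖ + M * ‖y‖ + ‖z‖ + 6 * ‖v‖ := by
      intro x y z v
      refine (norm_add_le _ _).trans (add_le_add ((norm_sub_le _ _).trans
        (add_le_add ((norm_add_le _ _).trans (le_of_eq ?_)) le_rfl)) (le_of_eq (by simp)))
      rw [norm_mul, norm_mul, Complex.norm_real, Real.norm_of_nonneg (by linarith)]
    have b7 := b5.le.trans (b6 _ _ _ _)
    have e1 : ∀ k : ℝ, k * τ ^ 3 * (T ^ σ) ^ 2 * D * M * S = k * Q := fun k => by rw [hQ]; ring
    rw [← hSdef, e1] at b1 b2 b3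
    rw [← hSdef] at b4
    have b8 := mul_le_mul_of_nonneg_left hQ2 hF
    nlinarith [mul_nonneg hI1 hQ0, mul_nonneg hI2 hQ0, mul_nonneg hC0 hQ0]

end Crest.Agent.R17.QL
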