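import Crest.Agent.R17.QLS_Sep

/-!
# R17 / QLS_Id : Poisson summation and cancellation of the main terms
-/

set_option autoImplicit false

noncomputable section

open scoped Classical ComplexConjugate
open MeasureTheory

namespace Crest.Agent.R17.QL

/-- the part of the character sum with small squarefree kernel -/
def KS (q : O) (B X : ℝ) : ℂ := ∑' m, if Ker B m then qua q m * (Om (N m / X) : ℂ) else 0

/-- the part of the character sum with large squarefree kernel -/
def RS (q : O) (B X : ℝ) : ℂ :=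
  ∑' m, if m ≠ 0 ∧ ¬ Ker B m then qua q m * (Om (N m / X) : ℂ) else 0

theorem norm_quaOm_le {q : O} (hq : IsCoprime q 2) (m : O) (x : ℝ) :
    ‖qua q m * (Om x : ℂ)‖ ≤ Om x := by
  rw [norm_mul, Complex.norm_real, Real.norm_of_nonneg (Om_pos _).le]
  exact mul_le_of_le_one_left (Om_pos _).le (norm_qua_le hq m)

theorem summable_ite {q : O} (hq : IsCoprime q 2) (P : O → Prop) [DecidablePred P] {X : ℝ} (hX : 0 < X) :
    Summable (fun m => if P m then qua q m * (Om (N m / X) : ℂ) else 0) := by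
  refine Summable.of_norm_bounded (summable_Om0 hX) (fun m => ?_)
  split_ifs
  · exact norm_quaOm_le hq _ _
  · simpa using (Om_pos _).le

theorem KS_eq {q : O} (hq : IsCoprime q 2) (B : ℝ) {X : ℝ} (hX : 0 < X) :
    6 * KS q B X = ∑ b ∈ SQ B, qua q b * Tq q (X / N b) := by
  unfold KS
  have e : ∀ b ∈ SQ B, ∀ x : O, N (b * x ^ 2) / X = N x ^ 2 / (X / N b) := by
    intro b hb x
    have := N_pos (mem_SQ.1 hb).2.ne_zero
    rw [N_mul, N_pow]; field_simp
  rw [tsum_ker B (fun m => qua q m * (Om (N m / X) : ℂ))]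
  · refine Finset.sum_congr rfl (fun b hb => ?_)
    unfold Tq
    rw [← tsum_mul_left]
    refine tsum_congr (fun x => ?_)
    rw [e b hb, qua_mul hq, pow_two x, qua_mul hq, ← pow_two, qua_sq hq]
    by_cases hx : x = 0 <;> by_cases hc : IsCoprime x q <;> simp [hx, hc]
  · intro b hb
    have := N_pos (mem_SQ.1 hb).2.ne_zero
    refine Summable.of_norm_bounded (summable_Om_sq (X := X / N b) (by positivity)) (fun x => ?_)
    rw [e b hb]
    exact norm_quaOm_le hq _ _

theorem FS_split {q : O} (hq : IsCoprime q 2) (hu : ¬ IsUnit q) (B : ℝ) {X : ℝ} (hX : 0 < X) :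
    ∑' m, qua q m * (Om (N m / X) : ℂ) = KS q B X + RS q B X := by
  unfold KS RS
  rw [← Summable.tsum_add (summable_ite hq _ hX) (summable_ite hq _ hX)]
  refine tsum_congr (fun m => ?_)
  by_cases hm : m = 0
  · subst hm
    have : qua q 0 = 0 := ((qua_isChar hq).zero_iff 0).2 (by rwa [isCoprime_zero_left])
    simp [this]
  · by_cases hk : Ker B m <;> simp [hm, hk]

theorem norm_RS_le : ∃ C : ℝ, 0 ≤ C ∧ ∀ q : O, IsCoprime q 2 → ∀ B X : ℝ, 0 < X →
    ‖RS q B X‖ ≤ C * X ∧ ‖RS q B X‖ ≤ C * X * Om (B / (2 * X)) := by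
  obtain ⟨C, hC⟩ := tsum_Om_le
  have hs : ∀ X : ℝ, 0 < X → Summable (fun k : O => if k = 0 then 0 else Om (N k / X)) := by
    intro X hX
    refine Summable.of_nonneg_of_le (fun k => ?_) (fun k => ?_) (summable_Om0 hX)
    · split_ifs; exacts [le_rfl, (Om_pos _).le]
    · split_ifs; exacts [(Om_pos _).le, le_rfl]
  have hC0 : 0 ≤ C := by
    have h1 := hC 1 one_pos
    have h2 : 0 ≤ ∑' k : O, (if k = 0 then 0 else Om (N k / 1)) :=
      tsum_nonneg (fun k => by split_ifs; exacts [le_rfl, (Om_pos _).le])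
    linarith
  refine ⟨2 * C, by positivity, fun q hq B X hX => ⟨?_, ?_⟩⟩
  · calc ‖RS q B X‖ ≤ ∑' k : O, (if k = 0 then 0 else Om (N k / X)) := by
          refine tsum_of_norm_bounded (hs X hX).hasSum (fun m => ?_)
          by_cases hm : m = 0
          · simp [hm]
          · simp only [hm, if_false]
            split_ifs
            · exact norm_quaOm_le hq _ _
            · simpa using (Om_pos _).le
      _ ≤ C * X := hC X hX
      _ ≤ _ := by nlinarith
  · calc ‖RS q B X‖
        ≤ (∑' k : O, (if k = 0 then 0 else Om (N k / (2 * X)))) * Om (B / (2 * X)) := by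
          refine tsum_of_norm_bounded ((hs (2 * X) (by positivity)).hasSum.mul_right _)
            (fun m => ?_)
          by_cases hm : m = 0
          · simp [hm]
          · simp only [hm, if_false]
            split_ifs with h
            · refine (norm_quaOm_le hq _ _).trans ?_
              have hB : B < N m := by
                by_contra hc
                exact h.2 (ker_of_le hm (not_lt.1 hc))
              rw [← Om_add]
              apply Om_anti
              rw [← add_div, div_le_div_iff₀ (by positivity) hX]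
              nlinarith
            · simpa using mul_nonneg (Om_pos _).le (Om_pos _).le
      _ ≤ C * (2 * X) * Om (B / (2 * X)) :=
          mul_le_mul_of_nonneg_right (hC _ (by positivity)) (Om_pos _).le
      _ = _ := by ring

theorem RS_poisson {q : O} (hq : IsCoprime q 2) (hs : Squarefree q) (hu : ¬ IsUnit q)
    (hg : gam q = 1) (B : ℝ) {M : ℝ} (hM : 0 < M) :
    RS q B M = ((M / Real.sqrt (N q) : ℝ) : ℂ) * (KS q B (N q / M) + RS q B (N q / M)) -
      KS q B M := by
  have hN := N_pos hs.ne_zero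
  rw [← FS_split hq hu B (by positivity), eq_sub_iff_add_eq', ← FS_split hq hu B hM,
    poisson_per hs.ne_zero (qua_isChar hq).per hM, ← tsum_mul_left, ← tsum_mul_left]
  refine tsum_congr (fun d => ?_)
  rw [gs_qua hq hs, hg]
  have e1 : M * N d / N q = N d / (N q / M) := by field_simp
  have e2 : M / N q * Real.sqrt (N q) = M / Real.sqrt (N q) := by
    have := Real.sqrt_pos.2 hN
    field_simp
    rw [Real.sq_sqrt hN.le]
  rw [e1, ← e2]
  push_cast
  ring

/-- the separation property -/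
def SepP (c : ℂ) (σ : ℝ) (w : ℝ → ℂ) : Prop :=
  Integrable w ∧ ∀ q, Prim q → ∀ Υ : ℝ, 0 < Υ →
    Tq q Υ = c * (Real.sqrt Υ : ℂ) * PP q (1 / 2) + Ierr w σ q Υ

/-- the basic identity -/
theorem RS_identity {c : ℂ} {σ1 σ2 : ℝ} {w1 w2 : ℝ → ℂ} (h1 : SepP c σ1 w1) (h2 : SepP c σ2 w2)
    {q : O} (hp : Prim q) (hq : IsCoprime q 2) (hs : Squarefree q) (hu : q ≠ 1)
    (hg : gam q = 1) {B B' : ℝ} (hB : B' ≤ B) {M : ℝ} (hM : 0 < M) :
    6 * RS q B M =
      M * ∑ b ∈ SQ B', qua q b * (((Real.sqrt (N q))⁻¹ : ℝ) * Ierr w1 σ1 q (N q / M / N b)) +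
      M * ∑ b ∈ SQ B \ SQ B', qua q b *
        (((Real.sqrt (N q))⁻¹ : ℝ) * Ierr w2 σ2 q (N q / M / N b)) -
      ∑ b ∈ SQ B, qua q b * Ierr w1 σ1 q (M / N b) +
      6 * (((M / Real.sqrt (N q) : ℝ) : ℂ) * RS q B (N q / M)) := by
  have hN := N_pos hs.ne_zero
  have hsq := Real.sqrt_pos.2 hN
  have hu' : ¬ IsUnit q := fun h => hu (hp.eq_one_of_isUnit h)
  have e0 : 6 * RS q B M = ((M / Real.sqrt (N q) : ℝ) : ℂ) * (6 * KS q B (N q / M)) -
      6 * KS q B M + 6 * (((M / Real.sqrt (N q) : ℝ) : ℂ) * RS q B (N q / M)) := by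
    rw [RS_poisson hq hs hu' hg B hM]; ring
  rw [e0, KS_eq hq B (by positivity), KS_eq hq B hM]
  congr 1
  have hmain : ∀ b ∈ SQ B, ((M / Real.sqrt (N q) : ℝ) : ℂ) * (Real.sqrt (N q / M / N b) : ℝ) =
      (Real.sqrt (M / N b) : ℝ) := by
    intro b hb
    have hb0 := N_pos (mem_SQ.1 hb).2.ne_zero
    rw [← Complex.ofReal_mul]
    congr 1
    symm
    rw [Real.sqrt_eq_iff_mul_self_eq (by positivity) (by positivity)]
    have a1 := Real.mul_self_sqrt hN.le
    have a2 := Real.mul_self_sqrt (show 0 ≤ N q / M / N b by positivity)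
    symm
    calc _ = M * M / (Real.sqrt (N q) * Real.sqrt (N q)) *
          (Real.sqrt (N q / M / N b) * Real.sqrt (N q / M / N b)) := by
          generalize Real.sqrt (N q / M / N b) = u
          generalize Real.sqrt (N q) = v
          ring
      _ = _ := by rw [a1, a2]; field_simp
  have hterm : ∀ {σ : ℝ} {w : ℝ → ℂ}, SepP c σ w → ∀ b ∈ SQ B,
      ((M / Real.sqrt (N q) : ℝ) : ℂ) * (qua q b * Tq q (N q / M / N b)) -
        qua q b * Tq q (M / N b) =
      M * (qua q b * (((Real.sqrt (N q))⁻¹ : ℝ) * Ierr w σ q (N q / M / N b))) -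
        qua q b * Ierr w1 σ1 q (M / N b) := by
    intro σ w h b hb
    have hb0 := N_pos (mem_SQ.1 hb).2.ne_zero
    rw [h.2 q hp _ (by positivity), h1.2 q hp (M / N b) (by positivity), ← hmain b hb]
    push_cast
    ring
  rw [Finset.mul_sum, ← Finset.sum_sub_distrib, Finset.mul_sum, Finset.mul_sum,
    ← Finset.sum_sdiff (SQ_mono hB), ← Finset.sum_sdiff (SQ_mono hB)
      (f := fun b => qua q b * Ierr w1 σ1 q (M / N b)),
    Finset.sum_congr rfl (fun b hb => hterm h2 b (Finset.mem_sdiff.1 hb).1),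
    Finset.sum_congr rfl (fun b hb => hterm h1 b (SQ_mono hB hb)),
    Finset.sum_sub_distrib, Finset.sum_sub_distrib]
  ring

end Crest.Agent.R17.QL
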