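import Crest.Agent.R17.QLS_Defs

/-!
# R17 / QLS_Ker : elements with small squarefree kernel
-/

set_option autoImplicit false

noncomputable section

open scoped Classical ComplexConjugate

namespace Crest.Agent.R17.QL

/-- `m = b x²` with `b` squarefree of norm `≤ B`, `x ≠ 0` -/
def Ker (B : ℝ) (m : O) : Prop := ∃ b ∈ SQ B, ∃ x : O, x ≠ 0 ∧ m = b * x ^ 2

theorem Ker.ne_zero {B : ℝ} {m : O} (h : Ker B m) : m ≠ 0 := by
  obtain ⟨b, hb, x, hx, rfl⟩ := h
  exact mul_ne_zero (mem_SQ.1 hb).2.ne_zero (pow_ne_zero _ hx)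

theorem exists_sq_mul_squarefree {m : O} (hm : m ≠ 0) :
    ∃ b x : O, x ^ 2 * b = m ∧ Squarefree b := by
  induction h : nm m using Nat.strong_induction_on generalizing m with
  | _ k ih =>
    by_cases hs : Squarefree m
    · exact ⟨m, 1, by simp, hs⟩
    · unfold Squarefree at hs
      push Not at hs
      obtain ⟨x, ⟨m', rfl⟩, hx⟩ := hs
      have hm' : m' ≠ 0 := by rintro rfl; simp at hm
      have hx0 : x ≠ 0 := by rintro rfl; simp at hm
      have h1 : nm x ≠ 1 := fun h => hx (isUnit_iff_nm.2 h)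
      have h2 := nm_pos hx0
      have h3 := nm_pos hm'
      obtain ⟨b, y, hb, hb'⟩ := ih (nm m') (by
        rw [← h, nm_mul, nm_mul]
        have : 2 ≤ nm x := by omega
        nlinarith [Nat.mul_le_mul this this]) hm' rfl
      exact ⟨b, x * y, by rw [← hb]; ring, hb'⟩

theorem ker_of_le {B : ℝ} {m : O} (hm : m ≠ 0) (h : N m ≤ B) : Ker B m := by
  obtain ⟨b, x, hbx, hb⟩ := exists_sq_mul_squarefree hm
  have hx : x ≠ 0 := by rintro rfl; apply hm; rw [← hbx]; simp
  refine ⟨b, mem_SQ.2 ⟨?_, hb⟩, x, hx, by rw [← hbx]; ring⟩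
  exact (N_le_of_dvd hm ⟨x ^ 2, by rw [← hbx]; ring⟩).trans h

theorem not_ker {B : ℝ} {m : O} (hm : Squarefree m) (h : B < N m) : ¬ Ker B m := by
  rintro ⟨b, hb, x, hx, rfl⟩
  have hu : IsUnit x := hm x ⟨b, by ring⟩
  have : N x = 1 := by unfold N; rw [isUnit_iff_nm.1 hu]; simp
  rw [N_mul, N_pow, this] at h
  have := (mem_SQ.1 hb).1
  linarith

theorem N_unit {u : O} (hu : IsUnit u) : N u = 1 := by
  unfold N; rw [isUnit_iff_nm.1 hu]; simp

theorem sq_dvd_of_eq {b b' x x' : O} (hb' : Squarefree b') (hx' : x' ≠ 0)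
    (h : b * x ^ 2 = b' * x' ^ 2) : x ∣ x' := by
  obtain ⟨y, y', d, hc, rfl, rfl⟩ := UniqueFactorizationMonoid.exists_reduced_factors' x x' hx'
  have hd : d ≠ 0 := by rintro rfl; simp at hx'
  have h1 : b * y ^ 2 = b' * y' ^ 2 := by
    apply mul_left_cancel₀ (pow_ne_zero 2 hd)
    linear_combination h
  have h2 : y ^ 2 ∣ b' :=
    (hc.pow (m := 2) (n := 2)).dvd_of_dvd_mul_right ⟨b, by rw [← h1]; ring⟩
  have hu : IsUnit y := hb' y (by rwa [← pow_two])
  exact mul_dvd_mul_left d hu.dvd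

/-- the index set of pairs -/
abbrev Pr (B : ℝ) : Type := ↥(SQ B) × {x : O // x ≠ 0}

def prj (B : ℝ) (p : Pr B) : O := p.1.1 * p.2.1 ^ 2

theorem card_fibre (B : ℝ) (m : O) :
    Nat.card (prj B ⁻¹' {m}) = if Ker B m then 6 else 0 := by
  split_ifs with h
  · obtain ⟨b, hb, x, hx, rfl⟩ := h
    have hb' := mem_SQ.1 hb
    have hmem : ∀ u : ↥units6, b * u.1 ^ 2 ∈ SQ B := by
      intro u
      have hu : IsUnit u.1 := isUnit_iff_mem_units6.2 u.2
      refine mem_SQ.2 ⟨?_, ?_⟩
      · rw [N_mul, N_pow, N_unit hu]; simpa using hb'.1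
      · exact (Associated.squarefree_iff (associated_mul_unit_right _ _ (hu.pow 2))).1 hb'.2
    have hne : ∀ u : ↥units6, x * u.1 ^ 5 ≠ 0 := fun u =>
      mul_ne_zero hx (pow_ne_zero _ (isUnit_iff_mem_units6.2 u.2).ne_zero)
    have hpr : ∀ u : ↥units6, (⟨⟨_, hmem u⟩, ⟨_, hne u⟩⟩ : Pr B) ∈ prj B ⁻¹' {b * x ^ 2} := by
      intro u
      have hu := unit_pow_six (isUnit_iff_mem_units6.2 u.2)
      simp only [Set.mem_preimage, Set.mem_singleton_iff, prj]
      linear_combination (b * x ^ 2 * (u.1 ^ 6 + 1)) * hu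
    let e : ↥units6 → ↥(prj B ⁻¹' {b * x ^ 2}) := fun u => ⟨_, hpr u⟩
    have he : Function.Bijective e := by
      constructor
      · intro u v huv
        have h1 : x * u.1 ^ 5 = x * v.1 ^ 5 := congrArg (fun p => p.1.2.1) huv
        have h2 := mul_left_cancel₀ hx h1
        have hu := unit_pow_six (isUnit_iff_mem_units6.2 u.2)
        have hv := unit_pow_six (isUnit_iff_mem_units6.2 v.2)
        apply Subtype.ext
        linear_combination (-u.1) * hv + v.1 * hu - (u.1 * v.1) * h2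
      · rintro ⟨⟨⟨b', hb''⟩, ⟨x', hx'⟩⟩, hp⟩
        simp only [Set.mem_preimage, Set.mem_singleton_iff, prj] at hp
        have d1 : x ∣ x' := sq_dvd_of_eq (mem_SQ.1 hb'').2 hx' hp.symm
        have d2 : x' ∣ x := sq_dvd_of_eq hb'.2 hx hp
        obtain ⟨u, hu⟩ := (associated_of_dvd_dvd d2 d1)
        have hu6 := unit_pow_six u.isUnit
        refine ⟨⟨u, isUnit_iff_mem_units6.1 u.isUnit⟩, ?_⟩
        apply Subtype.ext
        have e2 : x * (u : O) ^ 5 = x' := by
          rw [← hu]; linear_combination x' * hu6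
        have e1 : b * (u : O) ^ 2 = b' := by
          apply mul_right_cancel₀ (pow_ne_zero 2 hx')
          rw [hp, ← hu]; ring
        exact Prod.ext (Subtype.ext e1) (Subtype.ext e2)
    rw [← Nat.card_eq_of_bijective e he]
    simp [card_units6]
  · rw [Nat.card_eq_zero]
    left
    refine ⟨fun p => h ⟨p.1.1.1, p.1.1.2, p.1.2.1, p.1.2.2, ?_⟩⟩
    have := p.2
    simp only [Set.mem_preimage, Set.mem_singleton_iff, prj] at this
    exact this.symm

/-- regrouping the sum over `Ker B` by squarefree kernels -/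
theorem tsum_ker (B : ℝ) (F : O → ℂ)
    (hF : ∀ b ∈ SQ B, Summable (fun x : O => F (b * x ^ 2))) :
    6 * ∑' m, (if Ker B m then F m else 0) =
      ∑ b ∈ SQ B, ∑' x : O, (if x = 0 then 0 else F (b * x ^ 2)) := by
  have hs : Summable (fun p : Pr B => F (prj B p)) := by
    rw [← summable_norm_iff, summable_prod_of_nonneg (fun _ => norm_nonneg _)]
    refine ⟨fun b => ?_, Summable.of_finite⟩
    exact ((hF b.1 b.2).norm).subtype (fun x => x ≠ 0)
  have h1 := hs.hasSum.tsum_fiberwise (prj B)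
  have h2 : ∀ m, ∑' p : (prj B ⁻¹' {m}), F (prj B p) = 6 * (if Ker B m then F m else 0) := by
    intro m
    have : ∀ p : (prj B ⁻¹' {m}), F (prj B p) = F m := fun p => by
      have := p.2
      simp only [Set.mem_preimage, Set.mem_singleton_iff] at this
      rw [this]
    simp_rw [this]
    rw [tsum_const, card_fibre]
    split_ifs <;> simp
  simp_rw [h2] at h1
  rw [← tsum_mul_left, h1.tsum_eq, hs.tsum_prod, tsum_fintype, ← Finset.sum_coe_sort (SQ B)]
  refine Finset.sum_congr rfl (fun b _ => ?_)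
  have := tsum_subtype {x : O | x ≠ 0} (fun x => F (b.1 * x ^ 2))
  refine Eq.trans this (tsum_congr (fun x => ?_))
  by_cases hx : x = 0 <;> simp [Set.indicator, hx]

end Crest.Agent.R17.QL
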