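import Crest.Agent.R17.QLS_Id

/-!
# R17 / QLS_Pos : gcd decomposition and positivity
-/

set_option autoImplicit false

noncomputable section

open scoped Classical ComplexConjugate
open MeasureTheory

namespace Crest.Agent.R17.QL

/-- `{k : h k ∈ U}` -/
def Ud (U : Finset O) (h : O) : Finset O := (U.filter (fun n => h ∣ n)).image (fun n => n / h)

theorem mem_Ud {U : Finset O} {h k : O} (hh : h ≠ 0) : k ∈ Ud U h ↔ h * k ∈ U := by
  unfold Ud
  simp only [Finset.mem_image, Finset.mem_filter]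
  constructor
  · rintro ⟨n, ⟨hn, hd⟩, rfl⟩
    rwa [EuclideanDomain.mul_div_cancel' hh hd]
  · intro hk
    exact ⟨h * k, ⟨hk, dvd_mul_right _ _⟩, mul_div_cancel_left₀ _ hh⟩

theorem sum_Ud {β : Type*} [AddCommMonoid β] (U : Finset O) {h : O} (hh : h ≠ 0) (F : O → O → β) :
    ∑ k ∈ Ud U h, F (h * k) k = ∑ n ∈ U, if h ∣ n then F n (n / h) else 0 := by
  unfold Ud
  rw [Finset.sum_image, ← Finset.sum_filter]
  · refine Finset.sum_congr rfl (fun n hn => ?_)
    rw [EuclideanDomain.mul_div_cancel' hh (Finset.mem_filter.1 hn).2]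
  · intro x hx y hy hxy
    have hx' := (Finset.mem_filter.1 hx).2
    have hy' := (Finset.mem_filter.1 hy).2
    rw [← EuclideanDomain.mul_div_cancel' hh hx', ← EuclideanDomain.mul_div_cancel' hh hy']
    exact congrArg _ hxy

theorem PS_of_mul {X : ℝ} {h k : O} (hh : Prim h) (hk : h * k ∈ PS X) : k ∈ PS (X / N h) := by
  rw [mem_PS] at hk ⊢
  refine ⟨?_, hk.2.1.of_mul_left hh, hk.2.2.1.of_mul_right, hk.2.2.2.of_mul_left_right⟩
  rw [le_div_iff₀ (N_pos hh.ne_zero), mul_comm, ← N_mul]; exact hk.1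

theorem PS_of_dvd {X : ℝ} {h n : O} (hh : Prim h) (hn : n ∈ PS X) (hd : h ∣ n) : h ∈ PS X := by
  rw [mem_PS] at hn ⊢
  exact ⟨(N_le_of_dvd hn.2.1.ne_zero hd).trans hn.1, hh, hn.2.2.1.squarefree_of_dvd hd,
    isCoprime_two_of_dvd hn.2.2.2 hd⟩

/-- the coprime bilinear form -/
def CF (U : Finset O) (α : O → ℂ) (G : O → O → ℂ) : ℂ :=
  ∑ k1 ∈ U, ∑ k2 ∈ U, if IsCoprime k1 k2 then α k1 * conj (α k2) * G k1 k2 else 0

theorem exists_unique_h {g m : O} (hg : Prim g) (hs : Squarefree g) :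
    ∃ h0, (Prim h0 ∧ h0 ∣ m ∧ h0 ∣ g ∧ IsCoprime m (g / h0)) ∧
      ∀ h, Prim h → h ∣ m → h ∣ g → IsCoprime m (g / h) → h = h0 := by
  have hd1 := EuclideanDomain.gcd_dvd_left m g
  have hd2 := EuclideanDomain.gcd_dvd_right m g
  obtain ⟨u, hu, hp⟩ := exists_unit_mul_prim (hg.isCoprime_three.of_isCoprime_of_dvd_left hd2)
  have key : ∀ h h' : O, Prim h → Prim h' → h ∣ m → h ∣ g → h' ∣ g → IsCoprime m (g / h') →
      h ∣ h' := by
    intro h h' _ hh' h1 h2 h3 h4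
    rw [← EuclideanDomain.mul_div_cancel' hh'.ne_zero h3] at h2
    exact (h4.of_isCoprime_of_dvd_left h1).dvd_of_dvd_mul_right h2
  have a1 : u * EuclideanDomain.gcd m g ∣ m := (hu.mul_left_dvd).2 hd1
  have a2 : u * EuclideanDomain.gcd m g ∣ g := (hu.mul_left_dvd).2 hd2
  have a3 : IsCoprime m (g / (u * EuclideanDomain.gcd m g)) := by
    rw [← isRelPrime_iff_isCoprime]
    intro d hd hd'
    have e := EuclideanDomain.mul_div_cancel' hp.ne_zero a2
    have hdg : d ∣ g := by rw [← e]; exact hd'.mul_left _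
    have h5 : d ∣ u * EuclideanDomain.gcd m g := (EuclideanDomain.dvd_gcd hd hdg).mul_left _
    exact hs d (by rw [← e]; exact mul_dvd_mul h5 hd')
  refine ⟨u * EuclideanDomain.gcd m g, ⟨hp, a1, a2, a3⟩, fun h hh h1 h2 h3 => ?_⟩
  exact hh.eq_of_associated hp (associated_of_dvd_dvd (key _ _ hh hp h1 h2 a2 a3)
    (key _ _ hp hh a1 a2 h2 h3))

theorem pointwise {X : ℝ} {n1 n2 : O} (h1 : n1 ∈ PS X) (h2 : n2 ∈ PS X) (m : O) :
    ∑ h ∈ PS X, (if h ∣ m ∧ h ∣ n1 ∧ h ∣ n2 then qua (n1 / h) m * qua (n2 / h) m else 0) =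
    ∑ g ∈ PS X, (if g ∣ n1 ∧ g ∣ n2 ∧ IsCoprime (n1 / g) (n2 / g) then
      qua (n1 / g * (n2 / g)) m else 0) := by
  have p1 := mem_PS.1 h1
  have p2 := mem_PS.1 h2
  obtain ⟨g, k1, k2, hg, hk1, hk2, rfl, rfl, hc⟩ := exists_prim_gcd p1.2.1 p2.2.1
  have hgP : g ∈ PS X := PS_of_dvd hg h1 (dvd_mul_right _ _)
  have hg' := mem_PS.1 hgP
  have hdg : ∀ h, h ∣ g * k1 → h ∣ g * k2 → h ∣ g := by
    intro h a b
    obtain ⟨u, v, huv⟩ := hc
    have : g = u * (g * k1) + v * (g * k2) := by linear_combination (-g) * huv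
    rw [this]; exact dvd_add (a.mul_left _) (b.mul_left _)
  have hdiv : ∀ h k : O, h ≠ 0 → h ∣ g → g * k / h = g / h * k := by
    rintro h k hh ⟨e, rfl⟩
    rw [mul_assoc, mul_div_cancel_left₀ _ hh, mul_div_cancel_left₀ _ hh]
  have rhs : ∑ g' ∈ PS X, (if g' ∣ g * k1 ∧ g' ∣ g * k2 ∧ IsCoprime (g * k1 / g') (g * k2 / g') then
      qua (g * k1 / g' * (g * k2 / g')) m else 0) = qua (k1 * k2) m := by
    rw [Finset.sum_eq_single_of_mem g hgP]
    · rw [mul_div_cancel_left₀ _ hg.ne_zero, mul_div_cancel_left₀ _ hg.ne_zero,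
        if_pos ⟨dvd_mul_right _ _, dvd_mul_right _ _, hc⟩]
    · intro g' hg'P hne
      rw [if_neg]
      rintro ⟨a, b, c⟩
      have hp' := (mem_PS.1 hg'P).2.1
      have hd := hdg g' a b
      rw [hdiv g' k1 hp'.ne_zero hd, hdiv g' k2 hp'.ne_zero hd] at c
      have hu : IsUnit (g / g') := c.isUnit_of_dvd' (dvd_mul_right _ _) (dvd_mul_right _ _)
      have := (hg.div hp' hd).eq_one_of_isUnit hu
      apply hne
      rw [← EuclideanDomain.mul_div_cancel' hp'.ne_zero hd, this, mul_one]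
  rw [rhs]
  obtain ⟨h0, ⟨q1, q2, q3, q4⟩, huniq⟩ := exists_unique_h (m := m) hg hg'.2.2.1
  have hval : ∀ h, Prim h → h ∣ g → qua (g * k1 / h) m * qua (g * k2 / h) m =
      if IsCoprime m (g / h) then qua (k1 * k2) m else 0 := by
    intro h hh hd
    have hp := hg.div hh hd
    have hodd : IsCoprime (g / h) 2 :=
      isCoprime_two_of_dvd hg'.2.2.2 ⟨h, by rw [mul_comm, EuclideanDomain.mul_div_cancel' hh.ne_zero hd]⟩
    rw [hdiv h k1 hh.ne_zero hd, hdiv h k2 hh.ne_zero hd, qua_mul_left hp.ne_zero hk1.ne_zero,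
      qua_mul_left hp.ne_zero hk2.ne_zero, qua_mul_left hk1.ne_zero hk2.ne_zero]
    have := qua_sq hodd m
    split_ifs at this ⊢
    · linear_combination (qua k1 m * qua k2 m) * this
    · linear_combination (qua k1 m * qua k2 m) * this
  rw [Finset.sum_eq_single_of_mem h0 (PS_of_dvd q1 hgP q3)]
  · rw [if_pos ⟨q2, q3.mul_right _, q3.mul_right _⟩, hval h0 q1 q3, if_pos q4]
  · intro h hP hne
    have hp := (mem_PS.1 hP).2.1
    split_ifs with hc'
    · have hd := hdg h hc'.2.1 hc'.2.2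
      rw [hval h hp hd, if_neg]
      intro hc''
      exact hne (huniq h hp hc'.1 hd hc'')
    · rfl

theorem Phi_eq {X : ℝ} {U : Finset O} (hU : U ⊆ PS X) (a : O → ℂ) (m : O) :
    ∑ g ∈ PS X, CF (Ud U g) (fun k => a (g * k)) (fun k1 k2 => qua (k1 * k2) m) =
      ((∑ h ∈ PS X, (if h ∣ m then ‖∑ k ∈ Ud U h, a (h * k) * qua k m‖ ^ 2 else 0) : ℝ) : ℂ) := by
  have lhs : ∀ g ∈ PS X, CF (Ud U g) (fun k => a (g * k)) (fun k1 k2 => qua (k1 * k2) m) =
      ∑ n1 ∈ U, ∑ n2 ∈ U, a n1 * conj (a n2) *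
        (if g ∣ n1 ∧ g ∣ n2 ∧ IsCoprime (n1 / g) (n2 / g) then qua (n1 / g * (n2 / g)) m else 0) := by
    intro g hg
    have hg0 := (mem_PS.1 hg).2.1.ne_zero
    unfold CF
    rw [sum_Ud U hg0 (fun n1 k1 => ∑ k2 ∈ Ud U g,
      if IsCoprime k1 k2 then a n1 * conj (a (g * k2)) * qua (k1 * k2) m else 0)]
    refine Finset.sum_congr rfl (fun n1 _ => ?_)
    by_cases h1 : g ∣ n1
    · rw [if_pos h1, sum_Ud U hg0 (fun n2 k2 =>
        if IsCoprime (n1 / g) k2 then a n1 * conj (a n2) * qua (n1 / g * k2) m else 0)]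
      refine Finset.sum_congr rfl (fun n2 _ => ?_)
      by_cases h2 : g ∣ n2 <;> by_cases h3 : IsCoprime (n1 / g) (n2 / g) <;> simp [h1, h2, h3]
    · simp [h1]
  have rhs : ∀ h ∈ PS X, (((if h ∣ m then ‖∑ k ∈ Ud U h, a (h * k) * qua k m‖ ^ 2 else 0) : ℝ) : ℂ) =
      ∑ n1 ∈ U, ∑ n2 ∈ U, a n1 * conj (a n2) *
        (if h ∣ m ∧ h ∣ n1 ∧ h ∣ n2 then qua (n1 / h) m * qua (n2 / h) m else 0) := by
    intro h hh
    have hp := (mem_PS.1 hh).2.1
    by_cases hm : h ∣ m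
    · rw [if_pos hm]
      push_cast
      rw [← Complex.mul_conj', sum_Ud U hp.ne_zero (fun n k => a n * qua k m), map_sum,
        Finset.sum_mul_sum]
      refine Finset.sum_congr rfl (fun n1 _ => Finset.sum_congr rfl (fun n2 hn2 => ?_))
      by_cases h1 : h ∣ n1 <;> by_cases h2 : h ∣ n2 <;> simp only [hm, h1, h2, if_true, if_false,
        and_false, and_true, map_zero, mul_zero, zero_mul]
      have hodd : IsCoprime (n2 / h) 2 := isCoprime_two_of_dvd (mem_PS.1 (hU hn2)).2.2.2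
        ⟨h, by rw [mul_comm, EuclideanDomain.mul_div_cancel' hp.ne_zero h2]⟩
      rw [map_mul, conj_qua hodd]; ring
    · simp [hm]
  rw [Complex.ofReal_sum, Finset.sum_congr rfl lhs, Finset.sum_congr rfl rhs, Finset.sum_comm,
    Finset.sum_comm (s := PS X)]
  refine Finset.sum_congr rfl (fun n1 hn1 => ?_)
  rw [Finset.sum_comm, Finset.sum_comm (s := PS X)]
  refine Finset.sum_congr rfl (fun n2 hn2 => ?_)
  rw [← Finset.mul_sum, ← Finset.mul_sum, pointwise (hU hn1) (hU hn2) m]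

theorem sq_le_Phi {X : ℝ} (hX : 1 ≤ X) {U : Finset O} (hU : U ⊆ PS X) (a : O → ℂ) (m : O) :
    ‖∑ n ∈ U, a n * qua n m‖ ^ 2 ≤
      (∑ g ∈ PS X, CF (Ud U g) (fun k => a (g * k)) (fun k1 k2 => qua (k1 * k2) m)).re := by
  rw [Phi_eq hU, Complex.ofReal_re]
  have h1 : (1 : O) ∈ PS X :=
    mem_PS.2 ⟨by simpa using hX, Prim.one, squarefree_one, isCoprime_one_left⟩
  refine le_trans (le_of_eq ?_) (Finset.single_le_sum (f := fun h =>
    if h ∣ m then ‖∑ k ∈ Ud U h, a (h * k) * qua k m‖ ^ 2 else 0) (fun h _ => ?_) h1)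
  · have : Ud U 1 = U := by ext k; rw [mem_Ud one_ne_zero, one_mul]
    simp [this]
  · split_ifs; exacts [by positivity, le_rfl]

/-- reduction to the coprime bilinear forms -/
theorem pos_main {X : ℝ} (hX : 1 ≤ X) {U : Finset O} (hU : U ⊆ PS X) (a : O → ℂ) (B : ℝ) {M : ℝ}
    (hM : 0 < M) :
    ∑ b ∈ SQ M \ SQ B, ‖∑ n ∈ U, a n * qk b n‖ ^ 2 ≤ Real.exp c0 *
      ∑ g ∈ PS X, ‖CF (Ud U g) (fun k => a (g * k)) (fun k1 k2 => RS (k1 * k2) B M)‖ := by
  set f : O → ℝ := fun m => if m ≠ 0 ∧ ¬ Ker B m then ‖∑ n ∈ U, a n * qua n m‖ ^ 2 else 0 with hf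
  have hf0 : ∀ m, 0 ≤ f m := fun m => by
    simp only [hf]; split_ifs; exacts [by positivity, le_rfl]
  have hfb : ∀ m, f m ≤ (∑ n ∈ U, ‖a n‖) ^ 2 := fun m => by
    simp only [hf]
    split_ifs
    · refine pow_le_pow_left₀ (norm_nonneg _) ((norm_sum_le _ _).trans
        (Finset.sum_le_sum (fun n hn => ?_))) 2
      rw [norm_mul]
      exact mul_le_of_le_one_right (norm_nonneg _) (norm_qua_le (mem_PS.1 (hU hn)).2.2.2 _)
    · positivity
  have hs : Summable (fun m => Om (N m / M) * f m) :=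
    Summable.of_nonneg_of_le (fun m => mul_nonneg (Om_pos _).le (hf0 m))
      (fun m => mul_le_mul_of_nonneg_left (hfb m) (Om_pos _).le) ((summable_Om0 hM).mul_right _)
  -- the complex series
  set t : O → O → O → O → ℂ := fun g k1 k2 m => if IsCoprime k1 k2 then
    a (g * k1) * conj (a (g * k2)) *
      (if m ≠ 0 ∧ ¬ Ker B m then qua (k1 * k2) m * (Om (N m / M) : ℂ) else 0) else 0 with ht
  have hodd : ∀ g ∈ PS X, ∀ k ∈ Ud U g, IsCoprime k 2 := by
    intro g hg k hk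
    have hp := (mem_PS.1 hg).2.1
    exact (mem_PS.1 (PS_of_mul hp (hU ((mem_Ud hp.ne_zero).1 hk)))).2.2.2
  have hsum : HasSum (fun m => ∑ g ∈ PS X, ∑ k1 ∈ Ud U g, ∑ k2 ∈ Ud U g, t g k1 k2 m)
      (∑ g ∈ PS X, CF (Ud U g) (fun k => a (g * k)) (fun k1 k2 => RS (k1 * k2) B M)) := by
    refine hasSum_sum (fun g hg => hasSum_sum (fun k1 h1 => hasSum_sum (fun k2 h2 => ?_)))
    simp only [ht]
    split_ifs
    · exact (summable_ite ((hodd g hg k1 h1).mul_left (hodd g hg k2 h2)) _ hM).hasSum.mul_left _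
    · exact hasSum_zero
  have hre := Complex.hasSum_re hsum
  have hle : ∀ m, Om (N m / M) * f m ≤
      (∑ g ∈ PS X, ∑ k1 ∈ Ud U g, ∑ k2 ∈ Ud U g, t g k1 k2 m).re := by
    intro m
    by_cases hm : m ≠ 0 ∧ ¬ Ker B m
    · have : ∑ g ∈ PS X, ∑ k1 ∈ Ud U g, ∑ k2 ∈ Ud U g, t g k1 k2 m = (Om (N m / M) : ℂ) *
          ∑ g ∈ PS X, CF (Ud U g) (fun k => a (g * k)) (fun k1 k2 => qua (k1 * k2) m) := by
        unfold CF
        simp only [Finset.mul_sum]
        refine Finset.sum_congr rfl (fun g _ => Finset.sum_congr rfl (fun k1 _ =>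
          Finset.sum_congr rfl (fun k2 _ => ?_)))
        simp only [ht, if_pos hm]
        split_ifs
        · ring
        · simp
      rw [this, Complex.re_ofReal_mul]
      simp only [hf, if_pos hm]
      exact mul_le_mul_of_nonneg_left (sq_le_Phi hX hU a m) (Om_pos _).le
    · simp only [hf, ht, if_neg hm]
      simp
  calc ∑ b ∈ SQ M \ SQ B, ‖∑ n ∈ U, a n * qk b n‖ ^ 2 = ∑ b ∈ SQ M \ SQ B, f b := by
        refine Finset.sum_congr rfl (fun b hb => ?_)
        rw [Finset.mem_sdiff, mem_SQ, mem_SQ] at hb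
        have : B < N b := by
          by_contra hc
          exact hb.2 ⟨not_lt.1 hc, hb.1.2⟩
        simp only [hf, if_pos (And.intro hb.1.2.ne_zero (not_ker hb.1.2 this))]
        rfl
    _ ≤ ∑ b ∈ ball M, f b :=
        Finset.sum_le_sum_of_subset_of_nonneg
          (Finset.sdiff_subset.trans (Finset.filter_subset _ _)) (fun b _ _ => hf0 b)
    _ ≤ Real.exp c0 * ∑' m, Om (N m / M) * f m := sum_ball_le_tsum hM hf0 hs
    _ ≤ _ := by
        refine mul_le_mul_of_nonneg_left ?_ (Real.exp_pos _).le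
        refine (hasSum_le hle hs.hasSum hre).trans ?_
        exact (Complex.re_le_norm _).trans (norm_sum_le _ _)

end Crest.Agent.R17.QL
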