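import Crest.Agent.R17.QLS_Ker

/-!
# R17 / QLS_Sep : separation of variables in the sums over squares
-/

set_option autoImplicit false

noncomputable section

open scoped Classical ComplexConjugate
open MeasureTheory

namespace Crest.Agent.R17.QL

/-- sum over squares coprime to `q` -/
def Tq (q : O) (Υ : ℝ) : ℂ :=
  ∑' x : O, if x ≠ 0 ∧ IsCoprime x q then (Om (N x ^ 2 / Υ) : ℂ) else 0

/-- the finite Euler product -/
def PP (q : O) (s : ℂ) : ℂ := ∑ d ∈ pdiv q, mu d * (N d : ℂ) ^ (-(2 * s))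

/-- `σ + iτ` -/
def sl (σ τ : ℝ) : ℂ := σ + τ * Complex.I

/-- the error integral -/
def Ierr (w : ℝ → ℂ) (σ : ℝ) (q : O) (Υ : ℝ) : ℂ :=
  ∫ τ, w τ * ((Υ : ℂ) ^ sl σ τ * PP q (sl σ τ))

theorem sl_re (σ τ : ℝ) : (sl σ τ).re = σ := by simp [sl]

theorem continuous_sl (σ : ℝ) : Continuous (sl σ) := by unfold sl; fun_prop

theorem Om_anti {x y : ℝ} (h : x ≤ y) : Om y ≤ Om x := by
  unfold Om
  have := one_lt_c0
  exact Real.exp_le_exp.2 (by nlinarith)

theorem Om_add (x y : ℝ) : Om (x + y) = Om x * Om y := by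
  unfold Om; rw [← Real.exp_add]; congr 1; ring

theorem N_le_sq (x : O) : N x ≤ N x ^ 2 := by
  by_cases hx : x = 0
  · simp [hx]
  · have := one_le_N hx; nlinarith

theorem summable_Om0 {X : ℝ} (hX : 0 < X) : Summable (fun k : O => Om (N k / X)) := by
  simpa using summable_Om hX 0

theorem summable_Om_sq {X : ℝ} (hX : 0 < X) : Summable (fun k : O => Om (N k ^ 2 / X)) :=
  Summable.of_nonneg_of_le (fun _ => (Om_pos _).le)
    (fun k => Om_anti (div_le_div_of_nonneg_right (N_le_sq k) hX.le)) (summable_Om0 hX)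

theorem norm_cpow_sl {x : ℝ} (hx : 0 < x) (σ τ : ℝ) : ‖(x : ℂ) ^ sl σ τ‖ = x ^ σ := by
  rw [Complex.norm_cpow_eq_rpow_re_of_pos hx, sl_re]

theorem norm_PP_le (q : O) {s : ℂ} (hs : 0 ≤ s.re) : ‖PP q s‖ ≤ (pdiv q).card := by
  unfold PP
  refine (norm_sum_le _ _).trans ?_
  rw [Finset.card_eq_sum_ones]
  push_cast
  refine Finset.sum_le_sum (fun d hd => ?_)
  have hd0 : d ≠ 0 := (mem_ball.1 (Finset.mem_filter.1 hd).1).1
  rw [norm_mul, Complex.norm_cpow_eq_rpow_re_of_pos (N_pos hd0)]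
  refine mul_le_one₀ (norm_mu_le d) (by have := N_pos hd0; positivity) ?_
  exact Real.rpow_le_one_of_one_le_of_nonpos (one_le_N hd0) (by simp; linarith)

theorem PP_mul {a b : O} (ha : a ≠ 0) (hb : b ≠ 0) (hab : IsCoprime a b) (s : ℂ) :
    PP (a * b) s = PP a s * PP b s := by
  unfold PP
  rw [sum_pdiv_mul ha hb hab, Finset.sum_mul_sum]
  refine Finset.sum_congr rfl (fun d hd => Finset.sum_congr rfl (fun e he => ?_))
  have hd' := (mem_pdiv ha).1 hd
  have he' := (mem_pdiv hb).1 he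
  rw [mu_mul ((hab.of_isCoprime_of_dvd_left hd'.2).of_isCoprime_of_dvd_right he'.2), N_mul,
    Complex.ofReal_mul, Complex.mul_cpow_ofReal_nonneg (N_nonneg _) (N_nonneg _)]
  ring

theorem continuous_cpow_sl {x : ℝ} (hx : 0 < x) (σ : ℝ) :
    Continuous (fun τ => (x : ℂ) ^ sl σ τ) :=
  (continuous_sl σ).const_cpow (Or.inl (by exact_mod_cast hx.ne'))

theorem continuous_PP (q : O) (σ : ℝ) : Continuous (fun τ => PP q (sl σ τ)) := by
  unfold PP
  refine continuous_finsetSum _ (fun d hd => continuous_const.mul ?_)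
  have hd0 : d ≠ 0 := (mem_ball.1 (Finset.mem_filter.1 hd).1).1
  exact ((continuous_sl σ).const_mul 2).neg.const_cpow
    (Or.inl (by exact_mod_cast (N_pos hd0).ne'))

theorem integrable_mul_bdd {w K : ℝ → ℂ} (hw : Integrable w) (hK : Continuous K) {c : ℝ}
    (hb : ∀ τ, ‖K τ‖ ≤ c) : Integrable (fun τ => w τ * K τ) :=
  hw.mul_bdd hK.aestronglyMeasurable (Filter.Eventually.of_forall hb)

theorem integrable_Ierr {w : ℝ → ℂ} (hw : Integrable w) {σ : ℝ} (hσ : 0 ≤ σ) (q : O) {Υ : ℝ}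
    (hΥ : 0 < Υ) : Integrable (fun τ => w τ * ((Υ : ℂ) ^ sl σ τ * PP q (sl σ τ))) := by
  refine integrable_mul_bdd hw ((continuous_cpow_sl hΥ σ).mul (continuous_PP q σ))
    (c := Υ ^ σ * (pdiv q).card) (fun τ => ?_)
  rw [norm_mul, norm_cpow_sl hΥ]
  exact mul_le_mul_of_nonneg_left (norm_PP_le q (by rw [sl_re]; exact hσ)) (by positivity)

theorem cpow_split {Υ n : ℝ} (hΥ : 0 < Υ) (hn : 0 < n) (s : ℂ) :
    ((Υ / n ^ 2 / c0 : ℝ) : ℂ) ^ s = (c0 : ℂ) ^ (-s) * ((Υ : ℂ) ^ s * (n : ℂ) ^ (-(2 * s))) := by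
  have hc : 0 < c0 := lt_trans one_pos one_lt_c0
  have e : ∀ x : ℝ, 0 < x → ∀ z : ℂ, (x : ℂ) ^ z = Complex.exp (Real.log x * z) := by
    intro x hx z
    rw [Complex.cpow_def_of_ne_zero (by exact_mod_cast hx.ne'), Complex.ofReal_log hx.le]
  rw [e _ (by positivity), e _ hc, e _ hΥ, e _ hn, ← Complex.exp_add, ← Complex.exp_add,
    Real.log_div (by positivity) hc.ne', Real.log_div hΥ.ne' (by positivity), Real.log_pow]
  congr 1; push_cast; ring

theorem Tq_eq {q : O} (hq : Prim q) {Υ : ℝ} (hΥ : 0 < Υ) :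
    Tq q Υ = ∑ d ∈ pdiv q, mu d *
      ∑' y : O, (if y = 0 then 0 else (1 : ℂ) * (Om (N y ^ 2 / (Υ / N d ^ 2)) : ℂ)) := by
  set f : O → ℂ := fun x => if x = 0 then 0 else (Om (N x ^ 2 / Υ) : ℂ) with hf
  have hfs : Summable f := by
    refine Summable.of_norm_bounded (summable_Om_sq hΥ) (fun x => ?_)
    simp only [hf]
    split_ifs
    · simpa using (Om_pos _).le
    · rw [Complex.norm_real, Real.norm_of_nonneg (Om_pos _).le]
  have h1 : ∀ x, (if x ≠ 0 ∧ IsCoprime x q then (Om (N x ^ 2 / Υ) : ℂ) else 0) =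
      ∑ d ∈ pdiv q, mu d * (if d ∣ x then f x else 0) := by
    intro x
    have := sum_mu_coprime hq x
    rw [Finset.sum_filter] at this
    have e : ∀ d, mu d * (if d ∣ x then f x else 0) = (if d ∣ x then mu d else 0) * f x := by
      intro d; split_ifs <;> simp
    simp_rw [e]
    rw [← Finset.sum_mul, this]
    by_cases hx : x = 0 <;> by_cases hc : IsCoprime x q <;> simp [hf, hx, hc]
  unfold Tq
  simp_rw [h1]
  rw [Summable.tsum_finsetSum]
  · refine Finset.sum_congr rfl (fun d hd => ?_)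
    have hd0 : d ≠ 0 := (mem_ball.1 (Finset.mem_filter.1 hd).1).1
    rw [tsum_mul_left, tsum_dvd hd0]
    congr 1
    refine tsum_congr (fun y => ?_)
    by_cases hy : y = 0
    · simp [hf, hy]
    · have := N_pos hd0
      simp only [hf, mul_eq_zero, hd0, hy, or_self, if_false, one_mul, N_mul]
      congr 2
      field_simp
  · intro d _
    refine Summable.mul_left _ (Summable.of_norm_bounded hfs.norm (fun x => ?_))
    split_ifs <;> simp

/-- separation of variables -/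
theorem sep : ∃ c : ℂ, ∀ σ : ℝ, 0 < σ → σ < 1 / 2 → ∃ w : ℝ → ℂ, Integrable w ∧
    ∀ q, Prim q → ∀ Υ : ℝ, 0 < Υ →
      Tq q Υ = c * (Real.sqrt Υ : ℂ) * PP q (1 / 2) + Ierr w σ q Υ := by
  set φ : O → ℂ := fun _ => 1 with hφ
  have hper : Per 1 φ := fun _ _ => rfl
  have hc : 0 < c0 := lt_trans one_pos one_lt_c0
  refine ⟨Ef φ 1 / 2 * Complex.Gamma (1 / 2) * (c0 : ℂ) ^ (-(1 / 2 : ℂ)), fun σ hσ hσ2 => ?_⟩
  obtain ⟨hint, hform⟩ := lattice_mellin (q := 1) one_ne_zero hper (k := 2) (by norm_num) hσ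
    (by simpa using hσ2)
  set w : ℝ → ℂ := fun τ => (1 / (2 * Real.pi) : ℂ) *
    (Lf φ (2 * sl σ τ) * Complex.Gamma (sl σ τ) * (c0 : ℂ) ^ (-sl σ τ)) with hw
  have hcont : Continuous (fun τ => Lf φ (2 * sl σ τ) * Complex.Gamma (sl σ τ)) := by
    refine Continuous.mul ?_ ?_
    · refine continuous_iff_continuousAt.2 (fun τ => ?_)
      refine ContinuousAt.comp (g := Lf φ) (f := fun τ => 2 * sl σ τ) ?_
        ((continuous_sl σ).const_mul 2).continuousAt
      refine (Lf_differentiableAt one_ne_zero hper ?_).continuousAt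
      intro h
      have := congrArg Complex.re h
      simp [sl_re] at this
      linarith
    · refine continuous_iff_continuousAt.2 (fun τ => ?_)
      refine ContinuousAt.comp (g := Complex.Gamma) (f := sl σ) ?_ (continuous_sl σ).continuousAt
      refine (Complex.differentiableAt_Gamma _ (fun m h => ?_)).continuousAt
      have := congrArg Complex.re h
      simp [sl_re] at this
      have : (0 : ℝ) ≤ m := Nat.cast_nonneg m
      linarith
  have hi1 : Integrable (fun τ => Lf φ (2 * sl σ τ) * Complex.Gamma (sl σ τ)) := by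
    refine Integrable.mono' hint hcont.aestronglyMeasurable (Filter.Eventually.of_forall fun τ => ?_)
    rw [norm_mul]
    exact le_of_eq rfl
  have hwi : Integrable w := by
    refine Integrable.const_mul ?_ _
    refine integrable_mul_bdd hi1 ((continuous_sl σ).neg.const_cpow
      (Or.inl (by exact_mod_cast hc.ne'))) (c := c0 ^ (-σ)) (fun τ => ?_)
    rw [Complex.norm_cpow_eq_rpow_re_of_pos hc]
    simp [sl_re]
  refine ⟨w, hwi, fun q hq Υ hΥ => ?_⟩
  rw [Tq_eq hq hΥ]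
  have h1 : ∀ d ∈ pdiv q, mu d *
      ∑' y : O, (if y = 0 then 0 else (1 : ℂ) * (Om (N y ^ 2 / (Υ / N d ^ 2)) : ℂ)) =
      Ef φ 1 / 2 * Complex.Gamma (1 / 2) * (c0 : ℂ) ^ (-(1 / 2 : ℂ)) * (Real.sqrt Υ : ℂ) *
        (mu d * (N d : ℂ) ^ (-(2 * (1 / 2 : ℂ)))) +
      ∫ τ, w τ * ((Υ : ℂ) ^ sl σ τ * (mu d * (N d : ℂ) ^ (-(2 * sl σ τ)))) := by
    intro d hd
    have hd0 : d ≠ 0 := (mem_ball.1 (Finset.mem_filter.1 hd).1).1
    have hN := N_pos hd0
    have := hform (Υ / N d ^ 2) (by positivity)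
    rw [this]
    simp only [Nat.cast_ofNat]
    rw [cpow_split hΥ hN, mul_add, ← integral_const_mul, ← integral_const_mul]
    congr 1
    · rw [Real.sqrt_eq_rpow, Complex.ofReal_cpow hΥ.le]
      push_cast
      ring
    · refine integral_congr_ae (Filter.Eventually.of_forall fun τ => ?_)
      simp only [hw]
      rw [cpow_split hΥ hN]
      unfold sl
      ring
  rw [Finset.sum_congr rfl h1, Finset.sum_add_distrib, ← Finset.mul_sum]
  congr 1
  unfold Ierr PP
  rw [← integral_finsetSum]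
  · refine integral_congr_ae (Filter.Eventually.of_forall fun τ => ?_)
    simp only [Finset.mul_sum]
  · intro d hd
    have hd0 : d ≠ 0 := (mem_ball.1 (Finset.mem_filter.1 hd).1).1
    refine integrable_mul_bdd hwi ((continuous_cpow_sl hΥ σ).mul (continuous_const.mul
      (((continuous_sl σ).const_mul 2).neg.const_cpow
        (Or.inl (by exact_mod_cast (N_pos hd0).ne'))))) (c := Υ ^ σ * 1) (fun τ => ?_)
    rw [norm_mul, norm_cpow_sl hΥ, norm_mul, Complex.norm_cpow_eq_rpow_re_of_pos (N_pos hd0)]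
    refine mul_le_mul_of_nonneg_left ?_ (by positivity)
    refine mul_le_one₀ (norm_mu_le d) (by have := N_pos hd0; positivity) ?_
    exact Real.rpow_le_one_of_one_le_of_nonpos (one_le_N hd0) (by simp [sl_re]; linarith)

end Crest.Agent.R17.QL
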