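import Crest.Agent.R17.Sym

/-!
# R17 / Recip : reciprocity laws, supplements, the key identity

## Cubic reciprocity
For a primary prime `p` (`q = nm p`), `χ = (·/p)_3`, `g = gs p χ 1`: `g³ = q · J(χ,χ)`
(`gaussSum_pow_eq_prod_jacobiSum`, `χ(-1) = 1`) and `J(χ,χ) = -toC p`:  `J ∈ toC(O)`,
`J ≡ -1 mod 3` (Mathlib `exists_jacobiSum_eq_neg_one_add`), `|J|² = q`, and `p ∣ J` because
`J ≡ ∑_x x^{(q-1)/3} (1-x)^{(q-1)/3} ≡ 0` in `O/p` (power sums of degree `< q-1` vanish); so
`J = u p` with a unit `u`, and `-J` primary gives `-J = p`.  So `g³ = -q p = -p² p̄`.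
For primary primes `p, p'` with `p' ∤ q`: work in the ring of algebraic integers generated by `g`
(or in any finite field `F' ⊇ O/p'` containing the `ℓ`-th roots of unity, `ℓ = char O/p`, using
Mathlib `gaussSum_frob`/`MulChar.IsQuadratic`-style Frobenius argument): `g^{q'} = χ̄(q') g` because
`q' ≡ 1 mod 3`, so `(g³)^{(q'-1)/3} ≡ χ̄_p(q')`, i.e. `(p² p̄ / p')_3 = (q'/p)_3^{-1}`.
Write `[a,b] = (a/b)_3`.  Then `[p,p']² [p̄,p'] = [p',p]² [p̄',p]²`; applying this also to
`(p̄, p')`, `(p', p)` and using `sym_star` gives `[p,p'] = [p',p]` (Ireland–Rosen 9.4; cases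
split/split with different norms, split/inert, inert/inert — a rational integer is a cube modulo an
inert prime `-ℓ` since `ℓ - 1 ∣ (ℓ²-1)/3` — and `p' = p̄`: with the rational primary
`m = -(p + p̄)` (coprime to `p p̄`): `[p̄,p] = [m,p] = [p,m] = [p̄,m] = [m,p̄] = [p,p̄]` using the cases
already proved and `p̄ ≡ -p mod m`; any correct route is fine).
## λ-supplement by the rational trick
It suffices to show `d ≡ 1 mod 9 ⇒ (λ/d)_3 = 1`.  `d = 1 + 9x`; if `x = u λ^j x₁` (`x₁` primary) then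
`(x₁/d) = (d/x₁) = 1`, `(u/d) = 1` (`cub_om`, `N d ≡ 1 mod 9`), `(−9x/d) = 1` and `9 = λ⁴` give
`(λ/d)^{4+j} = 1`, which suffices unless `j ≡ 2 mod 3`; in that case (`27 ∣ d - 1`) apply the result to
`10` and to `10 d = 1 + 9(1 + 10 x)` (both have `j = 0`).
## Landsberg–Schaar
For `n` coprime to `2`: `∑_{x mod n} ee(x²/n) = √N(n) · gam n`.  Compute
`S(X) = ∑_{x ∈ O} ee(x²/n) Om(N x / X)` as `X → ∞` in two ways: splitting into classes mod `n`
(`poisson_gauss`-type asymptotics) `S(X) ~ X N(n)⁻¹ ∑_{x mod n} ee(x²/n)`; by the two-dimensional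
theta transformation (apply Mathlib's `Complex.tsum_exp_neg_quadratic` twice in the coordinates
`x = a + bω`; the real quadratic form `x ↦ (2/√3) Im(x²/n)` has signature `(1,1)`, so the determinant
factor tends to a positive real) the sum becomes `√N(n)/2 · ∑_{y} ee(-n y²/4) · exp(-c |y|²N(n)/(4X)+o)`,
whose leading term is `X N(n)^{-1/2} · (1/2) ∑_{y mod 2} ee(-n y²/4)`.
Any other correct proof of `gauss_sq` is welcome.
## Quadratic reciprocity
For distinct odd primes `G(pp') = G(p;p') G(p';p) = (p'/p)(p/p') G(p) G(p')` with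
`G(n;a) = ∑ ee(a x²/n)`; so `(p'/p)(p/p') = sg p p'`; extend by bimultiplicativity of `sg` (finite
check modulo `4`: the values of `gam` on the 12 odd classes are in `{±1, ±i}`).
`(−1/n) = gam n ²`; `(2/n)_2` is periodic mod `8` by the rational trick (`n = 1 + 8x`, auxiliary `9`).
-/

set_option autoImplicit false

noncomputable section

open scoped Classical ComplexConjugate

namespace Crest.Agent.R17


/-! ### auxiliary facts -/

theorem rcub_not_dvd {p : O} (hp : Prime p) (hp' : Prim p) : ¬ p ∣ ((3 : ℕ) : O) := by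
  rw [Nat.cast_ofNat]
  exact hp.coprime_iff_not_dvd.1 hp'.isCoprime_three

theorem rcub_isChar {a : O} (ha : Prim a) : IsChar a (cub a) :=
  sym_isChar (k := 3) (by norm_num) (by rw [Nat.cast_ofNat]; exact ha.isCoprime_three)

theorem rcub_nm {p : O} (hp : Prime p) (hp' : Prim p) :
    nm p = 3 * ((nm p - 1) / 3) + 1 ∧ 0 < (nm p - 1) / 3 := by
  have h1 := nm_prime_mod_three hp (by simpa using rcub_not_dvd hp hp')
  have h2 : 2 ≤ nm p := by
    have := Prime.two_le_N hp
    unfold N at this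
    exact_mod_cast this
  omega

/-- values of the cubic symbol inside `O` -/
theorem rcub_val {p : O} (hp : Prime p) (hp' : Prim p) (x : O) :
    ∃ u : O, cub p x = toC u ∧ p ∣ x ^ ((nm p - 1) / 3) - u ∧
      ((p ∣ x ∧ u = 0) ∨ (¬ p ∣ x ∧ u ^ 3 = 1)) := by
  by_cases h : p ∣ x
  · refine ⟨0, ?_, ?_, Or.inl ⟨h, rfl⟩⟩
    · rw [map_zero, (rcub_isChar hp').zero_iff]
      exact fun hc => hp.coprime_iff_not_dvd.1 hc.symm h
    · rw [sub_zero]
      exact dvd_pow h (rcub_nm hp hp').2.ne'
  · obtain ⟨u, h1, h2, h3⟩ := exists_symP (k := 3) (by norm_num) hp (rcub_not_dvd hp hp') h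
    exact ⟨u, (sym_prime 3 hp x).trans h3, h2, Or.inr ⟨h, h1⟩⟩

theorem rcub_toC_om : toC om = omC := by simp [toC_apply, om]

theorem rcub_omC_ne : omC ≠ 1 ∧ omC ^ 2 ≠ 1 := by
  have h : omC.re = -1 / 2 := rfl
  constructor
  · intro h1
    rw [h1] at h
    norm_num at h
  · intro h1
    have h2 := congrArg Complex.re (omC_sq.symm.trans ((sq omC).symm.trans h1))
    rw [Complex.sub_re, h] at h2
    norm_num at h2

theorem rcub_exists_om {p : O} (hp : Prime p) (hp' : Prim p) :
    ∃ d, IsCoprime d p ∧ cub p d = omC := by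
  obtain ⟨d, hd⟩ := symP_surj (k := 3) (by norm_num) hp (rcub_not_dvd hp hp') om_cube
  have h1 : cub p d = omC := ((sym_prime 3 hp d).trans hd).trans rcub_toC_om
  refine ⟨d, ?_, h1⟩
  by_contra hc
  rw [((rcub_isChar hp').zero_iff d).2 hc] at h1
  have := congrArg Complex.re h1
  norm_num [omC] at this

theorem rcub_nonPrinc {p : O} (hp : Prime p) (hp' : Prim p) : NonPrinc p (cub p) := by
  obtain ⟨d, h1, h2⟩ := rcub_exists_om hp hp'
  exact ⟨d, h1, h2 ▸ rcub_omC_ne.1⟩

theorem rcub_nonPrinc_sq {p : O} (hp : Prime p) (hp' : Prim p) :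
    NonPrinc p (fun x => cub p x ^ 2) := by
  obtain ⟨d, h1, h2⟩ := rcub_exists_om hp hp'
  exact ⟨d, h1, by simp only [h2]; exact rcub_omC_ne.2⟩

/-- `g² = J ḡ` -/
theorem rcub_gauss_sq {p : O} (hp : Prime p) (hp' : Prim p) :
    gs p (cub p) 1 * gs p (cub p) 1 =
      (∑ x ∈ res p, cub p x * cub p (1 - x)) * conj (gs p (cub p) 1) := by
  have hχ := rcub_isChar hp'
  have h0 := hp.ne_zero
  have h3 := hp'.isCoprime_three
  have hH : ∀ t, ∑ x ∈ res p, cub p x * cub p (t - x) =
      (∑ x ∈ res p, cub p x * cub p (1 - x)) * conj (cub p t) := by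
    intro t
    by_cases ht : p ∣ t
    · have h1 : cub p t = 0 := (hχ.zero_iff t).2 fun hc => hp.coprime_iff_not_dvd.1 hc.symm ht
      rw [h1, map_zero, mul_zero,
        ← (hχ.pow_char two_ne_zero).sum_eq_zero h0 (rcub_nonPrinc_sq hp hp')]
      refine Finset.sum_congr rfl fun x _ => ?_
      rw [hχ.per.congr (x := t - x) (y := -1 * x) (by simpa using ht), hχ.mul, cub_neg_one h3,
        one_mul, sq]
    · have hper : Per p fun x => cub p x * cub p (t - x) := fun x y => by
        simp only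
        rw [hχ.per x y, hχ.per.congr (x := t - (x + p * y)) (y := t - x) ⟨-y, by ring⟩]
      rw [← sum_res_affine h0 hper (hp.coprime_iff_not_dvd.2 ht).symm 0, conj_cub h3,
        Finset.sum_mul]
      refine Finset.sum_congr rfl fun x _ => ?_
      rw [add_zero, show t - t * x = t * (1 - x) by ring, hχ.mul, hχ.mul]
      ring
  have h1 : conj (gs p (cub p) 1) = ∑ t ∈ res p, conj (cub p t) * ad p (1 * t) := by
    have h2 := conj_gs h0 (cub p) (-1)
    rw [gs_prime_nonprinc hp hχ (rcub_nonPrinc hp hp'), cub_neg_one h3, map_one, one_mul,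
      neg_neg] at h2
    exact h2
  have h2 : ∀ x, gs p (cub p) 1 = ∑ t ∈ res p, cub p (t - x) * ad p (1 * (t - x)) := fun x => by
    have := sum_res_affine h0 (hχ.per.mul (ad_per p 1)) (isCoprime_one_left (x := p)) (-x)
    rw [gs, ← this]
    simp only [one_mul, sub_eq_add_neg]
  calc gs p (cub p) 1 * gs p (cub p) 1
      = ∑ x ∈ res p, cub p x * ad p (1 * x) * gs p (cub p) 1 := by
        rw [← Finset.sum_mul]; rfl
    _ = ∑ x ∈ res p, ∑ t ∈ res p, cub p x * cub p (t - x) * ad p (1 * t) := by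
        refine Finset.sum_congr rfl fun x _ => ?_
        rw [h2 x, Finset.mul_sum]
        refine Finset.sum_congr rfl fun t _ => ?_
        rw [show ad p (1 * t) = ad p (1 * x) * ad p (1 * (t - x)) by
          rw [← ad_add]; congr 1; ring]
        ring
    _ = _ := by
        rw [Finset.sum_comm, h1, Finset.mul_sum]
        refine Finset.sum_congr rfl fun t _ => ?_
        rw [← Finset.sum_mul, hH t, mul_assoc]

/-- power sums over a residue system modulo a prime -/
theorem rcub_pow_sum {p : O} (hp : Prime p) {i : ℕ} (hi : i < nm p - 1) :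
    p ∣ ∑ x ∈ res p, x ^ i := by
  have h0 := hp.ne_zero
  have hmax : (Ideal.span {p}).IsMaximal :=
    PrincipalIdealRing.isMaximal_of_irreducible hp.irreducible
  let _ := Ideal.Quotient.field (Ideal.span {p})
  have hsurj : ∀ y : O ⧸ Ideal.span {p}, ∃ x ∈ res p, Ideal.Quotient.mk _ x = y := fun y => by
    obtain ⟨x, rfl⟩ := Ideal.Quotient.mk_surjective y
    obtain ⟨r, hr, h⟩ := exists_res h0 x
    exact ⟨r, hr, (Ideal.Quotient.eq.2 (Ideal.mem_span_singleton.2 h)).symm⟩
  have hinj : Set.InjOn (Ideal.Quotient.mk (Ideal.span {p})) (res p) := fun x hx y hy h =>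
    res_inj h0 hx hy (Ideal.mem_span_singleton.1 (Ideal.Quotient.eq.1 h))
  let _ : Fintype (O ⧸ Ideal.span {p}) :=
    ⟨(res p).image (Ideal.Quotient.mk _), fun y => Finset.mem_image.2 (hsurj y)⟩
  have huniv : (Finset.univ : Finset (O ⧸ Ideal.span {p})) =
      (res p).image (Ideal.Quotient.mk _) := rfl
  have hcard : Fintype.card (O ⧸ Ideal.span {p}) = nm p := by
    rw [Fintype.card, huniv, Finset.card_image_of_injOn hinj, card_res h0]
  have h1 := FiniteField.sum_pow_lt_card_sub_one (O ⧸ Ideal.span {p}) i (by rwa [hcard])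
  rw [huniv, Finset.sum_image hinj] at h1
  rw [← Ideal.mem_span_singleton, ← Ideal.Quotient.eq_zero_iff_mem, map_sum]
  simpa using h1

theorem rcub_lam_dvd {u : O} (hu : u ^ 3 = 1) : lam ∣ u - 1 := by
  have h1 : (u - 1) ^ 3 = lam ^ 2 * (u * (u - 1)) := by
    rw [lam_sq]; linear_combination hu
  exact prime_lam.dvd_of_dvd_pow (n := 3) (h1 ▸ Dvd.dvd.mul_right (dvd_pow_self _ two_ne_zero) _)

/-- `J(χ,χ) = -p` -/
theorem rcub_jacobi {p : O} (hp : Prime p) (hp' : Prim p) :
    ∑ x ∈ res p, cub p x * cub p (1 - x) = - toC p := by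
  have hχ := rcub_isChar hp'
  have h0 := hp.ne_zero
  choose c hc1 hc2 hc3 using rcub_val hp hp'
  set J : O := ∑ x ∈ res p, c x * c (1 - x) with hJ
  have hJC : ∑ x ∈ res p, cub p x * cub p (1 - x) = toC J := by
    rw [hJ, map_sum]
    exact Finset.sum_congr rfl fun x _ => by rw [map_mul, hc1, hc1]
  obtain ⟨hm1, hm2⟩ := rcub_nm hp hp'
  set m := (nm p - 1) / 3 with hm
  -- norm
  have hg := norm_gs_prime hp hχ (rcub_nonPrinc hp hp')
  have hN : 0 < Real.sqrt (N p) := Real.sqrt_pos.2 (N_pos h0)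
  have hnJ : nm J = nm p := by
    have h1 := congrArg norm (rcub_gauss_sq hp hp')
    rw [norm_mul, norm_mul, Complex.norm_conj, hg, hJC, norm_toC] at h1
    have h2 := mul_right_cancel₀ hN.ne' h1
    have h3 : N p = N J := (Real.sqrt_inj (N_nonneg _) (N_nonneg _)).1 h2
    unfold N at h3
    exact_mod_cast h3.symm
  -- divisibility by `p`
  have hpJ : p ∣ J := by
    have h1 : p ∣ ∑ x ∈ res p, x ^ m * (1 - x) ^ m := by
      have h2 : ∀ x : O, x ^ m * (1 - x) ^ m =
          ∑ j ∈ Finset.range (m + 1), ((-1) ^ j * (m.choose j : O)) * x ^ (m + j) := fun x => by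
        rw [show (1 - x) = -x + 1 by ring, add_pow, Finset.mul_sum]
        refine Finset.sum_congr rfl fun j _ => ?_
        rw [neg_pow]; ring
      simp only [h2]
      rw [Finset.sum_comm]
      refine Finset.dvd_sum fun j hj => ?_
      rw [← Finset.mul_sum]
      refine Dvd.dvd.mul_left (rcub_pow_sum hp ?_) _
      have := Finset.mem_range.1 hj
      omega
    have h2 : p ∣ ∑ x ∈ res p, x ^ m * (1 - x) ^ m - J := by
      rw [hJ, ← Finset.sum_sub_distrib]
      refine Finset.dvd_sum fun x _ => ?_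
      rw [show x ^ m * (1 - x) ^ m - c x * c (1 - x) =
        (x ^ m - c x) * (1 - x) ^ m + c x * ((1 - x) ^ m - c (1 - x)) by ring]
      exact dvd_add ((hc2 x).mul_right _) ((hc2 _).mul_left _)
    simpa using dvd_sub h1 h2
  -- congruence modulo `3`
  have hc0 : ∑ x ∈ res p, c x = 0 := by
    apply toC_injective
    rw [map_sum, map_zero, ← hχ.sum_eq_zero h0 (rcub_nonPrinc hp hp')]
    exact Finset.sum_congr rfl fun x _ => (hc1 x).symm
  have hc0' : ∑ x ∈ res p, c (1 - x) = 0 := by
    apply toC_injective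
    rw [map_sum, map_zero, ← hχ.sum_eq_zero h0 (rcub_nonPrinc hp hp'),
      ← sum_res_affine h0 hχ.per (isCoprime_one_left (x := p)).neg_left 1]
    exact Finset.sum_congr rfl fun x _ => by rw [← hc1]; congr 1; ring
  have hone : ∀ x, p ∣ x → c (1 - x) = 1 := fun x hx => by
    apply toC_injective
    rw [← hc1, map_one, hχ.per.congr (x := 1 - x) (y := 1) (by simpa using hx), hχ.one]
  have h3 : (3 : O) ∣ ∑ x ∈ res p, (c x - 1) * (c (1 - x) - 1) := by
    refine Finset.dvd_sum fun x _ => ?_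
    rcases hc3 x with h | h
    · rw [hone x h.1]; simp
    rcases hc3 (1 - x) with h' | h'
    · have := hone _ h'.1
      rw [sub_sub_cancel] at this
      rw [this]; simp
    have h4 := mul_dvd_mul (rcub_lam_dvd h.2) (rcub_lam_dvd h'.2)
    rw [← sq, lam_sq] at h4
    exact (neg_dvd.1 h4)
  have h4 : ∑ x ∈ res p, (c x - 1) * (c (1 - x) - 1) = J + nm p := by
    have h5 : ∀ x, (c x - 1) * (c (1 - x) - 1) = c x * c (1 - x) - c x - c (1 - x) + 1 :=
      fun x => by ring
    simp only [h5, Finset.sum_add_distrib, Finset.sum_sub_distrib, hc0, hc0', ← hJ,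
      Finset.sum_const, card_res h0, nsmul_eq_mul, mul_one, sub_zero]
  have hprim : Prim (-J) := by
    rw [h4, hm1] at h3
    unfold Prim
    have h5 : -J - 1 = 3 * (m : O) - (J + ((3 * m + 1 : ℕ) : O)) := by push_cast; ring
    rw [h5]
    exact dvd_sub (dvd_mul_right _ _) h3
  obtain ⟨w, hw⟩ := hpJ
  have hw1 : IsUnit (-w) := by
    rw [hw, nm_mul] at hnJ
    exact (isUnit_iff_nm.2 (by
      have := nm_pos h0
      exact Nat.eq_of_mul_eq_mul_left this (by rw [hnJ, mul_one]))).neg
  have hw2 : -w = 1 := Prim.eq_one_of_isUnit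
    (Prim.of_mul_left (a := p) (by rwa [mul_neg, ← hw]) hp') hw1
  rw [hJC, hw, neg_eq_iff_eq_neg.1 hw2]
  simp

/-- `g³ = -N(p) p` -/
theorem rcub_gauss_cube {p : O} (hp : Prime p) (hp' : Prim p) :
    gs p (cub p) 1 ^ 3 = toC (-(nm p * p)) := by
  have hg := norm_gs_prime hp (rcub_isChar hp') (rcub_nonPrinc hp hp')
  have h1 : conj (gs p (cub p) 1) * gs p (cub p) 1 = (nm p : ℂ) := by
    rw [Complex.conj_mul', hg, ← Complex.ofReal_pow, Real.sq_sqrt (N_nonneg p)]
    simp [N]
  rw [pow_succ, sq, rcub_gauss_sq hp hp', rcub_jacobi hp hp', mul_assoc, h1]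
  simp [mul_comm]

theorem rcub_ad_pow (q x : O) (n : ℕ) : ad q x ^ n = ad q (n * x) := by
  induction n with
  | zero => simp [ad_zero]
  | succ n ih => rw [pow_succ, ih, ← ad_add]; congr 1; push_cast; ring

theorem rcub_dvd_nm (p : O) : p ∣ (nm p : O) := ⟨star p, (mul_star_self p).symm⟩

theorem rcub_char {p : O} (hp : Prime p) :
    ∃ l j : ℕ, l.Prime ∧ p ∣ (l : O) ∧ nm p = l ^ j := by
  have h1 : ∀ n : ℕ, n ≠ 0 → p ∣ (n : O) → ∃ l : ℕ, l.Prime ∧ p ∣ (l : O) := by
    intro n
    induction n using induction_on_primes with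
    | zero => exact fun h => absurd rfl h
    | one => exact fun _ h => absurd (isUnit_of_dvd_one (by simpa using h)) hp.not_isUnit
    | prime_mul l a hl ih =>
      intro h0 h
      rw [Nat.cast_mul] at h
      rcases hp.dvd_or_dvd h with h | h
      · exact ⟨l, hl, h⟩
      · exact ih (right_ne_zero_of_mul h0) h
  obtain ⟨l, hl, w, hw⟩ := h1 _ (nm_pos hp.ne_zero).ne' (rcub_dvd_nm p)
  have h2 : nm p ∣ l ^ 2 := ⟨nm w, by rw [← nm_natCast, hw, nm_mul]⟩
  obtain ⟨j, -, hj⟩ := (Nat.dvd_prime_pow hl).1 h2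
  exact ⟨l, j, hl, ⟨w, hw⟩, hj⟩

theorem rcub_integral (x : O) : IsIntegral ℤ (toC x) := by
  have h : IsIntegral ℤ omC := by
    refine IsIntegral.of_pow (n := 3) (by norm_num) ?_
    rw [← rcub_toC_om, ← map_pow, om_cube, map_one]
    exact isIntegral_one
  rw [toC_apply]
  exact (isIntegral_algebraMap (R := ℤ) (x := x.re)).add
    ((isIntegral_algebraMap (R := ℤ) (x := x.im)).mul h)

theorem rcub_ad_integral {q : O} (hq : q ≠ 0) (x : O) : IsIntegral ℤ (ad q x) := by
  refine IsIntegral.of_pow (nm_pos hq) ?_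
  rw [rcub_ad_pow, ad_of_dvd ((rcub_dvd_nm q).mul_right _)]
  exact isIntegral_one

/-- the Frobenius computation -/
theorem rcub_frob {p r : O} (hp : Prime p) (hp' : Prim p) (hr : Prime r) (hr' : Prim r)
    (h1 : ¬ r ∣ nm p * p) (h2 : ¬ p ∣ nm r) :
    cub r (-(nm p * p)) = cub p (nm r) ^ 2 := by
  have h0 := hp.ne_zero
  choose c hc1 hc2 hc3 using rcub_val hp hp'
  obtain ⟨u, hu1, hu2, -⟩ := rcub_val hr hr' (-(nm p * p))
  obtain ⟨hm1, -⟩ := rcub_nm hr hr'
  set m := (nm r - 1) / 3 with hm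
  set A : O := -(nm p * p) with hA
  let R := integralClosure ℤ ℂ
  let ι : O →+* R := toC.codRestrict R.toSubring rcub_integral
  let _ : Algebra O R := ι.toAlgebra
  have : Algebra.IsIntegral O R := ⟨fun x => (integralClosure.isIntegral x).tower_top⟩
  have hprime : (Ideal.span {r}).IsPrime := (Ideal.span_singleton_prime hr.ne_zero).2 hr
  obtain ⟨P, hP, hPr⟩ := Ideal.exists_ideal_over_prime_of_isIntegral_of_isDomain (S := R)
    (Ideal.span {r}) (fun x hx => by
      have h3 : toC x = 0 := congrArg Subtype.val (RingHom.mem_ker.1 hx)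
      rw [toC_injective (h3.trans (map_zero toC).symm)]
      exact zero_mem _)
  let φ := Ideal.Quotient.mk P
  have hker : ∀ x : O, φ (ι x) = 0 ↔ r ∣ x := fun x => by
    rw [Ideal.Quotient.eq_zero_iff_mem, ← Ideal.mem_span_singleton, ← hPr]
    rfl
  obtain ⟨l, j, hl, hrl, hj⟩ := rcub_char hr
  have : Fact l.Prime := ⟨hl⟩
  have : CharP (R ⧸ P) l := (CharP.charP_iff_prime_eq_zero hl).2 (by
    simpa using (hker l).2 hrl)
  let e : O → R := fun x => ⟨ad p (1 * x), rcub_ad_integral h0 _⟩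
  let G : R := ∑ x ∈ res p, ι (c x) * e x
  have hG : (G : ℂ) = gs p (cub p) 1 := by
    simp only [G, AddSubmonoidClass.coe_finsetSum, gs, hc1]
    rfl
  have hG3 : G ^ 3 = ι A := Subtype.ext (by
    rw [SubmonoidClass.coe_pow, hG, rcub_gauss_cube hp hp']; rfl)
  have hcq : ∀ x, c x ^ nm r = c x := fun x => by
    rw [hm1, pow_succ, pow_mul]
    rcases hc3 x with h | h
    · rw [h.2, mul_zero]
    · rw [h.2, one_pow, one_mul]
  have hfrob : ∑ x ∈ res p, (ι (c x) * e x) ^ nm r = ι (c (nm r) ^ 2) * G := Subtype.ext (by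
    have h3 := gs_prime_nonprinc hp (rcub_isChar hp') (rcub_nonPrinc hp hp') (nm r)
    rw [conj_cub hp'.isCoprime_three, hc1, ← map_pow] at h3
    rw [AddSubmonoidClass.coe_finsetSum, MulMemClass.coe_mul, hG]
    refine Eq.trans ?_ h3
    refine Finset.sum_congr rfl fun x _ => ?_
    rw [mul_pow, ← map_pow, hcq, MulMemClass.coe_mul, SubmonoidClass.coe_pow, hc1]
    show toC (c x) * ad p (1 * x) ^ nm r = _
    rw [rcub_ad_pow, one_mul])
  have h4 : φ G ^ nm r = φ (ι (c (nm r) ^ 2)) * φ G := by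
    rw [← map_mul, ← hfrob, map_sum, map_sum, hj, sum_pow_char_pow]
    exact Finset.sum_congr rfl fun x _ => (map_pow _ _ _).symm
  have h5 : φ G ^ nm r = φ (ι u) * φ G := by
    have h6 := (hker _).2 hu2
    rw [map_sub, map_sub, sub_eq_zero] at h6
    rw [hm1, pow_succ, pow_mul, ← map_pow, hG3, ← map_pow, ← map_pow, h6]
  have h6 : r ∣ A * (u - c (nm r) ^ 2) := by
    rw [← hker, map_mul, map_mul, ← hG3, map_sub, map_sub, map_pow]
    linear_combination φ G ^ 2 * (h4 - h5)
  have h7 : r ∣ u - c (nm r) ^ 2 := (hr.dvd_or_dvd h6).resolve_left (by rwa [hA, dvd_neg])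
  have h8 : (c (nm r) ^ 2) ^ 3 = 1 := by
    rcases hc3 (nm r) with h | h
    · exact absurd h.1 h2
    · rw [← pow_mul, mul_comm, pow_mul, h.2, one_pow]
  rw [hc1, ← map_pow]
  refine (sym_prime 3 hr A).trans (symP_eq (k := 3) (by norm_num) hr (rcub_not_dvd hr hr') h8 ?_)
  simpa using dvd_add hu2 h7

theorem rcub_star_prim {a : O} (ha : Prim a) : Prim (star a) := by
  obtain ⟨w, hw⟩ := ha
  refine ⟨star w, ?_⟩
  have := congrArg star hw
  simpa using this

theorem rcub_star_dvd {a b : O} (h : a ∣ star b) : star a ∣ b := by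
  obtain ⟨w, hw⟩ := h
  exact ⟨star w, by simpa [mul_comm] using congrArg star hw⟩

theorem rcub_star_prime {p : O} (hp : Prime p) : Prime (star p) := by
  refine ⟨by simpa using hp.ne_zero, fun h => hp.not_isUnit (by simpa using h.star), fun a b h => ?_⟩
  have h1 : p ∣ star a * star b := by
    have := rcub_star_dvd (a := star p) (b := star (a * b)) (by simpa using h)
    simpa [mul_comm] using this
  exact (hp.dvd_or_dvd h1).imp rcub_star_dvd rcub_star_dvd

theorem rcub_cube {a d : O} (ha : Prim a) (h : IsCoprime d a) : cub a d ^ 3 = 1 := by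
  have := sym_pow_eq (k := 3) (by norm_num) (n := a)
    (by rw [Nat.cast_ofNat]; exact ha.isCoprime_three) d
  rwa [if_pos h] at this

/-- reciprocity for primes above different rational primes -/
theorem rcub_rec1 {p r : O} (hp : Prime p) (hp' : Prim p) (hr : Prime r) (hr' : Prim r)
    (h1 : ¬ r ∣ p) (h2 : ¬ r ∣ star p) : cub p r = cub r p := by
  have h3 : ¬ p ∣ r := fun h => h1 (hp.associated_of_dvd hr h).symm.dvd
  have h4 : ¬ p ∣ star r := fun h =>
    h2 ((rcub_star_prime hp).associated_of_dvd hr (rcub_star_dvd h)).symm.dvd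
  have key : ∀ {a b : O}, Prime a → ¬ a ∣ b → ¬ a ∣ star b → ¬ a ∣ nm b ∧ ¬ a ∣ nm b * b := by
    intro a b ha h h'
    have h5 : ¬ a ∣ nm b := fun h5 => by
      rw [← mul_star_self] at h5
      exact (ha.dvd_or_dvd h5).elim h h'
    exact ⟨h5, fun h6 => (ha.dvd_or_dvd h6).elim h5 h⟩
  have e1 := rcub_frob hp hp' hr hr' (key hr h1 h2).2 (key hp h3 h4).1
  have e2 := rcub_frob hr hr' hp hp' (key hp h3 h4).2 (key hr h1 h2).1
  have hχ := rcub_isChar hp'
  have hψ := rcub_isChar hr'
  rw [← mul_star_self, ← mul_star_self, neg_eq_neg_one_mul, hψ.mul, hψ.mul, hψ.mul, hχ.mul,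
    cub_neg_one hr'.isCoprime_three] at e1
  rw [← mul_star_self, ← mul_star_self, neg_eq_neg_one_mul, hχ.mul, hχ.mul, hχ.mul, hψ.mul,
    cub_neg_one hp'.isCoprime_three] at e2
  have c1 := rcub_cube hr' (hr.coprime_iff_not_dvd.2 h1).symm
  have c2 := rcub_cube hr' (hr.coprime_iff_not_dvd.2 h2).symm
  have c3 := rcub_cube hp' (hp.coprime_iff_not_dvd.2 h3).symm
  have c4 := rcub_cube hp' (hp.coprime_iff_not_dvd.2 h4).symm
  generalize cub r p = x at *
  generalize cub r (star p) = y at *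
  generalize cub p r = z at *
  generalize cub p (star r) = w at *
  have hy : y = x * z ^ 2 * w ^ 2 := by linear_combination x * e1 - y * c1
  subst hy
  have hzw : z * w ≠ 0 := fun h => by
    have : (z * w) ^ 3 = 1 := by rw [mul_pow, c3, c4, one_mul]
    rw [h] at this
    norm_num at this
  refine mul_right_cancel₀ hzw ?_
  linear_combination e2 + (x * z ^ 4 * w ^ 4) * c1 + (x * z * w ^ 4) * c3 + (x * z * w) * c4

theorem rcub_rec2 {p : O} (hp : Prime p) (hp' : Prim p) {m : O} (hm : Prim m) :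
    IsCoprime m p → IsCoprime m (star p) → cub p m = cub m p := by
  refine Prim.induction (P := fun m => IsCoprime m p → IsCoprime m (star p) → cub p m = cub m p)
    (fun _ _ => ?_) (fun r a hr hr' ha ih h1 h2 => ?_) hm
  · rw [(rcub_isChar hp').one]; exact (sym_one 3 p).symm
  · rw [(rcub_isChar hp').mul, ih h1.of_mul_left_right h2.of_mul_left_right,
      rcub_rec1 hp hp' hr hr' (hr.coprime_iff_not_dvd.1 h1.of_mul_left_left)
        (hr.coprime_iff_not_dvd.1 h2.of_mul_left_left)]
    exact (sym_mul_left 3 hr.ne_zero ha.ne_zero p).symm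

theorem rcub_rec3 {p : O} (hp : Prime p) (hp' : Prim p) (h : ¬ p ∣ star p) :
    cub p (star p) = cub (star p) p := by
  have hq := rcub_star_prime hp
  have hq' := rcub_star_prim hp'
  have hm : Prim (-(p + star p)) := by
    have := dvd_add hp' hq'
    unfold Prim
    rw [show -(p + star p) - 1 = -(p - 1 + (star p - 1)) - 3 by ring]
    exact dvd_sub this.neg_right dvd_rfl
  have hc : IsCoprime p (star p) := hp.coprime_iff_not_dvd.2 h
  have h1 : IsCoprime (-(p + star p)) p := by
    refine IsCoprime.neg_left ?_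
    have := hc.symm.add_mul_left_left 1
    rwa [mul_one, add_comm] at this
  have h2 : IsCoprime (-(p + star p)) (star p) := by
    refine IsCoprime.neg_left ?_
    have := hc.add_mul_left_left 1
    rwa [mul_one] at this
  have hneg : ∀ {a : O}, Prim a → ∀ x, cub a (-x) = cub a x := fun ha x => by
    rw [neg_eq_neg_one_mul, (rcub_isChar ha).mul, cub_neg_one ha.isCoprime_three, one_mul]
  calc cub p (star p) = cub p (-(p + star p)) := by
        rw [hneg hp']
        exact (rcub_isChar hp').per.congr ⟨-1, by ring⟩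
    _ = cub (-(p + star p)) p := rcub_rec2 hp hp' hm h1 h2
    _ = cub (-(p + star p)) (star p) := by
        rw [← hneg hm (star p)]
        exact (rcub_isChar hm).per.congr ⟨-1, by ring⟩
    _ = cub (star p) (-(p + star p)) :=
        (rcub_rec2 hq hq' hm h2 (by rwa [star_star])).symm
    _ = cub (star p) p := by
        rw [hneg hq']
        exact (rcub_isChar hq').per.congr ⟨1, by ring⟩

theorem rcub_rec4 {p r : O} (hp : Prime p) (hp' : Prim p) (hr : Prime r) (hr' : Prim r) :
    cub p r = cub r p := by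
  by_cases h1 : r ∣ p
  · rw [hr'.eq_of_associated hp' (hr.associated_of_dvd hp h1)]
  by_cases h2 : r ∣ star p
  · have h3 := hr'.eq_of_associated (rcub_star_prim hp')
      (hr.associated_of_dvd (rcub_star_prime hp) h2)
    subst h3
    exact rcub_rec3 hp hp' fun h => h1 (rcub_star_dvd h)
  exact rcub_rec1 hp hp' hr hr' h1 h2

/-! ### cubic -/
theorem g3_cube {p : O} (hp : Prime p) (hp' : Prim p) : g3 p ^ 3 = - ang p := by
  have hN : 0 < Real.sqrt (N p) := Real.sqrt_pos.2 (N_pos hp.ne_zero)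
  have hN' : (Real.sqrt (N p) : ℂ) ≠ 0 := by exact_mod_cast hN.ne'
  have h1 : (nm p : ℂ) = (Real.sqrt (N p) : ℂ) ^ 2 := by
    rw [← Complex.ofReal_pow, Real.sq_sqrt (N_nonneg p)]
    simp [N]
  rw [g3, div_pow, rcub_gauss_cube hp hp', ang, norm_toC, map_neg, map_mul, map_natCast, h1]
  field_simp

theorem cub_rec {a b : O} (ha : Prim a) (hb : Prim b) : cub a b = cub b a := by
  refine Prim.induction (P := fun a => cub a b = cub b a) ?_ (fun p a hp hp' ha ih => ?_) ha
  · rw [(rcub_isChar hb).one]; exact sym_one 3 b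
  · have h1 : cub p b = cub b p := by
      refine Prim.induction (P := fun b => cub p b = cub b p) ?_ (fun r b hr hr' hb ih => ?_) hb
      · rw [(rcub_isChar hp').one]; exact (sym_one 3 p).symm
      · rw [(rcub_isChar hp').mul, ih, rcub_rec4 hp hp' hr hr']
        exact (sym_mul_left 3 hr.ne_zero hb.ne_zero p).symm
    rw [(rcub_isChar hb).mul, ← ih, ← h1]
    exact sym_mul_left 3 hp.ne_zero ha.ne_zero b

end Crest.Agent.R17
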