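import Crest.Agent.R17.Sym

/-!
# R17 / Recip : reciprocity laws, supplements, the key identity

## Cubic reciprocity
For a primary prime `p` (`q = nm p`), `χ = (·/p)_3`, `g = gs p χ 1`: `g³ = q · J(χ,χ)`
(`gaussSum_pow_eq_prod_jacobiSum`, `χ(-1) = 1`) and `J(χ,χ) = -toC p`:  `J ∈ toC(O)`,
`J ≡ -1 mod 3` (Mathlib `exists_jacobiSum_eq_neg_one_add`), `|J|² = q`, and `p ∣ J` because
`J ≡ ∑_x x^{(q-1)/3} (1-x)^{(q-1)/3} ≡ 0` in `O/p` (power sums of degree `< q-1` vanish); so
`J = u p` with a unit `u`, and `-J` primary gives `-J = p`.  So `g³ = -q p = -p² p̄`.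
For primary primes `p, p'` with `p' ∤ q`: work in the ring of algebraic integers generated by `g`
(or in any finite field `F' ⊇ O/p'` containing the `ℓ`-th roots of unity, `ℓ = char O/p`, using
Mathlib `gaussSum_frob`/`MulChar.IsQuadratic`-style Frobenius argument): `g^{q'} = χ̄(q') g` because
`q' ≡ 1 mod 3`, so `(g³)^{(q'-1)/3} ≡ χ̄_p(q')`, i.e. `(p² p̄ / p')_3 = (q'/p)_3^{-1}`.
Write `[a,b] = (a/b)_3`.  Then `[p,p']² [p̄,p'] = [p',p]² [p̄',p]²`; applying this also to
`(p̄, p')`, `(p', p)` and using `sym_star` gives `[p,p'] = [p',p]` (Ireland–Rosen 9.4; cases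
split/split with different norms, split/inert, inert/inert — a rational integer is a cube modulo an
inert prime `-ℓ` since `ℓ - 1 ∣ (ℓ²-1)/3` — and `p' = p̄`: with the rational primary
`m = -(p + p̄)` (coprime to `p p̄`): `[p̄,p] = [m,p] = [p,m] = [p̄,m] = [m,p̄] = [p,p̄]` using the cases
already proved and `p̄ ≡ -p mod m`; any correct route is fine).
## λ-supplement by the rational trick
It suffices to show `d ≡ 1 mod 9 ⇒ (λ/d)_3 = 1`.  `d = 1 + 9x`; if `x = u λ^j x₁` (`x₁` primary) then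
`(x₁/d) = (d/x₁) = 1`, `(u/d) = 1` (`cub_om`, `N d ≡ 1 mod 9`), `(−9x/d) = 1` and `9 = λ⁴` give
`(λ/d)^{4+j} = 1`, which suffices unless `j ≡ 2 mod 3`; in that case (`27 ∣ d - 1`) apply the result to
`10` and to `10 d = 1 + 9(1 + 10 x)` (both have `j = 0`).
## Landsberg–Schaar
For `n` coprime to `2`: `∑_{x mod n} ee(x²/n) = √N(n) · gam n`.  Compute
`S(X) = ∑_{x ∈ O} ee(x²/n) Om(N x / X)` as `X → ∞` in two ways: splitting into classes mod `n`
(`poisson_gauss`-type asymptotics) `S(X) ~ X N(n)⁻¹ ∑_{x mod n} ee(x²/n)`; by the two-dimensional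
theta transformation (apply Mathlib's `Complex.tsum_exp_neg_quadratic` twice in the coordinates
`x = a + bω`; the real quadratic form `x ↦ (2/√3) Im(x²/n)` has signature `(1,1)`, so the determinant
factor tends to a positive real) the sum becomes `√N(n)/2 · ∑_{y} ee(-n y²/4) · exp(-c |y|²N(n)/(4X)+o)`,
whose leading term is `X N(n)^{-1/2} · (1/2) ∑_{y mod 2} ee(-n y²/4)`.
Any other correct proof of `gauss_sq` is welcome.
## Quadratic reciprocity
For distinct odd primes `G(pp') = G(p;p') G(p';p) = (p'/p)(p/p') G(p) G(p')` with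
`G(n;a) = ∑ ee(a x²/n)`; so `(p'/p)(p/p') = sg p p'`; extend by bimultiplicativity of `sg` (finite
check modulo `4`: the values of `gam` on the 12 odd classes are in `{±1, ±i}`).
`(−1/n) = gam n ²`; `(2/n)_2` is periodic mod `8` by the rational trick (`n = 1 + 8x`, auxiliary `9`).
-/

set_option autoImplicit false

noncomputable section

open scoped Classical ComplexConjugate

namespace Crest.Agent.R17

namespace RG

/-- `O / 4` in coordinates -/
abbrev O4 : Type := ZMod 4 × ZMod 4

def mul4 (p q : O4) : O4 := (p.1 * q.1 - p.2 * q.2, p.1 * q.2 + p.2 * q.1 - p.2 * q.2)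

def red (n : O) : O4 := ((n.re : ZMod 4), (n.im : ZMod 4))

def odd4 (p : O4) : Bool := decide (2 * p.1 ≠ 0 ∨ 2 * p.2 ≠ 0)

def E (k : ZMod 4) : GaussianInt := (⟨0, -1⟩ : GaussianInt) ^ k.val

/-- `2 gam` -/
def G (p : O4) : GaussianInt := 1 + E p.2 + E (-p.1) + E (p.1 - p.2)

/-- `8 sg` -/
def S (p q : O4) : GaussianInt := G (mul4 p q) * star (G p) * star (G q)

theorem red_mul (a b : O) : red (a * b) = mul4 (red a) (red b) := by
  unfold red mul4
  simp only [QuadraticAlgebra.re_mul, QuadraticAlgebra.im_mul]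
  push_cast
  ext <;> simp <;> ring

theorem red_per (x t : O) : red (x + 4 * t) = red x := by
  have h4 : (4 : ZMod 4) = 0 := by decide
  have e : (4 : O) = ⟨4, 0⟩ := by decide
  unfold red
  rw [e]
  simp only [QuadraticAlgebra.re_add, QuadraticAlgebra.im_add, QuadraticAlgebra.re_mul,
    QuadraticAlgebra.im_mul]
  push_cast
  rw [h4]
  simp

theorem odd_red {n : O} (hn : IsCoprime n 2) : odd4 (red n) = true := by
  unfold odd4 red
  rw [decide_eq_true_eq]
  by_contra hc
  push Not at hc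
  have key : ∀ a : ℤ, 2 * (a : ZMod 4) = 0 → (2 : ℤ) ∣ a := by
    intro a ha
    have h1 : ((2 * a : ℤ) : ZMod 4) = 0 := by push_cast; exact ha
    rw [ZMod.intCast_zmod_eq_zero_iff_dvd] at h1
    push_cast at h1
    omega
  exact prime_two.not_isUnit (hn.isUnit_of_dvd' (b1_two_dvd_iff.2 ⟨key _ hc.1, key _ hc.2⟩) dvd_rfl)

theorem ee_eq (m : O) : ee (-(toC m) / 4) = (E (m.im : ZMod 4) : ℂ) := by
  have e1 : -(toC m) / 4 = ((-(m.re : ℝ) / 4 : ℝ) : ℂ) + ((-(m.im : ℝ) / 4 : ℝ) : ℂ) * omC := by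
    rw [toC_apply]; push_cast; ring
  rw [e1, ee_real_om]
  have h1 : (((m.im : ZMod 4).val : ℕ) : ℤ) = m.im % 4 := by
    simpa using ZMod.val_intCast (n := 4) m.im
  set r : ℕ := (m.im : ZMod 4).val with hr
  have h2 : (m.im : ℂ) = 4 * ((m.im / 4 : ℤ) : ℂ) + r := by
    have : m.im = 4 * (m.im / 4) + (r : ℤ) := by omega
    exact_mod_cast this
  have e2 : 2 * (Real.pi : ℂ) * ((-(m.im : ℝ) / 4 : ℝ) : ℂ) * Complex.I =
      r * (-Real.pi / 2 * Complex.I) + ((-(m.im / 4) : ℤ) : ℂ) * (2 * Real.pi * Complex.I) := by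
    push_cast
    rw [h2]
    ring
  rw [e2, Complex.exp_add, Complex.exp_int_mul_two_pi_mul_I, Complex.exp_nat_mul,
    Complex.exp_neg_pi_div_two_mul_I, mul_one, E, map_pow, GaussianInt.toComplex_def]
  simp [hr]

theorem gam_eq (n : O) : gam n = (1 / 2) * (G (red n) : ℂ) := by
  unfold gam
  rw [Finset.sum_insert (by decide), Finset.sum_insert (by decide), Finset.sum_insert (by decide),
    Finset.sum_singleton]
  simp only [ee_eq]
  have e0 : (n * 0 ^ 2).im = 0 := by simp
  have e1 : (n * 1 ^ 2).im = n.im := by simp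
  have e2 : (n * om ^ 2).im = -n.re := by
    have : om ^ 2 = ⟨-1, -1⟩ := by decide
    rw [this, QuadraticAlgebra.im_mul]
    ring
  have e3 : (n * (om ^ 2) ^ 2).im = n.re - n.im := by
    have : (om ^ 2) ^ 2 = ⟨0, 1⟩ := by decide
    rw [this, QuadraticAlgebra.im_mul]
    ring
  have e4 : E 0 = 1 := by decide
  rw [e0, e1, e2, e3]
  unfold G red
  push_cast
  rw [e4]
  simp only [map_add, map_one]
  ring

theorem sg_eq (a b : O) : sg a b = (1 / 8) * (S (red a) (red b) : ℂ) := by
  unfold sg S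
  rw [gam_eq, gam_eq, gam_eq, red_mul]
  simp only [map_mul, GaussianInt.toComplex_star, map_div₀, map_one, map_ofNat]
  ring

theorem c_norm : ∀ p : O4, odd4 p = true → G p * star (G p) = 4 := by decide +kernel

theorem c_sq : ∀ p q : O4, odd4 q = true → G (mul4 p (mul4 q q)) = G p := by decide +kernel

theorem c_sg : ∀ p q : O4, odd4 p = true → odd4 q = true → S p q = 8 ∨ S p q = -8 := by
  decide +kernel

theorem c_mul : ∀ p p' q : O4, odd4 p = true → odd4 p' = true → odd4 q = true →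
    8 * S (mul4 p p') q = S p q * S p' q := by
  decide +kernel

theorem sg_cases {a b : O} (ha : IsCoprime a 2) (hb : IsCoprime b 2) : sg a b = 1 ∨ sg a b = -1 := by
  rw [sg_eq]
  rcases c_sg _ _ (odd_red ha) (odd_red hb) with h | h
  · left; rw [h, map_ofNat]; norm_num
  · right; rw [h, map_neg, map_ofNat]; norm_num

theorem gam_mul_conj {n : O} (hn : IsCoprime n 2) : gam n * conj (gam n) = 1 := by
  have h := congrArg GaussianInt.toComplex (c_norm _ (odd_red hn))
  rw [map_mul, GaussianInt.toComplex_star, map_ofNat] at h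
  rw [gam_eq]
  simp only [map_mul, map_div₀, map_one, map_ofNat]
  linear_combination (1 / 4) * h

end RG

open RG

/-! ### quadratic -/
theorem gam_per : Per 4 gam := fun x t => by rw [gam_eq, gam_eq, red_per]
theorem gam_one : gam 1 = 1 := by
  have h : G (red 1) = 2 := by decide
  rw [gam_eq, h, map_ofNat]
  norm_num
theorem norm_gam {n : O} (hn : IsCoprime n 2) : ‖gam n‖ = 1 := by
  have h := congrArg norm (gam_mul_conj hn)
  rw [norm_mul, Complex.norm_conj, norm_one] at h
  nlinarith [norm_nonneg (gam n)]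
theorem gam_mul_sq' {n a : O} (ha : IsCoprime a 2) : gam (n * a ^ 2) = gam n := by
  rw [gam_eq, gam_eq, sq, red_mul, red_mul, c_sq _ _ (odd_red ha)]
theorem gam_sq_class {n : O} (hn : IsCoprime n 2) : gam (n ^ 2) = 1 := by
  rw [← one_mul (n ^ 2), gam_mul_sq' hn, gam_one]
theorem gam_mul_sq {n a : O} (ha : IsCoprime a 2) : gam (n * a ^ 2) = gam n := gam_mul_sq' ha
theorem sg_comm (a b : O) : sg a b = sg b a := by
  unfold sg
  rw [mul_comm a b]
  ring
theorem sg_sq {a b : O} (ha : IsCoprime a 2) (hb : IsCoprime b 2) : sg a b * sg a b = 1 := by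
  rcases sg_cases ha hb with h | h <;> rw [h] <;> norm_num
theorem conj_sg {a b : O} (ha : IsCoprime a 2) (hb : IsCoprime b 2) : conj (sg a b) = sg a b := by
  rcases sg_cases ha hb with h | h <;> rw [h] <;> simp
theorem norm_sg {a b : O} (ha : IsCoprime a 2) (hb : IsCoprime b 2) : ‖sg a b‖ = 1 := by
  rcases sg_cases ha hb with h | h <;> rw [h] <;> simp
theorem sg_one (b : O) (hb : IsCoprime b 2) : sg 1 b = 1 := by
  unfold sg
  rw [one_mul, gam_one, map_one, mul_one, gam_mul_conj hb]
theorem sg_mul_left {a a' b : O} (ha : IsCoprime a 2) (ha' : IsCoprime a' 2) (hb : IsCoprime b 2) :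
    sg (a * a') b = sg a b * sg a' b := by
  have h := congrArg GaussianInt.toComplex (c_mul _ _ _ (odd_red ha) (odd_red ha') (odd_red hb))
  rw [map_mul, map_mul, map_ofNat] at h
  rw [sg_eq, sg_eq, sg_eq, red_mul]
  linear_combination (1 / 64) * h
theorem sg_per (b : O) : Per 4 (fun a => sg a b) := fun x t => by
  simp only [sg_eq, red_per]
theorem gam_mul {a b : O} (ha : IsCoprime a 2) (hb : IsCoprime b 2) :
    gam (a * b) = gam a * gam b * sg a b := by
  have h1 := gam_mul_conj ha
  have h2 := gam_mul_conj hb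
  unfold sg
  calc gam (a * b) = gam (a * b) * (gam a * conj (gam a)) * (gam b * conj (gam b)) := by
        rw [h1, h2]; ring
    _ = _ := by ring

end Crest.Agent.R17
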