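import Mathlib

/-!
# R17 / RecLSAux : two-dimensional theta transformation for complex binary quadratic forms
-/

set_option autoImplicit false

noncomputable section

open scoped ComplexConjugate Real
open Complex

namespace Crest.Agent.R17.LS

/-- Gaussian attached to a complex binary quadratic form -/
def Gq (A B C : ℂ) (p : ℤ × ℤ) : ℂ :=
  cexp (-π * (A * (p.1 : ℂ) ^ 2 + 2 * B * p.1 * p.2 + C * (p.2 : ℂ) ^ 2))

/-- positive definite real part -/
def PD (A B C : ℂ) : Prop := 0 < A.re ∧ B.re ^ 2 < A.re * C.re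

theorem PD.right {A B C : ℂ} (h : PD A B C) : 0 < C.re := by
  by_contra hc
  push Not at hc
  nlinarith [h.1, h.2, sq_nonneg B.re, mul_nonneg h.1.le (neg_nonneg.2 hc)]

theorem PD.swap {A B C : ℂ} (h : PD A B C) : PD C B A := ⟨h.right, by rw [mul_comm]; exact h.2⟩

theorem summable_Gq {A B C : ℂ} (h : PD A B C) : Summable (Gq A B C) := by
  have ha := h.1
  have hc := h.right
  set δ := (A.re * C.re - B.re ^ 2) / (A.re + C.re) with hδ
  have hδ0 : 0 < δ := div_pos (by linarith [h.2]) (by linarith)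
  have h1 : Summable (fun n : ℤ => Real.exp (-π * (δ * n ^ 2))) := by
    simpa using summable_pow_mul_jacobiTheta₂_term_bound 0 hδ0 0
  have h2 := h1.mul_of_nonneg h1 (fun _ => (Real.exp_pos _).le) (fun _ => (Real.exp_pos _).le)
  refine Summable.of_norm_bounded h2 fun p => ?_
  rw [Gq, norm_exp, ← Real.exp_add, Real.exp_le_exp]
  have e : (-π * (A * (p.1 : ℂ) ^ 2 + 2 * B * p.1 * p.2 + C * (p.2 : ℂ) ^ 2) : ℂ).re =
      -π * (A.re * (p.1 : ℝ) ^ 2 + 2 * B.re * p.1 * p.2 + C.re * (p.2 : ℝ) ^ 2) := by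
    simp [pow_two]
  rw [e]
  have h3 : δ * ((p.1 : ℝ) ^ 2 + (p.2 : ℝ) ^ 2) ≤
      A.re * (p.1 : ℝ) ^ 2 + 2 * B.re * p.1 * p.2 + C.re * (p.2 : ℝ) ^ 2 := by
    rw [hδ, div_mul_eq_mul_div, div_le_iff₀ (by linarith)]
    nlinarith [sq_nonneg (A.re * p.1 + B.re * p.2), sq_nonneg (B.re * p.1 + C.re * p.2)]
  nlinarith [mul_le_mul_of_nonneg_left h3 Real.pi_pos.le]

theorem tsum_swap (A B C : ℂ) : ∑' p, Gq A B C p = ∑' p, Gq C B A p := by
  rw [← (Equiv.prodComm ℤ ℤ).tsum_eq]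
  refine tsum_congr fun p => ?_
  simp only [Gq, Equiv.prodComm_apply, Prod.fst_swap, Prod.snd_swap]
  congr 1
  ring

theorem tsum_step {A B C A' B' C' : ℂ} (h : PD A B C) (h' : PD A' B' C') (hA : A' = A - B ^ 2 / C)
    (hB : B' = -I * B / C) (hC : C' = 1 / C) :
    ∑' p, Gq A B C p = 1 / C ^ (1 / 2 : ℂ) * ∑' p, Gq A' B' C' p := by
  have hc := h.right
  have hc0 : C ≠ 0 := fun h0 => by simp [h0] at hc
  rw [(summable_Gq h).tsum_prod, (summable_Gq h').tsum_prod, ← tsum_mul_left]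
  refine tsum_congr fun b => ?_
  have h1 := Complex.tsum_exp_neg_quadratic hc (-B * b)
  have e1 : ∀ a : ℤ, Gq A B C (b, a) =
      cexp (-π * A * (b : ℂ) ^ 2) * cexp (-π * C * (a : ℂ) ^ 2 + 2 * π * (-B * b) * a) := by
    intro a
    rw [Gq, ← Complex.exp_add]
    congr 1
    ring
  have e2 : ∀ a : ℤ, Gq A' B' C' (b, a) =
      cexp (-π * A * (b : ℂ) ^ 2) * cexp (-π / C * ((a : ℂ) + I * (-B * b)) ^ 2) := by
    intro a
    rw [Gq, ← Complex.exp_add, hA, hB, hC]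
    congr 1
    field_simp
    linear_combination (B ^ 2 * (b : ℂ) ^ 2) * I_sq
  simp only [e1, e2, tsum_mul_left, h1]
  ring

theorem sqrt_re {a : ℂ} (ha : 0 < a.re) : |(a ^ (1 / 2 : ℂ)).im| < (a ^ (1 / 2 : ℂ)).re := by
  have h0 : 0 ≤ (a ^ (1 / 2 : ℂ)).re := by
    rw [one_div, cpow_inv_two_re]
    exact Real.sqrt_nonneg _
  have h1 : (a ^ (1 / 2 : ℂ)) ^ 2 = a := by
    rw [one_div]
    exact cpow_ofNat_inv_pow a 2
  have h2 := congrArg Complex.re h1
  rw [pow_two, mul_re] at h2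
  exact abs_lt_of_sq_lt_sq (by nlinarith) h0

theorem sqrt_mul {a b : ℂ} {D : ℝ} (ha : 0 < a.re) (hb : 0 < b.re) (hD : 0 ≤ D)
    (h : a * b = D) : a ^ (1 / 2 : ℂ) * b ^ (1 / 2 : ℂ) = (√D : ℝ) := by
  have h1 : (a ^ (1 / 2 : ℂ)) ^ 2 = a := by rw [one_div]; exact cpow_ofNat_inv_pow a 2
  have h2 : (b ^ (1 / 2 : ℂ)) ^ 2 = b := by rw [one_div]; exact cpow_ofNat_inv_pow b 2
  have h3 : (a ^ (1 / 2 : ℂ) * b ^ (1 / 2 : ℂ)) ^ 2 = ((√D : ℝ) : ℂ) ^ 2 := by
    rw [mul_pow, h1, h2, h, ← ofReal_pow, Real.sq_sqrt hD]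
  rcases sq_eq_sq_iff_eq_or_eq_neg.1 h3 with h4 | h4
  · exact h4
  · exfalso
    have h5 := congrArg Complex.re h4
    rw [mul_re, neg_re, ofReal_re] at h5
    have a1 := sqrt_re ha
    have a2 := sqrt_re hb
    have a3 := Real.sqrt_nonneg D
    have a4 : (a ^ (1 / 2 : ℂ)).im * (b ^ (1 / 2 : ℂ)).im <
        (a ^ (1 / 2 : ℂ)).re * (b ^ (1 / 2 : ℂ)).re := by
      refine lt_of_le_of_lt (le_abs_self _) ?_
      rw [abs_mul]
      exact mul_lt_mul'' a1 a2 (abs_nonneg _) (abs_nonneg _)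
    linarith

theorem theta2 {α β γ : ℂ} {D : ℝ} (hD : 0 < D) (hdet : α * γ - β ^ 2 = D) (h1 : PD α β γ)
    (h2 : (β * conj α).im ^ 2 < D * α.re ^ 2) :
    ∑' p, Gq α β γ p = ((√D : ℝ) : ℂ)⁻¹ * ∑' p, Gq (γ / D) (-β / D) (α / D) p := by
  have ha := h1.1
  have ha0 : α ≠ 0 := fun h0 => by simp [h0] at ha
  have hD0 : (D : ℂ) ≠ 0 := ofReal_ne_zero.2 hD.ne'
  have hm : 0 < normSq α := normSq_pos.2 ha0
  have r1 : ((D : ℂ) / α).re = D * α.re / normSq α := by simp [div_re]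
  have r2 : (1 / α).re = α.re / normSq α := by simp
  have r3 : (-I * β / α).re = (β * conj α).im / normSq α := by
    simp [div_re]
    ring
  have hmid : PD (D / α) (-I * β / α) (1 / α) := by
    refine ⟨by rw [r1]; positivity, ?_⟩
    rw [r1, r2, r3, div_pow, div_mul_div_comm, ← pow_two (normSq α)]
    exact div_lt_div_of_pos_right (by linarith) (by positivity)
  have hfin : PD (γ / D) (-β / D) (α / D) := by
    refine ⟨by rw [div_ofReal_re]; exact div_pos h1.right hD, ?_⟩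
    rw [div_ofReal_re, div_ofReal_re, div_ofReal_re, div_pow, div_mul_div_comm, ← pow_two D, neg_re,
      neg_sq]
    exact div_lt_div_of_pos_right (by linarith [h1.2]) (by positivity)
  rw [tsum_swap, tsum_step h1.swap hmid (by rw [← hdet]; field_simp) rfl rfl, tsum_swap,
    tsum_step hmid.swap hfin ?_ ?_ (by field_simp), ← mul_assoc, div_mul_div_comm,
    sqrt_mul ha hmid.1 hD.le (by field_simp), one_mul, one_div]
  · field_simp
    linear_combination hdet + β ^ 2 * I_sq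
  · field_simp
    linear_combination (-β) * I_sq

end Crest.Agent.R17.LS
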