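import Crest.Agent.R17.RecGam
import Crest.Agent.R17.Poisson
import Crest.Agent.R17.RecLSAux

/-!
# R17 / Recip : reciprocity laws, supplements, the key identity

## Cubic reciprocity
For a primary prime `p` (`q = nm p`), `χ = (·/p)_3`, `g = gs p χ 1`: `g³ = q · J(χ,χ)`
(`gaussSum_pow_eq_prod_jacobiSum`, `χ(-1) = 1`) and `J(χ,χ) = -toC p`:  `J ∈ toC(O)`,
`J ≡ -1 mod 3` (Mathlib `exists_jacobiSum_eq_neg_one_add`), `|J|² = q`, and `p ∣ J` because
`J ≡ ∑_x x^{(q-1)/3} (1-x)^{(q-1)/3} ≡ 0` in `O/p` (power sums of degree `< q-1` vanish); so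
`J = u p` with a unit `u`, and `-J` primary gives `-J = p`.  So `g³ = -q p = -p² p̄`.
For primary primes `p, p'` with `p' ∤ q`: work in the ring of algebraic integers generated by `g`
(or in any finite field `F' ⊇ O/p'` containing the `ℓ`-th roots of unity, `ℓ = char O/p`, using
Mathlib `gaussSum_frob`/`MulChar.IsQuadratic`-style Frobenius argument): `g^{q'} = χ̄(q') g` because
`q' ≡ 1 mod 3`, so `(g³)^{(q'-1)/3} ≡ χ̄_p(q')`, i.e. `(p² p̄ / p')_3 = (q'/p)_3^{-1}`.
Write `[a,b] = (a/b)_3`.  Then `[p,p']² [p̄,p'] = [p',p]² [p̄',p]²`; applying this also to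
`(p̄, p')`, `(p', p)` and using `sym_star` gives `[p,p'] = [p',p]` (Ireland–Rosen 9.4; cases
split/split with different norms, split/inert, inert/inert — a rational integer is a cube modulo an
inert prime `-ℓ` since `ℓ - 1 ∣ (ℓ²-1)/3` — and `p' = p̄`: with the rational primary
`m = -(p + p̄)` (coprime to `p p̄`): `[p̄,p] = [m,p] = [p,m] = [p̄,m] = [m,p̄] = [p,p̄]` using the cases
already proved and `p̄ ≡ -p mod m`; any correct route is fine).
## λ-supplement by the rational trick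
It suffices to show `d ≡ 1 mod 9 ⇒ (λ/d)_3 = 1`.  `d = 1 + 9x`; if `x = u λ^j x₁` (`x₁` primary) then
`(x₁/d) = (d/x₁) = 1`, `(u/d) = 1` (`cub_om`, `N d ≡ 1 mod 9`), `(−9x/d) = 1` and `9 = λ⁴` give
`(λ/d)^{4+j} = 1`, which suffices unless `j ≡ 2 mod 3`; in that case (`27 ∣ d - 1`) apply the result to
`10` and to `10 d = 1 + 9(1 + 10 x)` (both have `j = 0`).
## Landsberg–Schaar
For `n` coprime to `2`: `∑_{x mod n} ee(x²/n) = √N(n) · gam n`.  Compute
`S(X) = ∑_{x ∈ O} ee(x²/n) Om(N x / X)` as `X → ∞` in two ways: splitting into classes mod `n`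
(`poisson_gauss`-type asymptotics) `S(X) ~ X N(n)⁻¹ ∑_{x mod n} ee(x²/n)`; by the two-dimensional
theta transformation (apply Mathlib's `Complex.tsum_exp_neg_quadratic` twice in the coordinates
`x = a + bω`; the real quadratic form `x ↦ (2/√3) Im(x²/n)` has signature `(1,1)`, so the determinant
factor tends to a positive real) the sum becomes `√N(n)/2 · ∑_{y} ee(-n y²/4) · exp(-c |y|²N(n)/(4X)+o)`,
whose leading term is `X N(n)^{-1/2} · (1/2) ∑_{y mod 2} ee(-n y²/4)`.
Any other correct proof of `gauss_sq` is welcome.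
## Quadratic reciprocity
For distinct odd primes `G(pp') = G(p;p') G(p';p) = (p'/p)(p/p') G(p) G(p')` with
`G(n;a) = ∑ ee(a x²/n)`; so `(p'/p)(p/p') = sg p p'`; extend by bimultiplicativity of `sg` (finite
check modulo `4`: the values of `gam` on the 12 odd classes are in `{±1, ±i}`).
`(−1/n) = gam n ²`; `(2/n)_2` is periodic mod `8` by the rational trick (`n = 1 + 8x`, auxiliary `9`).
-/

set_option autoImplicit false

noncomputable section

open scoped Classical ComplexConjugate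

namespace Crest.Agent.R17

namespace LS

open Complex Filter Topology
open scoped Real

theorem ee_toC_mul (z : O) (c : ℝ) : ee (toC z * c) = cexp (2 * π * (z.im * c) * I) := by
  have h := ee_real_om (z.re * c) (z.im * c)
  push_cast at h
  rw [← h, toC_apply]
  congr 1
  ring

theorem N_eq (x : O) : N x = (x.re : ℝ) ^ 2 - x.re * x.im + (x.im : ℝ) ^ 2 := by
  unfold N
  exact_mod_cast nm_int x

theorem ad_eq {n : O} (hn : n ≠ 0) (z : O) :
    ad n z = cexp (2 * π * ((z * star n).im * ((N n)⁻¹ : ℝ)) * I) := by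
  rw [← ee_toC_mul, ad]
  congr 1
  have h1 : toC n ≠ 0 := fun h => hn (toC_injective (by rw [h, map_zero]))
  have h2 : toC n * toC (star n) = (N n : ℝ) := by
    rw [← map_mul, mul_star_self, map_natCast]; simp [N]
  have h3 : ((N n : ℝ) : ℂ) ≠ 0 := ofReal_ne_zero.2 (N_pos hn).ne'
  rw [map_mul, ofReal_inv, ← h2]
  have h4 : toC (star n) ≠ 0 := fun h => h3 (by rw [← h2, h, mul_zero])
  field_simp

/-- coordinates -/
def e1 : ℤ × ℤ ≃ O where
  toFun p := ⟨p.1, p.2⟩
  invFun x := (x.re, x.im)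
  left_inv _ := rfl
  right_inv _ := rfl

/-- dual coordinates -/
def e2 : ℤ × ℤ ≃ O where
  toFun p := ⟨p.1 + p.2, p.1⟩
  invFun x := (x.im, x.re - x.im)
  left_inv p := by simp
  right_inv x := by ext <;> simp

theorem c0_pos : 0 < c0 := lt_trans one_pos one_lt_c0

/-- the determinant -/
def DD (n : O) (X : ℝ) : ℝ := 3 / 4 * (c0 / (π * X)) ^ 2 + 4 / N n

theorem DD_pos {n : O} (hn : n ≠ 0) (X : ℝ) : 0 < DD n X := by
  have := N_pos hn
  unfold DD
  positivity

theorem exact_id {n : O} (hn : n ≠ 0) {X : ℝ} (hX : 0 < X) :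
    ∑' x : O, ad n (x ^ 2) * (Om (N x / X) : ℂ) = ((√(DD n X) : ℝ) : ℂ)⁻¹ *
      ∑' y : O, cexp (-(2 * π * ((n * y ^ 2).im * ((N n * DD n X)⁻¹ : ℝ)) * I)) *
        (Om (N y / (X * DD n X)) : ℂ) := by
  have hM := N_pos hn
  have hD := DD_pos hn X
  have hM' := N_eq n
  have hpi := Real.pi_pos
  have hc := c0_pos
  set t := c0 / (π * X) with ht
  have ht0 : 0 < t := by positivity
  have hc0 : c0 = π * X * t := by rw [ht]; field_simp
  have hDD : DD n X = 3 / 4 * t ^ 2 + 4 / N n := rfl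
  set M := N n with hMdef
  set r : ℝ := ((n.re : ℤ) : ℝ) with hr
  set s : ℝ := ((n.im : ℤ) : ℝ) with hs
  have key := theta2 (α := ⟨t, 2 * s / M⟩) (β := ⟨-t / 2, -2 * r / M⟩)
    (γ := ⟨t, 2 * (r - s) / M⟩) hD ?_ ⟨ht0, by simp only; nlinarith⟩ ?_
  · rw [← e1.tsum_eq, ← e2.tsum_eq]
    have hM0 : (M : ℂ) ≠ 0 := ofReal_ne_zero.2 hM.ne'
    have hX0 : (X : ℂ) ≠ 0 := ofReal_ne_zero.2 hX.ne'
    have hD0 : (DD n X : ℂ) ≠ 0 := ofReal_ne_zero.2 hD.ne'
    refine Eq.trans (tsum_congr fun p => ?_) (key.trans (congrArg _ (tsum_congr fun p => ?_)))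
    · rw [ad_eq hn, Om, ofReal_exp, ← Complex.exp_add, Gq, N_eq (e1 p), hc0, ← hMdef]
      congr 1
      simp only [mk_eq_add_mul_I, e1, Equiv.coe_fn_mk, pow_two, QuadraticAlgebra.im_mul,
        QuadraticAlgebra.re_mul, QuadraticAlgebra.re_star, QuadraticAlgebra.im_star, hr, hs]
      push_cast
      field_simp
      ring
    · rw [Om, ofReal_exp, ← Complex.exp_add, Gq, N_eq (e2 p), hc0]
      congr 1
      simp only [mk_eq_add_mul_I, e2, Equiv.coe_fn_mk, pow_two, QuadraticAlgebra.im_mul,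
        QuadraticAlgebra.re_mul, hr, hs]
      push_cast
      field_simp
      ring
  · rw [hDD]
    apply Complex.ext
    · simp only [pow_two, sub_re, mul_re, ofReal_re]
      field_simp
      rw [hM']
      ring
    · simp only [pow_two, sub_im, mul_im, ofReal_im]
      field_simp
      ring
  · rw [hDD]
    simp only [mul_im, conj_re, conj_im]
    have e : (-t / 2 * -(2 * s / M) + -2 * r / M * t) ^ 2 = t ^ 2 * ((s - 2 * r) ^ 2 / M ^ 2) := by
      field_simp
      ring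
    have h1 : (s - 2 * r) ^ 2 / M ^ 2 ≤ 4 / M := by
      rw [div_le_div_iff₀ (by positivity) hM]
      have : (s - 2 * r) ^ 2 ≤ 4 * M := by nlinarith [sq_nonneg s]
      nlinarith
    rw [e]
    have h2 := mul_le_mul_of_nonneg_left h1 (sq_nonneg t)
    have h3 : 0 < t ^ 2 * t ^ 2 := by positivity
    nlinarith

theorem summable_Om' {X : ℝ} (hX : 0 < X) : Summable (fun k : O => Om (N k / X)) := by
  simpa using summable_Om hX 0

theorem norm_Om (x : ℝ) : ‖(Om x : ℂ)‖ = Om x := by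
  rw [Complex.norm_real, Real.norm_of_nonneg (Om_pos x).le]

/-- Gaussian means of a periodic function -/
theorem mean {q : O} (hq : q ≠ 0) {φ : O → ℂ} (hφ : Per q φ) :
    Tendsto (fun X : ℝ => (X : ℂ)⁻¹ * ∑' k : O, φ k * (Om (N k / X) : ℂ)) atTop
      (𝓝 ((N q : ℂ)⁻¹ * ∑ x ∈ res q, φ x)) := by
  obtain ⟨C, hC⟩ := tsum_Om_le
  have hM := N_pos hq
  set B := ∑ x ∈ res q, ‖φ x‖ with hB
  have hB0 : 0 ≤ B := Finset.sum_nonneg fun _ _ => norm_nonneg _
  have hgs : ∀ d, ‖gs q φ d‖ ≤ B := fun d =>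
    (norm_sum_le _ _).trans (le_of_eq (Finset.sum_congr rfl fun x _ => by
      rw [norm_mul, norm_ad, mul_one]))
  rw [tendsto_iff_norm_sub_tendsto_zero]
  refine squeeze_zero' (Eventually.of_forall fun _ => norm_nonneg _)
    (g := fun X : ℝ => B * C * X⁻¹) ?_ (by simpa using tendsto_inv_atTop_zero.const_mul (B * C))
  filter_upwards [eventually_gt_atTop 0] with X hX
  have hY : 0 < N q / X := div_pos hM hX
  have e : ∀ d : O, X * N d / N q = N d / (N q / X) := fun d => by field_simp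
  have hs := summable_Om' hY
  have hs1 : Summable (fun d : O => gs q φ d * (Om (N d / (N q / X)) : ℂ)) :=
    Summable.of_norm_bounded (hs.mul_left B) fun d => by
      rw [norm_mul, norm_Om]
      exact mul_le_mul_of_nonneg_right (hgs d) (Om_pos _).le
  have hs2 : Summable (fun d : O => if d = 0 then 0 else Om (N d / (N q / X))) :=
    Summable.of_nonneg_of_le (fun d => by split_ifs; exacts [le_rfl, (Om_pos _).le])
      (fun d => by split_ifs; exacts [(Om_pos _).le, le_rfl]) hs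
  have h0 : gs q φ 0 * (Om (N (0 : O) / (N q / X)) : ℂ) = ∑ x ∈ res q, φ x := by
    simp [gs, ad_zero, Om]
  have hX0 : (X : ℂ) ≠ 0 := ofReal_ne_zero.2 hX.ne'
  have hM0 : ((N q : ℝ) : ℂ) ≠ 0 := ofReal_ne_zero.2 hM.ne'
  rw [poisson_per hq hφ hX]
  simp only [e]
  rw [hs1.tsum_eq_add_tsum_ite 0, h0]
  set E := ∑' d : O, if d = 0 then 0 else gs q φ d * (Om (N d / (N q / X)) : ℂ) with hE
  have hE1 : ‖E‖ ≤ B * (C * (N q / X)) := by
    refine le_trans (tsum_of_norm_bounded (hs2.mul_left B).hasSum fun d => ?_) ?_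
    · split_ifs
      · simp
      · rw [norm_mul, norm_Om]
        exact mul_le_mul_of_nonneg_right (hgs d) (Om_pos _).le
    · rw [tsum_mul_left]
      exact mul_le_mul_of_nonneg_left (hC _ hY) hB0
  have e2 : (X : ℂ)⁻¹ * (((X / N q : ℝ) : ℂ) * (∑ x ∈ res q, φ x + E)) -
      (N q : ℂ)⁻¹ * ∑ x ∈ res q, φ x = ((N q)⁻¹ : ℝ) * E := by
    push_cast
    field_simp
    ring
  rw [e2, norm_mul, Complex.norm_real, Real.norm_of_nonneg (inv_pos.2 hM).le]
  refine (mul_le_mul_of_nonneg_left hE1 (inv_pos.2 hM).le).trans (le_of_eq ?_)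
  field_simp

theorem tsum_N_Om : ∃ C, ∀ Y : ℝ, 0 < Y → ∑' y : O, N y * Om (N y / Y) ≤ C * Y ^ 2 := by
  obtain ⟨C, hC⟩ := tsum_Om_le
  refine ⟨4 * C, fun Y hY => ?_⟩
  have hY2 : 0 < 2 * Y := by positivity
  have hs := summable_Om' hY2
  have hs2 : Summable (fun d : O => if d = 0 then 0 else Om (N d / (2 * Y))) :=
    Summable.of_nonneg_of_le (fun d => by split_ifs; exacts [le_rfl, (Om_pos _).le])
      (fun d => by split_ifs; exacts [(Om_pos _).le, le_rfl]) hs
  have h1 : ∑' y : O, N y * Om (N y / Y) ≤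
      ∑' y : O, 2 * Y * (if y = 0 then 0 else Om (N y / (2 * Y))) := by
    refine Summable.tsum_le_tsum (fun y => ?_) (by simpa using summable_Om hY 1) (hs2.mul_left _)
    split_ifs with h
    · simp [h]
    · have hN := N_pos h
      have e : Om (N y / Y) = Om (N y / (2 * Y)) * Om (N y / (2 * Y)) := by
        unfold Om
        rw [← Real.exp_add]
        congr 1
        field_simp
        ring
      have h2 := Om_le_pow 1 (div_pos hN hY2)
      simp only [Nat.factorial_one, Nat.cast_one, pow_one, one_mul, inv_div] at h2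
      rw [le_div_iff₀ hN] at h2
      rw [e, ← mul_assoc]
      exact mul_le_mul_of_nonneg_right (by linarith) (Om_pos _).le
  rw [tsum_mul_left] at h1
  have := mul_le_mul_of_nonneg_left (hC _ hY2) hY2.le
  linarith

theorem two_dvd_iff (x : O) : (2 : O) ∣ x ↔ (2 : ℤ) ∣ x.re ∧ (2 : ℤ) ∣ x.im := by
  have h2 : (2 : O) = ⟨2, 0⟩ := rfl
  constructor
  · rintro ⟨y, rfl⟩
    rw [h2]
    simp
  · rintro ⟨⟨a, ha⟩, ⟨b, hb⟩⟩
    refine ⟨⟨a, b⟩, ?_⟩
    rw [h2]
    ext <;> simp [ha, hb]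

/-- the dual phase -/
def psi (n y : O) : ℂ := ee (-(toC (n * y ^ 2)) / 4)

theorem psi_per (n : O) : Per 2 (psi n) := by
  intro x t
  unfold psi
  have e : -(toC (n * (x + 2 * t) ^ 2)) / 4 =
      -(toC (n * x ^ 2)) / 4 + toC (-(n * (x * t + t ^ 2))) := by
    simp only [map_mul, map_pow, map_add, map_neg, map_ofNat]
    ring
  rw [e, ee_add, ee_toC, mul_one]

theorem sum_psi (n : O) : ∑ y ∈ res 2, psi n y = 2 * gam n := by
  have h2 : (2 : O) ≠ 0 := two_ne_zero
  have ho : om ^ 2 = (⟨-1, -1⟩ : O) := by decide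
  rw [← sum_res_eq h2 (psi_per n) {0, 1, om, om ^ 2}]
  · unfold gam psi
    ring
  · intro x
    simp only [Finset.mem_insert, Finset.mem_singleton, exists_eq_or_imp, exists_eq_left, two_dvd_iff,
      ho]
    simp only [om, QuadraticAlgebra.re_sub, QuadraticAlgebra.im_sub, QuadraticAlgebra.re_zero,
      QuadraticAlgebra.im_zero, QuadraticAlgebra.re_one, QuadraticAlgebra.im_one]
    omega
  · intro x hx y hy
    simp only [Finset.mem_insert, Finset.mem_singleton, ho] at hx hy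
    rw [two_dvd_iff]
    rcases hx with rfl | rfl | rfl | rfl <;> rcases hy with rfl | rfl | rfl | rfl <;> decide

theorem psi_eq (n y : O) : psi n y = cexp (-(2 * π * ((n * y ^ 2).im * (4⁻¹ : ℝ)) * I)) := by
  have h := ee_toC_mul (n * y ^ 2) (-4⁻¹)
  unfold psi
  rw [show -(toC (n * y ^ 2)) / 4 = toC (n * y ^ 2) * ((-4⁻¹ : ℝ) : ℂ) by push_cast; ring, h]
  congr 1
  push_cast
  ring

theorem abs_im_le {n : O} (hn : n ≠ 0) (y : O) : |((n * y ^ 2).im : ℝ)| ≤ 2 * N n * N y := by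
  have h1 := N_eq (n * y ^ 2)
  rw [N_mul, N_pow] at h1
  have h2 := one_le_N hn
  have h3 := N_nonneg y
  apply abs_le_of_sq_le_sq' _ (by positivity) |> abs_le.2
  have h4 : N n * N y ^ 2 ≤ N n ^ 2 * N y ^ 2 :=
    mul_le_mul_of_nonneg_right (by nlinarith) (sq_nonneg _)
  nlinarith [sq_nonneg (2 * ((n * y ^ 2).re : ℝ) - (n * y ^ 2).im), sq_nonneg ((n * y ^ 2).im : ℝ)]

theorem phase_le (q u v : ℝ) :
    ‖cexp (-(2 * π * (q * u) * I)) - cexp (-(2 * π * (q * v) * I))‖ ≤ 2 * π * |q| * |u - v| := by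
  have e : cexp (-(2 * π * (q * u) * I)) - cexp (-(2 * π * (q * v) * I)) =
      cexp (I * ((-(2 * π * q * v) : ℝ) : ℂ)) * (cexp (I * ((-(2 * π * q * (u - v)) : ℝ) : ℂ)) - 1) := by
    rw [mul_sub, mul_one, ← Complex.exp_add]
    congr 2 <;> push_cast <;> ring
  rw [e, norm_mul, norm_exp_I_mul_ofReal, one_mul]
  refine Real.norm_exp_I_mul_ofReal_sub_one_le.trans (le_of_eq ?_)
  rw [Real.norm_eq_abs, abs_neg, abs_mul, abs_mul, abs_of_pos Real.two_pi_pos]

theorem dual_lim {n : O} (hn : n ≠ 0) :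
    Tendsto (fun X : ℝ => ((X * DD n X : ℝ) : ℂ)⁻¹ *
      ∑' y : O, cexp (-(2 * π * ((n * y ^ 2).im * ((N n * DD n X)⁻¹ : ℝ)) * I)) *
        (Om (N y / (X * DD n X)) : ℂ)) atTop (𝓝 (2⁻¹ * gam n)) := by
  have hM := N_pos hn
  have hY : Tendsto (fun X : ℝ => X * DD n X) atTop atTop := by
    refine tendsto_atTop_mono' _ ?_ (tendsto_id.atTop_mul_const (show 0 < 4 / N n by positivity))
    filter_upwards [eventually_gt_atTop 0] with X hX
    refine mul_le_mul_of_nonneg_left ?_ hX.le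
    unfold DD
    have := sq_nonneg (c0 / (π * X))
    linarith
  have h1 := (mean (q := 2) two_ne_zero (psi_per n)).comp hY
  have hN2 : N 2 = 4 := by
    have : nm 2 = 4 := by decide
    simp [N, this]
  rw [sum_psi, hN2] at h1
  have e : ((4 : ℝ) : ℂ)⁻¹ * (2 * gam n) = 2⁻¹ * gam n := by push_cast; ring
  rw [e] at h1
  refine h1.congr_dist ?_
  obtain ⟨C, hC⟩ := tsum_N_Om
  refine squeeze_zero' (Eventually.of_forall fun _ => dist_nonneg)
    (g := fun X : ℝ => (π * N n * C * (3 / 4 * (c0 / π) ^ 2)) * X⁻¹) ?_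
    (by
      have := (tendsto_inv_atTop_zero (𝕜 := ℝ)).const_mul (π * N n * C * (3 / 4 * (c0 / π) ^ 2))
      rwa [mul_zero] at this)
  filter_upwards [eventually_gt_atTop 0] with X hX
  have hD := DD_pos hn X
  have hY0 : 0 < X * DD n X := mul_pos hX hD
  have hpi := Real.pi_pos
  set Y := X * DD n X with hYdef
  set η := 3 / 4 * (c0 / (π * X)) ^ 2 / (4 * DD n X) with hη
  have hη0 : 0 ≤ η := by positivity
  have hηe : |(4⁻¹ : ℝ) - (N n * DD n X)⁻¹| = η := by
    have : (4⁻¹ : ℝ) - (N n * DD n X)⁻¹ = η := by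
      rw [hη]
      have e : 3 / 4 * (c0 / (π * X)) ^ 2 = DD n X - 4 / N n := by unfold DD; ring
      rw [e]
      field_simp
    rw [this, abs_of_nonneg hη0]
  have hs := summable_Om' hY0
  have hb : ∀ (u : ℝ), Summable (fun y : O =>
      cexp (-(2 * π * ((n * y ^ 2).im * u) * I)) * (Om (N y / Y) : ℂ)) := fun u =>
    Summable.of_norm_bounded hs fun y => by
      rw [norm_mul, norm_Om, show -(2 * π * ((n * y ^ 2).im * u) * I : ℂ) =
        I * ((-(2 * π * (n * y ^ 2).im * u) : ℝ) : ℂ) by push_cast; ring, norm_exp_I_mul_ofReal,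
        one_mul]
  simp only [Function.comp_apply, psi_eq]
  rw [dist_eq_norm, ← mul_sub, ← (hb _).tsum_sub (hb _), norm_mul, norm_inv, Complex.norm_real,
    Real.norm_of_nonneg hY0.le]
  have hs1 : Summable (fun y : O => N y * Om (N y / Y)) := by simpa using summable_Om hY0 1
  have h2 := tsum_of_norm_bounded (hs1.mul_left (4 * π * N n * η)).hasSum
    (f := fun y : O => cexp (-(2 * π * ((n * y ^ 2).im * (4⁻¹ : ℝ)) * I)) * (Om (N y / Y) : ℂ) -
      cexp (-(2 * π * ((n * y ^ 2).im * ((N n * DD n X)⁻¹ : ℝ)) * I)) * (Om (N y / Y) : ℂ))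
    fun y => by
      rw [← sub_mul, norm_mul, norm_Om, ← mul_assoc (4 * π * N n * η)]
      refine mul_le_mul_of_nonneg_right ?_ (Om_pos _).le
      have a1 := phase_le ((n * y ^ 2).im : ℝ) 4⁻¹ (N n * DD n X)⁻¹
      rw [hηe, ofReal_intCast] at a1
      have a2 := mul_le_mul_of_nonneg_left (abs_im_le hn y) (show 0 ≤ 2 * π * η by positivity)
      linarith
  rw [tsum_mul_left] at h2
  have h3 := mul_le_mul_of_nonneg_left (hC Y hY0) (show 0 ≤ 4 * π * N n * η by positivity)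
  refine (mul_le_mul_of_nonneg_left (h2.trans h3) (inv_pos.2 hY0).le).trans (le_of_eq ?_)
  rw [hη, hYdef]
  field_simp

end LS

open Filter Topology in
/-- Landsberg–Schaar -/
theorem gauss_sq {n : O} (hn : IsCoprime n 2) :
    ∑ x ∈ res n, ad n (x ^ 2) = (Real.sqrt (N n) : ℂ) * gam n := by
  have hn0 : n ≠ 0 := by
    rintro rfl
    exact prime_two.not_isUnit (isCoprime_zero_left.1 hn)
  have hM := N_pos hn0
  have hper : Per n (fun x => ad n (x ^ 2)) := by
    intro x t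
    have e : (x + n * t) ^ 2 = x ^ 2 + n * (2 * x * t + n * t ^ 2) := by ring
    simp only
    rw [e, ad_add, ad_of_dvd (Dvd.intro _ rfl), mul_one]
  have h1 := LS.mean hn0 hper
  have hD : Tendsto (fun X : ℝ => LS.DD n X) atTop (𝓝 (4 / N n)) := by
    have a1 : Tendsto (fun X : ℝ => c0 / (Real.pi * X)) atTop (𝓝 0) :=
      tendsto_const_nhds.div_atTop (tendsto_id.const_mul_atTop Real.pi_pos)
    have a2 := ((a1.pow 2).const_mul (3 / 4)).add_const (4 / N n)
    simpa [LS.DD] using a2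
  have h2 : Tendsto (fun X : ℝ => ((√(LS.DD n X) : ℝ) : ℂ)) atTop (𝓝 ((√(4 / N n) : ℝ) : ℂ)) :=
    (Complex.continuous_ofReal.tendsto _).comp hD.sqrt
  have h3 := h2.mul (LS.dual_lim hn0)
  have h4 := tendsto_nhds_unique h1 (h3.congr' (by
    filter_upwards [eventually_gt_atTop 0] with X hX
    rw [LS.exact_id hn0 hX, ← mul_assoc, ← mul_assoc]
    congr 1
    have hD0 := LS.DD_pos hn0 X
    have b1 : ((√(LS.DD n X) : ℝ) : ℂ) ≠ 0 := Complex.ofReal_ne_zero.2 (Real.sqrt_pos.2 hD0).ne'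
    have b2 : (X : ℂ) ≠ 0 := Complex.ofReal_ne_zero.2 hX.ne'
    have b3 : ((LS.DD n X : ℝ) : ℂ) = ((√(LS.DD n X) : ℝ) : ℂ) * ((√(LS.DD n X) : ℝ) : ℂ) := by
      rw [← Complex.ofReal_mul, Real.mul_self_sqrt hD0.le]
    rw [Complex.ofReal_mul, b3]
    field_simp))
  have b1 : ((√(N n) : ℝ) : ℂ) ≠ 0 := Complex.ofReal_ne_zero.2 (Real.sqrt_pos.2 hM).ne'
  have b3 : ((N n : ℝ) : ℂ) = ((√(N n) : ℝ) : ℂ) * ((√(N n) : ℝ) : ℂ) := by
    rw [← Complex.ofReal_mul, Real.mul_self_sqrt hM.le]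
  have b4 : √(4 / N n) = 2 / √(N n) := by
    rw [Real.sqrt_div (by norm_num), show (4 : ℝ) = 2 ^ 2 by norm_num, Real.sqrt_sq (by norm_num)]
  rw [b4, b3] at h4
  push_cast at h4
  field_simp at h4
  rw [h4]

end Crest.Agent.R17
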