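import Crest.Agent.R17.RecLS

/-!
# R17 / Recip : reciprocity laws, supplements, the key identity

## Cubic reciprocity
For a primary prime `p` (`q = nm p`), `χ = (·/p)_3`, `g = gs p χ 1`: `g³ = q · J(χ,χ)`
(`gaussSum_pow_eq_prod_jacobiSum`, `χ(-1) = 1`) and `J(χ,χ) = -toC p`:  `J ∈ toC(O)`,
`J ≡ -1 mod 3` (Mathlib `exists_jacobiSum_eq_neg_one_add`), `|J|² = q`, and `p ∣ J` because
`J ≡ ∑_x x^{(q-1)/3} (1-x)^{(q-1)/3} ≡ 0` in `O/p` (power sums of degree `< q-1` vanish); so
`J = u p` with a unit `u`, and `-J` primary gives `-J = p`.  So `g³ = -q p = -p² p̄`.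
For primary primes `p, p'` with `p' ∤ q`: work in the ring of algebraic integers generated by `g`
(or in any finite field `F' ⊇ O/p'` containing the `ℓ`-th roots of unity, `ℓ = char O/p`, using
Mathlib `gaussSum_frob`/`MulChar.IsQuadratic`-style Frobenius argument): `g^{q'} = χ̄(q') g` because
`q' ≡ 1 mod 3`, so `(g³)^{(q'-1)/3} ≡ χ̄_p(q')`, i.e. `(p² p̄ / p')_3 = (q'/p)_3^{-1}`.
Write `[a,b] = (a/b)_3`.  Then `[p,p']² [p̄,p'] = [p',p]² [p̄',p]²`; applying this also to
`(p̄, p')`, `(p', p)` and using `sym_star` gives `[p,p'] = [p',p]` (Ireland–Rosen 9.4; cases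
split/split with different norms, split/inert, inert/inert — a rational integer is a cube modulo an
inert prime `-ℓ` since `ℓ - 1 ∣ (ℓ²-1)/3` — and `p' = p̄`: with the rational primary
`m = -(p + p̄)` (coprime to `p p̄`): `[p̄,p] = [m,p] = [p,m] = [p̄,m] = [m,p̄] = [p,p̄]` using the cases
already proved and `p̄ ≡ -p mod m`; any correct route is fine).
## λ-supplement by the rational trick
It suffices to show `d ≡ 1 mod 9 ⇒ (λ/d)_3 = 1`.  `d = 1 + 9x`; if `x = u λ^j x₁` (`x₁` primary) then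
`(x₁/d) = (d/x₁) = 1`, `(u/d) = 1` (`cub_om`, `N d ≡ 1 mod 9`), `(−9x/d) = 1` and `9 = λ⁴` give
`(λ/d)^{4+j} = 1`, which suffices unless `j ≡ 2 mod 3`; in that case (`27 ∣ d - 1`) apply the result to
`10` and to `10 d = 1 + 9(1 + 10 x)` (both have `j = 0`).
## Landsberg–Schaar
For `n` coprime to `2`: `∑_{x mod n} ee(x²/n) = √N(n) · gam n`.  Compute
`S(X) = ∑_{x ∈ O} ee(x²/n) Om(N x / X)` as `X → ∞` in two ways: splitting into classes mod `n`
(`poisson_gauss`-type asymptotics) `S(X) ~ X N(n)⁻¹ ∑_{x mod n} ee(x²/n)`; by the two-dimensional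
theta transformation (apply Mathlib's `Complex.tsum_exp_neg_quadratic` twice in the coordinates
`x = a + bω`; the real quadratic form `x ↦ (2/√3) Im(x²/n)` has signature `(1,1)`, so the determinant
factor tends to a positive real) the sum becomes `√N(n)/2 · ∑_{y} ee(-n y²/4) · exp(-c |y|²N(n)/(4X)+o)`,
whose leading term is `X N(n)^{-1/2} · (1/2) ∑_{y mod 2} ee(-n y²/4)`.
Any other correct proof of `gauss_sq` is welcome.
## Quadratic reciprocity
For distinct odd primes `G(pp') = G(p;p') G(p';p) = (p'/p)(p/p') G(p) G(p')` with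
`G(n;a) = ∑ ee(a x²/n)`; so `(p'/p)(p/p') = sg p p'`; extend by bimultiplicativity of `sg` (finite
check modulo `4`: the values of `gam` on the 12 odd classes are in `{±1, ±i}`).
`(−1/n) = gam n ²`; `(2/n)_2` is periodic mod `8` by the rational trick (`n = 1 + 8x`, auxiliary `9`).
-/

set_option autoImplicit false

noncomputable section

open scoped Classical ComplexConjugate

namespace Crest.Agent.R17

theorem rq_ne_zero {n : O} (hn : IsCoprime n 2) : n ≠ 0 := by
  rintro rfl
  exact prime_two.not_isUnit (isCoprime_zero_left.1 hn)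

theorem rq_isChar {n : O} (hn : IsCoprime n 2) : IsChar n (qua n) :=
  sym_isChar (Or.inl rfl) (by exact_mod_cast hn)

theorem rq_sq {n : O} (hn : IsCoprime n 2) (d : O) :
    qua n d * qua n d = if IsCoprime d n then 1 else 0 := by
  rw [← sq]
  exact sym_pow_eq (Or.inl rfl) (by exact_mod_cast hn) d

theorem rq_mul_left {a b : O} (ha : a ≠ 0) (hb : b ≠ 0) (d : O) :
    qua (a * b) d = qua a d * qua b d := sym_mul_left 2 ha hb d

theorem rq_unit {u : O} (hu : IsUnit u) (d : O) : qua u d = 1 := sym_unit 2 hu d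

theorem rq_nonPrinc {p : O} (hp : Prime p) (h2 : IsCoprime p 2) : NonPrinc p (qua p) := by
  have h3 : ¬ p ∣ ((2 : ℕ) : O) := by exact_mod_cast hp.coprime_iff_not_dvd.1 h2
  obtain ⟨d, hd⟩ := symP_surj (k := 2) (Or.inl rfl) hp h3 (u := -1) (by norm_num)
  have h4 : qua p d = -1 := by rw [qua, sym_prime 2 hp, hd]; simp
  refine ⟨d, ?_, by rw [h4]; norm_num⟩
  by_contra h
  have := ((rq_isChar h2).zero_iff d).2 h
  rw [h4] at this
  norm_num at this

/-- the number of square roots modulo a prime -/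
theorem rq_count {p : O} (hp : Prime p) (h2 : IsCoprime p 2) {f : O → ℂ} (hf : Per p f) :
    ∑ x ∈ res p, f (x ^ 2) = ∑ y ∈ res p, (1 + qua p y) * f y := by
  have hp0 := hp.ne_zero
  have hχ := rq_isChar h2
  set r : O → ℕ := fun y => ((res p).filter fun x => p ∣ x ^ 2 - y).card with hr
  have key : ∀ g : O → ℂ, Per p g → ∑ x ∈ res p, g (x ^ 2) = ∑ y ∈ res p, (r y : ℂ) * g y := by
    intro g hg
    have h1 : ∀ x, g (x ^ 2) = ∑ y ∈ res p, if p ∣ x ^ 2 - y then g y else 0 := by
      intro x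
      obtain ⟨y0, hy0, hd⟩ := exists_res hp0 (x ^ 2)
      rw [Finset.sum_eq_single_of_mem y0 hy0, if_pos hd, hg.congr hd]
      intro y hy hne
      refine if_neg fun h => hne (res_inj hp0 hy hy0 ?_)
      have := dvd_sub hd h
      rwa [sub_sub_sub_cancel_left] at this
    simp only [h1]
    rw [Finset.sum_comm]
    refine Finset.sum_congr rfl fun y _ => ?_
    rw [← Finset.sum_filter, Finset.sum_const, nsmul_eq_mul]
  have hreal : ∀ y, qua p y = ((qua p y).re : ℂ) := fun y =>
    (Complex.conj_eq_iff_re.1 (conj_qua h2 y)).symm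
  have hle : ∀ y ∈ res p, (r y : ℝ) ≤ 1 + (qua p y).re := by
    intro y _
    rcases ((res p).filter fun x => p ∣ x ^ 2 - y).eq_empty_or_nonempty with h | ⟨x0, hx0⟩
    · have h1 : r y = 0 := by rw [hr]; simp only; rw [h, Finset.card_empty]
      have h3 := (Complex.abs_re_le_norm (qua p y)).trans (hχ.norm_le hp0 y)
      rw [h1, Nat.cast_zero]
      linarith [(abs_le.1 h3).1]
    · obtain ⟨hx0r, hx0d⟩ := Finset.mem_filter.1 hx0
      have h1 : qua p y = if IsCoprime x0 p then 1 else 0 := by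
        rw [← hχ.per.congr hx0d, sq, hχ.mul, rq_sq h2]
      have hfac : ∀ x, p ∣ x ^ 2 - y → p ∣ x - x0 ∨ p ∣ x + x0 := by
        intro x hx
        refine hp.dvd_or_dvd ?_
        have := dvd_sub hx hx0d
        convert this using 1; ring
      rw [h1]
      split_ifs with hc
      · obtain ⟨x1, hx1, hd1⟩ := exists_res hp0 (-x0)
        have h3 : ((res p).filter fun x => p ∣ x ^ 2 - y) ⊆ {x0, x1} := by
          intro x hx
          obtain ⟨hxr, hxd⟩ := Finset.mem_filter.1 hx
          rw [Finset.mem_insert, Finset.mem_singleton]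
          refine (hfac x hxd).imp (res_inj hp0 hxr hx0r) fun h => res_inj hp0 hxr hx1 ?_
          have := dvd_add h hd1
          convert this using 1; ring
        have h4 : r y ≤ 2 := (Finset.card_le_card h3).trans Finset.card_le_two
        have h5 : (r y : ℝ) ≤ 2 := by exact_mod_cast h4
        simp only [Complex.one_re]
        linarith
      · have hd0 : p ∣ x0 := by
          by_contra h
          exact hc (hp.coprime_iff_not_dvd.2 h).symm
        have h3 : ((res p).filter fun x => p ∣ x ^ 2 - y) ⊆ {x0} := by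
          intro x hx
          obtain ⟨hxr, hxd⟩ := Finset.mem_filter.1 hx
          rw [Finset.mem_singleton]
          refine res_inj hp0 hxr hx0r ((hfac x hxd).elim id fun h => ?_)
          have := dvd_sub h (hd0.mul_left 2)
          convert this using 1; ring
        have h4 : r y ≤ 1 := (Finset.card_le_card h3).trans (by simp)
        have h5 : (r y : ℝ) ≤ 1 := by exact_mod_cast h4
        simpa using h5
  have hsum : ∑ y ∈ res p, (r y : ℝ) = ∑ y ∈ res p, (1 + (qua p y).re) := by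
    have h1 := key (fun _ => 1) (fun _ _ => rfl)
    have h3 := hχ.sum_eq_zero hp0 (rq_nonPrinc hp h2)
    have h4 : ∑ y ∈ res p, (r y : ℂ) = ∑ y ∈ res p, (1 + qua p y) := by
      rw [Finset.sum_add_distrib, h3, add_zero, h1]
      simp only [mul_one]
    have h5 := congrArg Complex.re h4
    simpa only [Complex.re_sum, Complex.natCast_re, Complex.add_re, Complex.one_re] using h5
  have heq := (Finset.sum_eq_sum_iff_of_le hle).1 hsum
  rw [key f hf]
  refine Finset.sum_congr rfl fun y hy => ?_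
  rw [hreal y]
  have h1 := congrArg (fun t : ℝ => (t : ℂ)) (heq y hy)
  simp only [Complex.ofReal_natCast, Complex.ofReal_add, Complex.ofReal_one] at h1
  rw [h1]

theorem rq_prime_sum {p : O} (hp : Prime p) (h2 : IsCoprime p 2) {c : O} (hc : ¬ p ∣ c) :
    ∑ x ∈ res p, ad p (c * x ^ 2) = gs p (qua p) c := by
  rw [rq_count hp h2 (ad_per p c), gs]
  simp only [add_mul, one_mul]
  rw [Finset.sum_add_distrib, sum_ad hp.ne_zero, if_neg hc, zero_add]

theorem rq_gs_prime {p : O} (hp : Prime p) (h2 : IsCoprime p 2) (k : O) :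
    gs p (qua p) k = qua p k * (Real.sqrt (N p) : ℂ) * gam p := by
  have h1 := rq_prime_sum hp h2 (c := 1) hp.not_dvd_one
  simp only [one_mul] at h1
  rw [gs_prime_nonprinc hp (rq_isChar h2) (rq_nonPrinc hp h2), conj_qua h2, ← h1, gauss_sq h2,
    mul_assoc]

theorem rq_G {a : O} (ha : IsUnit a ∨ Prime a) (h2 : IsCoprime a 2) {c : O} (hc : IsCoprime a c) :
    ∑ x ∈ res a, ad a (c * x ^ 2) = qua a c * (Real.sqrt (N a) : ℂ) * gam a := by
  rcases ha with ha | ha
  · rw [rq_unit ha, one_mul, ← gauss_sq h2]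
    exact Finset.sum_congr rfl fun x _ => by rw [ad_of_dvd ha.dvd, ad_of_dvd ha.dvd]
  · rw [rq_prime_sum ha h2 (ha.coprime_iff_not_dvd.1 hc), rq_gs_prime ha h2]

theorem rq_gam_conj {a : O} (ha : IsCoprime a 2) : gam a * conj (gam a) = 1 := by
  rw [Complex.mul_conj', norm_gam ha]; simp

theorem rq_sqrt_mul (a b : O) :
    (Real.sqrt (N (a * b)) : ℂ) = (Real.sqrt (N a) : ℂ) * (Real.sqrt (N b) : ℂ) := by
  rw [N_mul, Real.sqrt_mul (N_nonneg a), Complex.ofReal_mul]

theorem rq_rec0 {a b : O} (ha : IsUnit a ∨ Prime a) (hb : IsUnit b ∨ Prime b) (ha2 : IsCoprime a 2)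
    (hb2 : IsCoprime b 2) : qua a b = sg a b * qua b a := by
  by_cases hab : IsCoprime a b
  swap
  · rw [((rq_isChar ha2).zero_iff b).2 fun h => hab h.symm, ((rq_isChar hb2).zero_iff a).2 hab,
      mul_zero]
  have ha0 := rq_ne_zero ha2
  have hb0 := rq_ne_zero hb2
  have h1 := gauss_sq (ha2.mul_left hb2)
  have hper : Per (a * b) fun x => ad (a * b) (x ^ 2) := fun x t => by
    have e : (x + a * b * t) ^ 2 = x ^ 2 + a * b * (2 * x * t + a * b * t ^ 2) := by ring
    simp only
    rw [e, ad_add, ad_of_dvd (dvd_mul_right _ _), mul_one]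
  rw [sum_res_crt ha0 hb0 hab hper] at h1
  have h2 : ∀ x1 x2 : O, ad (a * b) ((x1 * b + x2 * a) ^ 2) =
      ad a (b * x1 ^ 2) * ad b (a * x2 ^ 2) := by
    intro x1 x2
    have e : (x1 * b + x2 * a) ^ 2 = b * (b * x1 ^ 2) + a * (a * x2 ^ 2) + a * b * (2 * x1 * x2) := by
      ring
    rw [e, ad_add, ad_add, ad_of_dvd (dvd_mul_right (a * b) _), mul_one, ad_mul_cancel ha0,
      mul_comm a b, ad_mul_cancel hb0]
  simp only [h2] at h1
  rw [← Finset.sum_mul_sum, rq_G ha ha2 hab, rq_G hb hb2 hab.symm, rq_sqrt_mul] at h1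
  have hs : (Real.sqrt (N a) : ℂ) * (Real.sqrt (N b) : ℂ) ≠ 0 :=
    mul_ne_zero (Complex.ofReal_ne_zero.2 (Real.sqrt_pos.2 (N_pos ha0)).ne')
      (Complex.ofReal_ne_zero.2 (Real.sqrt_pos.2 (N_pos hb0)).ne')
  have h3 : gam (a * b) = qua a b * qua b a * gam a * gam b := by
    refine mul_left_cancel₀ hs ?_
    linear_combination -h1
  have h4 := rq_sq hb2 a
  rw [if_pos hab] at h4
  have h5 := rq_gam_conj ha2
  have h6 := rq_gam_conj hb2
  rw [sg, h3]
  calc qua a b = qua a b * (qua b a * qua b a) * (gam a * conj (gam a)) * (gam b * conj (gam b)) := by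
        rw [h4, h5, h6]; ring
    _ = _ := by ring

theorem rq_ext {b : O} (hb : IsCoprime b 2)
    (H : ∀ p, IsUnit p ∨ Prime p → IsCoprime p 2 → qua p b = sg p b * qua b p) (a : O) :
    IsCoprime a 2 → qua a b = sg a b * qua b a := by
  induction a using UniqueFactorizationMonoid.induction_on_prime with
  | h₁ => exact fun h => absurd rfl (rq_ne_zero h)
  | h₂ u hu => exact H u (Or.inl hu)
  | h₃ a p ha hp ih =>
    intro h
    rw [rq_mul_left hp.ne_zero ha, sg_mul_left h.of_mul_left_left h.of_mul_left_right hb,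
      (rq_isChar hb).mul, H p (Or.inr hp) h.of_mul_left_left, ih h.of_mul_left_right]
    ring

theorem rq_symm {a b : O} (ha : IsCoprime a 2) (hb : IsCoprime b 2)
    (h : qua a b = sg a b * qua b a) : qua b a = sg b a * qua a b := by
  rw [h, sg_comm b a, ← mul_assoc, sg_sq ha hb, one_mul]

theorem rq_rec {a b : O} (ha : IsCoprime a 2) (hb : IsCoprime b 2) :
    qua a b = sg a b * qua b a :=
  rq_ext hb (fun _ hp hp2 =>
    rq_symm hb hp2 (rq_ext hp2 (fun _ hq hq2 => rq_rec0 hq hp hq2 hp2) b hb)) a ha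

theorem gs_qua {n : O} (hn : IsCoprime n 2) (hs : Squarefree n) (k : O) :
    gs n (qua n) k = qua n k * (Real.sqrt (N n) : ℂ) * gam n := by
  induction n using UniqueFactorizationMonoid.induction_on_prime with
  | h₁ => exact absurd rfl (rq_ne_zero hn)
  | h₂ u hu =>
    rw [rq_unit hu, one_mul, ← gauss_sq hn, gs]
    exact Finset.sum_congr rfl fun x _ => by
      rw [rq_unit hu, one_mul, ad_of_dvd hu.dvd, ad_of_dvd hu.dvd]
  | h₃ a p ha hp ih =>
    have hp2 := hn.of_mul_left_left
    have ha2 := hn.of_mul_left_right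
    have hc : IsCoprime p a := (squarefree_mul_iff.1 hs).1.isCoprime
    have e : qua (p * a) = fun x => qua p x * qua a x := funext fun x => rq_mul_left hp.ne_zero ha x
    have h4 := rq_sq ha2 p
    rw [if_pos hc] at h4
    rw [e, gs_mul hp.ne_zero ha hc (rq_isChar hp2) (rq_isChar ha2), rq_gs_prime hp hp2,
      ih ha2 hs.of_mul_right, rq_sqrt_mul, gam_mul hp2 ha2, rq_rec hp2 ha2]
    simp only
    rw [mul_assoc (sg p a), h4]
    ring

theorem qua_rec {a b : O} (ha : IsCoprime a 2) (hb : IsCoprime b 2) :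
    qua a b = sg a b * qua b a := rq_rec ha hb

theorem rq_gam_neg (n : O) : gam (-n) = conj (gam n) := by
  unfold gam
  rw [map_mul, map_sum]
  congr 1
  · simp [map_ofNat]
  · refine Finset.sum_congr rfl fun y _ => ?_
    rw [← ee_neg, neg_mul, map_neg]
    congr 1; ring

theorem qua_neg_one {n : O} (hn : IsCoprime n 2) : qua n (-1) = gam n ^ 2 := by
  have h1 : IsCoprime (-1 : O) 2 := isCoprime_one_left.neg_left
  rw [rq_rec hn h1, rq_unit isUnit_one.neg, mul_one, ← conj_sg hn h1, sg, mul_neg_one, rq_gam_neg,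
    rq_gam_neg, gam_one]
  simp only [map_mul, Complex.conj_conj, map_one, mul_one]
  ring

theorem rq_one_add {x : O} : IsCoprime (1 + 8 * x) 2 := ⟨1, -4 * x, by ring⟩

theorem rq_two_odd {x : O} (hx : IsCoprime x 2) : qua (1 + 8 * x) 2 = 1 := by
  have hd : IsCoprime (1 + 8 * x) 2 := rq_one_add
  have hχ := rq_isChar hd
  have e4 : 1 + 8 * x = 1 + 4 * (2 * x) := by ring
  have h1 : qua (1 + 8 * x) (-1 * (2 * 2) * 2 * x) = 1 := by
    rw [hχ.per.congr (y := 1) ⟨-1, by ring⟩, hχ.one]
  have h2 : qua (1 + 8 * x) (-1) = 1 := by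
    rw [qua_neg_one hd, e4, gam_per, gam_one, one_pow]
  have h3 : qua (1 + 8 * x) x = 1 := by
    have h4 := sg_per x 1 (2 * x)
    simp only at h4
    rw [rq_rec hd hx, (rq_isChar hx).per.congr (y := 1) ⟨8, by ring⟩, (rq_isChar hx).one, e4, h4,
      sg_one x hx, one_mul]
  have h5 := rq_sq hd 2
  rw [if_pos hd.symm] at h5
  rw [hχ.mul, hχ.mul, hχ.mul, hχ.mul, h2, h3, h5] at h1
  simpa using h1

theorem rq_two (x : O) : qua (1 + 8 * x) 2 = 1 := by
  rcases prime_two.irreducible.isCoprime_or_dvd x with h | ⟨y, rfl⟩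
  · exact rq_two_odd h.symm
  · have h1 := rq_two_odd (x := 1 + 18 * y) ⟨1, -9 * y, by ring⟩
    have h2 := rq_two_odd (x := 1) isCoprime_one_left
    have e : 1 + 8 * (1 + 18 * y) = (1 + 8 * 1) * (1 + 8 * (2 * y)) := by ring
    rwa [e, rq_mul_left (rq_ne_zero rq_one_add) (rq_ne_zero rq_one_add), h2, one_mul] at h1

theorem qua_two_congr {n n' : O} (hn : IsCoprime n 2) (h : (8 : O) ∣ n - n') :
    qua n 2 = qua n' 2 := by
  have h8 : IsCoprime n 8 := by
    have := hn.pow_right (n := 3)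
    norm_num at this
    exact this
  obtain ⟨m, t, hmt⟩ := h8
  obtain ⟨w, hw⟩ := h
  have e1 : n * m = 1 + 8 * (-t) := by linear_combination hmt
  have e2 : n' * m = 1 + 8 * (-t - w * m) := by linear_combination hmt - m * hw
  have c1 : IsCoprime (n * m) 2 := e1 ▸ rq_one_add
  have c2 : IsCoprime (n' * m) 2 := e2 ▸ rq_one_add
  have hm := c1.of_mul_left_right
  have h1 := rq_two (-t)
  have h2 := rq_two (-t - w * m)
  rw [← e1, rq_mul_left (rq_ne_zero hn) (rq_ne_zero hm)] at h1
  rw [← e2, rq_mul_left (rq_ne_zero c2.of_mul_left_left) (rq_ne_zero hm)] at h2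
  exact mul_right_cancel₀ (right_ne_zero_of_mul_eq_one h1) (h1.trans h2.symm)

end Crest.Agent.R17
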