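import Crest.Agent.R17.RecKub
import Crest.Agent.R17.RecQua

/-!
# R17 / Recip : reciprocity laws, supplements, the key identity

## Cubic reciprocity
For a primary prime `p` (`q = nm p`), `χ = (·/p)_3`, `g = gs p χ 1`: `g³ = q · J(χ,χ)`
(`gaussSum_pow_eq_prod_jacobiSum`, `χ(-1) = 1`) and `J(χ,χ) = -toC p`:  `J ∈ toC(O)`,
`J ≡ -1 mod 3` (Mathlib `exists_jacobiSum_eq_neg_one_add`), `|J|² = q`, and `p ∣ J` because
`J ≡ ∑_x x^{(q-1)/3} (1-x)^{(q-1)/3} ≡ 0` in `O/p` (power sums of degree `< q-1` vanish); so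
`J = u p` with a unit `u`, and `-J` primary gives `-J = p`.  So `g³ = -q p = -p² p̄`.
For primary primes `p, p'` with `p' ∤ q`: work in the ring of algebraic integers generated by `g`
(or in any finite field `F' ⊇ O/p'` containing the `ℓ`-th roots of unity, `ℓ = char O/p`, using
Mathlib `gaussSum_frob`/`MulChar.IsQuadratic`-style Frobenius argument): `g^{q'} = χ̄(q') g` because
`q' ≡ 1 mod 3`, so `(g³)^{(q'-1)/3} ≡ χ̄_p(q')`, i.e. `(p² p̄ / p')_3 = (q'/p)_3^{-1}`.
Write `[a,b] = (a/b)_3`.  Then `[p,p']² [p̄,p'] = [p',p]² [p̄',p]²`; applying this also to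
`(p̄, p')`, `(p', p)` and using `sym_star` gives `[p,p'] = [p',p]` (Ireland–Rosen 9.4; cases
split/split with different norms, split/inert, inert/inert — a rational integer is a cube modulo an
inert prime `-ℓ` since `ℓ - 1 ∣ (ℓ²-1)/3` — and `p' = p̄`: with the rational primary
`m = -(p + p̄)` (coprime to `p p̄`): `[p̄,p] = [m,p] = [p,m] = [p̄,m] = [m,p̄] = [p,p̄]` using the cases
already proved and `p̄ ≡ -p mod m`; any correct route is fine).
## λ-supplement by the rational trick
It suffices to show `d ≡ 1 mod 9 ⇒ (λ/d)_3 = 1`.  `d = 1 + 9x`; if `x = u λ^j x₁` (`x₁` primary) then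
`(x₁/d) = (d/x₁) = 1`, `(u/d) = 1` (`cub_om`, `N d ≡ 1 mod 9`), `(−9x/d) = 1` and `9 = λ⁴` give
`(λ/d)^{4+j} = 1`, which suffices unless `j ≡ 2 mod 3`; in that case (`27 ∣ d - 1`) apply the result to
`10` and to `10 d = 1 + 9(1 + 10 x)` (both have `j = 0`).
## Landsberg–Schaar
For `n` coprime to `2`: `∑_{x mod n} ee(x²/n) = √N(n) · gam n`.  Compute
`S(X) = ∑_{x ∈ O} ee(x²/n) Om(N x / X)` as `X → ∞` in two ways: splitting into classes mod `n`
(`poisson_gauss`-type asymptotics) `S(X) ~ X N(n)⁻¹ ∑_{x mod n} ee(x²/n)`; by the two-dimensional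
theta transformation (apply Mathlib's `Complex.tsum_exp_neg_quadratic` twice in the coordinates
`x = a + bω`; the real quadratic form `x ↦ (2/√3) Im(x²/n)` has signature `(1,1)`, so the determinant
factor tends to a positive real) the sum becomes `√N(n)/2 · ∑_{y} ee(-n y²/4) · exp(-c |y|²N(n)/(4X)+o)`,
whose leading term is `X N(n)^{-1/2} · (1/2) ∑_{y mod 2} ee(-n y²/4)`.
Any other correct proof of `gauss_sq` is welcome.
## Quadratic reciprocity
For distinct odd primes `G(pp') = G(p;p') G(p';p) = (p'/p)(p/p') G(p) G(p')` with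
`G(n;a) = ∑ ee(a x²/n)`; so `(p'/p)(p/p') = sg p p'`; extend by bimultiplicativity of `sg` (finite
check modulo `4`: the values of `gam` on the 12 odd classes are in `{±1, ±i}`).
`(−1/n) = gam n ²`; `(2/n)_2` is periodic mod `8` by the rational trick (`n = 1 + 8x`, auxiliary `9`).
-/

set_option autoImplicit false

noncomputable section

open scoped Classical ComplexConjugate

namespace Crest.Agent.R17

theorem rsex_six {a : O} (ha : Prim a) (ha2 : IsCoprime a 2) : IsCoprime a 6 := by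
  have := ha2.mul_right ha.isCoprime_three
  norm_num at this
  exact this

theorem rsex_cop {n n' m : O} (hn : IsCoprime n m) (h : m ∣ n - n') : IsCoprime n' m := by
  obtain ⟨t, ht⟩ := h
  have : n' = n + m * (-t) := by linear_combination -ht
  rw [this]
  exact hn.add_mul_left_left _

theorem rsex_qua_odd {d n n' : O} (hn : IsCoprime n 2) (h8 : (8 : O) ∣ n - n') (hd : IsCoprime d 2)
    (h : d ∣ n - n') : qua n d = qua n' d := by
  have hn' : IsCoprime n' 2 := rsex_cop hn (Dvd.dvd.trans ⟨4, by norm_num⟩ h8)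
  rw [qua_rec hn hd, qua_rec hn' hd,
    (sg_per d).congr (Dvd.dvd.trans ⟨2, by norm_num⟩ h8 : (4 : O) ∣ n - n')]
  congr 1
  exact (sym_per 2 d).congr h

theorem rsex_qua_congr {d n n' : O} (hd : d ≠ 0) (hn : IsCoprime n 2) (h8 : (8 : O) ∣ n - n')
    (h : ∀ p, Prime p → p ∣ d → p ∣ n - n') : qua n d = qua n' d := by
  have hn' : IsCoprime n' 2 := rsex_cop hn (Dvd.dvd.trans ⟨4, by norm_num⟩ h8)
  have c : IsChar n (qua n) := sym_isChar (k := 2) (Or.inl rfl) (by exact_mod_cast hn)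
  have c' : IsChar n' (qua n') := sym_isChar (k := 2) (Or.inl rfl) (by exact_mod_cast hn')
  have hu : ∀ u : O, IsUnit u → qua n u = qua n' u := fun u hu =>
    rsex_qua_odd hn h8 (b1_unit_coprime hu 2) hu.dvd
  induction d using UniqueFactorizationMonoid.induction_on_prime with
  | h₁ => exact absurd rfl hd
  | h₂ u hu' => exact hu u hu'
  | h₃ a p ha hp ih =>
    rw [c.mul, c'.mul, ih ha fun r hr hra => h r hr (hra.mul_left p)]
    congr 1
    by_cases h2 : p ∣ 2
    · obtain ⟨u, rfl⟩ := ((hp.dvd_prime_iff_associated prime_two).1 h2).symm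
      rw [c.mul, c'.mul, qua_two_congr hn h8, hu _ u.isUnit]
    · exact rsex_qua_odd hn h8 ((hp.coprime_iff_not_dvd).2 h2) (h p hp (dvd_mul_right p a))

/-! ### sextic -/
theorem chi_rec {a b : O} (ha : Prim a) (hb : Prim b) (ha2 : IsCoprime a 2) (hb2 : IsCoprime b 2) :
    chi a b = sg a b * chi b a := by
  rw [chi_eq_qua_mul (rsex_six ha ha2), chi_eq_qua_mul (rsex_six hb hb2), qua_rec ha2 hb2,
    cub_rec ha hb, mul_assoc]

/-- periodicity of `n ↦ χ_n(d)` : modulo `72` and modulo every prime divisor of `d` -/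
theorem chi_congr {d n n' : O} (hd : d ≠ 0) (hn : IsCoprime n 6) (h72 : (72 : O) ∣ n - n')
    (h : ∀ p, Prime p → p ∣ d → p ∣ n - n') : chi n d = chi n' d := by
  have hn' : IsCoprime n' 6 := rsex_cop hn (Dvd.dvd.trans ⟨12, by norm_num⟩ h72)
  rw [chi_eq_qua_mul hn, chi_eq_qua_mul hn',
    rsex_qua_congr hd (hn.of_isCoprime_of_dvd_right ⟨3, by norm_num⟩)
      (Dvd.dvd.trans ⟨9, by norm_num⟩ h72) h]
  congr 2
  obtain ⟨u, hu, hp⟩ := exists_unit_mul_prim (hn.of_isCoprime_of_dvd_right ⟨2, by norm_num⟩)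
  have h9 : (9 : O) ∣ u * n - u * n' := by
    rw [← mul_sub]
    exact (Dvd.dvd.trans ⟨8, by norm_num⟩ h72).mul_left u
  have hp' : Prim (u * n') := by
    have : u * n' - 1 = (u * n - 1) - (u * n - u * n') := by ring
    unfold Prim
    rw [this]
    exact dvd_sub hp (Dvd.dvd.trans ⟨3, by norm_num⟩ h9)
  have e := cub_congr hp hp' hd h9 fun p hp hpd => by
    rw [← mul_sub]; exact (h p hp hpd).mul_left u
  unfold cub at e ⊢
  rwa [sym_assoc 3 (associated_unit_mul_left n u hu), sym_assoc 3 (associated_unit_mul_left n' u hu)]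
    at e

theorem gt_mul {a b : O} (ha : Prim a) (hb : Prim b) (ha2 : IsCoprime a 2) (hb2 : IsCoprime b 2)
    (hab : IsCoprime a b) : gt (a * b) = gt a * gt b * chi b a ^ 2 * sg a b := by
  have ca : IsChar a (chi a) :=
    sym_isChar (k := 6) (Or.inr (Or.inr rfl)) (by exact_mod_cast rsex_six ha ha2)
  have cb : IsChar b (chi b) :=
    sym_isChar (k := 6) (Or.inr (Or.inr rfl)) (by exact_mod_cast rsex_six hb hb2)
  have e : chi (a * b) = fun x => chi a x * chi b x :=
    funext fun x => sym_mul_left 6 ha.ne_zero hb.ne_zero x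
  unfold gt
  rw [e, gs_mul ha.ne_zero hb.ne_zero hab ca cb, chi_rec ha hb ha2 hb2, N_mul,
    Real.sqrt_mul (N_nonneg a)]
  push_cast
  ring

/-- `g̃(χ̄_n) = χ_n(-1) conj g̃(χ_n)` -/
theorem gs_conj_chi {n : O} (hn : IsCoprime n 6) (hs : Squarefree n) (k : O) :
    gs n (fun x => conj (chi n x)) k = chi n k * chi n (-1) * conj (gt n) * (Real.sqrt (N n) : ℂ) := by
  have hn0 : n ≠ 0 := hs.ne_zero
  have c : IsChar n (chi n) := sym_isChar (k := 6) (Or.inr (Or.inr rfl)) (by exact_mod_cast hn)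
  have e : (fun x => conj (chi n x)) = fun x => chi n x ^ 5 := funext fun x => conj_chi hn x
  have h1 := gs_chi_pow hn hs (j := 5) (by norm_num) k
  rw [← e, ← conj_chi hn k, Complex.conj_conj] at h1
  have h2 := conj_gs hn0 (chi n) (-1 * 1)
  rw [gs_mul_unit hn0 c (b1_unit_coprime isUnit_one.neg n), map_mul, Complex.conj_conj, mul_one,
    neg_neg] at h2
  have h3 : (Real.sqrt (N n) : ℂ) ≠ 0 := by
    exact_mod_cast (Real.sqrt_pos.2 (N_pos hn0)).ne'
  rw [h1, ← h2, gt, map_div₀, Complex.conj_ofReal]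
  field_simp

end Crest.Agent.R17
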