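import Crest.Agent.R17.RecCub
import Crest.Agent.R17.RecKub
import Crest.Agent.R17.RecGam
import Crest.Agent.R17.RecLS
import Crest.Agent.R17.RecQua
import Crest.Agent.R17.RecSex
import Crest.Agent.R17.RecKey

/-! Aggregator file. -/
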