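import Crest.Agent.R17.Kernel

/-!
# R17 / Refl1AuxA : the gamma factor `Γ(1-s)/Γ(s)`, its kernel, the cut-off weight
-/

set_option autoImplicit false

noncomputable section

open scoped Classical ComplexConjugate
open MeasureTheory Complex

namespace Crest.Agent.R17

/-- the gamma factor of the functional equation -/
def refl1_g (s : ℂ) : ℂ := Gamma (1 - s) * (Gamma s)⁻¹

theorem refl1_ne {z : ℂ} (hz : 0 < z.re) (m : ℕ) : z ≠ -m := fun h => by
  rw [h] at hz
  simp at hz
  linarith [Nat.cast_nonneg (α := ℝ) m]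

theorem refl1_g_diff : DifferentiableOn ℂ refl1_g {s | s.re < 1} := fun s hs => by
  have hs' : 0 < (1 - s).re := by simpa using hs
  exact (((differentiableAt_Gamma _ (refl1_ne hs')).comp s (by fun_prop)).mul
    (differentiable_one_div_Gamma s)).differentiableWithinAt

theorem refl1_norm_Gamma {z : ℂ} (hz : 0 < z.re) : ‖Gamma z‖ ≤ Real.Gamma z.re := by
  rw [Gamma_eq_integral hz, Real.Gamma_eq_integral hz, GammaIntegral]
  refine (norm_integral_le_integral_norm _).trans_eq
    (setIntegral_congr_fun measurableSet_Ioi fun x hx => ?_)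
  rw [norm_mul, Complex.norm_of_nonneg (Real.exp_pos _).le, norm_cpow_eq_rpow_re_of_pos hx]
  simp

theorem refl1_norm_sin (z : ℂ) : ‖sin z‖ ≤ Real.exp |z.im| := by
  have h1 : ‖exp (-z * I)‖ ≤ Real.exp |z.im| := by
    rw [norm_exp]
    exact Real.exp_le_exp.2 (by simpa using le_abs_self z.im)
  have h2 : ‖exp (z * I)‖ ≤ Real.exp |z.im| := by
    rw [norm_exp]
    exact Real.exp_le_exp.2 (by simpa using neg_le_abs z.im)
  rw [Complex.sin, norm_div, norm_mul, norm_I, mul_one, Complex.norm_two]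
  linarith [norm_sub_le (exp (-z * I)) (exp (z * I))]

theorem refl1_g_growth (σ1 σ2 : ℝ) (h : σ2 < 1) : ∃ C, ∀ s : ℂ, σ1 ≤ s.re → s.re ≤ σ2 →
    ‖refl1_g s‖ ≤ C * Real.exp (C * |s.im|) := by
  obtain ⟨M, hM⟩ := (isCompact_Icc (a := 1 - σ2) (b := 1 - σ1)).exists_bound_of_continuousOn
    (Real.differentiableOn_Gamma_Ioi.continuousOn.mono fun x hx =>
      lt_of_lt_of_le (sub_pos.2 h) hx.1)
  refine ⟨max (M ^ 2) Real.pi, fun s h1 h2 => ?_⟩
  have hs : 0 < (1 - s).re := by simp; linarith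
  have h3 : ‖Gamma (1 - s)‖ ≤ M := (refl1_norm_Gamma hs).trans ((le_abs_self _).trans
    (hM _ ⟨by simp; linarith, by simp; linarith⟩))
  have hpi : (Real.pi : ℂ) ≠ 0 := ofReal_ne_zero.2 Real.pi_ne_zero
  have h4 : (Gamma s)⁻¹ = Gamma (1 - s) * (sin (Real.pi * s) / Real.pi) := by
    have h5 := congrArg (·⁻¹) (Gamma_mul_Gamma_one_sub s)
    simp only [mul_inv, inv_div] at h5
    rw [← h5, mul_left_comm, mul_inv_cancel₀ (Gamma_ne_zero_of_re_pos hs), mul_one]
  have h6 : ‖sin (Real.pi * s) / Real.pi‖ ≤ Real.exp (max (M ^ 2) Real.pi * |s.im|) := by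
    rw [norm_div, Complex.norm_of_nonneg Real.pi_pos.le]
    refine (div_le_self (norm_nonneg _) (by linarith [Real.pi_gt_three])).trans
      ((refl1_norm_sin _).trans (Real.exp_le_exp.2 ?_))
    rw [im_ofReal_mul, abs_mul, abs_of_pos Real.pi_pos]
    exact mul_le_mul_of_nonneg_right (le_max_right _ _) (abs_nonneg _)
  rw [refl1_g, h4, ← mul_assoc, norm_mul, norm_mul, ← sq]
  exact mul_le_mul ((pow_le_pow_left₀ (norm_nonneg _) h3 2).trans (le_max_left _ _)) h6
    (norm_nonneg _) ((sq_nonneg M).trans (le_max_left _ _))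

theorem refl1_g_sub_one {s : ℂ} (hs : s.re < 1) :
    refl1_g (s - 1) = -(1 - s) ^ 2 * refl1_g s := by
  have h : 1 - s ≠ 0 := fun h => by
    rw [← sub_eq_zero.1 h] at hs
    simp at hs
  rw [refl1_g, refl1_g, one_div_Gamma_eq_self_mul_one_div_Gamma_add_one (s - 1), sub_add_cancel,
    show 1 - (s - 1) = (1 - s) + 1 by ring, Gamma_add_one _ h]
  ring

theorem refl1_g_half (T : ℝ) : ‖refl1_g (1 / 2 + T * I)‖ = 1 := by
  have h : 1 - (1 / 2 + T * I : ℂ) = conj (1 / 2 + T * I) := by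
    apply Complex.ext <;> simp
    norm_num
  rw [refl1_g, h, Gamma_conj, norm_mul, norm_conj, norm_inv, mul_inv_cancel₀]
  exact norm_ne_zero_iff.2 (Gamma_ne_zero_of_re_pos (by simp))

theorem refl1_g_le (j : ℕ) (T : ℝ) :
    ‖refl1_g (1 / 2 - j + T * I)‖ ≤ (j + |T|) ^ (2 * j) := by
  induction j with
  | zero => simpa using (refl1_g_half T).le
  | succ j ih =>
    have h1 : (1 / 2 - (j + 1 : ℕ) + T * I : ℂ) = (1 / 2 - j + T * I) - 1 := by push_cast; ring
    have hj := Nat.cast_nonneg (α := ℝ) j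
    have h2 : ‖1 - (1 / 2 - j + T * I : ℂ)‖ ≤ j + 1 + |T| := by
      have e : 1 - (1 / 2 - j + T * I : ℂ) = ((1 / 2 + j : ℝ) : ℂ) - T * I := by push_cast; ring
      rw [e]
      refine (norm_sub_le _ _).trans ?_
      rw [Complex.norm_of_nonneg (by positivity), norm_mul, norm_I, mul_one, norm_real,
        Real.norm_eq_abs]
      linarith
    rw [h1, refl1_g_sub_one (by simp; linarith), norm_mul, norm_neg, norm_pow, Nat.mul_succ,
      pow_add, mul_comm]
    push_cast
    exact mul_le_mul (ih.trans (pow_le_pow_left₀ (by positivity) (by linarith) _))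
      (pow_le_pow_left₀ (norm_nonneg _) h2 2) (by positivity) (by positivity)

theorem refl1_norm_gauss (σ τ u : ℝ) :
    ‖(Real.sqrt Real.pi * exp ((σ + τ * I) ^ 2 / 4 + (σ + τ * I) * u) : ℂ)‖ =
      Real.sqrt Real.pi * Real.exp (σ ^ 2 / 4 - τ ^ 2 / 4 + σ * u) := by
  rw [norm_mul, Complex.norm_of_nonneg (Real.sqrt_nonneg _), norm_exp]
  congr 2
  simp [sq]
  ring

theorem refl1_exp_abs (C τ : ℝ) :
    C * |τ| - τ ^ 2 / 4 ≤ 2 * C ^ 2 + -(1 / 8) * τ ^ 2 := by
  rw [← sq_abs τ]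
  nlinarith [sq_nonneg (|τ| - 4 * C)]

theorem refl1_kern_shift (j : ℕ) (t u : ℝ) : kern refl1_g 0 t u = kern refl1_g (-j) t u := by
  have hj := Nat.cast_nonneg (α := ℝ) j
  obtain ⟨C, hC⟩ := refl1_g_growth (1 / 2 - j) (1 / 2) (by norm_num)
  unfold kern
  congr 1
  symm
  refine shift_line (a := -j) (b := 0) (F := fun w => refl1_g (1 / 2 + t * I + w) *
    (Real.sqrt Real.pi * exp (w ^ 2 / 4 + w * u))) (by linarith) ?_
    (g := fun τ => (|C| * Real.exp (|C| * |t|) * (Real.sqrt Real.pi *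
      Real.exp (j ^ 2 / 4 + j * |u| + 2 * |C| ^ 2))) * Real.exp (-(1 / 8) * τ ^ 2))
    ((integrable_exp_neg_mul_sq (by norm_num)).const_mul _) ?_ fun σ τ h1 h2 => ?_
  · refine (refl1_g_diff.comp (by fun_prop) fun w hw => ?_).mul (by fun_prop)
    have := hw.2
    simp only [Set.mem_ofPred_eq, add_re, mul_re, ofReal_re, I_re, ofReal_im, I_im]
    norm_num
    linarith
  · have := (tendsto_rpow_abs_mul_exp_neg_mul_sq_cocompact (a := 1 / 8) (by norm_num) 0).const_mul
      (|C| * Real.exp (|C| * |t|) * (Real.sqrt Real.pi *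
        Real.exp (j ^ 2 / 4 + j * |u| + 2 * |C| ^ 2)))
    simpa using this
  · have h3 := hC (1 / 2 + t * I + (σ + τ * I)) (by simp; norm_num; linarith)
      (by simp; linarith)
    have h4 : (1 / 2 + t * I + (σ + τ * I) : ℂ).im = t + τ := by simp
    rw [h4] at h3
    have h5 : ‖refl1_g (1 / 2 + t * I + (σ + τ * I))‖ ≤
        |C| * Real.exp (|C| * |t|) * Real.exp (|C| * |τ|) := by
      rw [mul_assoc, ← Real.exp_add, ← mul_add]
      exact h3.trans (mul_le_mul (le_abs_self C) (Real.exp_le_exp.2 (mul_le_mul (le_abs_self C)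
        (abs_add_le _ _) (abs_nonneg _) (abs_nonneg _))) (Real.exp_pos _).le (abs_nonneg _))
    rw [norm_mul, refl1_norm_gauss]
    refine (mul_le_mul_of_nonneg_right h5 (by positivity)).trans ?_
    rw [mul_assoc _ (Real.exp (|C| * |τ|)), mul_assoc _ (Real.sqrt Real.pi * _), mul_left_comm
      (Real.exp (|C| * |τ|)), ← Real.exp_add, mul_assoc (Real.sqrt Real.pi), ← Real.exp_add]
    refine mul_le_mul_of_nonneg_left (mul_le_mul_of_nonneg_left (Real.exp_le_exp.2 ?_)
      (Real.sqrt_nonneg _)) (by positivity)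
    have h6 : σ ^ 2 ≤ (j : ℝ) ^ 2 := by nlinarith
    have h7 : σ * u ≤ j * |u| := (le_abs_self _).trans (by
      rw [abs_mul]
      exact mul_le_mul_of_nonneg_right (abs_le.2 ⟨h1, by linarith⟩) (abs_nonneg _))
    linarith [refl1_exp_abs |C| τ]

theorem refl1_kern_le (j : ℕ) : ∃ C, 0 ≤ C ∧ ∀ t u : ℝ,
    ‖kern refl1_g 0 t u‖ ≤ C * (1 + |t|) ^ (2 * j) * Real.exp (-(j * u)) := by
  have hj := Nat.cast_nonneg (α := ℝ) j
  set K := Real.sqrt Real.pi * Real.exp (j ^ 2 / 4 + 2 * j * j + 2 * (2 * j) ^ 2) with hK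
  refine ⟨K * Real.sqrt (Real.pi / (1 / 8)), by positivity, fun t u => ?_⟩
  have h1 := norm_integral_le_of_norm_le (μ := volume) (f := fun τ : ℝ =>
      refl1_g (1 / 2 + t * I + ((-j : ℝ) + τ * I)) *
      (Real.sqrt Real.pi * exp (((-j : ℝ) + τ * I) ^ 2 / 4 + ((-j : ℝ) + τ * I) * u)))
    (g := fun τ => (K * (1 + |t|) ^ (2 * j) * Real.exp (-(j * u))) * Real.exp (-(1 / 8) * τ ^ 2))
    ((integrable_exp_neg_mul_sq (by norm_num)).const_mul _) (ae_of_all _ fun τ => by
      have e : (1 / 2 + t * I + ((-j : ℝ) + τ * I) : ℂ) = 1 / 2 - j + (t + τ : ℝ) * I := by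
        push_cast; ring
      have h2 : ‖refl1_g (1 / 2 - j + (t + τ : ℝ) * I)‖ ≤
          (1 + |t|) ^ (2 * j) * Real.exp (2 * j * (j + |τ|)) := by
        refine (refl1_g_le j _).trans ?_
        rw [show (2 * j : ℝ) = (2 * j : ℕ) by push_cast; rfl, Real.exp_nat_mul, ← mul_pow]
        refine pow_le_pow_left₀ (by positivity) ?_ _
        nlinarith [Real.add_one_le_exp (j + |τ|), abs_add_le t τ, abs_nonneg t, abs_nonneg τ,
          mul_nonneg (abs_nonneg t) (add_nonneg hj (abs_nonneg τ))]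
      rw [norm_mul, refl1_norm_gauss, e]
      refine (mul_le_mul_of_nonneg_right h2 (by positivity)).trans ?_
      have h3 : Real.exp (2 * j * (j + |τ|)) * Real.exp ((-j) ^ 2 / 4 - τ ^ 2 / 4 + -j * u) ≤
          Real.exp (j ^ 2 / 4 + 2 * j * j + 2 * (2 * j) ^ 2) * Real.exp (-(j * u)) *
            Real.exp (-(1 / 8) * τ ^ 2) := by
        rw [← Real.exp_add, ← Real.exp_add, ← Real.exp_add]
        exact Real.exp_le_exp.2 (by nlinarith [refl1_exp_abs (2 * j) τ])
      have h4 := mul_le_mul_of_nonneg_left h3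
        (show 0 ≤ (1 + |t|) ^ (2 * j) * Real.sqrt Real.pi by positivity)
      rw [hK]
      linarith)
  rw [integral_const_mul, integral_gaussian] at h1
  rw [refl1_kern_shift j, kern, norm_mul]
  have h2 : ‖(1 / (2 * Real.pi) : ℂ)‖ ≤ 1 := by
    rw [norm_div, norm_one, norm_mul, Complex.norm_two, Complex.norm_of_nonneg Real.pi_pos.le]
    exact (div_le_one (by positivity)).2 (by linarith [Real.pi_gt_three])
  refine (mul_le_mul h2 h1 (norm_nonneg _) zero_le_one).trans_eq ?_
  ring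

/-! ### the cut-off weight -/

theorem refl1_continuous_gw : Continuous gw := by
  unfold gw
  fun_prop

theorem refl1_exp_gw (l c v y : ℝ) : Real.exp (l * (y - c)) * gw (v - y) =
    Real.exp (l * (v - c) + l ^ 2 / 4) * Real.exp (-1 * (y - (v + l / 2)) ^ 2) := by
  rw [gw, ← Real.exp_add, ← Real.exp_add]
  congr 1
  ring

theorem refl1_int_exp_gw (l c v : ℝ) :
    Integrable (fun y => Real.exp (l * (y - c)) * gw (v - y)) ∧
    ∫ y, Real.exp (l * (y - c)) * gw (v - y) =
      Real.sqrt Real.pi * Real.exp (l * (v - c) + l ^ 2 / 4) := by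
  simp only [refl1_exp_gw]
  refine ⟨((integrable_exp_neg_mul_sq one_pos).comp_sub_right _).const_mul _, ?_⟩
  rw [integral_const_mul, integral_sub_right_eq_self (fun y => Real.exp (-1 * y ^ 2)),
    integral_gaussian, div_one, mul_comm]

/-- the smooth cut-off (not normalised) -/
def refl1_W (a b v : ℝ) : ℝ := ∫ y in Set.Icc a b, gw (v - y)

theorem refl1_W_nonneg (a b v : ℝ) : 0 ≤ refl1_W a b v :=
  integral_nonneg fun _ => (gw_pos _).le

theorem refl1_int_gw (v : ℝ) : Integrable (fun y => gw (v - y)) ∧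
    ∫ y, gw (v - y) = Real.sqrt Real.pi := by
  simpa using refl1_int_exp_gw 0 0 v

theorem refl1_W_le_pi (a b v : ℝ) : refl1_W a b v ≤ Real.sqrt Real.pi :=
  (setIntegral_le_integral (refl1_int_gw v).1 (ae_of_all _ fun _ => (gw_pos _).le)).trans_eq
    (refl1_int_gw v).2

theorem refl1_W_le (a b v : ℝ) :
    refl1_W a b v ≤ Real.sqrt Real.pi * Real.exp (b + 1 / 4) * Real.exp (-v) := by
  obtain ⟨h1, h2⟩ := refl1_int_exp_gw (-1) b v
  refine (setIntegral_mono_on (refl1_int_gw v).1.integrableOn h1.integrableOn measurableSet_Icc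
    fun y hy => le_mul_of_one_le_left (gw_pos _).le (Real.one_le_exp (by linarith [hy.2]))).trans
    ((setIntegral_le_integral h1 (ae_of_all _ fun _ =>
      mul_nonneg (Real.exp_pos _).le (gw_pos _).le)).trans_eq ?_)
  rw [h2, mul_assoc, ← Real.exp_add]
  congr 2
  ring

theorem refl1_sub_W_le {l : ℝ} (hl : 0 ≤ l) (a b v : ℝ) :
    Real.sqrt Real.pi - refl1_W a b v ≤ Real.sqrt Real.pi * Real.exp (l ^ 2 / 4) *
      (Real.exp (-(l * (v - a))) + Real.exp (l * (v - b))) := by
  obtain ⟨h1, h2⟩ := refl1_int_exp_gw (-l) a v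
  obtain ⟨h3, h4⟩ := refl1_int_exp_gw l b v
  have h5 := integral_add_compl (measurableSet_Icc (a := a) (b := b)) (refl1_int_gw v).1
  have h6 : ∫ y in (Set.Icc a b)ᶜ, gw (v - y) ≤ ∫ y, (Real.exp (-l * (y - a)) * gw (v - y) +
      Real.exp (l * (y - b)) * gw (v - y)) := by
    refine (setIntegral_mono_on (refl1_int_gw v).1.integrableOn (h1.add h3).integrableOn
      measurableSet_Icc.compl fun y hy => ?_).trans (setIntegral_le_integral (h1.add h3)
        (ae_of_all _ fun _ => add_nonneg (mul_nonneg (Real.exp_pos _).le (gw_pos _).le)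
          (mul_nonneg (Real.exp_pos _).le (gw_pos _).le)))
    simp only [Pi.add_apply, ← add_mul]
    refine le_mul_of_one_le_left (gw_pos _).le ?_
    rcases not_and_or.1 hy with h | h
    · linarith [Real.exp_pos (l * (y - b)),
        Real.one_le_exp (show 0 ≤ -l * (y - a) by nlinarith [not_le.1 h])]
    · linarith [Real.exp_pos (-l * (y - a)),
        Real.one_le_exp (show 0 ≤ l * (y - b) by nlinarith [not_le.1 h])]
  rw [integral_add h1 h3, h2, h4, Real.exp_add, Real.exp_add, neg_sq, neg_mul] at h6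
  rw [(refl1_int_gw v).2] at h5
  unfold refl1_W
  linarith

end Crest.Agent.R17
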