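import Crest.Agent.R17.Refl1AuxA

/-!
# R17 / Refl1AuxB : the truncated dual sum is an average of blocks; the smooth part of the level
-/

set_option autoImplicit false

noncomputable section

open scoped Classical ComplexConjugate
open MeasureTheory Complex

namespace Crest.Agent.R17

theorem refl1_summable (a b : ℝ) : Summable fun n : O =>
    if n = 0 then 0 else N n ^ (-(1 / 2 : ℝ)) * refl1_W a b (Real.log (N n)) := by
  refine Summable.of_nonneg_of_le (fun n => ?_) (fun n => ?_)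
    ((summable_N_rpow (σ := 3 / 2) (by norm_num)).mul_left
      (Real.sqrt Real.pi * Real.exp (b + 1 / 4)))
  · split_ifs
    exacts [le_rfl, mul_nonneg (Real.rpow_nonneg (N_nonneg n) _) (refl1_W_nonneg _ _ _)]
  · split_ifs with h
    · exact mul_nonneg (by positivity) (Real.rpow_nonneg (N_nonneg n) _)
    · refine (mul_le_mul_of_nonneg_left (refl1_W_le a b _)
        (Real.rpow_nonneg (N_nonneg n) _)).trans_eq ?_
      rw [Real.exp_neg, Real.exp_log (N_pos h), ← Real.rpow_neg_one, mul_left_comm,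
        ← Real.rpow_add (N_pos h)]
      norm_num

theorem refl1_norm_cpow {n : O} (h : n ≠ 0) (T : ℝ) :
    ‖(N n : ℂ) ^ (-(1 / 2 + T * I) : ℂ)‖ = N n ^ (-(1 / 2 : ℝ)) := by
  rw [norm_cpow_eq_rpow_re_of_pos (N_pos h)]
  congr 1
  simp

theorem refl1_sum_W {a : O → ℂ} (ha : ∀ n, ‖a n‖ ≤ 1) (y0 y1 T : ℝ) :
    ∑' n : O, (if n = 0 then 0 else a n * (N n : ℂ) ^ (-(1 / 2 + T * I) : ℂ) *
      (refl1_W y0 y1 (Real.log (N n)) : ℂ)) = ∫ y' in Set.Icc y0 y1, blk a y' T := by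
  have h := integral_tsum_of_summable_integral_norm (μ := volume.restrict (Set.Icc y0 y1))
    (F := fun (n : O) (y' : ℝ) => if n = 0 then 0 else
      a n * (N n : ℂ) ^ (-(1 / 2 + T * I) : ℂ) * (gw (Real.log (N n) - y') : ℂ))
    (fun n => by
      split_ifs
      · exact integrable_zero _ _ _
      · exact ((refl1_int_gw _).1.integrableOn.ofReal (𝕜 := ℂ)).const_mul _)
    (Summable.of_nonneg_of_le (fun n => integral_nonneg fun _ => norm_nonneg _) (fun n => by
      split_ifs with h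
      · simp
      · simp only [norm_mul, refl1_norm_cpow h, Complex.norm_of_nonneg (gw_pos _).le]
        rw [integral_const_mul]
        exact mul_le_mul_of_nonneg_right (mul_le_of_le_one_left
          (Real.rpow_nonneg (N_nonneg n) _) (ha n)) (refl1_W_nonneg _ _ _))
      (refl1_summable y0 y1))
  refine Eq.trans (tsum_congr fun n => ?_) h
  split_ifs
  · simp
  · rw [integral_const_mul, integral_complex_ofReal]
    rfl

theorem refl1_continuous_g (t : ℝ) :
    Continuous fun τ : ℝ => refl1_g (1 / 2 + t * I + ((0 : ℝ) + τ * I)) :=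
  refl1_g_diff.continuousOn.comp_continuous (by fun_prop) fun τ => by simp; norm_num

theorem refl1_norm_g (t τ : ℝ) : ‖refl1_g (1 / 2 + t * I + ((0 : ℝ) + τ * I))‖ = 1 := by
  rw [← refl1_g_half (t + τ)]
  congr 2
  push_cast
  ring

theorem refl1_int_blk {a : O → ℂ} (ha : ∀ n, ‖a n‖ ≤ 1) (y0 y1 t : ℝ) :
    Integrable fun τ : ℝ => Real.exp (-τ ^ 2 / 4) *
      ∫ y' in Set.Icc y0 y1, ‖blk a y' (-(t + τ))‖ := by
  obtain ⟨C, hC⟩ := norm_blk_le
  have hc : Continuous fun τ : ℝ => ∫ y' in Set.Icc y0 y1, ‖blk a y' (-(t + τ))‖ :=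
    continuous_parametric_integral_of_continuous
      (((continuous_blk (a := a) ⟨1, 0, fun n _ => by simpa using ha n⟩).comp
        (f := fun p : ℝ × ℝ => (p.2, -(t + p.1))) (by fun_prop)).norm) isCompact_Icc
  have hg : Integrable fun τ : ℝ => Real.exp (-τ ^ 2 / 4) := by
    convert integrable_exp_neg_mul_sq (b := 1 / 4) (by norm_num) using 3
    ring
  refine hg.mul_bdd (c := |C| * Real.exp (y1 / 2) * (volume.real (Set.Icc y0 y1)))
    hc.aestronglyMeasurable (ae_of_all _ fun τ => ?_)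
  refine norm_setIntegral_le_of_norm_le_const measure_Icc_lt_top fun y' hy => ?_
  rw [norm_norm]
  exact (hC a ha _ _).trans (mul_le_mul (le_abs_self C) (Real.exp_le_exp.2 (by linarith [hy.2]))
    (Real.exp_pos _).le (abs_nonneg _))

/-- The truncated dual sum. -/
theorem refl1_core {a : O → ℂ} (ha : ∀ n, ‖a n‖ ≤ 1) (y0 y1 t c : ℝ) :
    ‖∑' n : O, (if n = 0 then 0 else a n * (N n : ℂ) ^ (-(1 / 2 : ℂ) + t * I) *
      kern refl1_g 0 t (Real.log (N n) + c) * (refl1_W y0 y1 (Real.log (N n)) : ℂ))‖ ≤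
    Real.sqrt Real.pi * ∫ τ : ℝ, Real.exp (-τ ^ 2 / 4) *
      ∫ y' in Set.Icc y0 y1, ‖blk a y' (-(t + τ))‖ := by
  set h : ℝ → ℂ := fun τ => refl1_g (1 / 2 + t * I + ((0 : ℝ) + τ * I)) *
    (Real.sqrt Real.pi * exp (((0 : ℝ) + τ * I) ^ 2 / 4 + ((0 : ℝ) + τ * I) * c)) with hh
  have hn : ∀ τ, ‖h τ‖ = Real.sqrt Real.pi * Real.exp (-(1 / 4) * τ ^ 2) := fun τ => by
    simp only [hh]
    rw [norm_mul, refl1_norm_g, refl1_norm_gauss, one_mul]
    congr 2
    ring
  have hc : Continuous h := (refl1_continuous_g t).mul (by fun_prop)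
  have hi := (integrable_exp_neg_mul_sq (b := 1 / 4) (by norm_num)).const_mul (Real.sqrt Real.pi)
  set G : O → ℝ → ℂ := fun n τ => (if n = 0 then 0 else
    a n * (N n : ℂ) ^ (-(1 / 2 + (-(t + τ) : ℝ) * I) : ℂ) *
      (refl1_W y0 y1 (Real.log (N n)) : ℂ)) * h τ with hG
  have hGn : ∀ n τ, ‖G n τ‖ ≤ (if n = 0 then 0 else
      N n ^ (-(1 / 2 : ℝ)) * refl1_W y0 y1 (Real.log (N n))) *
        (Real.sqrt Real.pi * Real.exp (-(1 / 4) * τ ^ 2)) := fun n τ => by
    simp only [hG]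
    rw [norm_mul, hn]
    refine mul_le_mul_of_nonneg_right ?_ (by positivity)
    split_ifs with h0
    · simp
    · rw [norm_mul, norm_mul, refl1_norm_cpow h0, Complex.norm_of_nonneg (refl1_W_nonneg _ _ _)]
      exact mul_le_mul_of_nonneg_right (mul_le_of_le_one_left
        (Real.rpow_nonneg (N_nonneg n) _) (ha n)) (refl1_W_nonneg _ _ _)
  have hGi : ∀ n, Integrable (G n) := fun n => by
    refine (hi.const_mul _).mono' (Continuous.aestronglyMeasurable ?_) (ae_of_all _ (hGn n))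
    refine Continuous.mul ?_ hc
    split_ifs with h0
    · exact continuous_const
    · exact (continuous_const.mul (Continuous.const_cpow (by fun_prop)
        (Or.inl (ofReal_ne_zero.2 (N_pos h0).ne')))).mul continuous_const
  have h1 := integral_tsum_of_summable_integral_norm hGi
    (Summable.of_nonneg_of_le (fun n => integral_nonneg fun _ => norm_nonneg _) (fun n =>
      (integral_mono (hGi n).norm (hi.const_mul _) (hGn n)).trans_eq (integral_const_mul _ _))
      ((refl1_summable y0 y1).mul_right _))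
  have h2 : ∀ n : O, (if n = 0 then 0 else a n * (N n : ℂ) ^ (-(1 / 2 : ℂ) + t * I) *
      kern refl1_g 0 t (Real.log (N n) + c) * (refl1_W y0 y1 (Real.log (N n)) : ℂ)) =
      (1 / (2 * Real.pi) : ℂ) * ∫ τ, G n τ := fun n => by
    split_ifs with h0
    · simp [hG, h0]
    · rw [kern, mul_right_comm, mul_left_comm, ← integral_const_mul]
      congr 1
      refine integral_congr_ae (ae_of_all _ fun τ => ?_)
      have hN : (N n : ℂ) ≠ 0 := ofReal_ne_zero.2 (N_pos h0).ne'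
      have e : (N n : ℂ) ^ (-(1 / 2 : ℂ) + t * I) *
          exp (((0 : ℝ) + τ * I) ^ 2 / 4 + ((0 : ℝ) + τ * I) * (Real.log (N n) + c : ℝ)) =
          (N n : ℂ) ^ (-(1 / 2 + (-(t + τ) : ℝ) * I) : ℂ) *
            exp (((0 : ℝ) + τ * I) ^ 2 / 4 + ((0 : ℝ) + τ * I) * c) := by
        rw [cpow_def_of_ne_zero hN, cpow_def_of_ne_zero hN, ← Complex.exp_add, ← Complex.exp_add,
          ← ofReal_log (N_nonneg n)]
        congr 1
        push_cast
        ring
      simp only [hG, hh, if_neg h0]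
      linear_combination a n * (refl1_W y0 y1 (Real.log (N n)) : ℂ) * Real.sqrt Real.pi *
        refl1_g (1 / 2 + t * I + ((0 : ℝ) + τ * I)) * e
  have h3 : ‖(1 / (2 * Real.pi) : ℂ)‖ ≤ 1 := by
    rw [norm_div, norm_one, norm_mul, Complex.norm_two, Complex.norm_of_nonneg Real.pi_pos.le]
    exact (div_le_one (by positivity)).2 (by linarith [Real.pi_gt_three])
  rw [tsum_congr h2, tsum_mul_left, h1, norm_mul, ← integral_const_mul]
  refine (mul_le_of_le_one_left (norm_nonneg _) h3).trans (norm_integral_le_of_norm_le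
    ((refl1_int_blk ha y0 y1 t).const_mul _) (ae_of_all _ fun τ => ?_))
  simp only [hG]
  rw [tsum_mul_right, refl1_sum_W ha, norm_mul, hn, mul_comm, mul_assoc,
    show -(1 / 4) * τ ^ 2 = -τ ^ 2 / 4 by ring]
  exact mul_le_mul_of_nonneg_left (mul_le_mul_of_nonneg_left (norm_integral_le_integral_norm _)
    (Real.exp_pos _).le) (Real.sqrt_nonneg _)

/-- The Gauss sums at the smooth frequencies. -/
theorem refl1_smooth {q0 : O} (hq0 : q0 ≠ 0) {δ : ℝ} (hδ : 0 < δ) : ∃ C, 0 ≤ C ∧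
    ∀ (ρ : O) (ψ : O → ℂ), Squarefree ρ → IsCoprime q0 ρ → IsChar (q0 * ρ) ψ →
    ∀ S : Finset O, (∀ k ∈ S, ∃ j : ℕ, k ∣ (q0 * ρ) ^ j) →
      ∑ k ∈ S, ‖gs (q0 * ρ) ψ k‖ * N k ^ (-(1 / 2 : ℝ)) ≤
        C * Real.sqrt (N ρ) * N ρ ^ (2 * δ) := by
  obtain ⟨C1, h1⟩ := card_dvd_le hδ
  obtain ⟨C2, h2⟩ := sum_smooth_le (σ := 1 / 2) (by norm_num) hδ
  have hq := N_nonneg q0
  refine ⟨N q0 * (|C1| * (|C2| * N q0 ^ δ)), by positivity, fun ρ ψ hρ hc hψ S hS => ?_⟩
  have hρ0 := hρ.ne_zero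
  have hNρ := N_pos hρ0
  set g : O → O := fun k => EuclideanDomain.gcd k ρ with hg
  have hg0 : ∀ k, g k ≠ 0 := fun k h => hρ0 (EuclideanDomain.gcd_eq_zero_iff.1 h).2
  have hk : ∀ k, g k * (k / g k) = k := fun k =>
    EuclideanDomain.mul_div_cancel' (hg0 k) (EuclideanDomain.gcd_dvd_left k ρ)
  have h3 : ∀ k ∈ S, ‖gs (q0 * ρ) ψ k‖ * N k ^ (-(1 / 2 : ℝ)) ≤
      N q0 * Real.sqrt (N ρ) * N (k / g k) ^ (-(1 / 2 : ℝ)) := fun k _ => by
    refine (mul_le_mul_of_nonneg_right (norm_gs_le_sqfree hq0 hρ hc hψ k)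
      (Real.rpow_nonneg (N_nonneg k) _)).trans_eq ?_
    have e : N k ^ (-(1 / 2 : ℝ)) = N (g k) ^ (-(1 / 2 : ℝ)) * N (k / g k) ^ (-(1 / 2 : ℝ)) := by
      rw [← Real.mul_rpow (N_nonneg _) (N_nonneg _), ← N_mul, hk]
    rw [e, mul_assoc, ← mul_assoc (Real.sqrt (N (g k))), Real.sqrt_eq_rpow (N (g k)),
      ← Real.rpow_add (N_pos (hg0 k)), add_neg_cancel, Real.rpow_zero, one_mul]
  have h4 : ∑ k ∈ S, N (k / g k) ^ (-(1 / 2 : ℝ)) ≤
      ∑ z ∈ S.image g ×ˢ S.image (fun k => k / g k), N z.2 ^ (-(1 / 2 : ℝ)) := by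
    rw [← Finset.sum_image (s := S) (g := fun k => (g k, k / g k))
      (f := fun z : O × O => N z.2 ^ (-(1 / 2 : ℝ))) fun k _ l _ h => by
        exact (hk k).symm.trans ((congrArg (fun z : O × O => z.1 * z.2) h).trans (hk l))]
    refine Finset.sum_le_sum_of_subset_of_nonneg (fun z hz => ?_)
      fun z _ _ => Real.rpow_nonneg (N_nonneg _) _
    obtain ⟨k, hkS, rfl⟩ := Finset.mem_image.1 hz
    exact Finset.mem_product.2 ⟨Finset.mem_image_of_mem _ hkS, Finset.mem_image_of_mem _ hkS⟩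
  rw [Finset.sum_product] at h4
  simp only [Finset.sum_const, nsmul_eq_mul] at h4
  have h5 : ((S.image g).card : ℝ) ≤ |C1| * N ρ ^ δ := (h1 ρ hρ0 _ fun e he => by
    obtain ⟨k, -, rfl⟩ := Finset.mem_image.1 he
    exact EuclideanDomain.gcd_dvd_right k ρ).trans
      (mul_le_mul_of_nonneg_right (le_abs_self _) (by positivity))
  have h6 : ∑ f ∈ S.image (fun k => k / g k), N f ^ (-(1 / 2 : ℝ)) ≤
      |C2| * (N q0 ^ δ * N ρ ^ δ) := by
    rw [← Real.mul_rpow hq hNρ.le, ← N_mul]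
    refine (h2 _ (mul_ne_zero hq0 hρ0) _ fun f hf => ?_).trans
      (mul_le_mul_of_nonneg_right (le_abs_self _) (Real.rpow_nonneg (N_nonneg _) _))
    obtain ⟨k, hkS, rfl⟩ := Finset.mem_image.1 hf
    obtain ⟨j, hj⟩ := hS k hkS
    exact ⟨j, (Dvd.intro_left _ (hk k)).trans hj⟩
  refine (Finset.sum_le_sum h3).trans ?_
  rw [← Finset.mul_sum, two_mul, Real.rpow_add hNρ]
  refine (mul_le_mul_of_nonneg_left (h4.trans (mul_le_mul h5 h6
    (Finset.sum_nonneg fun f _ => Real.rpow_nonneg (N_nonneg _) _) (by positivity)))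
      (by positivity)).trans_eq ?_
  ring

end Crest.Agent.R17
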