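import Mathlib

/-!
# R17 / Ring : the Eisenstein integers `O = ℤ[ω]` as a concrete Euclidean domain

`O = QuadraticAlgebra ℤ (-1) (-1)`; an element is `⟨a, b⟩ = a + bω`, `ω² = -1 - ω`.
`nm x : ℕ` is the norm `a² - ab + b²`, `toC : O →+* ℂ` the embedding with `ω ↦ -1/2 + (√3/2) i`.
-/

set_option autoImplicit false

noncomputable section

namespace Crest.Agent.R17

/-- The Eisenstein integers. -/
abbrev O : Type := QuadraticAlgebra ℤ (-1) (-1)

/-- `ω`, a primitive cube root of unity. -/
def om : O := ⟨0, 1⟩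

/-- `λ = 1 + 2ω = √-3`. -/
def lam : O := ⟨1, 2⟩

/-- The norm as a natural number. -/
def nm (x : O) : ℕ := (x.re ^ 2 - x.re * x.im + x.im ^ 2).natAbs

theorem form_nonneg (a b : ℤ) : 0 ≤ a ^ 2 - a * b + b ^ 2 := by
  nlinarith [sq_nonneg (2 * a - b), sq_nonneg b]

theorem nm_int (x : O) : (nm x : ℤ) = x.re ^ 2 - x.re * x.im + x.im ^ 2 := by
  unfold nm; exact Int.natAbs_of_nonneg (form_nonneg _ _)

theorem nm_mul (x y : O) : nm (x * y) = nm x * nm y := by
  have : ((nm (x * y) : ℕ) : ℤ) = (nm x : ℤ) * (nm y : ℤ) := by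
    simp only [nm_int, QuadraticAlgebra.re_mul, QuadraticAlgebra.im_mul]; ring
  exact_mod_cast this

theorem nm_eq_zero {x : O} : nm x = 0 ↔ x = 0 := by
  constructor
  · intro h
    have h1 : x.re ^ 2 - x.re * x.im + x.im ^ 2 = 0 := by rw [← nm_int, h]; rfl
    have hb : x.im = 0 := by nlinarith [sq_nonneg (2 * x.re - x.im), sq_nonneg x.im]
    have ha : x.re = 0 := by rw [hb] at h1; nlinarith [sq_nonneg x.re]
    ext <;> simp [ha, hb]
  · rintro rfl; rfl

theorem nm_pos {x : O} (hx : x ≠ 0) : 0 < nm x :=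
  Nat.pos_of_ne_zero (fun h => hx (nm_eq_zero.1 h))

@[simp] theorem nm_zero : nm 0 = 0 := rfl
@[simp] theorem nm_one : nm 1 = 1 := rfl

theorem nm_star (x : O) : nm (star x) = nm x := by
  have : ((nm (star x) : ℕ) : ℤ) = (nm x : ℤ) := by
    simp only [nm_int, QuadraticAlgebra.re_star, QuadraticAlgebra.im_star]; ring
  exact_mod_cast this

theorem mul_star_self (x : O) : x * star x = (nm x : O) := by
  have h := nm_int x
  ext
  · simp only [QuadraticAlgebra.re_mul, QuadraticAlgebra.re_star, QuadraticAlgebra.im_star,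
      QuadraticAlgebra.re_natCast]
    rw [h]; ring
  · simp only [QuadraticAlgebra.im_mul, QuadraticAlgebra.re_star, QuadraticAlgebra.im_star,
      QuadraticAlgebra.im_natCast]
    ring

/-- Euclidean quotient (rounded exact quotient). -/
def odiv (x y : O) : O :=
  ⟨(2 * (x * star y).re + nm y) / (2 * nm y), (2 * (x * star y).im + nm y) / (2 * nm y)⟩

private theorem round_bound (w n : ℤ) (hn : 0 < n) :
    -n ≤ 2 * (w - n * ((2 * w + n) / (2 * n))) ∧ 2 * (w - n * ((2 * w + n) / (2 * n))) ≤ n := by
  have h1 := Int.mul_ediv_add_emod (2 * w + n) (2 * n)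
  have h2 := Int.emod_nonneg (2 * w + n) (show (2 * n) ≠ 0 by omega)
  have h3 := Int.emod_lt_of_pos (2 * w + n) (show 0 < 2 * n by omega)
  constructor <;> nlinarith

theorem nm_sub_mul_odiv_lt (x : O) {y : O} (hy : y ≠ 0) : nm (x - y * odiv x y) < nm y := by
  obtain ⟨n, hndef⟩ : ∃ n : ℤ, n = ((nm y : ℕ) : ℤ) := ⟨_, rfl⟩
  have hn : (0 : ℤ) < n := by rw [hndef]; exact_mod_cast nm_pos hy
  obtain ⟨w, hw⟩ : ∃ w : O, w = x * star y := ⟨_, rfl⟩
  have key : (x - y * odiv x y) * star y
      = ⟨w.re - n * ((2 * w.re + n) / (2 * n)), w.im - n * ((2 * w.im + n) / (2 * n))⟩ := by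
    have : (x - y * odiv x y) * star y = w - (nm y : O) * odiv x y := by
      rw [← mul_star_self y, hw]; ring
    have hq : odiv x y = ⟨(2 * w.re + n) / (2 * n), (2 * w.im + n) / (2 * n)⟩ := by
      rw [hw, hndef]; rfl
    rw [this, hq]
    ext
    · simp only [QuadraticAlgebra.re_sub, QuadraticAlgebra.re_mul, QuadraticAlgebra.re_natCast,
        QuadraticAlgebra.im_natCast]
      rw [← hndef]; ring
    · simp only [QuadraticAlgebra.im_sub, QuadraticAlgebra.im_mul, QuadraticAlgebra.re_natCast,
        QuadraticAlgebra.im_natCast]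
      rw [← hndef]; ring
  have h1 := round_bound w.re n hn
  have h2 := round_bound w.im n hn
  set s := w.re - n * ((2 * w.re + n) / (2 * n))
  set t := w.im - n * ((2 * w.im + n) / (2 * n))
  have h3 : ((nm (x - y * odiv x y) : ℕ) : ℤ) * n = s ^ 2 - s * t + t ^ 2 := by
    have := congrArg (fun z => ((nm z : ℕ) : ℤ)) key
    simp only [nm_mul, nm_star, Nat.cast_mul] at this
    rw [hndef, this, nm_int]
  have h4 : 4 * (s ^ 2 - s * t + t ^ 2) ≤ 3 * n ^ 2 := by
    nlinarith [mul_nonneg (show 0 ≤ n - 2 * s by linarith) (show 0 ≤ n + 2 * s by linarith),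
      mul_nonneg (show 0 ≤ n - 2 * t by linarith) (show 0 ≤ n + 2 * t by linarith),
      mul_nonneg (show 0 ≤ n - 2 * s by linarith) (show 0 ≤ n - 2 * t by linarith),
      mul_nonneg (show 0 ≤ n + 2 * s by linarith) (show 0 ≤ n + 2 * t by linarith)]
  have h5 : ((nm (x - y * odiv x y) : ℕ) : ℤ) < n := by
    by_contra hc
    push Not at hc
    nlinarith [mul_le_mul_of_nonneg_right hc hn.le]
  rw [hndef] at h5
  exact_mod_cast h5

instance instEuclideanDomainO : EuclideanDomain O :=
  { (inferInstance : CommRing O), (inferInstance : Nontrivial O) with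
    quotient := odiv
    remainder := fun x y => x - y * odiv x y
    quotient_zero := fun a => by ext <;> simp [odiv]
    quotient_mul_add_remainder_eq := fun _ _ => by ring
    r := fun a b => nm a < nm b
    r_wellFounded := (measure nm).wf
    remainder_lt := fun a _ hb => nm_sub_mul_odiv_lt a hb
    mul_left_not_lt := fun a b hb => by
      rw [nm_mul]; exact not_lt_of_ge (Nat.le_mul_of_pos_right _ (nm_pos hb)) }

instance : Countable O := (QuadraticAlgebra.equivProd (-1 : ℤ) (-1)).injective.countable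

example : IsDomain O := inferInstance
example : IsPrincipalIdealRing O := inferInstance
example : UniqueFactorizationMonoid O := inferInstance
example : IsDedekindDomain O := inferInstance
example : DecidableEq O := inferInstance
example (I : Ideal O) : ℕ := Ideal.absNorm I

/-- `ω` as a complex number. -/
def omC : ℂ := ⟨-1 / 2, Real.sqrt 3 / 2⟩

theorem omC_sq : omC * omC = -1 - omC := by
  have h : Real.sqrt 3 * Real.sqrt 3 = 3 := Real.mul_self_sqrt (by norm_num)
  apply Complex.ext
  · simp [omC]; nlinarith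
  · simp [omC]; ring

/-- The embedding `O → ℂ`. -/
def toC : O →+* ℂ where
  toFun x := x.re + x.im * omC
  map_one' := by simp [QuadraticAlgebra.re_one, QuadraticAlgebra.im_one]
  map_zero' := by simp
  map_add' x y := by simp; ring
  map_mul' x y := by
    simp only [QuadraticAlgebra.re_mul, QuadraticAlgebra.im_mul]
    push_cast
    have := omC_sq
    linear_combination (-(x.im : ℂ) * y.im) * this

theorem toC_apply (x : O) : toC x = x.re + x.im * omC := rfl

theorem normSq_toC (x : O) : Complex.normSq (toC x) = nm x := by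
  have h : Real.sqrt 3 * Real.sqrt 3 = 3 := Real.mul_self_sqrt (by norm_num)
  have h2 : ((nm x : ℕ) : ℝ) = (x.re : ℝ) ^ 2 - x.re * x.im + x.im ^ 2 := by
    exact_mod_cast nm_int x
  rw [h2, toC_apply, Complex.normSq_apply]
  simp [omC]
  nlinarith

theorem toC_injective : Function.Injective toC := by
  rw [injective_iff_map_eq_zero]
  intro x hx
  have := normSq_toC x
  rw [hx, map_zero] at this
  exact nm_eq_zero.1 (by exact_mod_cast this.symm)

end Crest.Agent.R17
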