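import Crest.Agent.R17.Local
import Crest.Agent.R17.LocalSup
import Crest.Agent.R17.Chars

/-!
# R17 / RowSum_Defs : definitions and small tools for `RowSum` (sub-lead: helper51)

`Z = e^z`, `κ = 2β - 1`, `yp = yP J z = 5z/(24J)`, `e ≤ 10⁻⁷` a small parameter, `e' = e/100`.
Rows are `d' a⁶`; the six-free part `d'` lies in `npball Q (e^L)` (`L = k` an integer, `0 ≤ L ≤ 2z`).

* `Pi Q J ρ ε z d τ = Π(τ) = 1 + |Pb|`.
* `Maj … d P W` : the number `W ≥ 1` majorises all the marked blocks of the row `d` (`P = Π(τ)`).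
* `Fam Q z L B W` : `W d τ ≥ 0` is continuous in `τ` and its sum over `d ∈ npball Q (e^L)` is `≤ B`.
* **Majorant** (`Sup`, `Z0`, `Z1`, `M1`, `M5`, `Maj`): there is a family `W` with `Maj` for all `d, τ` and
  `Fam` with `B = C e^{L + 2γz}` (moment bounds + `local_sup`).
* **Pointwise bound** (`Zero`, `Loc`, `Mid`, `G`, `Point`): `Maj` implies the hypothesis `HS` of
  `hs_bound` with `V = VV E z L a W = Z^E N(a)^{-2} e^{-L} W + Z^{-5}`.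
* **Reduction** (`Red1`, `Red2`, `Red`): summation over the rows.
-/

set_option autoImplicit false

noncomputable section

open scoped Classical ComplexConjugate

namespace Crest.Agent.R17.RS

/-- the standing assumptions on the small parameters -/
structure Par (e : ℝ) (J : ℕ) (ρ ε : ℝ) : Prop where
  e0 : 0 < e
  e1 : e ≤ 1 / 10 ^ 7
  J1 : 1 ≤ J
  Je : 5 / (24 * (J : ℝ)) ≤ e / 100
  ρ0 : 0 < ρ
  Jρ : J * ρ ≤ e / 100
  ε0 : 0 < ε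
  ε1 : ε ≤ e / 100

/-- `Π(τ) = 1 + |Pb|` -/
def Pi (Q : Lev) (J : ℕ) (ρ ε z : ℝ) (d : O) (τ : ℝ) : ℝ :=
  1 + ‖Pb Q (rc (one0 Q) d) (yP J z) (ρ * z) ε τ‖

/-- `W` majorises the marked blocks of the row `d` -/
structure Maj (Q : Lev) (J : ℕ) (ρ κ z L : ℝ) (d : O) (P W : ℝ) : Prop where
  one : 1 ≤ W
  z0 : ∀ ν ∈ hchars Q.q, ∀ y t : ℝ, -z ≤ y → y ≤ 3 * z → |t| ≤ z ^ 3 → ‖pb (rc ν d) y t‖ ^ 4 ≤ W
  z1 : ∀ ν ∈ hchars Q.q, ∀ j ≤ J, 4 * j * yP J z * (1 + 4 * κ) ≤ L → ∀ y t : ℝ, -z ≤ y →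
    2 * y + j * yP J z * (1 + 5 * κ) ≤ L → |t| ≤ z ^ 3 → ‖pb (rc ν d) y t‖ ^ 4 * P ^ (2 * j) ≤ W
  m1 : ∀ ν ∈ hchars Q.q, ∀ j ≤ J, 6 * j * (yP J z + ρ * z) ≤ L → ∀ y t : ℝ, -z ≤ y →
    y + 2 * j * (yP J z + ρ * z) ≤ L → |t| ≤ z ^ 3 →
    ‖pb (mm (rc ν d)) y t‖ ^ 2 * P ^ (2 * j) ≤ W
  m5 : ∀ ν ∈ hchars Q.q, ∀ y t : ℝ, L ≤ y → y ≤ 3 * z → |t| ≤ z ^ 3 →
    Real.exp (-(5 / 6) * (y - L)) * ‖pb (mm (rc ν d)) y t‖ ^ 2 ≤ W

/-- a family of non-negative weights, continuous in `τ`, with row sums `≤ B` -/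
structure Fam (Q : Lev) (z L B : ℝ) (W : O → ℝ → ℝ) : Prop where
  nonneg : ∀ d τ, 0 ≤ W d τ
  cont : ∀ d, Continuous (W d)
  sum : ∀ τ : ℝ, |τ| ≤ z ^ 2 → ∑ d ∈ npball Q (Real.exp L), W d τ ≤ B

/-- the conclusion of the zero detector in exponent form -/
def Det (Q : Lev) (e' z L σ : ℝ) (d : O) : Prop :=
  ∀ x : ℝ, 0 ≤ x → x ≤ 4 * z → ∃ ν ∈ hchars Q.q, ∃ y1 y2 t : ℝ, |t| ≤ z ^ 3 ∧
    -(e' * z) ≤ y1 ∧ -(e' * z) ≤ y2 ∧ y1 ≤ x + e' * z ∧ x - e' * z ≤ y1 + y2 ∧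
    y2 ≤ L / 2 + e' * z ∧
    Real.exp (-(e' * z) + (σ - 1 / 2) * y1) ≤ ‖pb (mm (rc ν d)) y1 t‖ ∧
    Real.exp (-(e' * z) + (σ - 1 / 2) * y2) ≤ ‖pb (rc ν d) y2 t‖

/-- the hypothesis of `hs_bound` -/
def HS (Q : Lev) (η : O → ℂ) (J : ℕ) (ρ ε z : ℝ) (d a : O) (V : ℝ → ℝ) : Prop :=
  ∀ τ : ℝ, |τ| ≤ z ^ 2 → ∀ h1 h2 : ℝ, 1 ≤ h1 → 1 ≤ h2 → ∀ j ≤ J,
    h1 ≤ h2 * Real.exp (j * (yP J z + ρ * z)) * N a →
    h2 ^ ε * ‖pb (mm (rc η d)) (y0 z - Real.log h2 + ε / 2) (-τ)‖ *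
      ‖pb (rc (one0 Q) d) (y1 z - Real.log h1 + ε / 2) τ‖ *
      (1 + ‖Pb Q (rc (one0 Q) d) (yP J z) (ρ * z) ε τ‖) ^ (J - j) ≤ V τ

/-- the majorant fed into `hs_bound` -/
def VV (E z L : ℝ) (a : O) (W : ℝ → ℝ) : ℝ → ℝ :=
  fun τ => Real.exp (E * z - 2 * Real.log (N a) - L) * W τ + Real.exp (-5 * z)

/-- no sixth power of a prime outside the level divides `d` -/
def Six (Q : Lev) (d : O) : Prop := ∀ p, Prime p → ¬ p ∣ Q.q → ¬ p ^ 6 ∣ d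

/-- the six-free non-exceptional rows of norm `≤ e^k` -/
def cls (Q : Lev) (k : ℕ) : Finset O := (npball Q (Real.exp k)).filter (Six Q)

/-- the classes `(a, k)` -/
def idx (Q : Lev) (e z : ℝ) : Finset (O × ℕ) :=
  (((ball (Real.exp z)).filter (P0 Q)) ×ˢ Finset.range (⌊2 * z⌋₊ + 1)).filter
    (fun x => (x.2 : ℝ) + 6 * Real.log (N x.1) ≤ (1 + e) * z)

/-! ## Parameters -/

theorem J_mul_yP {J : ℕ} (hJ : 1 ≤ J) (z : ℝ) : J * yP J z = 5 / 24 * z := by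
  have : (J : ℝ) ≠ 0 := by positivity
  unfold yP
  field_simp

theorem yP_pos {J : ℕ} (hJ : 1 ≤ J) {z : ℝ} (hz : 0 < z) : 0 < yP J z := by
  have : (0 : ℝ) < J := by positivity
  unfold yP
  positivity

theorem yP_le {J : ℕ} {η z : ℝ} (h : 5 / (24 * (J : ℝ)) ≤ η) (hz : 0 ≤ z) : yP J z ≤ η * z :=
  mul_le_mul_of_nonneg_right h hz

theorem Par.yP_le {e : ℝ} {J : ℕ} {ρ ε z : ℝ} (h : Par e J ρ ε) (hz : 0 ≤ z) :
    yP J z ≤ e / 100 * z := RS.yP_le h.Je hz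

theorem Par.ρe {e : ℝ} {J : ℕ} {ρ ε : ℝ} (h : Par e J ρ ε) : ρ ≤ e / 100 := by
  have h1 : (1 : ℝ) ≤ J := by exact_mod_cast h.J1
  nlinarith [h.Jρ, h.ρ0]

theorem Par.ρ1 {e : ℝ} {J : ℕ} {ρ ε : ℝ} (h : Par e J ρ ε) : ρ ≤ 5 / (48 * J) := by
  have h1 : (0 : ℝ) < J := by have := h.J1; positivity
  rw [le_div_iff₀ (by positivity)]
  nlinarith [h.Jρ, h.e1]

/-- the number of marks: `j = ⌊μ / w⌋₊` -/
theorem choose_j {J : ℕ} {w μ : ℝ} (hw : 0 < w) (hμ : μ ≤ J * w) :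
    ∃ j ≤ J, (j = 0 ∨ j * w ≤ μ) ∧ μ - w ≤ j * w := by
  refine ⟨⌊μ / w⌋₊, Nat.floor_le_of_le (by rwa [div_le_iff₀ hw]), ?_, ?_⟩
  · rcases le_total 0 μ with h | h
    · exact Or.inr ((le_div_iff₀ hw).1 (Nat.floor_le (div_nonneg h hw.le)))
    · exact Or.inl (Nat.floor_of_nonpos (div_nonpos_of_nonpos_of_nonneg h hw.le))
  · have := (Nat.lt_floor_add_one (μ / w)).le
    rw [div_le_iff₀ hw] at this
    linarith

/-! ## Exponentials -/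

theorem exp_rpow (z x : ℝ) : Real.exp z ^ x = Real.exp (x * z) := by
  rw [← Real.exp_mul, mul_comm]

theorem pow_le_exp (B : ℕ) {γ : ℝ} (hγ : 0 < γ) :
    ∃ C : ℝ, 0 ≤ C ∧ ∀ z : ℝ, 0 ≤ z → z ^ B ≤ C * Real.exp (γ * z) := by
  refine ⟨B.factorial / γ ^ B, by positivity, fun z hz => ?_⟩
  have := Real.pow_div_factorial_le_exp (γ * z) (by positivity) B
  rw [div_le_iff₀ (by positivity), mul_pow] at this
  rw [div_mul_eq_mul_div, le_div_iff₀ (by positivity)]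
  linarith

/-- `C z^B ≤ e^{γ z}` for large `z` -/
theorem ev_le_exp (C : ℝ) (B : ℕ) {γ : ℝ} (hγ : 0 < γ) :
    ∃ z0 : ℝ, 1 ≤ z0 ∧ ∀ z : ℝ, z0 ≤ z → C * z ^ B ≤ Real.exp (γ * z) := by
  obtain ⟨K, hK, h⟩ := pow_le_exp (B + 1) hγ
  refine ⟨max 1 (|C| * K), le_max_left _ _, fun z hz => ?_⟩
  have h1 : 1 ≤ z := (le_max_left _ _).trans hz
  have h2 : |C| * K ≤ z := (le_max_right _ _).trans hz
  have h3 := h z (by linarith)
  have h4 : 0 < z := by linarith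
  have h5 : C * z ^ B ≤ |C| * z ^ B := mul_le_mul_of_nonneg_right (le_abs_self C) (by positivity)
  refine h5.trans (le_of_mul_le_mul_right ?_ h4)
  calc |C| * z ^ B * z = |C| * z ^ (B + 1) := by ring
    _ ≤ |C| * (K * Real.exp (γ * z)) := mul_le_mul_of_nonneg_left h3 (abs_nonneg C)
    _ = |C| * K * Real.exp (γ * z) := by ring
    _ ≤ z * Real.exp (γ * z) := mul_le_mul_of_nonneg_right h2 (Real.exp_pos _).le
    _ = _ := mul_comm _ _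

/-- `e^z ≥ Z₀` for large `z` -/
theorem ev_exp_ge (Z0 : ℝ) : ∀ z : ℝ, Z0 ≤ z → Z0 ≤ Real.exp z := fun z hz => by
  linarith [Real.add_one_le_exp z]

/-! ## Row characters -/

theorem norm_rc_le (Q : Lev) {ν : O → ℂ} (hν : ν ∈ hchars Q.q) (d n : O) : ‖rc ν d n‖ ≤ 1 := by
  have h := (mem_hchars Q.ne).1 hν
  by_cases hn : IsCoprime n Q.q
  · rw [rc, norm_mul]
    refine mul_le_one₀ (norm_hchar_le Q hν n) (norm_nonneg _) ?_
    exact norm_sym_le (by norm_num) (hn.of_isCoprime_of_dvd_right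
      ((show (6 : O) ∣ 72 from ⟨12, by norm_num⟩).trans Q.dvd)) d
  · rw [rc, (h.1.zero_iff n).2 hn, zero_mul, norm_zero]
    exact zero_le_one

theorem norm_mm_rc_le (Q : Lev) {ν : O → ℂ} (hν : ν ∈ hchars Q.q) (d n : O) :
    ‖mm (rc ν d) n‖ ≤ 1 := loc_norm_mm_le (norm_rc_le Q hν d) n

theorem mem_npball {Q : Lev} {D : ℝ} {d : O} : d ∈ npball Q D ↔ ¬ Exc Q d ∧ N d ≤ D := by
  rw [npball, Finset.mem_filter, mem_ball]
  exact ⟨fun h => ⟨h.2, h.1.2⟩, fun h => ⟨⟨not_exc_ne_zero Q h.1, h.2⟩, h.1⟩⟩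

theorem npball_mono (Q : Lev) {D D' : ℝ} (h : D ≤ D') : npball Q D ⊆ npball Q D' :=
  Finset.filter_subset_filter _ (ball_mono h)

theorem npball_subset (Q : Lev) (D : ℝ) : npball Q D ⊆ ball D := Finset.filter_subset _ _

theorem one_le_Pi (Q : Lev) (J : ℕ) (ρ ε z : ℝ) (d : O) (τ : ℝ) : 1 ≤ Pi Q J ρ ε z d τ :=
  le_add_of_nonneg_right (norm_nonneg _)

theorem continuous_Pi (Q : Lev) (J : ℕ) (ρ ε z : ℝ) (d : O) : Continuous (Pi Q J ρ ε z d) := by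
  unfold Pi Pb
  refine continuous_const.add (continuous_finsetSum _ fun p hp => ?_).norm
  have hp0 : (N p : ℂ) ≠ 0 := by
    have := (isSlot_slot Q _ _ p hp).1.ne_zero
    exact_mod_cast (N_pos this).ne'
  exact continuous_const.mul (Continuous.const_cpow (by fun_prop) (Or.inl hp0))

/-! ## Families -/

theorem Fam.mono {Q : Lev} {z L B B' : ℝ} {W : O → ℝ → ℝ} (h : Fam Q z L B W) (hB : B ≤ B') :
    Fam Q z L B' W := ⟨h.nonneg, h.cont, fun τ hτ => (h.sum τ hτ).trans hB⟩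

theorem Fam.add {Q : Lev} {z L B B' : ℝ} {W W' : O → ℝ → ℝ} (h : Fam Q z L B W)
    (h' : Fam Q z L B' W') : Fam Q z L (B + B') (fun d τ => W d τ + W' d τ) :=
  ⟨fun d τ => add_nonneg (h.nonneg d τ) (h'.nonneg d τ), fun d => (h.cont d).add (h'.cont d),
    fun τ hτ => by
      rw [Finset.sum_add_distrib]
      exact add_le_add (h.sum τ hτ) (h'.sum τ hτ)⟩

theorem Fam.one (Q : Lev) (z L : ℝ) : Fam Q z L (18 * Real.exp L) (fun _ _ => 1) :=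
  ⟨fun _ _ => zero_le_one, fun _ => continuous_const, fun τ _ => by
    rw [Finset.sum_const, nsmul_eq_mul, mul_one]
    refine le_trans ?_ (card_ball_le (Real.exp_pos L).le)
    exact_mod_cast Finset.card_le_card (npball_subset Q _)⟩

/-- Finitely many families have a common majorant: the quantity `F i x d τ` (`x` = the pair
`(y, t)`, restricted by `R i x`) is majorised by one family. -/
theorem Fam.finite {ι X : Type*} {Q : Lev} {z L B : ℝ} (s : Finset ι) (R : ι → X → Prop)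
    (F : ι → X → O → ℝ → ℝ)
    (h : ∀ i ∈ s, ∃ W, Fam Q z L B W ∧ ∀ d τ x, R i x → F i x d τ ≤ W d τ) :
    ∃ W, Fam Q z L (s.card * B) W ∧ ∀ i ∈ s, ∀ d τ x, R i x → F i x d τ ≤ W d τ := by
  choose! W hW using h
  refine ⟨fun d τ => ∑ i ∈ s, W i d τ, ⟨fun d τ => Finset.sum_nonneg fun i hi => (hW i hi).1.nonneg d τ,
    fun d => continuous_finsetSum _ fun i hi => (hW i hi).1.cont d, fun τ hτ => ?_⟩,
    fun i hi d τ x hx => ((hW i hi).2 d τ x hx).trans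
      (Finset.single_le_sum (f := fun i => W i d τ) (fun i hi => (hW i hi).1.nonneg d τ) hi)⟩
  rw [Finset.sum_comm, ← nsmul_eq_mul]
  exact Finset.sum_le_card_nsmul _ _ _ fun i hi => (hW i hi).1.sum τ hτ

end Crest.Agent.R17.RS
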