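import Crest.Agent.R17.RowSum_Sup
import Crest.Agent.R17.FMoment

/-!
# R17 / RowSum_M1 : the marked second moment family

Read the header of `RowSum_Defs.lean` first.
-/

set_option autoImplicit false

noncomputable section

open scoped Classical ComplexConjugate
open MeasureTheory

namespace Crest.Agent.R17.RS

theorem m1_Pb (Q : Lev) (d : O) (yp R ε τ : ℝ) : Pb Q (rc (one0 Q) d) yp R ε τ =
    ∑ p ∈ slot Q yp R, one0 Q p * wP yp p * (N p : ℂ) ^ (ε + τ * Complex.I) * chi p d /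
      (Real.sqrt (N p) : ℂ) := by
  refine Finset.sum_congr rfl fun p hp => ?_
  have h0 := N_pos (isSlot_slot Q _ _ p hp).1.ne_zero
  have e : (Real.sqrt (N p) : ℂ) = (N p : ℂ) ^ (1 / 2 : ℂ) := by
    rw [Real.sqrt_eq_rpow, Complex.ofReal_cpow h0.le]; push_cast; rfl
  rw [add_assoc, Complex.cpow_add _ _ (Complex.ofReal_ne_zero.2 h0.ne'), Complex.cpow_neg, e, rc]
  ring

theorem m1_b (Q : Lev) {yp R ε z : ℝ} (τ : ℝ) (hε : 0 ≤ ε) (hz : yp + R ≤ z) {p : O}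
    (hp : p ∈ slot Q yp R) :
    ‖one0 Q p * wP yp p * (N p : ℂ) ^ (ε + τ * Complex.I)‖ ≤ z * Real.exp (ε * (yp + R)) := by
  obtain ⟨h1, -, -, -, h2⟩ := isSlot_slot Q _ _ p hp
  have h0 := N_pos h1.ne_zero
  have h3 := Real.log_nonneg (one_le_N h1.ne_zero)
  have h4 : Real.log (N p) ≤ z := ((Real.log_le_iff_le_exp h0).2 h2).trans hz
  have h5 : ‖(wP yp p : ℂ)‖ ≤ z := by
    rw [Complex.norm_real, wP, Real.norm_of_nonneg (mul_nonneg h3 (gw_pos _).le)]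
    exact (mul_le_of_le_one_right h3 (gw_le_one _)).trans h4
  have h6 : ‖(N p : ℂ) ^ (ε + τ * Complex.I)‖ ≤ Real.exp (ε * (yp + R)) := by
    rw [Complex.norm_cpow_eq_rpow_re_of_pos h0, ← exp_rpow]
    simp only [Complex.add_re, Complex.ofReal_re, Complex.re_ofReal_mul, Complex.I_re, mul_zero,
      add_zero]
    gcongr
  rw [norm_mul, norm_mul]
  exact mul_le_mul ((mul_le_of_le_one_left (norm_nonneg _)
    (norm_hchar_le Q (one0_mem Q) p)).trans h5) h6 (norm_nonneg _) (h3.trans h4)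

/-- `η₁ = η/2` with `η` from `f1Moment 4 (γ/2)` (`J0 = J`).  Put `yp = yP J z`, `ℓ = yp + ρ z`
(`J ℓ ≤ (5/16) z`, `0 ≤ ℓ ≤ z`).  Index set: pairs `(ν, j) ∈ hchars Q.q ×ˢ range (J+1)` with `6 j ℓ ≤ L`.  For
such a pair apply `fam_one (γ/2)` with `p = 2`, `a d = mm (rc ν d)`, `c = 0`, `Y0 = -z`, `Y1 = L - 2jℓ`
(`0 ≤ Y1 ≤ 2z`), `g d τ = Pi … d τ ^ (2j)`.  The moment hypothesis is `f1Moment` with `Z = e^z`,
`S = slot Q yp (ρ z)`, `P1 = e^{yp - ρz} ≥ 1` (`ρ ≤ 5/(48J)`), `P2 = e^ℓ ≤ Z^η` (`ρ ≤ Jρ ≤ η₁`),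
`(P2/P1)^J = e^{2Jρz} ≤ Z^η` (`isSlot_slot`), `b p = one0 Q p · wP yp p · N(p)^{ε + iτ}`
(so that `Pb Q (rc (one0 Q) d) yp (ρ z) ε τ = ∑_{p ∈ S} b p χ_p(d)/√N p`; `Complex.cpow_add`),
`Λ = z e^{εℓ} ≥ 1`, `‖b p‖ ≤ log N p · N(p)^ε ≤ ℓ e^{εℓ} ≤ Λ`, `D = e^{L+1} ≤ Z⁴`, `R = e^{Y1+1}`
(`R P2^{2j} = D`, `P2^{6j} ≤ e^L`), `npball_subset`, `ball_mono`.  Losses: `Λ^{2j} ≤ Λ^{2J} ≤ z^{2J} e^{(5/8)γz}`
and `(1 + z³ + 1)^{B'} z^{2J} ≤ (3z³)^{B'} z^{2J} ≤ e^{γz/4}` (`ev_le_exp`); total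
`γ/2 + γ/2 + 5γ/8 + γ/4 ≤ 2γ`.  Combine with `Fam.finite` (`X = ℝ × ℝ`), `Fam.mono`. -/
theorem fam_m1 {γ : ℝ} (hγ : 0 < γ) : ∃ η1 > (0 : ℝ), ∀ (Q : Lev) (J : ℕ) (ρ ε : ℝ), 1 ≤ J →
    5 / (24 * (J : ℝ)) ≤ η1 → 0 < ρ → ρ ≤ 5 / (48 * J) → J * ρ ≤ η1 → 0 < ε → ε ≤ γ →
    ∃ C z0 : ℝ, 0 ≤ C ∧ ∀ z : ℝ, z0 ≤ z →
    ∀ L : ℝ, 0 ≤ L → L ≤ 2 * z → ∃ W, Fam Q z L (C * Real.exp (L + 2 * γ * z)) W ∧
      ∀ d τ, ∀ ν ∈ hchars Q.q, ∀ j ≤ J, 6 * j * (yP J z + ρ * z) ≤ L →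
        ∀ y t : ℝ, -z ≤ y → y + 2 * j * (yP J z + ρ * z) ≤ L → |t| ≤ z ^ 3 →
          ‖pb (mm (rc ν d)) y t‖ ^ 2 * Pi Q J ρ ε z d τ ^ (2 * j) ≤ W d τ := by
  obtain ⟨η, hη, hf⟩ := f1Moment 4 (half_pos hγ)
  obtain ⟨K, hK, hone⟩ := fam_one (half_pos hγ)
  refine ⟨η / 2, half_pos hη, fun Q J ρ ε hJ hJη hρ hρJ hJρ hε hεγ => ?_⟩
  obtain ⟨C, B, Z0, hC⟩ := hf Q J
  obtain ⟨z1, hz1, hev⟩ := ev_le_exp (3 ^ B) (3 * B + 2 * J) (show 0 < γ / 4 by positivity)
  refine ⟨(hchars Q.q ×ˢ Finset.range (J + 1)).card * (K * (|C| * Real.exp 1)), max z1 Z0,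
    by positivity, fun z hz L hL0 hL => ?_⟩
  have hz' : z1 ≤ z := (le_max_left _ _).trans hz
  have h1z : 1 ≤ z := hz1.trans hz'
  have hJ1 : (1 : ℝ) ≤ J := by exact_mod_cast hJ
  have hJyp := J_mul_yP hJ z
  have hyp := yP_pos hJ (show 0 < z by linarith)
  have hypη := yP_le hJη (show 0 ≤ z by linarith)
  have hJρ' : J * ρ ≤ 5 / 48 := by
    rw [le_div_iff₀ (by positivity)] at hρJ; linarith
  have hρz : 0 ≤ ρ * z := by positivity
  have hJρz : J * (ρ * z) ≤ 5 / 48 * z := by rw [← mul_assoc]; gcongr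
  have hJρz' : J * (ρ * z) ≤ η / 2 * z := by rw [← mul_assoc]; gcongr
  have hρz' : ρ * z ≤ J * (ρ * z) := le_mul_of_one_le_left hρz hJ1
  have hρyp : ρ * z ≤ yP J z := le_of_mul_le_mul_left (by linarith) (show (0 : ℝ) < J by linarith)
  set ℓ := yP J z + ρ * z with hℓ
  have hℓ0 : 0 ≤ ℓ := by positivity
  have hJℓ : J * ℓ ≤ 5 / 16 * z := by rw [hℓ, mul_add]; linarith
  have hℓz : ℓ ≤ z := (le_mul_of_one_le_left hℓ0 hJ1).trans (by linarith)
  have hΛ : 1 ≤ z * Real.exp (ε * ℓ) :=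
    one_le_mul_of_one_le_of_one_le h1z (Real.one_le_exp (by positivity))
  obtain ⟨W, hW, hW'⟩ := Fam.finite (Q := Q) (z := z) (L := L)
    (B := K * (|C| * Real.exp 1) * Real.exp (L + 2 * γ * z)) (hchars Q.q ×ˢ Finset.range (J + 1))
    (fun i (x : ℝ × ℝ) => 6 * i.2 * ℓ ≤ L ∧ -z ≤ x.1 ∧ x.1 + 2 * i.2 * ℓ ≤ L ∧ |x.2| ≤ z ^ 3)
    (fun i x d τ => ‖pb (mm (rc i.1 d)) x.1 x.2‖ ^ 2 * Pi Q J ρ ε z d τ ^ (2 * i.2)) (by
      rintro ⟨ν, j⟩ hi
      obtain ⟨hν, hj⟩ := Finset.mem_product.1 hi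
      replace hj : j ≤ J := Nat.lt_succ_iff.1 (Finset.mem_range.1 hj)
      by_cases h6 : 6 * j * ℓ ≤ L
      swap
      · exact ⟨fun _ _ => 0, ⟨fun _ _ => le_rfl, fun _ => continuous_const, fun _ _ => by
          rw [Finset.sum_const_zero]; positivity⟩, fun _ _ _ hx => absurd hx.1 h6⟩
      have hjℓ : 0 ≤ j * ℓ := by positivity
      obtain ⟨W, hW, hW'⟩ := hone Q z L (|C| * Real.exp 1 * Real.exp (L + 11 / 8 * γ * z)) h1z 2
        (Or.inl rfl) (fun d => mm (rc ν d)) (norm_mm_rc_le Q hν) 0 (-z) (L - 2 * j * ℓ) (by simp)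
        le_rfl (by linarith) (by linarith) (fun d τ => Pi Q J ρ ε z d τ ^ (2 * j))
        (fun d τ => pow_nonneg (zero_le_one.trans (one_le_Pi _ _ _ _ _ _ _)) _)
        (fun d => (continuous_Pi Q J ρ ε z d).pow _) (by
          intro τ y t _ _ hy ht
          have key := hC (Real.exp z) (((le_max_right _ _).trans hz).trans
            (by linarith [Real.add_one_le_exp z])) ν hν _ _ _ (isSlot_slot Q (yP J z) (ρ * z))
            (Real.one_le_exp (by linarith)) (Real.exp_le_exp.2 (by linarith))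
            (by rw [exp_rpow]; exact Real.exp_le_exp.2 (by linarith))
            (by
              rw [exp_rpow, ← Real.exp_sub, ← Real.exp_nat_mul]
              exact Real.exp_le_exp.2 (by linarith))
            j hj _ _ hΛ (fun p hp => m1_b Q τ hε.le hℓz hp) (Real.exp (L + 1))
            (Real.exp (L - 2 * j * ℓ + 1)) y t
            (by rw [exp_rpow]; exact Real.exp_le_exp.2 (by linarith))
            (Real.one_le_exp (by linarith)) (Real.exp_le_exp.2 hy)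
            (by
              rw [← Real.exp_nat_mul, ← Real.exp_add]
              exact Real.exp_le_exp.2 (by push_cast; linarith))
            (by rw [← Real.exp_nat_mul]; exact Real.exp_le_exp.2 (by push_cast; linarith))
          simp only [← m1_Pb] at key
          have hz3 : 1 ≤ z ^ 3 := one_le_pow₀ h1z
          have e1 : (1 + |t|) ^ B ≤ 3 ^ B * z ^ (3 * B) := by
            rw [pow_mul, ← mul_pow]; gcongr; linarith
          have e2 : (z * Real.exp (ε * ℓ)) ^ (2 * j) ≤ z ^ (2 * J) * Real.exp (5 / 8 * γ * z) := by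
            refine (pow_le_pow_right₀ hΛ (by omega : 2 * j ≤ 2 * J)).trans ?_
            rw [mul_pow, ← Real.exp_nat_mul]
            have : ε * (J * ℓ) ≤ γ * (5 / 16 * z) := by gcongr
            gcongr _ * Real.exp ?_
            push_cast
            linarith
          simp only [zero_mul, Real.exp_zero, one_mul]
          calc _ ≤ ∑ d ∈ ball (Real.exp (L + 1)),
                ‖pb (mm (rc ν d)) y t‖ ^ 2 * Pi Q J ρ ε z d τ ^ (2 * j) :=
                Finset.sum_le_sum_of_subset_of_nonneg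
                  ((npball_subset Q _).trans (ball_mono (Real.exp_le_exp.2 (by linarith))))
                  fun d _ _ => mul_nonneg (sq_nonneg _)
                    (pow_nonneg (zero_le_one.trans (one_le_Pi _ _ _ _ _ _ _)) _)
            _ ≤ _ := key
            _ ≤ |C| * Real.exp (γ / 2 * z) * (3 ^ B * z ^ (3 * B)) *
                (z ^ (2 * J) * Real.exp (5 / 8 * γ * z)) * Real.exp (L + 1) := by
                rw [exp_rpow]; gcongr; exact le_abs_self C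
            _ = |C| * (3 ^ B * z ^ (3 * B + 2 * J)) *
                (Real.exp (γ / 2 * z) * Real.exp (5 / 8 * γ * z) * Real.exp (L + 1)) := by ring
            _ ≤ |C| * Real.exp (γ / 4 * z) *
                (Real.exp (γ / 2 * z) * Real.exp (5 / 8 * γ * z) * Real.exp (L + 1)) := by
                gcongr; exact hev z hz'
            _ = _ := by
                simp only [mul_assoc, ← Real.exp_add]
                congr 2
                ring)
      refine ⟨W, hW.mono ?_, fun d τ x hx => ?_⟩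
      · have : Real.exp (γ / 2 * z) * Real.exp (L + 11 / 8 * γ * z) ≤ Real.exp (L + 2 * γ * z) := by
          rw [← Real.exp_add]
          have : 0 ≤ γ * z := by positivity
          exact Real.exp_le_exp.2 (by linarith)
        calc _ = K * (|C| * Real.exp 1) *
              (Real.exp (γ / 2 * z) * Real.exp (L + 11 / 8 * γ * z)) := by ring
          _ ≤ _ := by gcongr
      · simpa using hW' d τ x.1 x.2 hx.2.1 (by linarith [hx.2.2.1]) hx.2.2.2)
  refine ⟨W, hW.mono (le_of_eq (by ring)), fun d τ ν hν j hj h6 y t hy h2 ht => ?_⟩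
  exact hW' (ν, j) (Finset.mem_product.2 ⟨hν, Finset.mem_range.2 (Nat.lt_succ_of_le hj)⟩) d τ (y, t)
    ⟨h6, hy, h2, ht⟩

end Crest.Agent.R17.RS
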