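import Crest.Agent.R17.RowSum_Sup
import Crest.Agent.R17.GMoment

/-!
# R17 / RowSum_Z1 : the marked fourth moment family

Read the header of `RowSum_Defs.lean` first.
-/

set_option autoImplicit false

noncomputable section

open scoped Classical ComplexConjugate
open MeasureTheory

namespace Crest.Agent.R17.RS

/-- `η₁` from `gMoment1 4 (γ/3)` (with `J0 = J`).  Index set: the pairs `(ν, j) ∈ hchars Q.q ×ˢ range (J+1)`
with `4 j yp (1+4κ) ≤ L` (`κ = 2β-1 ∈ [3/4,1]`, `yp = yP J z ≥ 0`; cardinality `≤ #hchars · (J+1)`).  For such a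
pair apply `fam_one (γ/3)` with `p = 4`, `a d = rc ν d`, `c = 0`, `Y0 = -z`, `Y1 = (L - j yp (1+5κ))/2`
(`0 ≤ Y1 ≤ z` as `1 + 5κ ≤ 4(1+4κ)`), `g d τ = Pi … d τ ^ (2j)` (`one_le_Pi`, `continuous_Pi`).  The moment
hypothesis is `gMoment1` with `Z = e^z` (`log Z = z`), `ν₁ = ν₂ = ν`, `ν₃ = one0 Q` (`one0_mem`), `x = ε`,
`D = e^{L+2} ≤ Z⁴` (`z ≥ 1`; `npball_mono`), `X = e^{Y1+1}` (`X² e^{j yp (1+5κ)} = D`), `y₁ = y₂ = y`,
`t₁ = t₂ = t`; `yp ≤ η₁ z` by `yP_le`; `(1 + 2(z³+1) + z²)^{B'} ≤ (6z³)^{B'} ≤ e^{γz/3}` (`ev_le_exp`).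
Combine with `Fam.finite` (`X = ℝ × ℝ`), `Fam.mono`. -/
theorem fam_z1 {γ : ℝ} (hγ : 0 < γ) : ∃ η1 > (0 : ℝ), ∀ β : ℝ, 7 / 8 ≤ β → β ≤ 1 → ZF β →
    ∀ (Q : Lev) (J : ℕ) (ρ ε : ℝ), 1 ≤ J → 5 / (24 * (J : ℝ)) ≤ η1 → 0 < ρ → J * ρ ≤ η1 → 0 < ε →
    ε ≤ η1 → ∃ C z0 : ℝ, 0 ≤ C ∧ ∀ z : ℝ, z0 ≤ z →
    ∀ L : ℝ, 0 ≤ L → L ≤ 2 * z → ∃ W, Fam Q z L (C * Real.exp (L + γ * z)) W ∧
      ∀ d τ, ∀ ν ∈ hchars Q.q, ∀ j ≤ J, 4 * j * yP J z * (1 + 4 * (2 * β - 1)) ≤ L →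
        ∀ y t : ℝ, -z ≤ y → 2 * y + j * yP J z * (1 + 5 * (2 * β - 1)) ≤ L → |t| ≤ z ^ 3 →
          ‖pb (rc ν d) y t‖ ^ 4 * Pi Q J ρ ε z d τ ^ (2 * j) ≤ W d τ := by
  obtain ⟨η1, hη, H⟩ := gMoment1 4 (ε := γ / 3) (by positivity)
  obtain ⟨K, hK, HK⟩ := fam_one (γ := γ / 3) (by positivity)
  refine ⟨η1, hη, fun β hβ hβ1 hZ Q J ρ ε hJ hJη hρ hJρ hε hεη => ?_⟩
  obtain ⟨C, B, Z0, HC⟩ := H β hβ hβ1 hZ Q J ρ hρ hJρ
  obtain ⟨z1, hz1, hz1'⟩ := ev_le_exp (6 ^ B) (3 * B) (γ := γ / 3) (by positivity)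
  refine ⟨((hchars Q.q).card * (J + 1)) * (K * (|C| * Real.exp 2)), max Z0 z1, by positivity,
    fun z hz L hL0 hL => ?_⟩
  have hzZ : Z0 ≤ z := (le_max_left _ _).trans hz
  have hzz : z1 ≤ z := (le_max_right _ _).trans hz
  have h1z : 1 ≤ z := hz1.trans hzz
  have hyp : 0 < yP J z := yP_pos hJ (by linarith)
  set κ : ℝ := 2 * β - 1 with hκ
  have hκ0 : 0 ≤ κ := by linarith
  set Bm : ℝ := |C| * Real.exp (γ / 3 * z) * Real.exp (γ / 3 * z) * Real.exp (L + 2) with hBm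
  obtain ⟨W, hW, hW'⟩ := Fam.finite (Q := Q) (z := z) (L := L) (B := K * Real.exp (γ / 3 * z) * Bm)
    ((hchars Q.q ×ˢ Finset.range (J + 1)).filter
      fun i : (O → ℂ) × ℕ => 4 * (i.2 : ℝ) * yP J z * (1 + 4 * κ) ≤ L)
    (fun i (x : ℝ × ℝ) => -z ≤ x.1 ∧ 2 * x.1 + (i.2 : ℝ) * yP J z * (1 + 5 * κ) ≤ L ∧ |x.2| ≤ z ^ 3)
    (fun i x d τ => ‖pb (rc i.1 d) x.1 x.2‖ ^ 4 * Pi Q J ρ ε z d τ ^ (2 * i.2)) (by
      rintro ⟨ν, j⟩ hi
      obtain ⟨hi1, hi2⟩ := Finset.mem_filter.1 hi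
      obtain ⟨hν, hj⟩ := Finset.mem_product.1 hi1
      dsimp only at hν hj hi2 ⊢
      have hj' : j ≤ J := Nat.lt_succ_iff.1 (Finset.mem_range.1 hj)
      have hw : 0 ≤ (j : ℝ) * yP J z := by positivity
      have hw1 : 0 ≤ (j : ℝ) * yP J z * (1 + 5 * κ) := by positivity
      have hw2 : (j : ℝ) * yP J z * (1 + 5 * κ) ≤ L := by nlinarith [mul_nonneg hw hκ0]
      obtain ⟨W, hW, hW'⟩ := HK Q z L Bm h1z 4 (Or.inr rfl) (fun d => rc ν d) (norm_rc_le Q hν) 0 (-z)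
        ((L - j * yP J z * (1 + 5 * κ)) / 2) (by simp) le_rfl (by linarith) (by linarith)
        (fun d τ => Pi Q J ρ ε z d τ ^ (2 * j))
        (fun d τ => pow_nonneg (zero_le_one.trans (one_le_Pi _ _ _ _ _ _ _)) _)
        (fun d => (continuous_Pi Q J ρ ε z d).pow _) (fun τ y t hτ _ hy ht => by
          have key := HC (Real.exp z) (ev_exp_ge Z0 z hzZ) ν hν ν hν (one0 Q) (one0_mem Q) j hj' (yP J z) ε τ
            (Real.exp (L + 2)) (Real.exp ((L - j * yP J z * (1 + 5 * κ)) / 2 + 1)) y y t t hyp.le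
            (by rw [Real.log_exp]; exact yP_le hJη (by linarith)) (by rwa [abs_of_pos hε])
            (by rw [exp_rpow]; exact Real.exp_le_exp.2 (by linarith))
            (Real.one_le_exp (by linarith)) (Real.exp_le_exp.2 hy) (Real.exp_le_exp.2 hy)
            (by
              rw [← Real.exp_nat_mul, ← Real.exp_add]
              refine Real.exp_le_exp.2 (le_of_eq ?_)
              push_cast
              ring)
            (Real.exp_le_exp.2 (by linarith))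
          rw [Real.log_exp, exp_rpow] at key
          have e1 : (1 + |t| + |t| + |τ|) ^ B ≤ Real.exp (γ / 3 * z) := by
            refine le_trans ?_ (hz1' z hzz)
            rw [pow_mul, ← mul_pow]
            have a1 : 1 ≤ z ^ 3 := one_le_pow₀ h1z
            have a2 : z ^ 2 ≤ z ^ 3 := pow_le_pow_right₀ h1z (by norm_num)
            exact pow_le_pow_left₀ (by positivity) (by linarith) _
          calc ∑ d ∈ npball Q (Real.exp L),
                Real.exp (0 * (y - L)) * ‖pb (rc ν d) y t‖ ^ 4 * Pi Q J ρ ε z d τ ^ (2 * j)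
              = ∑ d ∈ npball Q (Real.exp L), ‖pb (rc ν d) y t‖ ^ 2 * ‖pb (rc ν d) y t‖ ^ 2 *
                (1 + ‖Pb Q (rc (one0 Q) d) (yP J z) (ρ * z) ε τ‖) ^ (2 * j) := by
                refine Finset.sum_congr rfl fun d _ => ?_
                rw [zero_mul, Real.exp_zero, Pi]
                ring
            _ ≤ _ := Finset.sum_le_sum_of_subset_of_nonneg
                (npball_mono Q (Real.exp_le_exp.2 (by linarith : L ≤ L + 2))) fun d _ _ => by positivity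
            _ ≤ _ := key
            _ ≤ Bm := by
                rw [hBm]
                gcongr
                exact le_abs_self C)
      refine ⟨W, hW, fun d τ x hx => ?_⟩
      have := hW' d τ x.1 x.2 hx.1 (by linarith [hx.2.1]) hx.2.2
      rwa [zero_mul, Real.exp_zero, one_mul] at this)
  refine ⟨W, hW.mono ?_, fun d τ ν hν j hj h4 y t hy1 hy2 ht => ?_⟩
  · have e1 : ((((hchars Q.q ×ˢ Finset.range (J + 1)).filter
        fun i : (O → ℂ) × ℕ => 4 * (i.2 : ℝ) * yP J z * (1 + 4 * κ) ≤ L).card : ℕ) : ℝ) ≤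
        (hchars Q.q).card * (J + 1) := by
      have := Finset.card_filter_le (hchars Q.q ×ˢ Finset.range (J + 1))
        fun i : (O → ℂ) × ℕ => 4 * (i.2 : ℝ) * yP J z * (1 + 4 * κ) ≤ L
      rw [Finset.card_product, Finset.card_range] at this
      exact_mod_cast this
    have e2 : K * Real.exp (γ / 3 * z) * Bm = K * (|C| * Real.exp 2) * Real.exp (L + γ * z) := by
      have : Real.exp (γ / 3 * z) * (Real.exp (γ / 3 * z) * Real.exp (γ / 3 * z) * Real.exp (L + 2)) =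
          Real.exp 2 * Real.exp (L + γ * z) := by
        simp only [← Real.exp_add]
        congr 1
        ring
      rw [hBm]
      linear_combination (K * |C|) * this
    rw [e2, ← mul_assoc]
    gcongr
  · exact hW' (ν, j) (Finset.mem_filter.2 ⟨Finset.mem_product.2
      ⟨hν, Finset.mem_range.2 (Nat.lt_succ_of_le hj)⟩, h4⟩) d τ (y, t) ⟨hy1, hy2, ht⟩

end Crest.Agent.R17.RS
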