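import Crest.Agent.R17.RowSum_Z0
import Crest.Agent.R17.RowSum_Z1
import Crest.Agent.R17.RowSum_M1

/-!
# R17 / RowSum_Maj : existence of the majorant
-/

set_option autoImplicit false

noncomputable section

open scoped Classical ComplexConjugate

namespace Crest.Agent.R17.RS

theorem maj_exists {γ : ℝ} (hγ : 0 < γ) : ∃ η1 > (0 : ℝ), ∀ β : ℝ, 7 / 8 ≤ β → β ≤ 1 → ZF β →
    ∀ (Q : Lev) (J : ℕ) (ρ ε : ℝ), 1 ≤ J → 5 / (24 * (J : ℝ)) ≤ η1 → 0 < ρ → ρ ≤ 5 / (48 * J) →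
    J * ρ ≤ η1 → 0 < ε → ε ≤ η1 → ε ≤ γ → ∃ C z0 : ℝ, 0 ≤ C ∧ ∀ z : ℝ, z0 ≤ z →
    ∀ L : ℝ, 0 ≤ L → L ≤ 2 * z → ∃ W, Fam Q z L (C * Real.exp (2 * γ * z) * Real.exp L) W ∧
      ∀ d τ, Maj Q J ρ (2 * β - 1) z L d (Pi Q J ρ ε z d τ) (W d τ) := by
  obtain ⟨η1, hη1, h1⟩ := fam_z1 hγ
  obtain ⟨η2, hη2, h2⟩ := fam_m1 hγ
  refine ⟨min η1 η2, lt_min hη1 hη2, fun β hβ hβ1 hZ Q J ρ ε hJ a1 hρ hρ1 a2 hε a3 a4 => ?_⟩
  obtain ⟨C0, z0, hC0, k0⟩ := fam_z0 hγ Q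
  obtain ⟨C5, z5, hC5, k5⟩ := fam_m5 hγ Q
  obtain ⟨C1, z1, hC1, k1⟩ := h1 β hβ hβ1 hZ Q J ρ ε hJ (a1.trans (min_le_left _ _)) hρ
    (a2.trans (min_le_left _ _)) hε (a3.trans (min_le_left _ _))
  obtain ⟨C2, z2, hC2, k2⟩ := h2 Q J ρ ε hJ (a1.trans (min_le_right _ _)) hρ hρ1
    (a2.trans (min_le_right _ _)) hε a4
  refine ⟨18 + C0 + C1 + C2 + C5, max (max (max z0 z1) (max z2 z5)) 0, by positivity,
    fun z hz L hL hL2 => ?_⟩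
  simp only [max_le_iff] at hz
  obtain ⟨⟨⟨b0, b1⟩, b2, b5⟩, hz0⟩ := hz
  obtain ⟨W0, f0, g0⟩ := k0 z b0 L hL hL2
  obtain ⟨W1, f1, g1⟩ := k1 z b1 L hL hL2
  obtain ⟨W2, f2, g2⟩ := k2 z b2 L hL hL2
  obtain ⟨W5, f5, g5⟩ := k5 z b5 L hL hL2
  refine ⟨_, (((((Fam.one Q z L).add f0).add f1).add f2).add f5).mono ?_, fun d τ => ?_⟩
  · have e1 : Real.exp L ≤ Real.exp (2 * γ * z) * Real.exp L :=
      le_mul_of_one_le_left (Real.exp_pos _).le (Real.one_le_exp (by positivity))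
    have e2 : Real.exp (L + γ * z) ≤ Real.exp (2 * γ * z) * Real.exp L := by
      rw [← Real.exp_add]
      exact Real.exp_le_exp.2 (by nlinarith [mul_nonneg hγ.le hz0])
    have e3 : Real.exp (L + 2 * γ * z) = Real.exp (2 * γ * z) * Real.exp L := by
      rw [← Real.exp_add, add_comm]
    rw [e3, mul_assoc (18 + C0 + C1 + C2 + C5)]
    linarith [mul_le_mul_of_nonneg_left e2 hC0, mul_le_mul_of_nonneg_left e2 hC1,
      mul_le_mul_of_nonneg_left e2 hC5]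
  · have n0 := f0.nonneg d τ
    have n1 := f1.nonneg d τ
    have n2 := f2.nonneg d τ
    have n5 := f5.nonneg d τ
    refine ⟨by linarith, fun ν hν y t c1 c2 c3 => ?_, fun ν hν j hj c0 y t c1 c2 c3 => ?_,
      fun ν hν j hj c0 y t c1 c2 c3 => ?_, fun ν hν y t c1 c2 c3 => ?_⟩
    · linarith [g0 d τ ν hν y t c1 c2 c3]
    · linarith [g1 d τ ν hν j hj c0 y t c1 c2 c3]
    · linarith [g2 d τ ν hν j hj c0 y t c1 c2 c3]
    · linarith [g5 d τ ν hν y t c1 c2 c3]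

end Crest.Agent.R17.RS
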