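import Crest.Agent.R17.RowSum_Defs

/-!
# R17 / RowSum_Red1 : splitting the rows into classes

Read the header of `RowSum_Defs.lean` first.
-/

set_option autoImplicit false

noncomputable section

open scoped Classical ComplexConjugate
open MeasureTheory

namespace Crest.Agent.R17.RS

theorem red1_cover (Q : Lev) {e z : ℝ} (he : 0 < e) (he1 : e ≤ 1) (hz : 2 / e ≤ z) :
    npball Q (Real.exp ((1 + e / 2) * z)) ⊆
      ((idx Q e z).sigma (fun x => cls Q x.2)).image (fun y => y.2 * y.1.1 ^ 6) := by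
  intro d hd
  obtain ⟨hexc, hN⟩ := mem_npball.1 hd
  have hd0 : d ≠ 0 := not_exc_ne_zero Q hexc
  obtain ⟨d', a, ha, rfl, hsix⟩ := exists_sixfree Q hd0
  have ha0 : a ≠ 0 := by
    rintro rfl
    exact hd0 (by simp)
  have hd'0 : d' ≠ 0 := left_ne_zero_of_mul hd0
  have hexc' : ¬ Exc Q d' := fun h => hexc ((exc_mul_pow_six Q ha0).2 h)
  have hez : 2 ≤ e * z := by
    rw [div_le_iff₀ he] at hz; linarith
  have hz0 : 2 ≤ z := by nlinarith
  have hla : 0 ≤ Real.log (N a) := Real.log_nonneg (one_le_N ha0)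
  have hld : 0 ≤ Real.log (N d') := Real.log_nonneg (one_le_N hd'0)
  have hlog : Real.log (N d') + 6 * Real.log (N a) ≤ (1 + e / 2) * z := by
    have h1 := (Real.log_le_iff_le_exp (N_pos hd0)).2 hN
    rw [N_mul, N_pow, Real.log_mul (N_pos hd'0).ne' (pow_pos (N_pos ha0) 6).ne',
      Real.log_pow] at h1
    exact_mod_cast h1
  have hk : (⌈Real.log (N d')⌉₊ : ℝ) ≤ Real.log (N d') + 1 := (Nat.ceil_lt_add_one hld).le
  have hk2 : (⌈Real.log (N d')⌉₊ : ℝ) + 6 * Real.log (N a) ≤ (1 + e) * z := by nlinarith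
  refine Finset.mem_image.2 ⟨⟨(a, ⌈Real.log (N d')⌉₊), d'⟩, ?_, rfl⟩
  refine Finset.mem_sigma.2 ⟨?_, ?_⟩
  · refine Finset.mem_filter.2 ⟨Finset.mem_product.2 ⟨Finset.mem_filter.2 ⟨mem_ball.2 ⟨ha0, ?_⟩, ha⟩,
      Finset.mem_range.2 (Nat.lt_succ_of_le (Nat.le_floor ?_))⟩, hk2⟩
    · refine (Real.log_le_iff_le_exp (N_pos ha0)).1 ?_
      nlinarith
    · show (⌈Real.log (N d')⌉₊ : ℝ) ≤ 2 * z
      nlinarith
  · refine Finset.mem_filter.2 ⟨mem_npball.2 ⟨hexc', ?_⟩, hsix⟩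
    exact (Real.log_le_iff_le_exp (N_pos hd'0)).1 (Nat.le_ceil _)

/-- Put `F = npball Q (e^{(1+e/2)z})`.  Termwise `(if ¬Exc d then f d else 0) ≤ (if e^{(1+e/2)z} < N d then f d
else 0) + (if d ∈ F then f d else 0)` (`mem_npball`); `Summable.tsum_le_tsum`, `Summable.tsum_add`,
`tsum_eq_sum`.  Every `d ∈ F` is `d' a⁶` (`exists_sixfree`, `exc_mul_pow_six`) with `(a, k) ∈ idx Q e z`,
`d' ∈ cls Q k` for `k = ⌈log N d'⌉₊`: `k ≤ log N d' + 1`, so
`k + 6 log N a ≤ log N d + 1 ≤ (1 + e/2) z + 1 ≤ (1+e) z ≤ 2z` (`N_mul`, `N_pow`, `one_le_N`; `Nat.le_floor`;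
`log N a ≤ z`).  Hence `F` is contained in the image of `(idx Q e z).sigma (fun x => cls Q x.2)` under
`⟨x, d'⟩ ↦ d' x.1⁶`; use `Finset.sum_le_sum_of_subset_of_nonneg`, `Finset.sum_image_le_of_nonneg` (or
`Finset.sum_le_sum_fiberwise_of_maps_to`) and `Finset.sum_sigma`. -/
theorem red_split (Q : Lev) {f : O → ℝ} (hf : Summable f) (hf0 : ∀ d, 0 ≤ f d) {e z : ℝ}
    (he : 0 < e) (he1 : e ≤ 1) (hz : 2 / e ≤ z) :
    ∑' d : O, (if ¬ Exc Q d then f d else 0) ≤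
      ∑' d : O, (if Real.exp ((1 + e / 2) * z) < N d then f d else 0) +
        ∑ x ∈ idx Q e z, ∑ d ∈ cls Q x.2, f (d * x.1 ^ 6) := by
  set F := npball Q (Real.exp ((1 + e / 2) * z)) with hF
  have hs : ∀ (p : O → Prop) [DecidablePred p], Summable fun d => if p d then f d else 0 :=
    fun p _ => Summable.of_nonneg_of_le (fun d => by split_ifs; exacts [hf0 d, le_rfl])
      (fun d => by split_ifs; exacts [le_rfl, hf0 d]) hf
  have h1 : ∑' d : O, (if ¬ Exc Q d then f d else 0) ≤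
      ∑' d : O, ((if Real.exp ((1 + e / 2) * z) < N d then f d else 0)
        + (if d ∈ F then f d else 0)) := by
    refine Summable.tsum_le_tsum (fun d => ?_) (hs _) ((hs _).add (hs _))
    have := hf0 d
    by_cases hexc : Exc Q d
    · rw [if_neg (not_not.2 hexc)]
      split_ifs <;> linarith
    · rw [if_pos hexc]
      by_cases hN : Real.exp ((1 + e / 2) * z) < N d
      · rw [if_pos hN]
        split_ifs <;> linarith
      · rw [if_neg hN, if_pos (mem_npball.2 ⟨hexc, not_lt.1 hN⟩), zero_add]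
  refine h1.trans ?_
  rw [Summable.tsum_add (hs _) (hs _)]
  refine add_le_add le_rfl ?_
  rw [tsum_eq_sum (s := F) (fun d hd => if_neg hd), Finset.sum_congr rfl (fun d hd => if_pos hd)]
  refine (Finset.sum_le_sum_of_subset_of_nonneg (red1_cover Q he he1 hz)
    (fun d _ _ => hf0 d)).trans ?_
  refine (Finset.sum_image_le_of_nonneg (fun d _ => hf0 d)).trans ?_
  rw [Finset.sum_sigma]

/-- `idx ⊆ ball (e^z) ×ˢ range (⌊2z⌋₊+1)`, `sum_ball_inv`: the sum is `≤ C (1+z)(2z+1) ≤ 6|C| z² ≤ e^{γ z}`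
(`ev_le_exp`). -/
theorem sum_idx_le {γ : ℝ} (hγ : 0 < γ) : ∃ z0 : ℝ, ∀ (Q : Lev) (e z : ℝ), z0 ≤ z →
    ∑ x ∈ idx Q e z, (N x.1)⁻¹ ≤ Real.exp (γ * z) := by
  obtain ⟨C, hC⟩ := sum_ball_inv
  obtain ⟨z0, hz0, h⟩ := ev_le_exp (6 * |C|) 2 hγ
  refine ⟨z0, fun Q e z hz => le_trans ?_ (h z hz)⟩
  have hz1 : 1 ≤ z := hz0.trans hz
  have hN : ∀ a : O, 0 ≤ (N a)⁻¹ := fun a => inv_nonneg.2 (Nat.cast_nonneg _)
  have hsub : idx Q e z ⊆ ball (Real.exp z) ×ˢ Finset.range (⌊2 * z⌋₊ + 1) :=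
    (Finset.filter_subset _ _).trans
      (Finset.product_subset_product_left (Finset.filter_subset _ _))
  refine (Finset.sum_le_sum_of_subset_of_nonneg hsub (fun x _ _ => hN x.1)).trans ?_
  rw [Finset.sum_product]
  simp only [Finset.sum_const, Finset.card_range, nsmul_eq_mul]
  rw [← Finset.mul_sum]
  have h1 := hC (Real.exp z) (Real.one_le_exp (by linarith))
  rw [Real.log_exp] at h1
  have h2 : ((⌊2 * z⌋₊ + 1 : ℕ) : ℝ) ≤ 3 * z := by
    have := Nat.floor_le (show 0 ≤ 2 * z by linarith)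
    push_cast
    linarith
  have h3 : ∑ a ∈ ball (Real.exp z), (N a)⁻¹ ≤ |C| * (2 * z) :=
    h1.trans ((mul_le_mul_of_nonneg_right (le_abs_self C) (by linarith)).trans
      (mul_le_mul_of_nonneg_left (by linarith) (abs_nonneg C)))
  calc _ ≤ 3 * z * (|C| * (2 * z)) :=
        mul_le_mul h2 h3 (Finset.sum_nonneg fun a _ => hN a) (by linarith)
    _ = _ := by ring

end Crest.Agent.R17.RS
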