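import Crest.Agent.R17.RowSum_Defs
import Crest.Agent.R17.GMoment_Sup

/-!
# R17 / RowSum_Sup : from a moment bound to a majorant of the supremum

Read the header of `RowSum_Defs.lean` first.
-/

set_option autoImplicit false

noncomputable section

open scoped Classical ComplexConjugate
open MeasureTheory

namespace Crest.Agent.R17.RS

/-- `local_sup` for second and fourth powers -/
theorem sup_cell : ∃ C : ℝ, 0 ≤ C ∧ ∀ ψ : O → ℂ, (∀ n, ‖ψ n‖ ≤ 1) → ∀ p : ℕ, (p = 2 ∨ p = 4) →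
    ∀ y t : ℝ, ‖pb ψ y t‖ ^ p ≤ C * (1 + |t|) ^ 4 *
      ∫ y' in Set.Icc (y - 1) (y + 1), ∫ t' in Set.Icc (t - 1) (t + 1), ‖pb ψ y' t'‖ ^ p := by
  obtain ⟨C, h⟩ := local_sup
  refine ⟨|C| + 64 * C ^ 2, by positivity, fun ψ hψ p hp y t => ?_⟩
  have h1 : ‖pb ψ y t‖ ^ 2 ≤ C * (1 + |t|) ^ 2 *
      ∫ y' in Set.Icc (y - 1) (y + 1), ∫ t' in Set.Icc (t - 1) (t + 1), ‖pb ψ y' t'‖ ^ 2 :=
    h (prim ψ) (bk2_polyBd (bk2_prim_le hψ)) y t
  have hI : ∀ q : ℕ, 0 ≤ ∫ y' in Set.Icc (y - 1) (y + 1), ∫ t' in Set.Icc (t - 1) (t + 1),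
      ‖pb ψ y' t'‖ ^ q := fun q => integral_nonneg fun _ => integral_nonneg fun _ => by positivity
  have p1 : 1 ≤ 1 + |t| := by linarith [abs_nonneg t]
  rcases hp with rfl | rfl
  · refine h1.trans (mul_le_mul_of_nonneg_right ?_ (hI 2))
    exact mul_le_mul ((le_abs_self C).trans (le_add_of_nonneg_right (by positivity)))
      (pow_le_pow_right₀ p1 (by norm_num)) (by positivity) (by positivity)
  · have hc := GM.continuous_pb hψ
    set g : ℝ → ℝ := fun y' => ∫ t' in Set.Icc (t - 1) (t + 1), ‖pb ψ y' t'‖ ^ 2 with hg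
    have hgc : Continuous g := continuous_parametric_integral_of_continuous
      (f := fun y' t' => ‖pb ψ y' t'‖ ^ 2) (hc.norm.fun_pow 2) isCompact_Icc
    have hg4 : Continuous fun y' => ∫ t' in Set.Icc (t - 1) (t + 1), ‖pb ψ y' t'‖ ^ 4 :=
      continuous_parametric_integral_of_continuous
        (f := fun y' t' => ‖pb ψ y' t'‖ ^ 4) (hc.norm.fun_pow 4) isCompact_Icc
    have h3 : ∀ y', g y' ^ 2 ≤ 8 * ∫ t' in Set.Icc (t - 1) (t + 1), ‖pb ψ y' t'‖ ^ 4 := fun y' => by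
      have hc' : Continuous fun t' => ‖pb ψ y' t'‖ ^ 2 :=
        (hc.comp (Continuous.prodMk_right y')).norm.pow 2
      refine (GM.sup_cs hc' (fun _ => by positivity) _).trans_eq ?_
      simp only [← pow_mul]
    have h4 : (∫ y' in Set.Icc (y - 1) (y + 1), g y') ^ 2 ≤ 8 * (8 *
        ∫ y' in Set.Icc (y - 1) (y + 1), ∫ t' in Set.Icc (t - 1) (t + 1), ‖pb ψ y' t'‖ ^ 4) := by
      refine (GM.sup_cs hgc (fun _ => integral_nonneg fun _ => by positivity) _).trans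
        (mul_le_mul_of_nonneg_left ?_ (by norm_num))
      rw [← integral_const_mul]
      exact setIntegral_mono_on (hgc.pow 2).integrableOn_Icc
        (continuous_const.fun_mul hg4).integrableOn_Icc measurableSet_Icc fun y' _ => h3 y'
    have h5 := pow_le_pow_left₀ (by positivity) h1 2
    rw [← pow_mul, mul_pow, mul_pow, ← pow_mul] at h5
    refine (h5.trans (mul_le_mul_of_nonneg_left h4 (by positivity))).trans ?_
    have h6 : 0 ≤ |C| * (1 + |t|) ^ 4 * ∫ y' in Set.Icc (y - 1) (y + 1),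
      ∫ t' in Set.Icc (t - 1) (t + 1), ‖pb ψ y' t'‖ ^ 4 := mul_nonneg (by positivity) (hI 4)
    norm_num only
    linarith

theorem sup_cont {ψ : O → ℂ} (hψ : ∀ n, ‖ψ n‖ ≤ 1) (p : ℕ) (c L : ℝ) :
    Continuous (Function.uncurry fun y t : ℝ => Real.exp (c * (y - L)) * ‖pb ψ y t‖ ^ p) :=
  (by fun_prop : Continuous fun q : ℝ × ℝ => Real.exp (c * (q.1 - L))).mul
    ((GM.continuous_pb hψ).norm.fun_pow p)

/-- the weighted bound by the integral over the whole box -/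
theorem sup_box : ∃ C : ℝ, 0 ≤ C ∧ ∀ ψ : O → ℂ, (∀ n, ‖ψ n‖ ≤ 1) → ∀ p : ℕ, (p = 2 ∨ p = 4) →
    ∀ c L Y0 Y1 T y t : ℝ, |c| ≤ 1 → Y0 ≤ y → y ≤ Y1 → |t| ≤ T →
      Real.exp (c * (y - L)) * ‖pb ψ y t‖ ^ p ≤ C * (1 + T) ^ 4 *
      ∫ y' in Set.Icc (Y0 - 1) (Y1 + 1), ∫ t' in Set.Icc (-T - 1) (T + 1),
        Real.exp (c * (y' - L)) * ‖pb ψ y' t'‖ ^ p := by
  obtain ⟨C, hC, h⟩ := sup_cell
  refine ⟨C * Real.exp 1, by positivity, fun ψ hψ p hp c L Y0 Y1 T y t hc h0 h1 ht => ?_⟩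
  have hT : 0 ≤ T := (abs_nonneg t).trans ht
  have hc0 := GM.continuous_pb hψ
  have hc1 := sup_cont hψ p c L
  have hg0 : Continuous fun y' => ∫ t' in Set.Icc (t - 1) (t + 1), ‖pb ψ y' t'‖ ^ p :=
    continuous_parametric_integral_of_continuous
      (f := fun y' t' => ‖pb ψ y' t'‖ ^ p) (hc0.norm.fun_pow p) isCompact_Icc
  have hg1 : Continuous fun y' => ∫ t' in Set.Icc (-T - 1) (T + 1),
      Real.exp (c * (y' - L)) * ‖pb ψ y' t'‖ ^ p :=
    continuous_parametric_integral_of_continuous hc1 isCompact_Icc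
  have key : Real.exp (c * (y - L)) *
      (∫ y' in Set.Icc (y - 1) (y + 1), ∫ t' in Set.Icc (t - 1) (t + 1), ‖pb ψ y' t'‖ ^ p) ≤
      Real.exp 1 * ∫ y' in Set.Icc (Y0 - 1) (Y1 + 1), ∫ t' in Set.Icc (-T - 1) (T + 1),
        Real.exp (c * (y' - L)) * ‖pb ψ y' t'‖ ^ p := by
    refine le_trans ?_ (mul_le_mul_of_nonneg_left (setIntegral_mono_set hg1.integrableOn_Icc
      (ae_of_all _ fun _ => integral_nonneg fun _ => by positivity)
      (Set.Icc_subset_Icc (by linarith : Y0 - 1 ≤ y - 1)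
        (by linarith : y + 1 ≤ Y1 + 1)).eventuallyLE) (Real.exp_pos _).le)
    rw [← integral_const_mul, ← integral_const_mul]
    refine setIntegral_mono_on (continuous_const.fun_mul hg0).integrableOn_Icc
      (continuous_const.fun_mul hg1).integrableOn_Icc measurableSet_Icc fun y' hy => ?_
    rw [integral_const_mul, ← mul_assoc, ← Real.exp_add]
    have hc' : Continuous fun t' => ‖pb ψ y' t'‖ ^ p :=
      (hc0.comp (Continuous.prodMk_right y')).norm.pow p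
    refine mul_le_mul (Real.exp_le_exp.2 ?_) (setIntegral_mono_set hc'.integrableOn_Icc
      (ae_of_all _ fun _ => by positivity)
      (Set.Icc_subset_Icc (by linarith [(abs_le.1 ht).1]) (by linarith [(abs_le.1 ht).2])).eventuallyLE)
      (integral_nonneg fun _ => by positivity) (Real.exp_pos _).le
    have h2 : |y - y'| ≤ 1 := abs_le.2 ⟨by linarith [hy.2], by linarith [hy.1]⟩
    have h3 : c * (y - y') ≤ 1 := (le_abs_self _).trans (by
      rw [abs_mul]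
      exact mul_le_one₀ hc (abs_nonneg _) h2)
    linarith
  calc Real.exp (c * (y - L)) * ‖pb ψ y t‖ ^ p
      ≤ Real.exp (c * (y - L)) * (C * (1 + T) ^ 4 *
        ∫ y' in Set.Icc (y - 1) (y + 1), ∫ t' in Set.Icc (t - 1) (t + 1), ‖pb ψ y' t'‖ ^ p) := by
        refine mul_le_mul_of_nonneg_left ((h ψ hψ p hp y t).trans (mul_le_mul_of_nonneg_right
          (mul_le_mul_of_nonneg_left (pow_le_pow_left₀ (by positivity) (by linarith) 4) hC)
          (integral_nonneg fun _ => integral_nonneg fun _ => by positivity))) (Real.exp_pos _).le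
    _ = C * (1 + T) ^ 4 * (Real.exp (c * (y - L)) *
        ∫ y' in Set.Icc (y - 1) (y + 1), ∫ t' in Set.Icc (t - 1) (t + 1), ‖pb ψ y' t'‖ ^ p) := by
        ring
    _ ≤ _ := (mul_le_mul_of_nonneg_left key (by positivity)).trans_eq (by ring)

/-- the sum of the box integrals -/
theorem sup_sum {ι : Type*} (S : Finset ι) (f : ι → ℝ → ℝ → ℝ) (g : ι → ℝ)
    (hf : ∀ d, Continuous (Function.uncurry (f d))) (hf0 : ∀ d y t, 0 ≤ f d y t)
    (hg0 : ∀ d, 0 ≤ g d) {a b a' b' B U V : ℝ} (hB : 0 ≤ B) (hU : 0 ≤ U) (hV : 0 ≤ V)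
    (hab : b - a ≤ U) (hab' : b' - a' ≤ V)
    (h : ∀ y ∈ Set.Icc a b, ∀ t ∈ Set.Icc a' b', ∑ d ∈ S, f d y t * g d ≤ B) :
    ∑ d ∈ S, (∫ y in Set.Icc a b, ∫ t in Set.Icc a' b', f d y t) * g d ≤ B * V * U := by
  have h1 : ∀ d, Continuous fun y => ∫ t in Set.Icc a' b', f d y t := fun d =>
    continuous_parametric_integral_of_continuous (hf d) isCompact_Icc
  have h2 : ∀ d y, Continuous (f d y) := fun d y => (hf d).comp (Continuous.prodMk_right y)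
  simp only [← integral_mul_const]
  rw [← integral_finsetSum _ fun d _ => ?_]
  · refine refl2_int (by positivity) hU hab (fun _ => Finset.sum_nonneg fun d _ =>
      integral_nonneg fun _ => mul_nonneg (hf0 _ _ _) (hg0 d)) fun y hy => ?_
    rw [← integral_finsetSum _ fun d _ => ((h2 d y).fun_mul continuous_const).integrableOn_Icc]
    exact refl2_int hB hV hab' (fun _ => Finset.sum_nonneg fun d _ =>
      mul_nonneg (hf0 _ _ _) (hg0 d)) fun t ht => h y hy t ht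
  · simp only [integral_mul_const]
    exact ((h1 d).mul continuous_const).integrableOn_Icc

/-- Let `T = z³`, `f d y t = e^{c(y-L)} ‖pb (a d) y t‖^p` (jointly continuous, `GM.continuous_pb`; the
inner integral over a compact `t`-interval is continuous in `y`, see the proof of `FM.sup_blk` or of
`GM.sup4`), `I d = ∫_{y ∈ [Y0-1, Y1+1]} ∫_{t ∈ [-T-1, T+1]} f d y t` and
`W d τ = K₀ (1+T)⁴ · I d · g d τ`, `K₀ = e (|C| + 64 C²)` with `C` from `local_sup`.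
Pointwise: for `Y0 ≤ y ≤ Y1`, `|t| ≤ T`, `local_sup` (`pb ψ = blk (prim ψ)`, `bk2_polyBd`, `bk2_prim_le`)
gives `‖pb‖² ≤ C (1+T)² ∬_{cell} ‖pb‖²`, and for `p = 4` Cauchy–Schwarz twice (`GM.sup_cs`) gives
`‖pb‖⁴ ≤ 64 C² (1+T)⁴ ∬_{cell} ‖pb‖⁴`; on the cell `e^{c(y-L)} ≤ e · e^{c(y'-L)}`; enlarge the domains
(`setIntegral_mono_set`).  Sum: `∑_d I d · g d τ = ∬ ∑_d f d y t · g d τ ≤ (Y1-Y0+2)(2T+2) B ≤ 6z · 4z³ B`
(`integral_finset_sum`; `0 ≤ B` because the hypothesis at `(τ, Y0, 0)` bounds a sum of non-negative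
terms), and `(1+T)⁴ · 24 z⁴ ≤ 384 z¹⁶ ≤ C' e^{γ z}` (`pow_le_exp`). -/
theorem fam_one {γ : ℝ} (hγ : 0 < γ) : ∃ K : ℝ, 0 ≤ K ∧ ∀ (Q : Lev) (z L B : ℝ), 1 ≤ z →
    ∀ p : ℕ, (p = 2 ∨ p = 4) → ∀ a : O → O → ℂ, (∀ d n, ‖a d n‖ ≤ 1) →
    ∀ c Y0 Y1 : ℝ, |c| ≤ 1 → -z ≤ Y0 → Y0 ≤ Y1 → Y1 ≤ 3 * z →
    ∀ g : O → ℝ → ℝ, (∀ d τ, 0 ≤ g d τ) → (∀ d, Continuous (g d)) →
    (∀ τ y t : ℝ, |τ| ≤ z ^ 2 → Y0 - 1 ≤ y → y ≤ Y1 + 1 → |t| ≤ z ^ 3 + 1 →
      ∑ d ∈ npball Q (Real.exp L), Real.exp (c * (y - L)) * ‖pb (a d) y t‖ ^ p * g d τ ≤ B) →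
    ∃ W, Fam Q z L (K * Real.exp (γ * z) * B) W ∧ ∀ d τ y t, Y0 ≤ y → y ≤ Y1 → |t| ≤ z ^ 3 →
      Real.exp (c * (y - L)) * ‖pb (a d) y t‖ ^ p * g d τ ≤ W d τ := by
  obtain ⟨C, hC, h⟩ := sup_box
  obtain ⟨K, hK, hK'⟩ := pow_le_exp 16 hγ
  refine ⟨384 * C * K, by positivity,
    fun Q z L B hz p hp a ha c Y0 Y1 hc h0 h01 h1 g hg0 hgc hB => ?_⟩
  have hz3 : 1 ≤ z ^ 3 := one_le_pow₀ hz
  have hI : ∀ d, 0 ≤ ∫ y' in Set.Icc (Y0 - 1) (Y1 + 1), ∫ t' in Set.Icc (-z ^ 3 - 1) (z ^ 3 + 1),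
      Real.exp (c * (y' - L)) * ‖pb (a d) y' t'‖ ^ p := fun d =>
    integral_nonneg fun _ => integral_nonneg fun _ => by positivity
  refine ⟨fun d τ => C * (1 + z ^ 3) ^ 4 * ((∫ y' in Set.Icc (Y0 - 1) (Y1 + 1),
      ∫ t' in Set.Icc (-z ^ 3 - 1) (z ^ 3 + 1),
        Real.exp (c * (y' - L)) * ‖pb (a d) y' t'‖ ^ p) * g d τ),
    ⟨fun d τ => mul_nonneg (by positivity) (mul_nonneg (hI d) (hg0 d τ)),
      fun d => continuous_const.mul (continuous_const.mul (hgc d)), fun τ hτ => ?_⟩,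
    fun d τ y t hy0 hy1 ht => ?_⟩
  · have hB0 : 0 ≤ B := le_trans (Finset.sum_nonneg fun d _ => mul_nonneg (by positivity) (hg0 d τ))
      (hB τ Y0 0 hτ (by linarith) (by linarith) (by rw [abs_zero]; linarith))
    rw [← Finset.mul_sum]
    have h2 := sup_sum (npball Q (Real.exp L))
      (fun d y t => Real.exp (c * (y - L)) * ‖pb (a d) y t‖ ^ p) (fun d => g d τ)
      (fun d => sup_cont (ha d) p c L) (fun _ _ _ => by positivity) (fun d => hg0 d τ)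
      (a := Y0 - 1) (b := Y1 + 1) (a' := -z ^ 3 - 1) (b' := z ^ 3 + 1) (U := 6 * z)
      (V := 4 * z ^ 3) hB0 (by linarith) (by linarith) (by linarith) (by linarith)
      fun y hy t ht => hB τ y t hτ hy.1 hy.2 (abs_le.2 ⟨by linarith [ht.1], ht.2⟩)
    have h3 : (1 + z ^ 3) ^ 4 ≤ (2 * z ^ 3) ^ 4 := pow_le_pow_left₀ (by linarith) (by linarith) 4
    have hz0 : 0 ≤ z := by linarith
    calc _ ≤ C * (2 * z ^ 3) ^ 4 * (B * (4 * z ^ 3) * (6 * z)) :=
          mul_le_mul (mul_le_mul_of_nonneg_left h3 hC) h2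
            (Finset.sum_nonneg fun d _ => mul_nonneg (hI d) (hg0 d τ)) (by positivity)
      _ = 384 * C * B * z ^ 16 := by ring
      _ ≤ 384 * C * B * (K * Real.exp (γ * z)) :=
          mul_le_mul_of_nonneg_left (hK' z hz0) (by positivity)
      _ = _ := by ring
  · exact (mul_le_mul_of_nonneg_right (h (a d) (ha d) p hp c L Y0 Y1 (z ^ 3) y t hc hy0 hy1 ht)
      (hg0 d τ)).trans_eq (mul_assoc _ _ _)

end Crest.Agent.R17.RS
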