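import Crest.Agent.R17.RowSum_Sup
import Crest.Agent.R17.GMoment
import Crest.Agent.R17.FMoment

/-!
# R17 / RowSum_Z0 : the two unmarked families

Read the header of `RowSum_Defs.lean` first.
-/

set_option autoImplicit false

noncomputable section

open scoped Classical ComplexConjugate
open MeasureTheory

namespace Crest.Agent.R17.RS

theorem z0_poly (B : ℕ) {γ : ℝ} (hγ : 0 < γ) : ∃ z0 : ℝ, 1 ≤ z0 ∧ ∀ z : ℝ, z0 ≤ z → ∀ u : ℝ,
    0 ≤ u → u ≤ 5 * z ^ 3 → u ^ B ≤ Real.exp (γ * z) := by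
  obtain ⟨z0, h0, h⟩ := ev_le_exp (5 ^ B) (3 * B) hγ
  refine ⟨z0, h0, fun z hz u hu hu' => (pow_le_pow_left₀ hu hu' B).trans ?_⟩
  rw [mul_pow, ← pow_mul]
  exact h z hz

theorem z0_bound {C x u v D : ℝ} (hx : 0 ≤ x) (hu : 0 ≤ u) (huv : u ≤ v) (hD : 0 ≤ D) :
    C * x * u * D ≤ |C| * x * v * D :=
  mul_le_mul_of_nonneg_right (mul_le_mul (mul_le_mul_of_nonneg_right (le_abs_self C) hx) huv hu
    (by positivity)) hD

theorem z0_exp (γ z L : ℝ) : Real.exp (L + γ * z) =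
    Real.exp (γ / 3 * z) * (Real.exp (γ / 3 * z) * Real.exp (γ / 3 * z) * Real.exp L) := by
  rw [← Real.exp_add, ← Real.exp_add, ← Real.exp_add]
  congr 1
  ring

/-- For each `ν ∈ hchars Q.q` apply `fam_one (γ/3)` with `p = 4`, `a d = rc ν d` (`norm_rc_le`), `c = 0`,
`Y0 = -z`, `Y1 = 3z`, `g = 1`, `B = |C| e^{γz/3} (1 + 2(z³+1))^{B'} e^L` from `gMoment0 4 (γ/3)`
(`Z = e^z`, `exp_rpow`, `ev_exp_ge`; `ν₁ = ν₂ = ν`, `y₁ = y₂ = y`, `t₁ = t₂ = t`, `D = e^L ≤ Z⁴`);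
`(1 + 2(z³+1))^{B'} ≤ (5z³)^{B'} ≤ e^{γz/3}` for large `z` (`ev_le_exp`).  Combine the `ν` with
`Fam.finite` (`X = ℝ × ℝ`) and `Fam.mono`. -/
theorem fam_z0 {γ : ℝ} (hγ : 0 < γ) (Q : Lev) : ∃ C z0 : ℝ, 0 ≤ C ∧ ∀ z : ℝ, z0 ≤ z →
    ∀ L : ℝ, 0 ≤ L → L ≤ 2 * z → ∃ W, Fam Q z L (C * Real.exp (L + γ * z)) W ∧
      ∀ d τ, ∀ ν ∈ hchars Q.q, ∀ y t : ℝ, -z ≤ y → y ≤ 3 * z → |t| ≤ z ^ 3 →
        ‖pb (rc ν d) y t‖ ^ 4 ≤ W d τ := by
  have hγ' : 0 < γ / 3 := by positivity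
  obtain ⟨K, hK, h1⟩ := fam_one hγ'
  obtain ⟨C, B, Z0, h2⟩ := gMoment0 4 hγ' Q
  obtain ⟨z1, hz1, h3⟩ := z0_poly B hγ'
  refine ⟨(hchars Q.q).card * K * |C|, max z1 Z0, by positivity, fun z hz L hL hL' => ?_⟩
  have a1 : z1 ≤ z := (le_max_left _ _).trans hz
  have a2 : Z0 ≤ z := (le_max_right _ _).trans hz
  have a3 : 1 ≤ z := hz1.trans a1
  have a4 : 1 ≤ z ^ 3 := one_le_pow₀ a3
  obtain ⟨W, hW, hW'⟩ := Fam.finite (Q := Q) (z := z) (L := L)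
    (B := K * Real.exp (γ / 3 * z) *
      (|C| * Real.exp (γ / 3 * z) * Real.exp (γ / 3 * z) * Real.exp L)) (hchars Q.q)
    (fun _ (x : ℝ × ℝ) => -z ≤ x.1 ∧ x.1 ≤ 3 * z ∧ |x.2| ≤ z ^ 3)
    (fun ν x d _ => ‖pb (rc ν d) x.1 x.2‖ ^ 4) fun ν hν => by
      obtain ⟨W, hW, hW'⟩ := h1 Q z L
        (|C| * Real.exp (γ / 3 * z) * Real.exp (γ / 3 * z) * Real.exp L) a3 4 (Or.inr rfl) (rc ν)
        (norm_rc_le Q hν) 0 (-z) (3 * z) (by simp) le_rfl (by linarith) le_rfl (fun _ _ => 1)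
        (fun _ _ => zero_le_one) (fun _ => continuous_const) fun τ y t _ _ _ ht => by
          have h4 := h2 _ (ev_exp_ge Z0 z a2) ν hν ν hν (Real.exp L) y y t t (Real.one_le_exp hL)
            (by rw [exp_rpow]; exact Real.exp_le_exp.2 (by linarith))
          rw [exp_rpow] at h4
          simp only [zero_mul, Real.exp_zero, one_mul, mul_one]
          simp only [← pow_add] at h4
          exact h4.trans (z0_bound (Real.exp_pos _).le (by positivity)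
            (h3 z a1 _ (by positivity) (by linarith)) (Real.exp_pos _).le)
      refine ⟨W, hW, fun d τ x hx => ?_⟩
      simpa using hW' d τ x.1 x.2 hx.1 hx.2.1 hx.2.2
  refine ⟨W, hW.mono (le_of_eq ?_), fun d τ ν hν y t e1 e2 e3 => hW' ν hν d τ (y, t) ⟨e1, e2, e3⟩⟩
  rw [z0_exp]
  ring

/-- As `fam_z0`, with `p = 2`, `a d = mm (rc ν d)` (`norm_mm_rc_le`), `c = -5/6`, `Y0 = L`, `Y1 = 3z`, `g = 1`.
For `L - 1 ≤ y ≤ 3z + 1` use `f5Moment 4 (γ/3)` with `D = e^L`, `R = e^{y+1}` (`D ≤ R ≤ Z⁴` for `z ≥ 2`),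
`npball_subset`: `(R/D)^{5/6} = e^{(5/6)(y+1-L)}`, so `e^{-(5/6)(y-L)} (R/D)^{5/6} = e^{5/6}`. -/
theorem fam_m5 {γ : ℝ} (hγ : 0 < γ) (Q : Lev) : ∃ C z0 : ℝ, 0 ≤ C ∧ ∀ z : ℝ, z0 ≤ z →
    ∀ L : ℝ, 0 ≤ L → L ≤ 2 * z → ∃ W, Fam Q z L (C * Real.exp (L + γ * z)) W ∧
      ∀ d τ, ∀ ν ∈ hchars Q.q, ∀ y t : ℝ, L ≤ y → y ≤ 3 * z → |t| ≤ z ^ 3 →
        Real.exp (-(5 / 6) * (y - L)) * ‖pb (mm (rc ν d)) y t‖ ^ 2 ≤ W d τ := by
  have hγ' : 0 < γ / 3 := by positivity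
  obtain ⟨K, hK, h1⟩ := fam_one hγ'
  obtain ⟨C, B, Z0, h2⟩ := f5Moment 4 hγ' Q
  obtain ⟨z1, hz1, h3⟩ := z0_poly B hγ'
  refine ⟨(hchars Q.q).card * K * |C| * Real.exp (5 / 6), max (max z1 2) Z0, by positivity,
    fun z hz L hL hL' => ?_⟩
  have a1 : z1 ≤ z := ((le_max_left _ _).trans (le_max_left _ _)).trans hz
  have a5 : 2 ≤ z := ((le_max_right _ _).trans (le_max_left _ _)).trans hz
  have a2 : Z0 ≤ z := (le_max_right _ _).trans hz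
  have a3 : 1 ≤ z := hz1.trans a1
  have a4 : 1 ≤ z ^ 3 := one_le_pow₀ a3
  obtain ⟨W, hW, hW'⟩ := Fam.finite (Q := Q) (z := z) (L := L)
    (B := K * Real.exp (γ / 3 * z) *
      (|C| * Real.exp (γ / 3 * z) * Real.exp (γ / 3 * z) * Real.exp L * Real.exp (5 / 6)))
    (hchars Q.q) (fun _ (x : ℝ × ℝ) => L ≤ x.1 ∧ x.1 ≤ 3 * z ∧ |x.2| ≤ z ^ 3)
    (fun ν x d _ => Real.exp (-(5 / 6) * (x.1 - L)) * ‖pb (mm (rc ν d)) x.1 x.2‖ ^ 2) fun ν hν => by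
      obtain ⟨W, hW, hW'⟩ := h1 Q z L
        (|C| * Real.exp (γ / 3 * z) * Real.exp (γ / 3 * z) * Real.exp L * Real.exp (5 / 6)) a3 2
        (Or.inl rfl) (fun d => mm (rc ν d)) (norm_mm_rc_le Q hν) (-(5 / 6)) L (3 * z)
        (by rw [abs_neg, abs_of_pos] <;> norm_num) (by linarith) (by linarith) le_rfl (fun _ _ => 1)
        (fun _ _ => zero_le_one) (fun _ => continuous_const) fun τ y t _ hy hy' ht => by
          have h4 := h2 _ (ev_exp_ge Z0 z a2) ν hν (Real.exp L) (Real.exp (y + 1)) y t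
            (Real.one_le_exp hL) (Real.exp_le_exp.2 (by linarith))
            (by rw [exp_rpow]; exact Real.exp_le_exp.2 (by linarith))
            (Real.exp_le_exp.2 (by linarith))
          rw [exp_rpow, ← Real.exp_sub, exp_rpow] at h4
          have h5 := (Finset.sum_le_sum_of_subset_of_nonneg (npball_subset Q (Real.exp L))
            fun d _ _ => by positivity).trans (h4.trans (mul_le_mul_of_nonneg_right
              (z0_bound (Real.exp_pos _).le (by positivity)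
                (h3 z a1 _ (by positivity) (by linarith)) (Real.exp_pos _).le) (Real.exp_pos _).le))
          simp only [mul_one]
          rw [← Finset.mul_sum]
          refine (mul_le_mul_of_nonneg_left h5 (Real.exp_pos _).le).trans_eq ?_
          rw [mul_left_comm, ← Real.exp_add (-(5 / 6) * (y - L))]
          congr 2
          ring
      refine ⟨W, hW, fun d τ x hx => ?_⟩
      simpa only [mul_one] using hW' d τ x.1 x.2 hx.1 hx.2.1 hx.2.2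
  refine ⟨W, hW.mono (le_of_eq ?_), fun d τ ν hν y t e1 e2 e3 => hW' ν hν d τ (y, t) ⟨e1, e2, e3⟩⟩
  rw [z0_exp]
  ring

end Crest.Agent.R17.RS
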