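import Crest.Agent.R17.RowSum_Defs
import Crest.Agent.R17.Detector

/-!
# R17 / RowSum_Zero : zero-free rectangle and zero detector

Read the header of `RowSum_Defs.lean` first.
-/

set_option autoImplicit false

noncomputable section

open scoped Classical ComplexConjugate
open MeasureTheory

namespace Crest.Agent.R17.RS

/-- `ε₁` from `detector 4 e' (1/100)`, `ε₀ = min ε₁ (1/100)`, `J₀` from `buffer ε₀`, `z0 ≥ max(J₀, Z₀, 1)`.
`buffer` with `T₁ = z²` gives `σ', T` (`z² ≤ T ≤ J₀ z² ≤ z³`).  Take `σ = max σ' (1/2 + 1/50)`; `ZFR` is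
monotone in `σ` and antitone in the height (`2z² ≤ T + 2z²`).  If `σ' ≤ 1/2 + 1/50` the left alternative
holds.  Otherwise `σ = σ'`, the first alternative of `buffer` is impossible, so there is a zero `s` of
`rc ν d`; apply `detector` with `Z = e^z` (`log Z = z`, `exp_rpow`), `ρ = radq Q d`, `ψ = rc ν d`
(`radq_spec`, `rc_isHChar`, `rc_nonPrinc`; `(levd Q d).q = Q.q * radq Q d` by `rfl`;
`N (radq Q d) ≤ N d ≤ e^L` by `N_le_of_dvd`), `D = e^L`, `X = e^x`, and take `t = s.im`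
(`Re s ≥ σ' - ε₀ ≥ 1/2 + 1/100`). -/
theorem zero_info {e' : ℝ} (he : 0 < e') (Q : Lev) : ∃ z0 : ℝ, ∀ β : ℝ, 7 / 8 ≤ β → β ≤ 1 → ZF β →
    ∀ z : ℝ, z0 ≤ z → ∀ d : O, ¬ Exc Q d → ∀ L : ℝ, N d ≤ Real.exp L → L ≤ 2 * z →
    ∃ σ : ℝ, 1 / 2 + 1 / 50 ≤ σ ∧ σ ≤ β ∧ (∀ ν ∈ hchars Q.q, ZFR (rc ν d) σ (2 * z ^ 2)) ∧
      (σ = 1 / 2 + 1 / 50 ∨ Det Q e' z L σ d) := by
  obtain ⟨ε1, hε1, hdet⟩ := detector 4 he (δ0 := 1 / 100) (by norm_num)
  obtain ⟨J0, hbuf⟩ := buffer (ε0 := min ε1 (1 / 100)) (lt_min hε1 (by norm_num))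
  obtain ⟨Z0, hdet⟩ := hdet Q
  refine ⟨max (max J0 Z0) 1, fun β hβ hβ1 hZ z hz d hd L hN hL => ?_⟩
  simp only [max_le_iff] at hz
  obtain ⟨⟨b1, b2⟩, b3⟩ := hz
  have hz2 : 0 < z ^ 2 := by positivity
  obtain ⟨σ', T, t1, t2, s1, s2, s3, s4⟩ := hbuf Q β (by linarith) hβ1 hZ d hd (z ^ 2) hz2
  have m1 := min_le_left ε1 (1 / 100)
  have m2 := min_le_right ε1 (1 / 100)
  rcases le_or_gt σ' (1 / 2 + 1 / 50) with h | h
  · exact ⟨1 / 2 + 1 / 50, le_rfl, by linarith,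
      fun ν hν s a1 a2 => s3 ν hν s (by linarith) (by linarith), Or.inl rfl⟩
  refine ⟨σ', h.le, s2, fun ν hν s a1 a2 => s3 ν hν s a1 (by linarith), Or.inr fun x x0 x1 => ?_⟩
  obtain ⟨ν, hν, s, a1, a2, a3, a4⟩ := s4.resolve_left (by linarith)
  have hd0 := not_exc_ne_zero Q hd
  obtain ⟨r1, r2, r3, -⟩ := radq_spec Q hd0
  have hT : |s.im| ≤ z ^ 3 := by
    refine a2.trans (t2.trans ?_)
    rw [pow_succ' z 2]
    exact mul_le_mul_of_nonneg_right b1 hz2.le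
  obtain ⟨y1, y2, c⟩ := hdet (Real.exp z) (ev_exp_ge Z0 z b2) (radq Q d) (rc ν d) r2 r1.2.symm
    (rc_isHChar Q hν hd0) (rc_nonPrinc Q hν hd) (Real.exp L) (Real.exp x) σ'
    ((N_le_of_dvd hd0 r3).trans hN) (by rw [exp_rpow]; exact Real.exp_le_exp.2 (by linarith))
    (Real.one_le_exp x0) (by rw [exp_rpow]; exact Real.exp_le_exp.2 x1) s a1 (by linarith) a4
    (by linarith) (by linarith) (by rwa [Real.log_exp])
    (fun w w1 w2 => s3 ν hν w w1 (by rw [Real.log_exp] at w2; linarith))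
  simp only [Real.log_exp, exp_rpow, ← Real.exp_add, neg_mul] at c
  exact ⟨ν, hν, y1, y2, s.im, hT, c⟩

end Crest.Agent.R17.RS
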