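import Crest.Agent.R17.VoArith2

/-!
# R17 / VoHecke1 : constant terms of the Eisenstein series for `Gam p` (arithmetic identities)

`Z c = gs (3c) (k0 c) 0 = ∑_{d mod 3c} k0 c d`, `DS 3 k0 0 = dser Z`, `phiP p = ∑_{p ∤ c} Z c N(c)^{-s}`,
`q = N p`.  `|Z c| ≤ 9 N c` (`norm_gs_le`), so everything converges absolutely on `Re s > 2`
(`summable_dser`).
-/

set_option autoImplicit false

noncomputable section

open scoped Classical ComplexConjugate Topology ENNReal InnerProductSpace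
open MeasureTheory Filter

namespace Crest.Agent.R17.Vor

/-- `∑_{d mod 3c} k0 c d` -/
def Zc (c : O) : ℂ := gs (3 * c) (k0 c) 0
/-- the part of the constant term prime to `p` -/
def phiP (p : O) (s : ℂ) : ℂ := dser (fun c => if p ∣ c then 0 else Zc c) s

theorem vh1_gs0 (q : O) (f : O → ℂ) : gs q f 0 = ∑ x ∈ res q, f x := by
  simp only [gs, zero_mul, ad_zero, mul_one]

theorem vh1_congr {f g : O → ℂ} (h : ∀ c, c ≠ 0 → f c = g c) (s : ℂ) : dser f s = dser g s :=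
  tsum_congr fun c => by
    split_ifs with hc
    · rfl
    · rw [h c hc]

theorem vh1_mul (a : ℂ) (f : O → ℂ) (s : ℂ) : dser (fun c => a * f c) s = a * dser f s := by
  simp only [dser, ← tsum_mul_left, mul_ite, mul_zero, mul_assoc]

theorem vh1_sum {f : O → ℂ} (h : ∀ c, ‖f c‖ ≤ ‖Zc c‖) {s : ℂ} (hs : 2 < s.re) :
    Summable fun c : O => if c = 0 then 0 else f c * (N c : ℂ) ^ (-s) :=
  (summable_dser (C := N 3) (α := 1) (fun c hc => (h c).trans (by
    rw [Real.rpow_one, ← N_mul]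
    exact norm_gs_le (mul_ne_zero (by decide) hc) (rowFn_k0.bd.1 c) 0)) (by linarith)).of_norm

theorem vh1_le (p c : O) : ‖if p ∣ c then 0 else Zc c‖ ≤ ‖Zc c‖ := by
  split_ifs <;> simp

theorem vh1_sub (p : O) (a : ℂ) {s : ℂ} (hs : 2 < s.re) :
    dser (fun c => a * Zc c - if p ∣ c then 0 else Zc c) s = a * DS 3 k0 0 s - phiP p s := by
  have h := ((vh1_sum (f := Zc) (fun _ => le_rfl) hs).mul_left a).tsum_sub (vh1_sum (vh1_le p) hs)
  rw [tsum_mul_left] at h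
  refine (tsum_congr fun c => ?_).trans h
  by_cases hc : c = 0
  · simp [hc]
  · simp only [if_neg hc]
    ring

theorem vh1_kp (π : O → Prop) (c d : O) : kp π c d = if π d then k0 c d else 0 := by
  by_cases h : π d <;> simp [k0, kp, h]

theorem vh1_tr {p : O} {δ : SL O} (hδ : δ ∈ Gam 1) (hd : δ.d = p) (C D : O)
    (π : O → Prop) :
    tr δ⁻¹ (kp π) C D = (if π (C * δ.b + D * δ.d) then kap δ * k0 C D else 0) ∧
      (p ∣ C * δ.b + D * δ.d ↔ p ∣ C) := by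
  refine ⟨?_, ?_⟩
  · simp only [tr, SL.inv_a, SL.inv_b, SL.inv_c, SL.inv_d, mul_neg, sub_neg_eq_add, neg_neg]
    rw [vh1_kp, equi_k0 1 δ hδ, mul_comm (k0 C D)]
  · refine voar_dvd_iff (x := δ.b) ⟨-δ.c, δ.a, by linear_combination δ.det - δ.a * hd⟩ ?_
    rw [add_sub_cancel_left, hd]
    exact dvd_mul_left _ _

/-- `∑_{x mod p^k} cub p x ^ k`: zero if `3 ∤ k` (`symP_surj`, `IsChar.sum_eq_zero`), and
`q^k - q^{k-1}` if `3 ∣ k` (`gs_lift`/`sum_res_tower`, `gs_prime_princ`) -/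
theorem gs_prime_pow_zero {p : O} (hp : Prime p) (hp' : Prim p) {k : ℕ} (hk : k ≠ 0) :
    gs (p ^ k) (cub (p ^ k)) 0 =
      if 3 ∣ k then (N p : ℂ) ^ k - (N p : ℂ) ^ (k - 1) else 0 := by
  obtain ⟨j, rfl⟩ := Nat.exists_eq_succ_of_ne_zero hk
  have hχ : IsChar p fun x => cub p x ^ (j + 1) := (va2_isChar hp').pow_char hk
  have e : cub (p ^ (j + 1)) = fun x => cub p x ^ (j + 1) :=
    funext fun x => sym_pow_left 3 hp.ne_zero _ x
  rw [Nat.succ_eq_add_one, e, pow_succ', gs_lift hp.ne_zero (pow_ne_zero j hp.ne_zero) hχ.per,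
    if_pos (dvd_zero _), EuclideanDomain.zero_div]
  split_ifs with h
  · obtain ⟨m, hm⟩ := h
    rw [gs_prime_princ hp hχ fun ⟨n, hn, h1⟩ => h1 (by
      simp only [hm, pow_mul, va2_cube hp' hn, one_pow]), if_pos (dvd_zero _), N_pow]
    push_cast
    ring
  · have h1 : om ^ (j + 1) ≠ 1 := by
      rw [← Nat.div_add_mod (j + 1) 3, pow_add, pow_mul, om_cube, one_pow, one_mul]
      obtain h2 | h2 : (j + 1) % 3 = 1 ∨ (j + 1) % 3 = 2 := by omega
      all_goals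
        rw [h2]
        decide
    have h2 := s3_sym (k := 3) (Or.inr (Or.inl rfl)) om_cube h1 (n := p)
      (by exact_mod_cast hp'.isCoprime_three) hp.irreducible.squarefree 0
    have h3 : cub p 0 ^ (j + 1) = 0 :=
      (hχ.zero_iff 0).2 fun h => hp.not_isUnit (isCoprime_zero_left.1 h)
    unfold cub at h3 ⊢
    rw [h2, h3, map_zero, zero_mul, mul_zero]

/-- `gs_factor` with `rowFn_k0`, `a = p^k` -/
theorem Zc_prime_pow_mul {p : O} (hp : Prime p) (hp' : Prim p) {c : O} (hc : ¬ p ∣ c) {k : ℕ}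
    (hk : k ≠ 0) :
    Zc (p ^ k * c) = (if 3 ∣ k then (N p : ℂ) ^ k - (N p : ℂ) ^ (k - 1) else 0) * Zc c := by
  have hco : IsCoprime p c := hp.irreducible.coprime_iff_not_dvd.2 hc
  rw [Zc, gs_factor (by decide) rowFn_k0 (hp'.pow k) (fun h : c = 0 => hc (h ▸ dvd_zero p))
    (hp'.isCoprime_three.mul_right hco).pow_left, gs_prime_pow_zero hp hp' hk, Zc]
  split_ifs with h
  · obtain ⟨m, rfl⟩ := h
    rw [cub, sym_pow_left 3 hp.ne_zero, pow_mul, ← cub,
      va2_cube hp' (hp'.isCoprime_three.mul_right hco.pow_right).symm, one_pow, one_mul]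
  · rw [mul_zero]

/-- `d ↦ a d` permutes the residues (`sum_res_affine`, `p2`) -/
theorem cub_mul_Zc {a c : O} (ha : Prim a) (hc : c ≠ 0) (hac : IsCoprime a c) :
    cub a c * Zc c = Zc c := by
  rw [Zc, vh1_gs0, Finset.mul_sum, ← sum_res_affine (mul_ne_zero (by decide) hc)
    (f := k0 c) (rowFn_k0.p3 c) (ha.isCoprime_three.mul_right hac) 0]
  exact Finset.sum_congr rfl fun x _ => by rw [add_zero, rowFn_k0.p2 a ha]

/-- From `Zc_prime_pow_mul`: `Z c = 0` if `p ∣ c`, `p³ ∤ c`; `Z(p³c) = q³ Z c` if `p ∣ c` and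
`(q³ - q²) Z c` if `p ∤ c`.  So `φ = φ_p + ∑_c Z(p³c) N(p³c)^{-s} = φ_p + q^{-3s}(q³ φ - q² φ_p)`
(reindex with the injection `c ↦ p³ c`, `Function.Injective.tsum_eq`). -/
theorem Z_identity {p : O} (hp : Prime p) (hp' : Prim p) {s : ℂ} (hs : 2 < s.re) :
    (1 - (N p : ℂ) ^ (3 - 3 * s)) * DS 3 k0 0 s = (1 - (N p : ℂ) ^ (2 - 3 * s)) * phiP p s := by
  have hq : (N p : ℂ) ≠ 0 := by exact_mod_cast (N_pos hp.ne_zero).ne'
  have h3 : p ^ 3 ≠ 0 := pow_ne_zero 3 hp.ne_zero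
  have hZ := vh1_sum (f := Zc) (fun _ => le_rfl) hs
  have hP := vh1_sum (vh1_le p) hs
  have e1 : ∀ c : O, (if c = 0 then 0 else Zc c * (N c : ℂ) ^ (-s)) -
      (if c = 0 then 0 else (if p ∣ c then 0 else Zc c) * (N c : ℂ) ^ (-s)) =
      if p ^ 3 ∣ c then (if c = 0 then 0 else Zc c * (N c : ℂ) ^ (-s)) else 0 := fun c => by
    by_cases hc : c = 0
    · simp [hc]
    obtain ⟨k, m, hm, rfl⟩ := WfDvdMonoid.max_power_factor hc hp.irreducible
    simp only [if_neg hc]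
    by_cases h1 : p ∣ p ^ k * m
    · rw [if_pos h1, zero_mul, sub_zero]
      split_ifs with h2
      · rfl
      · have hk : k ≠ 0 := by
          rintro rfl
          exact hm (by simpa using h1)
        rw [Zc_prime_pow_mul hp hp' hm hk, if_neg, zero_mul, zero_mul]
        exact fun h => h2 ((pow_dvd_pow p (Nat.le_of_dvd (Nat.pos_of_ne_zero hk) h)).mul_right m)
    · rw [if_neg h1, sub_self, if_neg fun h => h1 ((dvd_pow_self p three_ne_zero).trans h)]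
  have e2 : ∀ c : O, (if p ^ 3 * c = 0 then 0 else Zc (p ^ 3 * c) * (N (p ^ 3 * c) : ℂ) ^ (-s)) =
      (N p : ℂ) ^ (3 - 3 * s) * (if c = 0 then 0 else Zc c * (N c : ℂ) ^ (-s)) -
      (N p : ℂ) ^ (2 - 3 * s) *
        (if c = 0 then 0 else (if p ∣ c then 0 else Zc c) * (N c : ℂ) ^ (-s)) := fun c => by
    by_cases hc : c = 0
    · simp [hc]
    have e3 : (N (p ^ 3 * c) : ℂ) ^ (-s) = (N p : ℂ) ^ (-(3 * s)) * (N c : ℂ) ^ (-s) := by
      rw [N_mul, Complex.ofReal_mul, Complex.mul_cpow_ofReal_nonneg (N_nonneg _) (N_nonneg _),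
        N_pow, N, ← mul_neg]
      congr 1
      exact_mod_cast (Complex.natCast_cpow_natCast_mul (nm p) 3 (-s)).symm
    have e4 : ∀ i : ℕ, (N p : ℂ) ^ ((i : ℂ) - 3 * s) = (N p : ℂ) ^ i * (N p : ℂ) ^ (-(3 * s)) :=
      fun i => by rw [sub_eq_add_neg, Complex.cpow_add _ _ hq, Complex.cpow_natCast]
    have e5 := e4 3
    have e6 := e4 2
    push_cast at e5 e6
    rw [if_neg (mul_ne_zero h3 hc), if_neg hc, if_neg hc, e3, e5, e6]
    obtain ⟨k, m, hm, rfl⟩ := WfDvdMonoid.max_power_factor hc hp.irreducible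
    rw [← mul_assoc (p ^ 3), ← pow_add, Zc_prime_pow_mul hp hp' hm (by omega)]
    rcases k with _ | k
    · simp only [pow_zero, one_mul, add_zero, dvd_refl, if_true, if_neg hm]
      ring
    · rw [if_pos ((dvd_pow_self p k.succ_ne_zero).mul_right m),
        Zc_prime_pow_mul hp hp' hm k.add_one_ne_zero]
      simp only [Nat.dvd_add_right (dvd_refl 3), show 3 + (k + 1) - 1 = k + 3 by omega,
        Nat.add_sub_cancel]
      split_ifs <;> ring
  have e7 := hZ.tsum_sub hP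
  rw [tsum_congr e1, tsum_dvd h3 fun c => if c = 0 then 0 else Zc c * (N c : ℂ) ^ (-s),
    tsum_congr e2, (hZ.mul_left _).tsum_sub (hP.mul_left _), tsum_mul_left, tsum_mul_left] at e7
  unfold DS phiP dser
  unfold Zc at e7 ⊢
  linear_combination -e7

theorem vh1_dvd {p : O} (hp : Prime p) (hp' : Prim p) {C : O} (hC : C ≠ 0) :
    gs (3 * p * C) (kp (fun d => p ∣ d) C) 0 = if p ∣ C then 0 else Zc C := by
  rw [vh1_gs0]
  split_ifs with h
  · refine Finset.sum_eq_zero fun x _ => by_contra fun hx => ?_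
    obtain ⟨-, -, h1, h2⟩ := voar_kp_ne hx
    exact hp.not_isUnit (h2.isUnit_of_dvd' h h1)
  have h0 : (0 : O) ∈ res p := (b4_mem_res hp.ne_zero).2 (EuclideanDomain.zero_mod p)
  have hper : Per (3 * p * C) (kp (fun d => p ∣ d) C) :=
    per_kp (fun d t => dvd_add_left (dvd_mul_right p t)) C
  rw [show 3 * p * C = p * (3 * C) by ring] at hper ⊢
  rw [sum_res_tower hp.ne_zero (mul_ne_zero (by decide) hC) hper, Finset.sum_eq_single_of_mem 0 h0,
    ← cub_mul_Zc hp' hC (hp.irreducible.coprime_iff_not_dvd.2 h), Zc, vh1_gs0, Finset.mul_sum]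
  · exact Finset.sum_congr rfl fun x _ => by
      rw [zero_add, vh1_kp, if_pos (dvd_mul_right p x), rowFn_k0.p2 p hp']
  · refine fun x hx h1 => Finset.sum_eq_zero fun y _ => ?_
    rw [vh1_kp, if_neg fun h2 => h1 (res_inj hp.ne_zero hx h0 ?_)]
    rw [sub_zero]
    exact (dvd_add_left (dvd_mul_right p y)).1 h2

/-- `d = p d'`, `d' mod 3c` (`sum_res_tower`/`sum_res_eq`); the terms with `p ∣ c` vanish;
`cub (p d') c = cub p c · cub d' c` and `cub_mul_Zc` -/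
theorem DS_dvd {p : O} (hp : Prime p) (hp' : Prim p) (s : ℂ) :
    DS (3 * p) (kp (fun d => p ∣ d)) 0 s = phiP p s :=
  vh1_congr (fun _ hC => vh1_dvd hp hp' hC) s

/-- `gs (3pc) (k0 c) 0 = q Z c` (`gs_lift`), `k0_eq_add`, `DS_dvd` -/
theorem DS_not_dvd {p : O} (hp : Prime p) (hp' : Prim p) {s : ℂ} (hs : 2 < s.re) :
    DS (3 * p) (kp (fun d => ¬ p ∣ d)) 0 s = (N p : ℂ) * DS 3 k0 0 s - phiP p s := by
  refine (vh1_congr (fun C hC => ?_) s).trans (vh1_sub p (N p) hs)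
  have h := gs_lift (mul_ne_zero (by decide : (3 : O) ≠ 0) hC) hp.ne_zero (f := k0 C)
    (rowFn_k0.p3 C) 0
  rw [if_pos (dvd_zero _), EuclideanDomain.zero_div, mul_right_comm] at h
  rw [← vh1_dvd hp hp' hC, Zc, ← h, k0_eq_add p]
  simp only [vh1_gs0, Finset.sum_add_distrib, add_sub_cancel_left]

/-- `(C,D) δ = (C a + 3D, C b + pD)` and `p ∤ b`; `equi_k0` -/
theorem tr_delta_dvd {p : O} (hp : Prime p) {δ : SL O} (hδ : δ ∈ Gam 1) (hd : δ.d = p) (C D : O) :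
    tr δ⁻¹ (kp (fun d => p ∣ d)) C D = kap δ * (if p ∣ C then k0 C D else 0) := by
  obtain ⟨h1, h2⟩ := vh1_tr hδ hd C D (fun d => p ∣ d)
  rw [h1, h2, mul_ite, mul_zero]
theorem tr_delta_not_dvd {p : O} (hp : Prime p) {δ : SL O} (hδ : δ ∈ Gam 1) (hd : δ.d = p)
    (C D : O) :
    tr δ⁻¹ (kp (fun d => ¬ p ∣ d)) C D = kap δ * (if p ∣ C then 0 else k0 C D) := by
  obtain ⟨h1, h2⟩ := vh1_tr hδ hd C D (fun d => ¬ p ∣ d)
  rw [h1, h2]
  split_ifs <;> simp
theorem DS_delta_not_dvd {p : O} (hp : Prime p) {δ : SL O} (hδ : δ ∈ Gam 1) (hd : δ.d = p)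
    (s : ℂ) : DS 3 (tr δ⁻¹ (kp (fun d => ¬ p ∣ d))) 0 s = kap δ * phiP p s := by
  rw [phiP, ← vh1_mul]
  refine vh1_congr (fun C _ => ?_) s
  simp only [vh1_gs0, tr_delta_not_dvd hp hδ hd, ← Finset.mul_sum, Zc]
  split_ifs <;> simp
theorem DS_delta_dvd {p : O} (hp : Prime p) {δ : SL O} (hδ : δ ∈ Gam 1) (hd : δ.d = p)
    {s : ℂ} (hs : 2 < s.re) :
    DS 3 (tr δ⁻¹ (kp (fun d => p ∣ d))) 0 s = kap δ * (DS 3 k0 0 s - phiP p s) := by
  rw [← one_mul (DS 3 k0 0 s), ← vh1_sub p 1 hs, ← vh1_mul]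
  refine vh1_congr (fun C _ => ?_) s
  simp only [vh1_gs0, tr_delta_dvd hp hδ hd, ← Finset.mul_sum, Zc]
  split_ifs <;> simp

/-- `phiP = DS · (1 - q^{3-3s})/(1 - q^{2-3s})`, the factor is holomorphic on `Re s > 1`
(`|q^{2-3s}| < 1`) with value `(1 - q⁻¹)/(1 - q⁻²) = q/(q+1)` at `4/3` -/
theorem hasRes_phiP {p : O} (hp : Prime p) (hp' : Prim p) {r : ℂ} (h : HasRes (DS 3 k0 0) r) :
    HasRes (phiP p) ((N p : ℂ) / (N p + 1) * r) := by
  have h2 := Prime.two_le_N hp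
  have hq : (N p : ℂ) ≠ 0 := by exact_mod_cast (N_pos hp.ne_zero).ne'
  have hne : ∀ s : ℂ, 1 < s.re → 1 - (N p : ℂ) ^ (2 - 3 * s) ≠ 0 := fun s hs h => by
    have h1 := Complex.norm_cpow_eq_rpow_re_of_pos (N_pos hp.ne_zero) (2 - 3 * s)
    rw [← sub_eq_zero.1 h, norm_one] at h1
    refine (Real.rpow_lt_one_of_one_lt_of_neg (by linarith) ?_).ne h1.symm
    simp
    linarith
  have hd : ∀ a : ℂ, Differentiable ℂ fun s : ℂ => 1 - (N p : ℂ) ^ (a - 3 * s) := fun a =>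
    (Differentiable.const_cpow (by fun_prop) (Or.inl hq)).const_sub 1
  have key := (h.hol_mul (((hd 3).differentiableOn).div (hd 2).differentiableOn hne)).congr
    (F' := phiP p) fun s hs h2 => by
      rw [Pi.div_apply, div_mul_eq_mul_div, Z_identity hp hp' h2, mul_div_cancel_left₀ _ (hne s hs.1)]
  convert key using 2
  have h3 : (N p : ℂ) + 1 ≠ 0 := by exact_mod_cast (by linarith : N p + 1 ≠ 0)
  have h4 : (N p : ℂ) - 1 ≠ 0 := by exact_mod_cast (by linarith : N p - 1 ≠ 0)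
  have h5 : (N p : ℂ) ^ 2 - 1 ≠ 0 := by
    rw [show (N p : ℂ) ^ 2 - 1 = (N p + 1) * (N p - 1) by ring]
    exact mul_ne_zero h3 h4
  rw [Pi.div_apply, show (3 : ℂ) - 3 * (4 / 3) = -1 by norm_num,
    show (2 : ℂ) - 3 * (4 / 3) = -((2 : ℕ) : ℂ) by norm_num, Complex.cpow_neg_one, Complex.cpow_neg,
    Complex.cpow_natCast]
  field_simp
  ring

end Crest.Agent.R17.Vor
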