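import Crest.Agent.R17.VoLink
import Crest.Agent.R17.VoHecke1

/-!
# R17 / VoSym : invariance of `theta` under `SL₂(ℤ)`
-/

set_option autoImplicit false

noncomputable section

open scoped Classical ComplexConjugate Topology ENNReal InnerProductSpace
open MeasureTheory Filter

namespace Crest.Agent.R17.Vor

theorem vosym_tr_nn : tr (nn 1) k0 = k0 := by
  funext C D
  have e1 : C * (nn (1 : O)).d - D * (nn (1 : O)).c = C := by simp [nn]
  have e2 : -(C * (nn (1 : O)).b) + D * (nn (1 : O)).a = D - C := by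
    simp only [nn]
    ring
  unfold tr
  rw [e1, e2]
  unfold k0 kp
  by_cases hC : (3 : O) ∣ C
  · have h1 : Prim (D - C) ↔ Prim D := voar_prim_congr (by
      rw [show D - C - D = -C by ring]
      exact hC.neg_right)
    by_cases hD : Prim D
    · rw [if_pos ⟨hC, h1.mpr hD, trivial⟩, if_pos ⟨hC, hD, trivial⟩,
        rkub_congr (d := D - C) (x := C) (y := D) ⟨-1, by ring⟩, cub_rec (h1.mpr hD) hD,
        rkub_congr (d := D) (x := D - C) (y := -C) ⟨1, by ring⟩, voar_cub_neg hD]
    · rw [if_neg fun h => hD (h1.mp h.2.1), if_neg fun h => hD h.2.1]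
  · rw [if_neg fun h => hC h.1, if_neg fun h => hC h.1]

/-- `cub (d - c) c = cub (d - c) d = cub d (d - c) = cub d c` for `3 ∣ c`, `d` primary (`cub_rec`),
so `tr (nn 1) k0 = k0`; `thK_act` -/
theorem theta_T' (w : X) : theta (act (nn 1) w) = theta w := by
  have h := thK_act k0 (nn 1) w
  rw [ι_nn, map_one, vosym_tr_nn] at h
  exact h

theorem vosym_Zc (c : O) : Zc c = ∑ x ∈ res (3 * c), k0 c x := by
  unfold Zc gs
  simp [ad_zero]

theorem vosym_zero {a c : O} (ha : Prim a) (hc : c ≠ 0) (hac : IsCoprime a c) (h : cub a c ≠ 1) :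
    Zc c = 0 := by
  have h1 := cub_mul_Zc ha hc hac
  have h2 : (cub a c - 1) * Zc c = 0 := by rw [sub_mul, h1, one_mul, sub_self]
  exact (mul_eq_zero.mp h2).resolve_left (sub_ne_zero.mpr h)

theorem vosym_p1 : Prim (-2) := ⟨-1, by norm_num⟩
theorem vosym_p2 : Prim (1 + 3 * om) := ⟨om, by ring⟩

theorem vosym_om1 : cub (-2) om = omC := by
  rw [cub_om vosym_p1.isCoprime_three]
  have : nm (-2) = 4 := by decide
  rw [this]
  norm_num

theorem vosym_om2 : cub (1 + 3 * om) om = omC ^ 2 := by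
  rw [cub_om vosym_p2.isCoprime_three]
  have : nm (1 + 3 * om) = 7 := by decide
  rw [this]

theorem vosym_lam : lam = 1 + 2 * om := by decide

theorem vosym_lam1 : cub (-2) lam = 1 := by
  rw [rkub_congr (d := -2) (x := lam) (y := 1) ⟨-om, by rw [vosym_lam]; ring⟩]
  exact (va2_isChar vosym_p1).one

theorem vosym_lam2 : cub (1 + 3 * om) lam = omC ^ 2 := by
  rw [rkub_congr (d := 1 + 3 * om) (x := lam) (y := -om) ⟨1, by rw [vosym_lam]; ring⟩,
    voar_cub_neg vosym_p2, vosym_om2]

theorem vosym_count : ∑ x ∈ res 3, (if Prim x then (1 : ℂ) else 0) = 1 := by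
  obtain ⟨r, hr, h⟩ := exists_res volink_three 1
  have h1 : Prim r := by
    unfold Prim
    rw [show r - 1 = -(1 - r) by ring]
    exact h.neg_right
  rw [Finset.sum_eq_single r, if_pos h1]
  · intro x hx hxr
    rw [if_neg]
    intro h2
    refine hxr (res_inj volink_three hx hr ?_)
    rw [show x - r = (x - 1) - (r - 1) by ring]
    exact dvd_sub h2 h1
  · exact fun h2 => absurd hr h2

theorem vosym_cube {u : O} (hu : u = 1 ∨ u = -1) {k : ℕ} (hk : k ≠ 0) :
    Zc (u * lam ^ (3 * k)) = (3 : ℂ) ^ (3 * k) := by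
  have hu' : IsUnit u := by
    rcases hu with rfl | rfl
    · exact isUnit_one
    · exact isUnit_one.neg
  have hu3 : u ^ 3 = u := by
    rcases hu with rfl | rfl <;> norm_num
  have hc0 : u * lam ^ (3 * k) ≠ 0 := mul_ne_zero hu'.ne_zero (pow_ne_zero _ va2_lam_ne)
  have h3 : (3 : O) ∣ u * lam ^ (3 * k) := by
    have h1 : lam ^ 2 ∣ lam ^ (3 * k) := pow_dvd_pow _ (by omega)
    rw [lam_sq] at h1
    exact (neg_dvd.mp h1).mul_left _
  have hk0 : ∀ x, k0 (u * lam ^ (3 * k)) x = if Prim x then 1 else 0 := by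
    intro x
    unfold k0 kp
    by_cases hx : Prim x
    · rw [if_pos ⟨h3, hx, trivial⟩, if_pos hx,
        show u * lam ^ (3 * k) = (u * lam ^ k) ^ 3 by rw [mul_pow, hu3, ← pow_mul, mul_comm k],
        rkub_pow hx]
      exact rcub_cube hx (va2_coprime_ul hx hu' k)
    · rw [if_neg fun h => hx h.2.1, if_neg hx]
  have hP : ∀ x t : O, Prim (x + 3 * t) ↔ Prim x := fun x t =>
    voar_prim_congr ⟨t, by ring⟩
  rw [vosym_Zc]
  simp only [hk0]
  rw [sum_res_tower volink_three hc0 (f := fun x => if Prim x then (1 : ℂ) else 0)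
    (fun x t => by simp only [mul_assoc, hP])]
  simp only [hP, Finset.sum_const, nsmul_eq_mul]
  rw [← Finset.mul_sum, vosym_count, mul_one, card_res hc0]
  have h1 := va2_N_ul hu' (3 * k)
  unfold N at h1
  exact_mod_cast h1

/-- For `i ≥ 2`, `χ(d) = cub d (uλ^i)` is multiplicative on primary `d` and periodic modulo
`3uλ^i`; `cub_mul_Zc` shows `Zc = 0` as soon as `χ(a) ≠ 1` for one primary `a`.  Test `a = -2`
(`cub a ω = ω`, `cub a λ = 1`) and `a = 1 + 3ω` (`cub a ω = ω²`, `cub a λ = ω²`; norms `4`, `7`;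
`sym_prime`, `symP_eq`, `cub_om`): both are trivial iff `u = ±1` and `3 ∣ i`.  In that case
`uλ^i` is a cube, `χ = 1`, and there are `N(uλ^i) = 3^i` primary residues modulo `3uλ^i`
(`sum_res_tower`).  For `i ≤ 1`, `3 ∤ uλ^i`. -/
theorem Zc_lam {u : O} (hu : IsUnit u) (i : ℕ) :
    Zc (u * lam ^ i) = if (u = 1 ∨ u = -1) ∧ 3 ∣ i ∧ i ≠ 0 then (3 : ℂ) ^ i else 0 := by
  have hc0 : u * lam ^ i ≠ 0 := mul_ne_zero hu.ne_zero (pow_ne_zero _ va2_lam_ne)
  split_ifs with h
  · obtain ⟨h1, ⟨k, rfl⟩, h2⟩ := h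
    exact vosym_cube h1 (by omega)
  by_cases hi : i = 0
  · subst hi
    rw [vosym_Zc]
    refine Finset.sum_eq_zero fun x _ => if_neg fun h1 => ?_
    have h2 := N_le_of_dvd hc0 h1.1
    rw [va2_N_ul hu] at h2
    have h3 : N 3 = 9 := by
      have := nm_natCast 3
      rw [Nat.cast_ofNat] at this
      unfold N
      rw [this]
      norm_num
    rw [h3] at h2
    norm_num at h2
  by_cases hu1 : u = 1 ∨ u = -1
  · have h3 : ¬ 3 ∣ i := fun h3 => h ⟨hu1, h3, hi⟩
    refine vosym_zero vosym_p2 hc0 (va2_coprime_ul vosym_p2 hu i).symm ?_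
    have e : cub (1 + 3 * om) (u * lam ^ i) = (omC ^ 2) ^ i := by
      rw [(va2_isChar vosym_p2).mul, rkub_pow vosym_p2, vosym_lam2]
      rcases hu1 with rfl | rfl
      · rw [(va2_isChar vosym_p2).one, one_mul]
      · rw [voar_cub_neg vosym_p2, (va2_isChar vosym_p2).one, one_mul]
    rw [e, ← pow_mul, ← Nat.div_add_mod (2 * i) 3, pow_add, pow_mul, rkub_omC_cube, one_pow, one_mul]
    have h4 : 2 * i % 3 = 1 ∨ 2 * i % 3 = 2 := by omega
    rcases h4 with h4 | h4 <;> rw [h4]
    · rw [pow_one]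
      exact rcub_omC_ne.1
    · exact rcub_omC_ne.2
  · refine vosym_zero vosym_p1 hc0 (va2_coprime_ul vosym_p1 hu i).symm ?_
    rw [(va2_isChar vosym_p1).mul, rkub_pow vosym_p1, vosym_lam1, one_pow, mul_one]
    have h1 := isUnit_iff_mem_units6.mp hu
    simp only [units6, Finset.mem_insert, Finset.mem_singleton] at h1
    rcases h1 with rfl | rfl | rfl | rfl | rfl | rfl
    · exact absurd (Or.inl rfl) hu1
    · exact absurd (Or.inr rfl) hu1
    · rw [vosym_om1]
      exact rcub_omC_ne.1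
    · rw [voar_cub_neg vosym_p1, vosym_om1]
      exact rcub_omC_ne.1
    · rw [rkub_pow vosym_p1, vosym_om1]
      exact rcub_omC_ne.2
    · rw [voar_cub_neg vosym_p1, rkub_pow vosym_p1, vosym_om1]
      exact rcub_omC_ne.2

theorem vosym_sum : ∑' i : ℕ, (3 : ℂ) ^ (-(i * (4 / 3 : ℂ))) *
    (if 3 ∣ i ∧ i ≠ 0 then (3 : ℂ) ^ i else 0) = 1 / 2 := by
  have hi : Function.Injective (fun k : ℕ => 3 * (k + 1)) := fun a b h => by
    simp only at h
    omega
  rw [← hi.tsum_eq]
  · have h1 : ∀ k : ℕ, (3 : ℂ) ^ (-(((3 * (k + 1) : ℕ) : ℂ) * (4 / 3 : ℂ))) *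
        (if 3 ∣ 3 * (k + 1) ∧ 3 * (k + 1) ≠ 0 then (3 : ℂ) ^ (3 * (k + 1)) else 0) =
        (1 / 3) * (1 / 3) ^ k := by
      intro k
      rw [if_pos ⟨dvd_mul_right _ _, by omega⟩,
        show ((3 * (k + 1) : ℕ) : ℂ) * (4 / 3 : ℂ) = ((4 * (k + 1) : ℕ) : ℂ) by push_cast; ring,
        Complex.cpow_neg, Complex.cpow_natCast, one_div_pow]
      field_simp
      ring
    simp only [h1]
    rw [tsum_mul_left, tsum_geometric_of_norm_lt_one (by norm_num)]
    norm_num
  · intro i hi'
    have h1 : 3 ∣ i ∧ i ≠ 0 := by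
      by_contra h
      exact hi' (by simp only [if_neg h, mul_zero])
    obtain ⟨⟨k, rfl⟩, h2⟩ := h1
    exact ⟨k - 1, by simp only; omega⟩

/-- `2 ∑_{k ≥ 1} 3^{-4k} 3^{3k} = 1`, with `hasRes_DS_of` for `rowFn_k0`, `n = 0` -/
theorem hasRes_DS_k0 : HasRes (DS 3 k0 0) (rho0 0) := by
  have h := hasRes_DS_of (Or.inl rfl) rowFn_k0 hasRes_psi0 0
  have e1 : ∀ u ∈ units6, ∑' i : ℕ, (3 : ℂ) ^ (-(i * (4 / 3 : ℂ))) *
      gs (3 * (u * lam ^ i)) (k0 (u * lam ^ i)) 0 * rho0 (3 ^ 2 * (u * lam ^ i) * 0) =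
      if u = 1 ∨ u = -1 then 1 / 2 * rho0 0 else 0 := by
    intro u hu
    have e2 := Zc_lam (isUnit_iff_mem_units6.mpr hu)
    unfold Zc at e2
    simp only [e2, mul_zero]
    rw [tsum_mul_right]
    by_cases h1 : u = 1 ∨ u = -1
    · simp only [h1, true_and, if_true]
      rw [vosym_sum]
    · simp [h1]
  have e3 : units6.filter (fun u => u = 1 ∨ u = -1) = {1, -1} := by
    ext u
    simp only [Finset.mem_filter, Finset.mem_insert, Finset.mem_singleton, and_iff_right_iff_imp,
      ← isUnit_iff_mem_units6]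
    rintro (rfl | rfl)
    · exact isUnit_one
    · exact isUnit_one.neg
  rw [Finset.sum_congr rfl e1, ← Finset.sum_filter, e3, Finset.sum_pair (by decide)] at h
  convert h using 1
  ring

/-- `D = θ∘S - θ ∈ Eig 1` has zero constant term at `∞` (`coef_thK` with `σ = 1`,
`coef_theta_SS`), so `∫ conj θ · D = 0` (`theta_orth`, `cusp_k0`).  With
`∫ |θ∘S|² = ∫ |θ|²` (`measurePreserving_SS`) this gives `∫ conj D · D = 0`, and `Eig.eq_zero`. -/
theorem theta_S' (w : X) : theta (act SS w) = theta w := by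
  have hE : Eig 1 (fun w => theta (act SS w)) := eig_theta.comp_SS
  have hD := hE.sub eig_theta
  have h1 := theta_orth one_ne_zero (rowBd_kp _) (equi_k0 1) cusp_k0 hD (fun v hv => by
    have a1 := coef_theta_SS 0 hv
    have a2 := coef_thK one_ne_zero (rowBd_kp _) (equi_k0 1) 1 volink_three
      (by rw [tr_one]; exact rowFn_k0.p3) (n := 0) (r := rho0 0)
      (by rw [tr_one]; exact hasRes_DS_k0) hv
    simp only [inv_one, map_one, act_one] at a2 ⊢
    rw [ι_SS, mul_zero] at a1
    rw [coef_sub hE.cont eig_theta.cont, a1, sub_eq_zero]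
    exact a2.symm)
  change ∫ w, conj (theta w) * (theta (act SS w) - theta w) ∂(nu 1) = 0 at h1
  simp only [mul_sub] at h1
  rw [integral_sub (eig_theta.integrable_mul hE) (eig_theta.integrable_mul eig_theta),
    sub_eq_zero] at h1
  have h2 : ∫ w, conj (theta (act SS w)) * theta (act SS w) ∂(nu 1) =
      ∫ w, conj (theta w) * theta w ∂(nu 1) :=
    measurePreserving_SS.integral_comp (geo2_emb SS) (fun w => conj (theta w) * theta w)
  have h3 : ∫ w, conj (theta (act SS w)) * theta w ∂(nu 1) =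
      ∫ w, conj (theta w) * theta w ∂(nu 1) := by
    have a1 := congrArg conj h1
    rw [← integral_conj, ← integral_conj] at a1
    simp only [map_mul, Complex.conj_conj] at a1
    simp only [mul_comm (conj _)]
    exact a1
  have h4 := hD.eq_zero (by
    have a1 : ∀ w, conj (theta (act SS w) - theta w) * (theta (act SS w) - theta w) =
        (conj (theta (act SS w)) * theta (act SS w) - conj (theta (act SS w)) * theta w) -
        (conj (theta w) * theta (act SS w) - conj (theta w) * theta w) := fun w => by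
      rw [map_sub]
      ring
    simp only [a1]
    have i1 : Integrable (fun w => conj (theta (act SS w)) * theta (act SS w) -
        conj (theta (act SS w)) * theta w) (nu 1) :=
      (hE.integrable_mul hE).sub (hE.integrable_mul eig_theta)
    have i2 : Integrable (fun w => conj (theta w) * theta (act SS w) -
        conj (theta w) * theta w) (nu 1) :=
      (eig_theta.integrable_mul hE).sub (eig_theta.integrable_mul eig_theta)
    rw [integral_sub i1 i2, integral_sub (hE.integrable_mul hE) (hE.integrable_mul eig_theta),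
      integral_sub (eig_theta.integrable_mul hE) (eig_theta.integrable_mul eig_theta), h1, h2, h3]
    ring) w
  exact sub_eq_zero.mp h4

end Crest.Agent.R17.Vor
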