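import Crest.Agent.R17.VoExp
import Crest.Agent.R17.VoSym

/-!
# R17 / ThetaCore : the interface of the cubic theta function (C1-C5)

Everything here is proved in the files `Vo*.lean` (owner helper85); definitions in `VoDefs.lean`,
the action in coordinates in `VoGeo1.lean` (`act_pt`, `act_upper`, `act_mul`, ...).

## Notes for C6 (Voronoi; owner helper54)
* `θ_S = θ ∘ S` (`= θ` by `theta_S`) has the expansion `theta_expS`; with `n₀ = uλ^j` from `rho0_ne`,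
  `a(n₀ m) = k ρ₀(9 n₀) cub m (9 n₀) tau m · N(m)^{-1/6}` for primary `m` (`rho0_hecke`,
  `9 = λ⁴`).  Put `Q₁ = 9 n₀ Q₀`, `f(n) = [n = n₀ m, m primary] φ(m) conj (cub m (9n₀))` (periodic mod
  `Q₁` by `cub_congr`), `Θ_f = ∑_{k mod Q₁} f̂(k) θ(S n(-3k/Q₁) ·)`.  It is `conj κ`-automorphic under
  `Γ(Q')`, `Q' = 9 Q₁²` (`κ(SγS⁻¹) = κ(γ)` is `kap_conj_SS` in `VoGrp`).
* For `c₁` primary coprime to `Q₀`, `x` coprime to `c₁`: `β = (Q'a₁, b; c₁, d)`, `d = -Q'x`,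
  `βS⁻¹ ∈ Γ(3)`, `κ(βS⁻¹) = cub c₁ d`; reference `β*` from a chosen `c*` in the class (`τ' = 0` if the
  class is empty).  `n(x₀) β* = σ T`, `σ ∈ SL₂(O)`, `T` upper triangular rational; `theta_exp` and
  `act_upper` give the expansion of `Θ_f ∘ β*` (if `t²/M = k/M'`, the new coefficients are
  `[k ∣ n] a(n/k) ‖t‖^{4/3} ee((n/k) t y/M)`).
* The derivative `∂_ζ` at `ζ = 0` can be taken by symmetric differences in the directions `1, i`
  (`v' = v/(|c|²(|ζ|²+v²))` is even in `ζ`), so no derivative of `Vr` is needed: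
  `∑ a₁ ee(..) (n/M₁) v^{2/3} Vr = η/(c̄²v²) ∑ a₂ ee(..) conj(n/M₂) v'^{2/3} Vr`.
* The statement `voronoi` needs `conj (ψ R1)`: `∑_x conj ψ(R₁x) ad c (m a(x)) = gs c ψ m`;
  `ja = 2`, `R2 = Q'²`, `R1 = -243 Q₀ Q₁`, `γ(s) = Γ(4/3-s)Γ(5/3-s)/(Γ(s+1/3)Γ(s+2/3))`,
  `|γ(1+it)| ≤ 9/2`, `κQ = 2 log (3|Q'|/(|n₀| c0²))`.
-/

set_option autoImplicit false

noncomputable section

open scoped Classical ComplexConjugate Topology
open MeasureTheory Filter

namespace Crest.Agent.R17.Vor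

/-! ### the function `Vr` -/

theorem core_Vr_pos (y : ℝ) : 0 < Vr y := Vr_pos y
theorem core_continuous_Vr : Continuous Vr := continuous_Vr
theorem core_Vr_le : ∃ C : ℝ, ∀ y, 0 ≤ y → Vr y ≤ C * Real.exp (-y) := Vr_le
theorem core_Vr_zero : Vr 0 = 3 * Real.pi := Vr_zero
theorem core_mellin_Vr {w : ℂ} (hw : 0 < w.re) :
    HasMellin (fun y => (Vr y : ℂ)) w ((Real.pi / (2 * Real.Gamma (4 / 3)) : ℝ) *
      (c0 : ℂ) ^ (-w) * Complex.Gamma (w / 2) * Complex.Gamma (w / 2 + 1 / 3)) :=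
  mellin_Vr hw

/-! ### the theta function -/

theorem theta_cont : Continuous theta := eig_theta.cont
/-- `θ(γ w) = conj (c/d)₃ θ(w)` for `γ ∈ Γ(3)` -/
theorem theta_aut : Aut 1 theta := eig_theta.aut
theorem theta_S (w : X) : theta (act SS w) = theta w := theta_S' w
theorem theta_T (w : X) : theta (act (nn 1) w) = theta w := theta_T' w
/-- expansions at all cusps -/
theorem theta_exp : ∃ C : ℝ, ∀ σ : SL O, ∃ a : O → ℂ,
    HasExp (fun w => theta (act (ι σ) w)) 9 a ∧ ‖a 0‖ ≤ C ∧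
    ∀ (u : O) (j : ℕ) (m : O), IsUnit u → Prim m →
      ‖a (u * lam ^ j * m)‖ ≤ C * ‖tau m‖ * N m ^ (-(1 / 6 : ℝ)) := theta_exp'
/-- the explicit expansion at `S` -/
theorem theta_expS : HasExp (fun w => theta (act SS w)) 3
    (fun n => ((2 / (9 * Real.sqrt 3) : ℝ) : ℂ) * rho0 (9 * n)) := theta_expS'

/-! ### the residues `rho0` -/

theorem rho0_link (r : O) : HasRes (psi0 r) (rho0 r) := hasRes_psi0 r
theorem rho0_hecke {u : O} (hu : IsUnit u) (j : ℕ) {m : O} (hm : Prim m) :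
    ((N m ^ (1 / 6 : ℝ) : ℝ) : ℂ) * rho0 (u * lam ^ j * m) =
      rho0 (u * lam ^ j) * cub m (u * lam ^ j) * tau m := rho0_hecke' hu j hm
theorem rho0_lam_cube (r : O) : rho0 (r * lam ^ 3) = rho0 r := rho0_lam_cube' r
theorem rho0_neg (r : O) : rho0 (-r) = rho0 r := rho0_neg' r
theorem rho0_zero : rho0 0 * dser (prim (fun _ => 1)) 2 = (c0 : ℂ) / 27 := rho0_zero'
theorem rho0_ne : ∃ (u : O) (j : ℕ), IsUnit u ∧ rho0 (9 * (u * lam ^ j)) ≠ 0 := rho0_ne'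

end Crest.Agent.R17.Vor
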