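import Crest.Agent.R17.ThetaNorm_Defs

/-!
# R17 / ThetaNorm_Aux : general inequalities (task).  Statements frozen; add lemmas freely.
-/

set_option autoImplicit false

noncomputable section

open scoped Classical ComplexConjugate
open MeasureTheory

namespace Crest.Agent.R17
namespace TN

/-- Minkowski in weighted form: `‖∑ f_i‖² ≤ (∑ w_i) ∑ ‖f_i‖² / w_i` (if `w_i = 0` then `f i k = 0`). -/
theorem mink {ι κ : Type*} (s : Finset ι) (R : Finset κ) (f : ι → κ → ℂ) (w : ι → ℝ) (B : ℝ)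
    (hw : ∀ i ∈ s, 0 ≤ w i) (hB : 0 ≤ B)
    (h : ∀ i ∈ s, ∑ k ∈ R, ‖f i k‖ ^ 2 ≤ w i ^ 2 * B) :
    ∑ k ∈ R, ‖∑ i ∈ s, f i k‖ ^ 2 ≤ (∑ i ∈ s, w i) ^ 2 * B := by
  let v : ι → EuclideanSpace ℂ R := fun i => WithLp.toLp 2 fun k => f i k
  have hv : ∀ i ∈ s, ‖v i‖ ≤ w i * Real.sqrt B := by
    intro i hi
    refine le_of_pow_le_pow_left₀ two_ne_zero (mul_nonneg (hw i hi) (Real.sqrt_nonneg _)) ?_
    rw [EuclideanSpace.norm_sq_eq, mul_pow, Real.sq_sqrt hB]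
    exact (Finset.sum_coe_sort R fun k => ‖f i k‖ ^ 2).trans_le (h i hi)
  have h1 : ‖∑ i ∈ s, v i‖ ≤ (∑ i ∈ s, w i) * Real.sqrt B := by
    rw [Finset.sum_mul]
    exact (norm_sum_le _ _).trans (Finset.sum_le_sum hv)
  have h2 := pow_le_pow_left₀ (norm_nonneg _) h1 2
  rw [EuclideanSpace.norm_sq_eq, mul_pow, Real.sq_sqrt hB] at h2
  refine le_trans (le_of_eq ?_) h2
  rw [← Finset.sum_coe_sort R]
  refine Finset.sum_congr rfl fun k _ => ?_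
  simp [v]

/-- Integral version.  Each `f k` is bounded by `√B`, so `κ * f k` is integrable.  By duality: with
`I k` the integrals and `S = ∑ ‖I k‖²`, `S = ∫ κ τ ∑ conj (I k) f k τ`, so `S ≤ C √S √B`. -/
theorem mink_int {ι : Type*} (R : Finset ι) (κ : ℝ → ℂ) (hκ : Integrable κ) {C B : ℝ}
    (hC : (∫ τ, ‖κ τ‖) ≤ C) (f : ι → ℝ → ℂ) (hf : ∀ k, Continuous (f k))
    (h : ∀ τ, ∑ k ∈ R, ‖f k τ‖ ^ 2 ≤ B) :
    ∑ k ∈ R, ‖∫ τ, κ τ * f k τ‖ ^ 2 ≤ C ^ 2 * B := by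
  have hB : 0 ≤ B := le_trans (Finset.sum_nonneg fun _ _ => by positivity) (h 0)
  have hC0 : 0 ≤ C := le_trans (integral_nonneg fun _ => norm_nonneg _) hC
  have hb : ∀ k ∈ R, ∀ τ, ‖f k τ‖ ≤ Real.sqrt B := fun k hk τ =>
    Real.le_sqrt_of_sq_le ((Finset.single_le_sum (f := fun k => ‖f k τ‖ ^ 2)
      (fun _ _ => by positivity) hk).trans (h τ))
  have hi : ∀ k ∈ R, Integrable fun τ => κ τ * f k τ := fun k hk =>
    hκ.mul_bdd (hf k).aestronglyMeasurable (Filter.Eventually.of_forall (hb k hk))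
  set I : ι → ℂ := fun k => ∫ τ, κ τ * f k τ with hI
  set S := ∑ k ∈ R, ‖I k‖ ^ 2 with hS
  have hS0 : 0 ≤ S := Finset.sum_nonneg fun _ _ => by positivity
  have e1 : (S : ℂ) = ∫ τ, ∑ k ∈ R, conj (I k) * (κ τ * f k τ) := by
    rw [integral_finsetSum _ fun k hk => (hi k hk).const_mul _, hS]
    push_cast
    refine Finset.sum_congr rfl fun k _ => ?_
    rw [integral_const_mul, Complex.conj_mul']
  have e2 : ∀ τ, ‖∑ k ∈ R, conj (I k) * (κ τ * f k τ)‖ ≤ ‖κ τ‖ * (Real.sqrt S * Real.sqrt B) := by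
    intro τ
    refine (norm_sum_le _ _).trans ?_
    have a : ∀ k ∈ R, ‖conj (I k) * (κ τ * f k τ)‖ = ‖κ τ‖ * (‖I k‖ * ‖f k τ‖) := fun k _ => by
      rw [norm_mul, norm_mul, Complex.norm_conj]; ring
    rw [Finset.sum_congr rfl a, ← Finset.mul_sum]
    refine mul_le_mul_of_nonneg_left ((Real.sum_mul_le_sqrt_mul_sqrt _ _ _).trans ?_) (norm_nonneg _)
    exact mul_le_mul_of_nonneg_left (Real.sqrt_le_sqrt (h τ)) (Real.sqrt_nonneg _)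
  have e3 : S ≤ C * (Real.sqrt S * Real.sqrt B) := by
    have a := norm_integral_le_of_norm_le (hκ.norm.mul_const (Real.sqrt S * Real.sqrt B))
      (Filter.Eventually.of_forall e2)
    rw [← e1, Complex.norm_real, Real.norm_of_nonneg hS0, integral_mul_const] at a
    exact a.trans (mul_le_mul_of_nonneg_right hC (by positivity))
  have e4 : Real.sqrt S ≤ C * Real.sqrt B := by
    rcases (Real.sqrt_nonneg S).eq_or_lt with h0 | h0
    · rw [← h0]; positivity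
    · refine le_of_mul_le_mul_right ?_ h0
      rw [Real.mul_self_sqrt hS0]
      linarith
  have e5 := pow_le_pow_left₀ (Real.sqrt_nonneg _) e4 2
  rwa [Real.sq_sqrt hS0, mul_pow, Real.sq_sqrt hB] at e5

theorem nonneg_of_le_rpow {Z A K : ℝ} (hZ : 3 ≤ Z) (h1 : 1 ≤ K) (h2 : K ≤ Z ^ A) : 0 ≤ A := by
  by_contra hA
  have := Real.rpow_lt_one_of_one_lt_of_neg (by linarith : 1 < Z) (lt_of_not_ge hA)
  linarith

theorem aux_rpow {A ε Z x : ℝ} (hε : 0 < ε) (hZ : 3 ≤ Z) (hx : 0 ≤ x) (h : x ≤ Z ^ A) :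
    x ^ (ε / (|A| + 1)) ≤ Z ^ ε := by
  have hA : 0 < |A| + 1 := by positivity
  calc x ^ (ε / (|A| + 1)) ≤ (Z ^ A) ^ (ε / (|A| + 1)) := Real.rpow_le_rpow hx h (by positivity)
    _ = Z ^ (A * (ε / (|A| + 1))) := (Real.rpow_mul (by linarith) _ _).symm
    _ ≤ Z ^ ε := by
      refine Real.rpow_le_rpow_of_exponent_le (by linarith) ?_
      rw [← mul_div_assoc, div_le_iff₀ hA]
      have := le_abs_self A
      nlinarith

theorem aux_log {ε Z : ℝ} (hε : 0 < ε) (hZ : 3 ≤ Z) : Real.log Z ≤ Z ^ ε / ε ∧ 1 ≤ Z ^ ε :=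
  ⟨Real.log_le_rpow_div (by linarith) hε, Real.one_le_rpow (by linarith) hε.le⟩

theorem aux_abs {A Z : ℝ} (hZ : 3 ≤ Z) : Z ^ A ≤ Z ^ |A| :=
  Real.rpow_le_rpow_of_exponent_le (by linarith) (le_abs_self A)

/-- `card_pdiv_le` with `ε / (|A| + 1)` -/
theorem card_pdiv_Z (A : ℝ) {ε : ℝ} (hε : 0 < ε) : ∃ C, 0 ≤ C ∧ ∀ Z : ℝ, 3 ≤ Z → ∀ n : O, n ≠ 0 →
    N n ≤ Z ^ A → ((pdiv n).card : ℝ) ≤ C * Z ^ ε := by
  obtain ⟨C, hC⟩ := card_pdiv_le (ε := ε / (|A| + 1)) (by positivity)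
  refine ⟨|C|, abs_nonneg _, fun Z hZ n hn h => (hC n hn).trans ?_⟩
  exact mul_le_mul (le_abs_self _) (aux_rpow hε hZ (N_nonneg _) h) (Real.rpow_nonneg (N_nonneg _) _)
    (abs_nonneg _)

/-- `pow_card_primes_le` -/
theorem pow_primes_Z (A : ℝ) {ε : ℝ} (hε : 0 < ε) : ∃ C, 0 ≤ C ∧ ∀ Z : ℝ, 3 ≤ Z → ∀ n : O, n ≠ 0 →
    N n ≤ Z ^ A → (4 : ℝ) ^ ((pdiv n).filter Prime).card ≤ C * Z ^ ε := by
  obtain ⟨C, hC⟩ := pow_card_primes_le 4 (ε := ε / (|A| + 1)) (by positivity)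
  refine ⟨|C|, abs_nonneg _, fun Z hZ n hn h => (hC n hn).trans ?_⟩
  exact mul_le_mul (le_abs_self _) (aux_rpow hε hZ (N_nonneg _) h) (Real.rpow_nonneg (N_nonneg _) _)
    (abs_nonneg _)

/-- `sum_ball_inv`, `Real.log_le_rpow_div` -/
theorem sum_inv_Z (A : ℝ) {ε : ℝ} (hε : 0 < ε) : ∃ C, 0 ≤ C ∧ ∀ Z : ℝ, 3 ≤ Z → ∀ S : Finset O,
    (∀ n ∈ S, n ≠ 0 ∧ N n ≤ Z ^ A) → ∑ n ∈ S, (N n)⁻¹ ≤ C * Z ^ ε := by
  obtain ⟨C, hC⟩ := sum_ball_inv
  refine ⟨|C| * (1 + |A| / ε), by positivity, fun Z hZ S hS => ?_⟩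
  obtain ⟨a1, a2⟩ := aux_log hε hZ
  have h1 : S ⊆ ball (Z ^ |A|) := fun n hn => mem_ball.2 ⟨(hS n hn).1, (hS n hn).2.trans (aux_abs hZ)⟩
  have h2 := hC (Z ^ |A|) (Real.one_le_rpow (by linarith) (abs_nonneg _))
  rw [Real.log_rpow (by linarith)] at h2
  have h3 : 0 ≤ Real.log Z := Real.log_nonneg (by linarith)
  refine (Finset.sum_le_sum_of_subset_of_nonneg h1 fun n _ _ => inv_nonneg.2 (N_nonneg n)).trans (h2.trans ?_)
  calc C * (1 + |A| * Real.log Z) ≤ |C| * (Z ^ ε + |A| * (Z ^ ε / ε)) := by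
        refine mul_le_mul (le_abs_self _) (by gcongr) (by positivity) (abs_nonneg _)
    _ = _ := by ring

/-- `card ≤ ∑ (Z^A / N f)^δ`, `sum_smooth_le` with exponent `1` -/
theorem card_smooth_Z (A : ℝ) {ε : ℝ} (hε : 0 < ε) : ∃ C, 0 ≤ C ∧ ∀ Z : ℝ, 3 ≤ Z → ∀ Q : O, Q ≠ 0 →
    ∀ S : Finset O, (∀ f ∈ S, N f ≤ Z ^ A ∧ ∃ j : ℕ, f ∣ Q ^ j) →
    (S.card : ℝ) ≤ C * Z ^ ε * N Q := by
  have hδ : 0 < ε / (|A| + 1) := by positivity
  obtain ⟨C, hC⟩ := sum_smooth_le hδ one_pos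
  refine ⟨|C|, abs_nonneg _, fun Z hZ Q hQ S hS => ?_⟩
  have h1 := hC Q hQ S fun f hf => (hS f hf).2
  rw [Real.rpow_one] at h1
  have hZ0 : 0 ≤ Z ^ ε := Real.rpow_nonneg (by linarith) _
  have h2 : ∀ f ∈ S, (1 : ℝ) ≤ Z ^ ε * N f ^ (-(ε / (|A| + 1))) := by
    intro f hf
    obtain ⟨a, j, hj⟩ := hS f hf
    have hf0 : 0 < N f := N_pos (ne_zero_of_dvd_ne_zero (pow_ne_zero j hQ) hj)
    rw [Real.rpow_neg hf0.le, ← div_eq_mul_inv, le_div_iff₀ (Real.rpow_pos_of_pos hf0 _), one_mul]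
    exact aux_rpow hε hZ hf0.le a
  have h3 := Finset.sum_le_sum h2
  rw [Finset.sum_const, nsmul_eq_mul, mul_one, ← Finset.mul_sum] at h3
  refine h3.trans ?_
  calc Z ^ ε * ∑ f ∈ S, N f ^ (-(ε / (|A| + 1))) ≤ Z ^ ε * (|C| * N Q) :=
        mul_le_mul_of_nonneg_left (h1.trans (mul_le_mul_of_nonneg_right (le_abs_self _) (N_nonneg _))) hZ0
    _ = _ := by ring

theorem dy_spec {n : O} (hn : n ≠ 0) : (2 : ℝ) ^ dy n ≤ N n ∧ N n ≤ 2 * 2 ^ dy n := by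
  have h1 := Nat.pow_log_le_self 2 (nm_pos hn).ne'
  have h2 := (Nat.lt_pow_succ_log_self (by norm_num : 1 < 2) (nm n)).le
  rw [pow_succ'] at h2
  unfold dy N
  exact ⟨by exact_mod_cast h1, by exact_mod_cast h2⟩

/-- the number of dyadic ranges -/
theorem dy_Z (A : ℝ) {ε : ℝ} (hε : 0 < ε) : ∃ C, 0 ≤ C ∧ ∀ Z : ℝ, 3 ≤ Z → ∃ J : ℕ,
    (J : ℝ) ≤ C * Z ^ ε ∧ ∀ n : O, n ≠ 0 → N n ≤ Z ^ A → dy n < J := by
  refine ⟨2 * |A| / ε + 1, by positivity, fun Z hZ => ⟨⌊2 * |A| / ε * Z ^ ε⌋₊ + 1, ?_, fun n hn h => ?_⟩⟩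
  · obtain ⟨-, a2⟩ := aux_log hε hZ
    have := Nat.floor_le (by positivity : 0 ≤ 2 * |A| / ε * Z ^ ε)
    push_cast
    linarith
  · obtain ⟨a1, -⟩ := aux_log hε hZ
    refine Nat.lt_succ_of_le (Nat.le_floor ?_)
    have h1 := Real.log_le_log (by positivity) ((dy_spec hn).1.trans (h.trans (aux_abs hZ)))
    rw [Real.log_pow, Real.log_rpow (by linarith)] at h1
    have h2 := mul_le_mul_of_nonneg_left a1 (abs_nonneg A)
    have h3 := Real.log_two_gt_d9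
    have h4 : (0 : ℝ) ≤ dy n := Nat.cast_nonneg _
    have h5 : 2 * |A| / ε * Z ^ ε = 2 * (|A| * (Z ^ ε / ε)) := by ring
    nlinarith

theorem Sq6.mono {S S' : Finset O} {L L' : ℝ} (h : Sq6 S L) (hS : S' ⊆ S) (hL : L ≤ L') :
    Sq6 S' L' := by
  intro l hl
  obtain ⟨a, b, c, d⟩ := h l (hS hl)
  exact ⟨a, b, c, d.trans hL⟩

theorem Sq6.subset_ball {S : Finset O} {L : ℝ} (h : Sq6 S L) : S ⊆ ball L := by
  exact fun l hl => mem_ball.2 ⟨(h l hl).1.ne_zero, (h l hl).2.2.2⟩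

theorem Sq6.coprime_six {S : Finset O} {L : ℝ} (h : Sq6 S L) {l : O} (hl : l ∈ S) :
    IsCoprime l 6 := by
  have := (h l hl).2.2.1.mul_right (h l hl).1.isCoprime_three
  rwa [show (2 : O) * 3 = 6 by norm_num] at this

theorem Shape.mul {Q : O} {U D : ℝ} {u f : O → ℂ} (h : Shape Q U u) (hf : ∀ n, ‖f n‖ ≤ D) :
    Shape Q (U * D) (fun n => u n * f n) := by
  intro n hn
  obtain ⟨a, c, hc, hb⟩ := h n (left_ne_zero_of_mul hn)
  refine ⟨a, c, hc, ?_⟩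
  rw [norm_mul, mul_right_comm]
  exact mul_le_mul hb (hf n) (norm_nonneg _) ((norm_nonneg _).trans hb)

/-- `N c ≤ N n` -/
theorem Shape.norm_le {Q : O} {U : ℝ} {u : O → ℂ} (h : Shape Q U u) (hU : 0 ≤ U) (n : O) :
    ‖u n‖ ≤ U * Real.sqrt (N n) := by
  by_cases hn : u n = 0
  · rw [hn, norm_zero]; positivity
  obtain ⟨a, c, ⟨n2, m0, hc, -⟩, hb⟩ := h n hn
  refine hb.trans (mul_le_mul_of_nonneg_left (Real.sqrt_le_sqrt (N_le_of_dvd a ?_)) hU)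
  rw [hc]
  exact Dvd.dvd.mul_left (dvd_pow_self c (by norm_num)) _

theorem dualB_nonneg {K L X : ℝ} (hK : 0 ≤ K) (hL : 0 ≤ L) (hX : 0 ≤ X) : 0 ≤ dualB K L X := by
  unfold dualB
  positivity

theorem cB_nonneg {K L M E : ℝ} (hK : 0 ≤ K) (hL : 0 ≤ L) (hM : 0 ≤ M) (hE : 0 ≤ E) :
    0 ≤ cB K L M E := by
  unfold cB
  positivity

theorem cB_mono {K L M E K' L' M' E' : ℝ} (hL : 0 ≤ L) (hE : 0 ≤ E)
    (h1 : K ≤ K') (h2 : L ≤ L') (h3 : M ≤ M') (h4 : E ≤ E') : cB K L M E ≤ cB K' L' M' E' := by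
  unfold cB
  have hL' : 0 ≤ L' := hL.trans h2
  gcongr

/-- `norm_tau_le`, `norm_ang`; `prim` kills the non-primary `m` -/
theorem polyBd_tt {f : O → ℂ} {C : ℝ} (hf : ∀ m, ‖f m‖ ≤ C) : PolyBd (prim fun m => tt m * f m) := by
  refine ⟨C, 1, fun n hn => ?_⟩
  have hC : 0 ≤ C := (norm_nonneg _).trans (hf 0)
  unfold prim
  split_ifs with hp
  · rw [norm_mul, tt, norm_mul, norm_ang hn, mul_one, pow_one, mul_comm]
    refine mul_le_mul (hf n) ((norm_tau_le hp).trans ?_) (norm_nonneg _) hC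
    calc N n ^ (1 / 6 : ℝ) ≤ N n ^ (1 : ℝ) := Real.rpow_le_rpow_of_exponent_le (one_le_N hn) (by norm_num)
      _ = N n := Real.rpow_one _
  · rw [norm_zero, pow_one]
    exact mul_nonneg hC (N_nonneg _)

/-- linearity of `pb` on twisted theta coefficients (`blks_sum`, `blks_smul`, `polyBd_tt`) -/
theorem pb_tt_sum {ι : Type*} (s : Finset ι) (c : ι → ℂ) (f : ι → O → ℂ)
    (hf : ∀ i ∈ s, ∃ C, ∀ m, ‖f i m‖ ≤ C) (y t : ℝ) :
    pb (fun m => tt m * ∑ i ∈ s, c i * f i m) y t =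
      ∑ i ∈ s, c i * pb (fun m => tt m * f i m) y t := by
  have h1 : ∀ i ∈ s, PolyBd (fun n => c i * prim (fun m => tt m * f i m) n) := by
    intro i hi
    obtain ⟨C, hC⟩ := hf i hi
    obtain ⟨D, j, hD⟩ := polyBd_tt hC
    refine ⟨‖c i‖ * D, j, fun n hn => ?_⟩
    rw [norm_mul, mul_assoc]
    exact mul_le_mul_of_nonneg_left (hD n hn) (norm_nonneg _)
  have h2 : (prim fun m => tt m * ∑ i ∈ s, c i * f i m) =
      fun n => ∑ i ∈ s, c i * prim (fun m => tt m * f i m) n := by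
    funext n
    unfold prim
    split_ifs
    · beta_reduce
      rw [Finset.mul_sum]
      exact Finset.sum_congr rfl fun i _ => by ring
    · simp
  unfold pb blk
  rw [h2, blks_sum s h1]
  exact Finset.sum_congr rfl fun i _ => blks_smul _ _ _ _

end TN
end Crest.Agent.R17
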