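import Crest.Agent.R17.ThetaNorm_Aux

/-!
# R17 / ThetaNorm_Sep : separation of variables and truncation (task).  Statements frozen.
-/

set_option autoImplicit false

noncomputable section

open scoped Classical ComplexConjugate
open MeasureTheory

namespace Crest.Agent.R17
namespace TN

theorem sep_norm_E (x : ℝ) : ‖Complex.exp ((x : ℂ) * Complex.I)‖ = 1 :=
  Complex.norm_exp_ofReal_mul_I x

theorem sep_scalar {x y z : ℝ} (hx : 0 < x) (hy : 0 < y) (hz : 0 < z) {K L : ℝ} (hK : 0 < K)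
    (hL : 0 < L) (s t τ : ℝ) :
    ((Real.sqrt y : ℂ))⁻¹ * (x : ℂ) ^ (-(1 / 2 : ℂ) + t * Complex.I) *
        (Real.exp ((Real.log x + s - Real.log y - 2 * Real.log z) / 2) : ℝ) *
        Complex.exp (τ * (Real.log x + s - Real.log y - 2 * Real.log z : ℝ) * Complex.I) =
      ((Real.exp (s / 2) / (K * L) : ℝ) : ℂ) *
        (((K / z : ℝ) : ℂ) * Complex.exp ((τ * (s - 2 * Real.log z) : ℝ) * Complex.I)) *
        (((L / y : ℝ) : ℂ) * Complex.exp ((-τ * Real.log y : ℝ) * Complex.I)) *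
        Complex.exp (((t + τ) * Real.log x : ℝ) * Complex.I) := by
  obtain ⟨a, rfl⟩ : ∃ a, x = Real.exp a := ⟨_, (Real.exp_log hx).symm⟩
  obtain ⟨b, rfl⟩ : ∃ b, y = Real.exp b := ⟨_, (Real.exp_log hy).symm⟩
  obtain ⟨d, rfl⟩ : ∃ d, z = Real.exp d := ⟨_, (Real.exp_log hz).symm⟩
  have e1 : ((Real.exp a : ℝ) : ℂ) ^ (-(1 / 2 : ℂ) + t * Complex.I) =
      Complex.exp (a * (-(1 / 2 : ℂ) + t * Complex.I)) := by
    rw [Complex.cpow_def_of_ne_zero (by exact_mod_cast hx.ne'), ← Complex.ofReal_log hx.le,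
      Real.log_exp]
  have hK' : (K : ℂ) ≠ 0 := by exact_mod_cast hK.ne'
  have hL' : (L : ℂ) ≠ 0 := by exact_mod_cast hL.ne'
  have e2 : Complex.exp (-(b / 2)) * Complex.exp (a * (-(1 / 2 : ℂ) + t * Complex.I)) *
      Complex.exp ((a + s - b - 2 * d) / 2) * Complex.exp (τ * (a + s - b - 2 * d) * Complex.I) =
      Complex.exp (s / 2) * (Complex.exp (-d) * Complex.exp (τ * (s - 2 * d) * Complex.I)) *
        (Complex.exp (-b) * Complex.exp (-τ * b * Complex.I)) *
        Complex.exp ((t + τ) * a * Complex.I) := by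
    simp only [← Complex.exp_add]
    congr 1
    ring
  rw [e1, ← Real.exp_half]
  simp only [Real.log_exp]
  push_cast
  rw [← Complex.exp_neg, e2, Complex.exp_neg, Complex.exp_neg]
  field_simp

/-- With `u = log N n + s - log N l - 2 log N k`: `e^{u/2} N n^{-1/2+it} = e^{s/2} (N l)^{-1/2} (N k)⁻¹ e^{it log N n}`.
So the `k`-th sum is `e^{s/2} / (N k L₁) ∫ κ τ * F k τ`, where
`F k τ = e^{iτ(s - 2 log N k)} ∑_n ∑_l c k l n * g τ l * f τ n`, `f τ n = e^{i(t+τ) log N n}`,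
`g τ l = if L₁ ≤ N l then (L₁ / N l) e^{-iτ log N l} else 0` (`integral_finset_sum`); `mink_int`. -/
theorem sep {𝒦 κ : ℝ → ℂ} {C0 : ℝ} (hκ : Integrable κ) (hC0 : (∫ τ, ‖κ τ‖) ≤ C0)
    (h𝒦 : ∀ u, 𝒦 u = Real.exp (u / 2) * ∫ τ : ℝ, κ τ * Complex.exp (τ * u * Complex.I))
    (R T : Finset O) (S : O → Finset O) (c : O → O → O → ℂ) {K₁ L₁ Bd : ℝ} (s t : ℝ)
    (hK : 0 < K₁) (hL : 0 < L₁) (hT : ∀ n ∈ T, n ≠ 0) (hR : ∀ k ∈ R, K₁ ≤ N k)
    (hS : ∀ k ∈ R, ∀ l ∈ S k, L₁ ≤ N l)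
    (hB : ∀ f g : O → ℂ, (∀ n, ‖f n‖ ≤ 1) → (∀ l, ‖g l‖ ≤ 1) →
      ∑ k ∈ R, ‖∑ n ∈ T, ∑ l ∈ S k, c k l n * g l * f n‖ ^ 2 ≤ Bd) :
    ∑ k ∈ R, ‖∑ l ∈ S k, ((Real.sqrt (N l) : ℂ))⁻¹ * ∑ n ∈ T, c k l n *
        (N n : ℂ) ^ (-(1 / 2 : ℂ) + t * Complex.I) *
        𝒦 (Real.log (N n) + s - Real.log (N l) - 2 * Real.log (N k))‖ ^ 2 ≤
      C0 ^ 2 * (Real.exp s / (K₁ ^ 2 * L₁ ^ 2)) * Bd := by
  set f : ℝ → O → ℂ := fun τ n => Complex.exp (((t + τ) * Real.log (N n) : ℝ) * Complex.I) with hf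
  set g : ℝ → O → ℂ := fun τ l => if L₁ ≤ N l then
    ((L₁ / N l : ℝ) : ℂ) * Complex.exp ((-τ * Real.log (N l) : ℝ) * Complex.I) else 0 with hg
  set F : O → ℝ → ℂ := fun k τ =>
    (((K₁ / N k : ℝ) : ℂ) * Complex.exp ((τ * (s - 2 * Real.log (N k)) : ℝ) * Complex.I)) *
      ∑ n ∈ T, ∑ l ∈ S k, c k l n * g τ l * f τ n with hF
  have hFc : ∀ k, Continuous (F k) := by
    intro k
    refine Continuous.mul (by fun_prop) (continuous_finsetSum _ fun n _ =>
      continuous_finsetSum _ fun l _ => Continuous.mul (Continuous.mul continuous_const ?_) ?_)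
    · simp only [hg]
      split_ifs
      · fun_prop
      · exact continuous_const
    · simp only [hf]
      fun_prop
  have hFb : ∀ τ, ∑ k ∈ R, ‖F k τ‖ ^ 2 ≤ Bd := by
    intro τ
    refine le_trans (Finset.sum_le_sum fun k hk => ?_) (hB (f τ) (g τ) (fun n => ?_) fun l => ?_)
    · refine pow_le_pow_left₀ (norm_nonneg _) ?_ 2
      have h1 := hR k hk
      simp only [hF]
      rw [norm_mul, norm_mul, sep_norm_E, mul_one, Complex.norm_real,
        Real.norm_of_nonneg (div_nonneg hK.le (N_nonneg k))]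
      exact mul_le_of_le_one_left (norm_nonneg _) (div_le_one_of_le₀ h1 (N_nonneg k))
    · exact (sep_norm_E _).le
    · simp only [hg]
      split_ifs with h
      · rw [norm_mul, sep_norm_E, mul_one, Complex.norm_real,
          Real.norm_of_nonneg (div_nonneg hL.le (N_nonneg l))]
        exact div_le_one_of_le₀ h (N_nonneg l)
      · simp
  have hint : ∀ u : ℝ, Integrable fun τ : ℝ => κ τ * Complex.exp (τ * u * Complex.I) := by
    intro u
    refine hκ.mul_bdd (c := 1) (Continuous.aestronglyMeasurable (by fun_prop))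
      (Filter.Eventually.of_forall fun τ => ?_)
    rw [← Complex.ofReal_mul, sep_norm_E]
  have key : ∀ k ∈ R, ∑ l ∈ S k, ((Real.sqrt (N l) : ℂ))⁻¹ * ∑ n ∈ T, c k l n *
        (N n : ℂ) ^ (-(1 / 2 : ℂ) + t * Complex.I) *
        𝒦 (Real.log (N n) + s - Real.log (N l) - 2 * Real.log (N k)) =
      ((Real.exp (s / 2) / (K₁ * L₁) : ℝ) : ℂ) * ∫ τ, κ τ * F k τ := by
    intro k hk
    have e1 : ∀ l ∈ S k, ((Real.sqrt (N l) : ℂ))⁻¹ * ∑ n ∈ T, c k l n *
        (N n : ℂ) ^ (-(1 / 2 : ℂ) + t * Complex.I) *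
        𝒦 (Real.log (N n) + s - Real.log (N l) - 2 * Real.log (N k)) =
        ∫ τ : ℝ, ∑ n ∈ T, (c k l n * (((Real.sqrt (N l) : ℂ))⁻¹ *
          (N n : ℂ) ^ (-(1 / 2 : ℂ) + t * Complex.I) *
          (Real.exp ((Real.log (N n) + s - Real.log (N l) - 2 * Real.log (N k)) / 2) : ℝ))) *
          (κ τ * Complex.exp (τ * (Real.log (N n) + s - Real.log (N l) - 2 * Real.log (N k) : ℝ) *
            Complex.I)) := by
      intro l _
      rw [integral_finsetSum _ fun n _ => (hint _).const_mul _, Finset.mul_sum]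
      refine Finset.sum_congr rfl fun n _ => ?_
      rw [integral_const_mul, h𝒦]
      ring
    rw [Finset.sum_congr rfl e1, ← integral_finsetSum _ fun l _ =>
      integrable_finsetSum _ fun n _ => (hint _).const_mul _, ← integral_const_mul]
    refine integral_congr_ae (Filter.Eventually.of_forall fun τ => ?_)
    simp only [hF, Finset.mul_sum]
    rw [Finset.sum_comm]
    refine Finset.sum_congr rfl fun n hn => Finset.sum_congr rfl fun l hl => ?_
    have h1 := sep_scalar (N_pos (hT n hn)) (hL.trans_le (hS k hk l hl)) (hK.trans_le (hR k hk))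
      hK hL s t τ
    simp only [hg, hf, if_pos (hS k hk l hl)]
    linear_combination (c k l n * κ τ) * h1
  have h2 := mink_int R κ hκ hC0 F hFc hFb
  calc _ = ∑ k ∈ R, Real.exp s / (K₁ ^ 2 * L₁ ^ 2) * ‖∫ τ, κ τ * F k τ‖ ^ 2 := by
        refine Finset.sum_congr rfl fun k hk => ?_
        rw [key k hk, norm_mul, mul_pow, Complex.norm_real, Real.norm_eq_abs, sq_abs, div_pow,
          mul_pow, ← Real.exp_nat_mul]
        congr 3
        push_cast
        ring
    _ ≤ Real.exp s / (K₁ ^ 2 * L₁ ^ 2) * (C0 ^ 2 * Bd) := by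
        rw [← Finset.mul_sum]
        exact mul_le_mul_of_nonneg_left h2 (by positivity)
    _ = _ := by ring

/-- the `n`-th term has norm `≤ U Cj e^{ja} N n^{-j}` (and vanishes for `n = 0`); `summable_N_rpow`,
`tsum_tail_N_rpow`, `Summable.sum_add_tsum_compl` or `tsum` of `if n ∈ ball X then 0 else _`. -/
theorem tail {j : ℕ} (hj : 2 ≤ j) : ∃ C, 0 ≤ C ∧ ∀ (𝒦 : ℝ → ℂ) (Cj U : ℝ) (w : O → ℂ) (a t X : ℝ),
    (∀ u, ‖𝒦 u‖ ≤ Cj * Real.exp (-(j * u))) → 0 ≤ U → (∀ n, ‖w n‖ ≤ U * Real.sqrt (N n)) → 0 < X →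
    ‖(∑' n : O, w n * (N n : ℂ) ^ (-(1 / 2 : ℂ) + t * Complex.I) * 𝒦 (Real.log (N n) - a)) -
      ∑ n ∈ ball X, w n * (N n : ℂ) ^ (-(1 / 2 : ℂ) + t * Complex.I) * 𝒦 (Real.log (N n) - a)‖ ≤
      C * U * Cj * Real.exp (j * a) * X ^ (1 - j : ℝ) := by
  have hj1 : (1 : ℝ) < j := by exact_mod_cast (show 1 < j by omega)
  obtain ⟨C, hC⟩ := tsum_tail_N_rpow hj1
  refine ⟨|C|, abs_nonneg C, fun 𝒦 Cj U w a t X h𝒦 hU hw hX => ?_⟩
  have hCj : 0 ≤ Cj := by
    have := (norm_nonneg _).trans (h𝒦 0)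
    simpa using this
  set F : O → ℂ := fun n =>
    w n * (N n : ℂ) ^ (-(1 / 2 : ℂ) + t * Complex.I) * 𝒦 (Real.log (N n) - a) with hF
  have hF0 : F 0 = 0 := by
    have := hw 0
    rw [N_zero, Real.sqrt_zero, mul_zero, norm_le_zero_iff] at this
    simp only [hF, this, zero_mul]
  have hM : 0 ≤ U * Cj * Real.exp (j * a) := by positivity
  have hb : ∀ n, ‖F n‖ ≤ U * Cj * Real.exp (j * a) * N n ^ (-(j : ℝ)) := by
    intro n
    by_cases hn : n = 0
    · rw [hn, hF0, norm_zero]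
      exact mul_nonneg hM (Real.rpow_nonneg (N_nonneg _) _)
    have hp := N_pos hn
    have e1 : ‖(N n : ℂ) ^ (-(1 / 2 : ℂ) + t * Complex.I)‖ = (Real.sqrt (N n))⁻¹ := by
      rw [Complex.norm_cpow_eq_rpow_re_of_pos hp, Real.sqrt_eq_rpow, ← Real.rpow_neg hp.le]
      congr 1
      simp
    have e2 : Real.exp (-(j * (Real.log (N n) - a))) = Real.exp (j * a) * N n ^ (-(j : ℝ)) := by
      rw [Real.rpow_def_of_pos hp, ← Real.exp_add]
      congr 1
      ring
    have hs : 0 < Real.sqrt (N n) := Real.sqrt_pos.2 hp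
    simp only [hF]
    rw [norm_mul, norm_mul, e1]
    calc ‖w n‖ * (Real.sqrt (N n))⁻¹ * ‖𝒦 (Real.log (N n) - a)‖
        ≤ U * Real.sqrt (N n) * (Real.sqrt (N n))⁻¹ *
          (Cj * Real.exp (-(j * (Real.log (N n) - a)))) := by
          gcongr
          · exact hw n
          · exact h𝒦 _
      _ = _ := by
          rw [e2]
          field_simp
  have hs : Summable F := Summable.of_norm_bounded ((summable_N_rpow hj1).mul_left _) hb
  have h1 : HasSum (fun n => if n ∈ ball X then F n else 0) (∑ n ∈ ball X, F n) := by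
    have := hasSum_sum_of_ne_finset_zero (f := fun n => if n ∈ ball X then F n else 0)
      (s := ball X) (L := SummationFilter.unconditional O) fun n hn => if_neg hn
    rwa [Finset.sum_congr rfl fun n hn => if_pos hn] at this
  have h2 : Summable fun n : O => if X < N n then N n ^ (-(j : ℝ)) else 0 := by
    refine Summable.of_nonneg_of_le (fun n => ?_) (fun n => ?_) (summable_N_rpow hj1)
    · split_ifs
      · exact Real.rpow_nonneg (N_nonneg _) _
      · exact le_rfl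
    · split_ifs
      · exact le_rfl
      · exact Real.rpow_nonneg (N_nonneg _) _
  rw [← (hs.hasSum.sub h1).tsum_eq]
  refine (tsum_of_norm_bounded (h2.hasSum.mul_left (U * Cj * Real.exp (j * a))) fun n => ?_).trans ?_
  · by_cases h3 : n ∈ ball X
    · rw [if_pos h3, sub_self, norm_zero, if_neg (not_lt.2 (mem_ball.1 h3).2), mul_zero]
    · rw [if_neg h3, sub_zero]
      by_cases h4 : X < N n
      · rw [if_pos h4]
        exact hb n
      · have h5 : n = 0 := by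
          by_contra h5
          exact h3 (mem_ball.2 ⟨h5, not_lt.1 h4⟩)
        rw [if_neg h4, h5, hF0, norm_zero, mul_zero]
  · calc _ ≤ U * Cj * Real.exp (j * a) * (|C| * X ^ (1 - j : ℝ)) :=
          mul_le_mul_of_nonneg_left ((hC X hX).trans (mul_le_mul_of_nonneg_right (le_abs_self C)
            (Real.rpow_nonneg hX.le _))) hM
      _ = _ := by ring

end TN
end Crest.Agent.R17
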