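import Crest.Agent.R17.ThetaNorm_Dual3
import Crest.Agent.R17.ThetaNorm_Sep

/-!
# R17 / ThetaNorm_Box : one dyadic box (task).  Statements frozen.
-/

set_option autoImplicit false

noncomputable section

open scoped Classical ComplexConjugate
open MeasureTheory

namespace Crest.Agent.R17
namespace TN

theorem box_pow4 {x : ℝ} (hx : 0 ≤ x) {r : ℝ} {n : ℕ} (h : 4 * r = n) : (x ^ 4) ^ r = x ^ n := by
  rw [← Real.rpow_natCast x 4, ← Real.rpow_mul hx, ← Real.rpow_natCast x n, ← h]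
  norm_num

theorem box_root {x : ℝ} (hx : 0 < x) : ∃ a, 0 < a ∧ x = a ^ 4 :=
  ⟨x ^ ((4 : ℕ) : ℝ)⁻¹, Real.rpow_pos_of_pos hx _, (Real.rpow_inv_natCast_pow hx.le (by norm_num)).symm⟩

theorem box_rpow_le {x r : ℝ} (hx : 1 ≤ x) {n : ℕ} (h : r ≤ n) : x ^ r ≤ x ^ n := by
  rw [← Real.rpow_natCast]
  exact Real.rpow_le_rpow_of_exponent_le hx h

theorem box_sq (a b : ℝ) : (a + b) ^ 2 ≤ 2 * a ^ 2 + 2 * b ^ 2 := by
  nlinarith [sq_nonneg (a - b)]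

/-- with `M = K² L / e^s`: `e^s / (K² L²) = 1 / (L M)` and `K M^{-1/4} L^{5/4} = √K L e^{s/4}` -/
theorem dualB_box : ∃ C, 0 ≤ C ∧ ∀ K L s W : ℝ, 1 ≤ K → 1 ≤ L → 1 ≤ W →
    Real.exp s / (K ^ 2 * L ^ 2) * dualB (2 * K) (2 * L) (8 * (K ^ 2 * L / Real.exp s) * W) ≤
      C * W ^ 2 * cB K L (K ^ 2 * L / Real.exp s) (Real.exp (s / 4)) := by
  refine ⟨512, by norm_num, fun K L s W hK hL hW => ?_⟩
  obtain ⟨a, ha, rfl⟩ := box_root (lt_of_lt_of_le one_pos hK)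
  obtain ⟨b, hb, rfl⟩ := box_root (lt_of_lt_of_le one_pos hL)
  set E := Real.exp (s / 4) with hE
  have hE0 : 0 < E := Real.exp_pos _
  have hs : Real.exp s = E ^ 4 := by
    rw [hE, ← Real.exp_nat_mul]
    congr 1
    push_cast
    ring
  set m := a ^ 2 * b / E with hm
  have hm0 : 0 < m := by positivity
  have hM : (a ^ 4) ^ 2 * b ^ 4 / Real.exp s = m ^ 4 := by
    rw [hs, hm]
    field_simp
  have hW8 : 1 ≤ 8 * W := by linarith
  have hW0 : 0 ≤ W := by linarith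
  have hX : 8 * m ^ 4 * W = (8 * W) * m ^ 4 := by ring
  have e1 : (8 * m ^ 4 * W) ^ (3 / 4 : ℝ) ≤ 8 * W * m ^ 3 := by
    rw [hX, Real.mul_rpow (by positivity) (by positivity), box_pow4 hm0.le (n := 3) (by norm_num)]
    have := box_rpow_le (r := 3 / 4) hW8 (n := 1) (by norm_num)
    rw [pow_one] at this
    gcongr
  have e2 : (8 * m ^ 4 * W) ^ (3 / 2 : ℝ) ≤ (8 * W) ^ 2 * m ^ 6 := by
    rw [hX, Real.mul_rpow (by positivity) (by positivity), box_pow4 hm0.le (n := 6) (by norm_num)]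
    have := box_rpow_le (r := 3 / 2) hW8 (n := 2) (by norm_num)
    gcongr
  have e3 : (2 * b ^ 4) ^ (5 / 4 : ℝ) ≤ 2 ^ 2 * b ^ 5 := by
    rw [Real.mul_rpow (by positivity) (by positivity), box_pow4 hb.le (n := 5) (by norm_num)]
    have := box_rpow_le (x := 2) (r := 5 / 4) (by norm_num) (n := 2) (by norm_num)
    gcongr
  have e4 : (2 * b ^ 4) ^ (3 / 2 : ℝ) ≤ 2 ^ 2 * b ^ 6 := by
    rw [Real.mul_rpow (by positivity) (by positivity), box_pow4 hb.le (n := 6) (by norm_num)]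
    have := box_rpow_le (x := 2) (r := 3 / 2) (by norm_num) (n := 2) (by norm_num)
    gcongr
  have e5 : Real.sqrt (a ^ 4) = a ^ 2 := by
    rw [show a ^ 4 = (a ^ 2) ^ 2 by ring, Real.sqrt_sq (by positivity)]
  have e6 : Real.sqrt (m ^ 4) = m ^ 2 := by
    rw [show m ^ 4 = (m ^ 2) ^ 2 by ring, Real.sqrt_sq (by positivity)]
  have e7 : (b ^ 4) ^ (3 / 2 : ℝ) = b ^ 6 := box_pow4 hb.le (by norm_num)
  have e8 : Real.exp s / ((a ^ 4) ^ 2 * (b ^ 4) ^ 2) = 1 / (b ^ 4 * m ^ 4) := by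
    rw [hs, hm]
    field_simp
  rw [hM, e8]
  unfold dualB cB
  rw [e5, e6, e7]
  have hW2 : W ≤ W ^ 2 := by nlinarith
  have e9 : a ^ 4 * b ^ 5 / m = a ^ 2 * b ^ 4 * E := by
    rw [hm]
    field_simp
  calc _ ≤ 1 / (b ^ 4 * m ^ 4) * (2 * b ^ 4 * (2 * a ^ 4 * (8 * m ^ 4 * W + 8 * W * m ^ 3 * (2 ^ 2 * b ^ 5)) +
        (8 * m ^ 4 * W) ^ 2 + (8 * W) ^ 2 * m ^ 6 * (2 ^ 2 * b ^ 6))) := by gcongr
    _ = 32 * W * a ^ 4 + 128 * W * (a ^ 4 * b ^ 5 / m) + 128 * W ^ 2 * m ^ 4 +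
        512 * W ^ 2 * (m ^ 2 * b ^ 6) := by
      field_simp
      ring
    _ ≤ 512 * W ^ 2 * a ^ 4 + 512 * W ^ 2 * (a ^ 2 * b ^ 4 * E) + 512 * W ^ 2 * m ^ 4 +
        512 * W ^ 2 * (m ^ 2 * b ^ 6) := by
      rw [e9]
      gcongr <;> norm_num
    _ = _ := by ring

theorem box_rest {j : ℕ} (hj : 2 ≤ j) : ∃ C, 0 ≤ C ∧ ∀ (𝒦 : ℝ → ℂ) (Cj U : ℝ) (Q : O) (v β : O → ℂ)
    (S : Finset O) (K₁ L₁ s t W : ℝ) (k : O), (∀ u, ‖𝒦 u‖ ≤ Cj * Real.exp (-(j * u))) → 0 ≤ U →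
    Shape Q U v → Sq6 S (2 * L₁) → (∀ l ∈ S, ‖β l‖ ≤ 1) → 1 ≤ K₁ → 1 ≤ L₁ → 1 ≤ W → k ≠ 0 →
    IsCoprime k 2 → N k ≤ 2 * K₁ →
    ‖Phi 𝒦 v β S s t k - ∑ l ∈ S.filter (fun l => IsCoprime l k), ((Real.sqrt (N l) : ℂ))⁻¹ *
        ∑ n ∈ ball (8 * (K₁ ^ 2 * L₁ / Real.exp s) * W), (β l * v n * qua k n * cub l n) *
          (N n : ℂ) ^ (-(1 / 2 : ℂ) + t * Complex.I) *
          𝒦 (Real.log (N n) + s - Real.log (N l) - 2 * Real.log (N k))‖ ≤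
      36 * L₁ * (C * U * Cj * (8 * (K₁ ^ 2 * L₁ / Real.exp s) * W / W ^ j)) := by
  obtain ⟨C, hC0, hC⟩ := tail hj
  refine ⟨C, hC0, fun 𝒦 Cj U Q v β S K₁ L₁ s t W k h𝒦 hU hv hS hβ hK hL hW hk hk2 hkK => ?_⟩
  have hCj : 0 ≤ Cj := by
    have := (norm_nonneg _).trans (h𝒦 0)
    simpa using this
  set M := K₁ ^ 2 * L₁ / Real.exp s with hM
  have hM0 : 0 < M := by positivity
  have hX : 0 < 8 * M * W := by positivity
  unfold Phi
  rw [← Finset.sum_sub_distrib]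
  refine le_trans (norm_sum_le _ _) ?_
  refine le_trans (Finset.sum_le_card_nsmul _ _ (C * U * Cj * (8 * M * W / W ^ j))
    fun l hl => ?_) ?_
  · have hlS := (Finset.mem_filter.mp hl).1
    obtain ⟨l1, -, -, l4⟩ := hS l hlS
    have hNl := N_pos l1.ne_zero
    have hNk := N_pos hk
    have hw : ∀ n, ‖v n * qua k n * cub l n‖ ≤ U * Real.sqrt (N n) := by
      intro n
      rw [norm_mul, norm_mul]
      have a1 := hv.norm_le hU n
      have a2 : ‖qua k n‖ ≤ 1 := norm_sym_le (k := 2) (by simp) (by simpa using hk2) n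
      have a3 : ‖cub l n‖ ≤ 1 := norm_sym_le (k := 3) (by simp) (by simpa using l1.isCoprime_three) n
      calc _ ≤ U * Real.sqrt (N n) * 1 * 1 := by gcongr
        _ = _ := by ring
    have h1 := hC 𝒦 Cj U (fun n => v n * qua k n * cub l n)
      (Real.log (N l) + 2 * Real.log (N k) - s) t (8 * M * W) h𝒦 hU hw hX
    have e1 : ∀ n : O, Real.log (N n) - (Real.log (N l) + 2 * Real.log (N k) - s) =
        Real.log (N n) + s - Real.log (N l) - 2 * Real.log (N k) := fun n => by ring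
    simp only [e1] at h1
    have e2 : ((Real.sqrt (N l) : ℂ))⁻¹ * ∑ n ∈ ball (8 * M * W), (β l * v n * qua k n * cub l n) *
          (N n : ℂ) ^ (-(1 / 2 : ℂ) + t * Complex.I) *
          𝒦 (Real.log (N n) + s - Real.log (N l) - 2 * Real.log (N k)) =
        β l / (Real.sqrt (N l) : ℂ) * ∑ n ∈ ball (8 * M * W), v n * qua k n * cub l n *
          (N n : ℂ) ^ (-(1 / 2 : ℂ) + t * Complex.I) *
          𝒦 (Real.log (N n) + s - Real.log (N l) - 2 * Real.log (N k)) := by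
      rw [Finset.mul_sum, Finset.mul_sum]
      refine Finset.sum_congr rfl fun n _ => ?_
      ring
    rw [e2, ← mul_sub, norm_mul]
    have h2 : ‖β l / (Real.sqrt (N l) : ℂ)‖ ≤ 1 := by
      rw [norm_div, Complex.norm_real, Real.norm_of_nonneg (Real.sqrt_nonneg _)]
      refine div_le_one_of_le₀ (le_trans (hβ l hlS) ?_) (Real.sqrt_nonneg _)
      exact Real.one_le_sqrt.mpr (one_le_N l1.ne_zero)
    refine le_trans (mul_le_of_le_one_left (norm_nonneg _) h2) (le_trans h1 ?_)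
    rw [mul_assoc (C * U * Cj)]
    refine mul_le_mul_of_nonneg_left ?_ (by positivity)
    have h3 : Real.exp (Real.log (N l) + 2 * Real.log (N k) - s) ≤ 8 * M := by
      rw [Real.exp_sub, Real.exp_add, Real.exp_log hNl, two_mul, Real.exp_add, Real.exp_log hNk,
        hM, ← mul_div_assoc]
      refine div_le_div_of_nonneg_right ?_ (Real.exp_pos _).le
      calc _ ≤ 2 * L₁ * (2 * K₁ * (2 * K₁)) := by gcongr
        _ = _ := by ring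
    rw [Real.exp_nat_mul, Real.rpow_sub hX, Real.rpow_one, Real.rpow_natCast, mul_pow]
    calc _ ≤ (8 * M) ^ j * (8 * M * W / ((8 * M) ^ j * W ^ j)) := by gcongr
      _ = _ := by field_simp
  · rw [nsmul_eq_mul]
    refine mul_le_mul_of_nonneg_right ?_ (by positivity)
    have h1 : (S.filter (fun l => IsCoprime l k)).card ≤ (ball (2 * L₁)).card :=
      Finset.card_le_card ((Finset.filter_subset _ _).trans hS.subset_ball)
    have h2 := card_ball_le (X := 2 * L₁) (by positivity)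
    have h3 : ((S.filter (fun l => IsCoprime l k)).card : ℝ) ≤ (ball (2 * L₁)).card := by
      exact_mod_cast h1
    linarith

set_option maxHeartbeats 400000 in
/-- `M = K₁² L₁ / e^s ≤ Z^{4A}`, `δ = min (ε/4) 1`, `W = Z^δ`, `X = 8 M W ≤ Z^{4A+3}`; `j ≥ 2` with `j δ ≥ 6A + 3`.
`Phi k = main k + rest k`, `main` = the sum over `n ∈ ball X` (`sep` with `c k l n = β l * v n * qua k n * cub l n`,
`S k = S.filter (IsCoprime · k)`, `hB` from `dual3 (4A+3)` with `u = v * f`, `β * g`, `2K₁`, `2L₁`; `dualB_box`).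
`rest`: `tail` with `w = v * qua k * cub l` (`Shape.norm_le`), `a = log N l + 2 log N k - s`, `e^a ≤ 8 M`, so each `l`
gives `≤ C U Cj (1+|t|)^Bj X W^{-j}`; there are `≤ 36 Z^A` values of `l` and of `k` (`card_ball_le`), so
`∑_k ‖rest k‖² ≤ C U² (1+|t|)^{2 Bj}`, and `1 ≤ N Q`, `1 ≤ K₁ ≤ cB`. -/
theorem box {𝒦 : ℝ → ℝ → ℂ} {C0 : ℝ} (h𝒦 : KerHyp 𝒦 C0) (A : ℝ) {ε : ℝ} (hε : 0 < ε) :
    ∃ (C : ℝ) (B : ℕ), 0 ≤ C ∧ ∀ Z : ℝ, 3 ≤ Z →
    ∀ Q : O, Q ≠ 0 → (3 : O) ∣ Q → ∀ (U : ℝ) (v : O → ℂ), 0 ≤ U → Shape Q U v →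
    ∀ (R S : Finset O) (β : O → ℂ) (K₁ L₁ s t : ℝ), Sq6 R (2 * K₁) → Sq6 S (2 * L₁) →
    (∀ k ∈ R, K₁ ≤ N k) → (∀ l ∈ S, L₁ ≤ N l) → (∀ l ∈ S, ‖β l‖ ≤ 1) →
    1 ≤ K₁ → K₁ ≤ Z ^ A → 1 ≤ L₁ → L₁ ≤ Z ^ A → |s| ≤ A * Real.log Z →
    ∑ k ∈ R, ‖Phi (𝒦 t) v β S s t k‖ ^ 2 ≤
      C * Z ^ ε * N Q * U ^ 2 * (1 + |t|) ^ B *
        cB K₁ L₁ (K₁ ^ 2 * L₁ / Real.exp s) (Real.exp (s / 4)) := by
  obtain ⟨Cb, hCb0, hCb⟩ := dualB_box
  obtain ⟨C3, hC30, hC3⟩ := dual3 (4 * A + 3) (half_pos hε)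
  set δ := min (ε / 4) 1 with hδ
  have hδ0 : 0 < δ := lt_min (by positivity) one_pos
  obtain ⟨j0, hj0⟩ := exists_nat_ge ((6 * A + 3) / δ)
  set j := j0 + 2 with hj
  have hj2 : 2 ≤ j := by omega
  have hjδ : 6 * A + 3 ≤ δ * j := by
    rw [div_le_iff₀ hδ0] at hj0
    have : (j : ℝ) = j0 + 2 := by rw [hj]; push_cast; ring
    rw [this]
    nlinarith
  obtain ⟨Ct, hCt0, hCt⟩ := box_rest hj2
  obtain ⟨Cj, Bj, hCj⟩ := h𝒦.2 j
  refine ⟨2 * (C0 ^ 2 * C3 * Cb) + 2 * (36 ^ 3 * (Ct * Cj) ^ 2), 2 * Bj, by positivity,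
    fun Z hZ Q hQ hQ3 U v hU hv R S β K₁ L₁ s t hR hS hRK hSL hβ hK1 hK2 hL1 hL2 hs => ?_⟩
  have hA := nonneg_of_le_rpow hZ hK1 hK2
  have hZ0 : 0 < Z := by linarith
  have hZ1 : 1 ≤ Z := by linarith
  set P := Z ^ A with hP
  have hP1 : 1 ≤ P := le_trans hK1 hK2
  set W := Z ^ δ with hW
  have hW1 : 1 ≤ W := Real.one_le_rpow hZ1 hδ0.le
  have hWZ : W ≤ Z := by
    have := Real.rpow_le_rpow_of_exponent_le hZ1 (min_le_right (ε / 4) 1)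
    rwa [Real.rpow_one] at this
  have hW2 : W ^ 2 ≤ Z ^ (ε / 2) := by
    rw [hW, ← Real.rpow_natCast, ← Real.rpow_mul hZ0.le]
    refine Real.rpow_le_rpow_of_exponent_le hZ1 ?_
    have := min_le_left (ε / 4) 1
    push_cast
    linarith
  set M := K₁ ^ 2 * L₁ / Real.exp s with hM
  have hM0 : 0 < M := by positivity
  have hes : (Real.exp s)⁻¹ ≤ P := by
    rw [← Real.exp_neg, hP, Real.rpow_def_of_pos hZ0]
    refine Real.exp_le_exp.mpr ?_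
    have := neg_le_abs s
    linarith
  have hMP : M ≤ P ^ 4 := by
    rw [hM, div_eq_mul_inv]
    calc _ ≤ P ^ 2 * P * P := by gcongr
      _ = _ := by ring
  have hZ4 : Z ^ (4 * A + 3) = P ^ 4 * Z ^ 3 := by
    rw [Real.rpow_add hZ0, mul_comm 4 A, Real.rpow_mul hZ0.le]
    norm_cast
  have hZ6 : Z ^ (6 * A + 3) = P ^ 6 * Z ^ 3 := by
    rw [Real.rpow_add hZ0, mul_comm 6 A, Real.rpow_mul hZ0.le]
    norm_cast
  have hZ8 : 8 ≤ Z ^ 2 := by nlinarith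
  have hX0 : 0 < 8 * M * W := by positivity
  have hX : 8 * M * W ≤ P ^ 4 * Z ^ 3 := by
    calc _ ≤ Z ^ 2 * P ^ 4 * Z := by gcongr
      _ = _ := by ring
  have hK3 : 2 * K₁ ≤ P ^ 4 * Z ^ 3 := by
    have a1 : P ≤ P ^ 4 := le_self_pow₀ hP1 (by norm_num)
    have a2 : Z ≤ Z ^ 3 := le_self_pow₀ hZ1 (by norm_num)
    calc 2 * K₁ ≤ Z ^ 3 * P ^ 4 := by gcongr <;> linarith
      _ = _ := by ring
  have hWj : P ^ 6 * Z ^ 3 ≤ W ^ j := by
    rw [← hZ6, hW, ← Real.rpow_natCast, ← Real.rpow_mul hZ0.le]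
    exact Real.rpow_le_rpow_of_exponent_le hZ1 hjδ
  have hXW : 8 * M * W / W ^ j ≤ 1 / P ^ 2 := by
    calc _ ≤ P ^ 4 * Z ^ 3 / (P ^ 6 * Z ^ 3) := by gcongr
      _ = _ := by field_simp
  obtain ⟨κ, hκ, hκ0, hκ1⟩ := h𝒦.1 t
  have hmain := sep hκ hκ0 hκ1 R (ball (8 * M * W)) (fun k => S.filter (fun l => IsCoprime l k))
    (fun k l n => β l * v n * qua k n * cub l n)
    (Bd := C3 * Z ^ (ε / 2) * N Q * U ^ 2 * dualB (2 * K₁) (2 * L₁) (8 * M * W)) s t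
    (lt_of_lt_of_le one_pos hK1) (lt_of_lt_of_le one_pos hL1) (fun n hn => (mem_ball.mp hn).1) hRK
    (fun k _ l hl => hSL l (Finset.mem_filter.mp hl).1) (fun f g hf hg => by
      have h1 := hC3 Z hZ Q hQ hQ3 (U * 1) (fun n => v n * f n) (by positivity) (hv.mul hf) R S
        (fun l => β l * g l) (2 * K₁) (2 * L₁) (8 * M * W) hR hS
        (fun l hl => by
          rw [norm_mul]
          exact mul_le_one₀ (hβ l hl) (norm_nonneg _) (hg l))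
        (by linarith) (by rw [hZ4]; exact hK3) (by linarith) hX0 (by rw [hZ4]; exact hX)
      rw [mul_one] at h1
      refine le_trans (le_of_eq ?_) h1
      refine Finset.sum_congr rfl fun k _ => ?_
      congr 2
      refine Finset.sum_congr rfl fun n _ => ?_
      rw [Finset.mul_sum]
      refine Finset.sum_congr rfl fun l _ => ?_
      ring)
  set main : O → ℂ := fun k => ∑ l ∈ S.filter (fun l => IsCoprime l k),
    ((Real.sqrt (N l) : ℂ))⁻¹ * ∑ n ∈ ball (8 * M * W), (β l * v n * qua k n * cub l n) *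
      (N n : ℂ) ^ (-(1 / 2 : ℂ) + t * Complex.I) *
      𝒦 t (Real.log (N n) + s - Real.log (N l) - 2 * Real.log (N k)) with hmaindef
  set T := (1 + |t|) ^ Bj with hT
  have hT1 : 1 ≤ T := one_le_pow₀ (by linarith [abs_nonneg t])
  have hCT : 0 ≤ Cj * T := by
    have := (norm_nonneg _).trans (hCj t 0)
    simpa using this
  have hrest : ∀ k ∈ R, ‖Phi (𝒦 t) v β S s t k - main k‖ ≤ 36 * (Ct * U * (Cj * T)) / P := by
    intro k hk
    obtain ⟨k1, -, k3, k4⟩ := hR k hk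
    refine le_trans (hCt (𝒦 t) (Cj * T) U Q v β S K₁ L₁ s t W k (hCj t) hU hv hS hβ hK1 hL1 hW1
      k1.ne_zero k3 k4) ?_
    calc _ ≤ 36 * P * (Ct * U * (Cj * T) * (1 / P ^ 2)) := by gcongr
      _ = _ := by field_simp
  have hcard : (R.card : ℝ) ≤ 36 * P := by
    have h1 : (R.card : ℝ) ≤ (ball (2 * K₁)).card := by
      exact_mod_cast Finset.card_le_card hR.subset_ball
    have h2 := card_ball_le (X := 2 * K₁) (by linarith)
    linarith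
  have hrest2 : ∑ k ∈ R, ‖Phi (𝒦 t) v β S s t k - main k‖ ^ 2 ≤
      36 ^ 3 * (Ct * Cj) ^ 2 * U ^ 2 * T ^ 2 := by
    refine le_trans (Finset.sum_le_card_nsmul _ _ ((36 * (Ct * U * (Cj * T)) / P) ^ 2)
      fun k hk => pow_le_pow_left₀ (norm_nonneg _) (hrest k hk) 2) ?_
    rw [nsmul_eq_mul]
    calc _ ≤ 36 * P * (36 * (Ct * U * (Cj * T)) / P) ^ 2 := by gcongr
      _ = 36 ^ 3 * (Ct * Cj) ^ 2 * U ^ 2 * T ^ 2 / P := by field_simp
      _ ≤ _ := div_le_self (by positivity) hP1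
  set cb := cB K₁ L₁ M (Real.exp (s / 4)) with hcb
  have hcb1 : 1 ≤ cb := by
    rw [hcb, cB]
    have : 0 ≤ Real.sqrt K₁ * L₁ * Real.exp (s / 4) + M + Real.sqrt M * L₁ ^ (3 / 2 : ℝ) := by
      positivity
    linarith
  have hNQ := one_le_N hQ
  have hZε : 1 ≤ Z ^ ε := Real.one_le_rpow hZ1 hε.le
  have hZε2 : Z ^ (ε / 2) * Z ^ (ε / 2) = Z ^ ε := by
    rw [← Real.rpow_add hZ0, add_halves]
  have hmain2 : ∑ k ∈ R, ‖main k‖ ^ 2 ≤ C0 ^ 2 * C3 * Cb * (Z ^ ε * N Q * U ^ 2 * T ^ 2 * cb) := by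
    refine le_trans hmain ?_
    have h1 := hCb K₁ L₁ s W hK1 hL1 hW1
    have hT2 : 1 ≤ T ^ 2 := one_le_pow₀ hT1
    calc _ = C0 ^ 2 * (C3 * Z ^ (ε / 2) * N Q * U ^ 2) *
          (Real.exp s / (K₁ ^ 2 * L₁ ^ 2) * dualB (2 * K₁) (2 * L₁) (8 * M * W)) := by ring
      _ ≤ C0 ^ 2 * (C3 * Z ^ (ε / 2) * N Q * U ^ 2) * (Cb * W ^ 2 * cb) := by gcongr
      _ ≤ C0 ^ 2 * (C3 * Z ^ (ε / 2) * N Q * U ^ 2) * (Cb * Z ^ (ε / 2) * cb) := by gcongr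
      _ = C0 ^ 2 * C3 * Cb * (Z ^ ε * N Q * U ^ 2 * 1 * cb) := by
        rw [← hZε2]
        ring
      _ ≤ _ := by gcongr
  have hrest3 : ∑ k ∈ R, ‖Phi (𝒦 t) v β S s t k - main k‖ ^ 2 ≤
      36 ^ 3 * (Ct * Cj) ^ 2 * (Z ^ ε * N Q * U ^ 2 * T ^ 2 * cb) := by
    refine le_trans hrest2 ?_
    calc _ = 36 ^ 3 * (Ct * Cj) ^ 2 * (1 * 1 * U ^ 2 * T ^ 2 * 1) := by ring
      _ ≤ _ := by gcongr
  have hsplit : ∑ k ∈ R, ‖Phi (𝒦 t) v β S s t k‖ ^ 2 ≤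
      2 * ∑ k ∈ R, ‖main k‖ ^ 2 + 2 * ∑ k ∈ R, ‖Phi (𝒦 t) v β S s t k - main k‖ ^ 2 := by
    rw [Finset.mul_sum, Finset.mul_sum, ← Finset.sum_add_distrib]
    refine Finset.sum_le_sum fun k _ => ?_
    have h1 := norm_le_norm_add_norm_sub' (Phi (𝒦 t) v β S s t k) (main k)
    exact le_trans (pow_le_pow_left₀ (norm_nonneg _) h1 2) (box_sq _ _)
  have hTT : (1 + |t|) ^ (2 * Bj) = T ^ 2 := by rw [hT, ← pow_mul, mul_comm]
  rw [hTT]
  refine le_trans hsplit ?_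
  calc _ ≤ 2 * (C0 ^ 2 * C3 * Cb * (Z ^ ε * N Q * U ^ 2 * T ^ 2 * cb)) +
        2 * (36 ^ 3 * (Ct * Cj) ^ 2 * (Z ^ ε * N Q * U ^ 2 * T ^ 2 * cb)) := by gcongr
    _ = _ := by ring

end TN
end Crest.Agent.R17
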