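import Crest.Agent.R17.ThetaNorm_Box

/-!
# R17 / ThetaNorm_Boxes : summing the dyadic boxes (task).  Statement frozen.
-/

set_option autoImplicit false

noncomputable section

open scoped Classical ComplexConjugate
open MeasureTheory

namespace Crest.Agent.R17
namespace TN

/-- dyadic decomposition of the columns -/
theorem boxes_Phi (𝒦 : ℝ → ℂ) (v β : O → ℂ) (S : Finset O) (s t : ℝ) (k : O) {J : ℕ}
    (hJ : ∀ l ∈ S, dy l < J) :
    Phi 𝒦 v β S s t k = ∑ j ∈ Finset.range J, Phi 𝒦 v β (S.filter fun l => dy l = j) s t k := by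
  unfold Phi
  rw [← Finset.sum_fiberwise_of_maps_to (s := S.filter fun l => IsCoprime l k)
    (t := Finset.range J) (g := dy)
    (fun l hl => Finset.mem_range.2 (hJ l (Finset.mem_filter.1 hl).1))]
  refine Finset.sum_congr rfl fun j _ => ?_
  rw [Finset.filter_comm]

theorem boxes_Sq6 {S : Finset O} {L : ℝ} (h : Sq6 S L) (j : ℕ) :
    Sq6 (S.filter fun l => dy l = j) (2 * 2 ^ j) ∧
      ∀ l ∈ S.filter fun l => dy l = j, (2 : ℝ) ^ j ≤ N l := by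
  refine ⟨fun l hl => ?_, fun l hl => ?_⟩
  · obtain ⟨h1, rfl⟩ := Finset.mem_filter.1 hl
    obtain ⟨a, b, c, -⟩ := h l h1
    exact ⟨a, b, c, (dy_spec a.ne_zero).2⟩
  · obtain ⟨h1, rfl⟩ := Finset.mem_filter.1 hl
    exact (dy_spec (h l h1).1.ne_zero).1

/-- `Phi … S … k = ∑_{j < J} Phi … (S.filter (dy · = j)) … k` (`Finset.sum_fiberwise_of_maps_to`, `dy_Z`), rows likewise;
`mink` with `w = 1`.  A non-empty box has `K₁ = 2^i ≤ K`, `L₁ = 2^j ≤ L` (`dy_spec`); `box`, `cB_mono`.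
Total loss `J³`. -/
theorem boxes {𝒦 : ℝ → ℝ → ℂ} {C0 : ℝ} (h𝒦 : KerHyp 𝒦 C0) (A : ℝ) {ε : ℝ} (hε : 0 < ε) :
    ∃ (C : ℝ) (B : ℕ), 0 ≤ C ∧ ∀ Z : ℝ, 3 ≤ Z →
    ∀ Q : O, Q ≠ 0 → (3 : O) ∣ Q → ∀ (U : ℝ) (v : O → ℂ), 0 ≤ U → Shape Q U v →
    ∀ (R S : Finset O) (β : O → ℂ) (K L s t : ℝ), Sq6 R K → Sq6 S L → (∀ l ∈ S, ‖β l‖ ≤ 1) →
    1 ≤ K → K ≤ Z ^ A → 1 ≤ L → L ≤ Z ^ A → |s| ≤ A * Real.log Z →
    ∑ k ∈ R, ‖Phi (𝒦 t) v β S s t k‖ ^ 2 ≤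
      C * Z ^ ε * N Q * U ^ 2 * (1 + |t|) ^ B *
        cB K L (K ^ 2 * L / Real.exp s) (Real.exp (s / 4)) := by
  have hε4 : 0 < ε / 4 := by positivity
  obtain ⟨Cb, B, hCb, hbox⟩ := box h𝒦 A hε4
  obtain ⟨Cd, hCd, hdy⟩ := dy_Z A hε4
  refine ⟨Cd ^ 3 * Cb, B, by positivity, ?_⟩
  intro Z hZ Q hQ h3 U v hU hv R S β K L s t hR hS hβ hK1 hK hL1 hL hs
  obtain ⟨J, hJ, hJ'⟩ := hdy Z hZ
  have hZ0 : (0 : ℝ) < Z := by linarith
  have hZe : 0 ≤ Z ^ (ε / 4) := Real.rpow_nonneg hZ0.le _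
  have hNQ := N_nonneg Q
  have hcB : 0 ≤ cB K L (K ^ 2 * L / Real.exp s) (Real.exp (s / 4)) :=
    cB_nonneg (by linarith) (by linarith) (by positivity) (by positivity)
  obtain ⟨B0, hB0⟩ : ∃ B0, B0 = Cb * Z ^ (ε / 4) * N Q * U ^ 2 * (1 + |t|) ^ B *
      cB K L (K ^ 2 * L / Real.exp s) (Real.exp (s / 4)) := ⟨_, rfl⟩
  have hB00 : 0 ≤ B0 := by rw [hB0]; positivity
  have h1 : ∀ i j : ℕ, ∑ k ∈ R.filter fun k => dy k = i,
      ‖Phi (𝒦 t) v β (S.filter fun l => dy l = j) s t k‖ ^ 2 ≤ B0 := by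
    intro i j
    rcases (R.filter fun k => dy k = i).eq_empty_or_nonempty with h | ⟨k, hk⟩
    · rw [h, Finset.sum_empty]; exact hB00
    rcases (S.filter fun l => dy l = j).eq_empty_or_nonempty with h | ⟨l, hl⟩
    · rw [h]; simpa [Phi] using hB00
    obtain ⟨a1, a2⟩ := boxes_Sq6 hR i
    obtain ⟨b1, b2⟩ := boxes_Sq6 hS j
    have hi : (2 : ℝ) ^ i ≤ K := (a2 k hk).trans (hR k (Finset.mem_filter.1 hk).1).2.2.2
    have hj : (2 : ℝ) ^ j ≤ L := (b2 l hl).trans (hS l (Finset.mem_filter.1 hl).1).2.2.2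
    refine (hbox Z hZ Q hQ h3 U v hU hv _ _ β (2 ^ i) (2 ^ j) s t a1 b1 a2 b2
      (fun l hl => hβ l (Finset.mem_filter.1 hl).1) (one_le_pow₀ one_le_two) (hi.trans hK)
      (one_le_pow₀ one_le_two) (hj.trans hL) hs).trans ?_
    rw [hB0]
    refine mul_le_mul_of_nonneg_left (cB_mono (by positivity) (by positivity) hi hj ?_ le_rfl)
      (by positivity)
    gcongr
  have h2 : ∀ i : ℕ, ∑ k ∈ R.filter fun k => dy k = i, ‖Phi (𝒦 t) v β S s t k‖ ^ 2 ≤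
      (J : ℝ) ^ 2 * B0 := by
    intro i
    have := mink (Finset.range J) (R.filter fun k => dy k = i)
      (fun j k => Phi (𝒦 t) v β (S.filter fun l => dy l = j) s t k) (fun _ => 1) B0
      (fun _ _ => zero_le_one) hB00 (fun j _ => by simpa using h1 i j)
    simp only [Finset.sum_const, Finset.card_range, nsmul_eq_mul, mul_one] at this
    refine le_of_eq_of_le (Finset.sum_congr rfl fun k _ => ?_) this
    rw [← boxes_Phi _ _ _ _ _ _ _ fun l hl => hJ' l (hS l hl).1.ne_zero ((hS l hl).2.2.2.trans hL)]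
  rw [← Finset.sum_fiberwise_of_maps_to (s := R) (t := Finset.range J) (g := dy)
    (fun k hk => Finset.mem_range.2 (hJ' k (hR k hk).1.ne_zero ((hR k hk).2.2.2.trans hK)))]
  refine (Finset.sum_le_sum fun i _ => h2 i).trans ?_
  rw [Finset.sum_const, Finset.card_range, nsmul_eq_mul]
  have h4 : Z ^ ε = (Z ^ (ε / 4)) ^ 4 := by
    rw [← Real.rpow_natCast, ← Real.rpow_mul hZ0.le]
    congr 1
    push_cast
    ring
  calc (J : ℝ) * ((J : ℝ) ^ 2 * B0) = (J : ℝ) ^ 3 * B0 := by ring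
    _ ≤ (Cd * Z ^ (ε / 4)) ^ 3 * B0 := by gcongr
    _ = _ := by rw [hB0, h4]; ring

end TN
end Crest.Agent.R17
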