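import Crest.Agent.R17.ThetaNorm_Hs

/-!
# R17 / ThetaNorm_Core : removing `l ∣ m` (task).  Statement frozen.
-/

set_option autoImplicit false

noncomputable section

open scoped Classical ComplexConjugate
open MeasureTheory

namespace Crest.Agent.R17
namespace TN

theorem core_cB {K L M y n : ℝ} (hL : 0 ≤ L) (hn : 1 ≤ n) :
    cB K (L / n) (K ^ 2 * M ^ 2 * (L / n) / Real.exp (y + Real.log n))
        (Real.exp ((y + Real.log n) / 4)) ≤
      cB K L (K ^ 2 * M ^ 2 * L / Real.exp y) (Real.exp (y / 4)) := by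
  have h0 := Real.log_nonneg hn
  have h1 : L / n ≤ L := div_le_self hL hn
  have h2 : K ^ 2 * M ^ 2 * (L / n) / Real.exp (y + Real.log n) ≤
      K ^ 2 * M ^ 2 * L / Real.exp y := by
    gcongr
    linarith
  have h3 : Real.exp ((y + Real.log n) / 4) ≤ n * Real.exp (y / 4) := by
    conv_rhs => rw [← Real.exp_log (show 0 < n by linarith), ← Real.exp_add]
    exact Real.exp_le_exp.2 (by linarith)
  have h4 : √K * (L / n) * Real.exp ((y + Real.log n) / 4) ≤ √K * L * Real.exp (y / 4) :=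
    (mul_le_mul_of_nonneg_left h3 (by positivity)).trans_eq (by field_simp)
  unfold cB
  gcongr

theorem core_reindex {S : Finset O} {L : ℝ} (hS : Sq6 S L) (F : O → O → ℂ) :
    ∑ l ∈ S, ∑ e ∈ pdiv l, F l e = ∑ i ∈ (ball L).filter Prim,
      ∑ e ∈ (ball L).filter (fun e => Prim e ∧ e * i ∈ S), F (e * i) e := by
  rw [Finset.sum_sigma', Finset.sum_sigma']
  symm
  refine Finset.sum_bij (fun p _ => ⟨p.2 * p.1, p.2⟩) (fun p hp => ?_) (fun p hp q hq h => ?_)
    (fun p hp => ?_) fun _ _ => rfl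
  · simp only [Finset.mem_sigma, Finset.mem_filter] at hp ⊢
    exact ⟨hp.2.2.2, (mem_pdiv (hS _ hp.2.2.2).1.ne_zero).2 ⟨hp.2.2.1, dvd_mul_right _ _⟩⟩
  · obtain ⟨i, e⟩ := p
    obtain ⟨i', e'⟩ := q
    simp only [Finset.mem_sigma, Finset.mem_filter, Sigma.mk.inj_iff, heq_eq_eq] at hp h ⊢
    obtain ⟨h1, rfl⟩ := h
    exact ⟨mul_left_cancel₀ hp.2.2.1.ne_zero h1, rfl⟩
  · obtain ⟨l, e⟩ := p
    obtain ⟨h1, h2⟩ : l ∈ S ∧ e ∈ pdiv l := Finset.mem_sigma.1 hp
    obtain ⟨h3, -, -, h4⟩ := hS l h1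
    obtain ⟨h5, i, rfl⟩ := (mem_pdiv h3.ne_zero).1 h2
    have h6 := h3.of_mul_left h5
    refine ⟨⟨i, e⟩, ?_, rfl⟩
    simp only [Finset.mem_sigma, Finset.mem_filter, mem_ball]
    exact ⟨⟨⟨h6.ne_zero, (N_le_of_dvd h3.ne_zero (dvd_mul_left _ _)).trans h4⟩, h6⟩,
      ⟨h5.ne_zero, (N_le_of_dvd h3.ne_zero (dvd_mul_right _ _)).trans h4⟩, h5, h1⟩

theorem core_id {φ ω : O → ℂ} (hφ : ∀ m, ‖φ m‖ ≤ 1) {ρ : O} (hρ : ρ ≠ 0) (hω : IsChar ρ ω)
    {S : Finset O} {L : ℝ} (hS : Sq6 S L) (β : O → ℂ) (y t : ℝ) {k : O} (hk : IsCoprime k 6) :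
    Gs φ (gs ρ ω) S β y t k = ∑ i ∈ (ball L).filter Prim,
      (if IsCoprime i k then (N i : ℂ)⁻¹ else 0) *
        Hs φ ρ ω ((ball L).filter fun e => Prim e ∧ e * i ∈ S) (fun e => β (e * i))
          (y + Real.log (N i)) t k := by
  have hχ : IsChar k (chi k) := sym_isChar (Or.inr (Or.inr rfl)) (by exact_mod_cast hk)
  have hχ1 : ∀ m, ‖chi k m‖ ≤ 1 := norm_sym_le (Or.inr (Or.inr rfl)) (by exact_mod_cast hk)
  rw [Gs, Finset.sum_congr rfl (g := fun l => ∑ e ∈ pdiv l, if IsCoprime l k then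
    β l / N l * pb (fun m => tt m * φ m * (conj (chi k m) * gs ρ ω m * gs e (one1 e) m))
      (y + Real.log (N l)) t else 0) fun l hl => ?_, core_reindex hS]
  · refine Finset.sum_congr rfl fun i hi => ?_
    rw [Hs, Finset.sum_filter (p := fun l => IsCoprime l k), Finset.mul_sum]
    refine Finset.sum_congr rfl fun e he => ?_
    have h1 := N_pos (Finset.mem_filter.1 hi).2.ne_zero
    have h2 := N_pos (Finset.mem_filter.1 he).2.1.ne_zero
    by_cases h3 : IsCoprime i k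
    · by_cases h4 : IsCoprime e k
      · rw [if_pos h3, if_pos h4, if_pos (h4.mul_left h3), N_mul, Real.log_mul h2.ne' h1.ne',
          add_assoc, add_comm (Real.log _)]
        push_cast
        ring
      · rw [if_neg h4, if_neg fun h => h4 h.of_mul_left_left, mul_zero]
    · rw [if_neg h3, if_neg fun h => h3 h.of_mul_left_right, zero_mul]
  · obtain ⟨h1, h2, -⟩ := hS l hl
    split_ifs with h
    · have h3 := pb_tt_sum (pdiv l) (fun _ => (N l : ℂ)⁻¹)
        (fun e m => φ m * (conj (chi k m) * gs ρ ω m * gs e (one1 e) m))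
        (fun e he => ⟨1 * (1 * N ρ * N e), fun m => by
          have h4 := ((mem_pdiv h1.ne_zero).1 he).1.ne_zero
          have h5 := N_nonneg ρ
          rw [norm_mul, norm_mul, norm_mul, Complex.norm_conj]
          gcongr
          exacts [hφ m, hχ1 m, norm_gs_le hρ (hω.norm_le hρ) m,
            norm_gs_le h4 ((isChar_one1 e).norm_le h4) m]⟩) (y + Real.log (N l)) t
      simp only [div_eq_mul_inv, mul_assoc, ← Finset.mul_sum] at h3 ⊢
      rw [← h3]
      congr 2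
      funext m
      have h4 := dvd_eq_sum_ramanujan h1 h2 m
      change _ = _ * ∑ e ∈ pdiv l, gs e (one1 e) m at h4
      split_ifs at h4 ⊢
      · linear_combination tt m * φ m * conj (chi k m) * gs ρ ω m * h4
      · linear_combination tt m * φ m * conj (chi k m) * gs ρ ω m * h4
    · have h3 : (fun m => if l ∣ m then tt m * φ m * (conj (chi k m) * gs ρ ω m) else 0) =
          fun _ => 0 := funext fun m => by
        split_ifs with h4
        · rw [(hχ.zero_iff m).2 fun h5 => h (h5.of_isCoprime_of_dvd_left h4)]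
          simp
        · rfl
      rw [h3]
      simp [pb, blk, blks, prim]

/-- Marks `l` not coprime to `k` contribute `0` (`l ∣ m` forces `chi k m = 0`).  For the others
`dvd_eq_sum_ramanujan` and `pb_tt_sum` give
`∑_{e ∈ pdiv l} β l / N l * pb (tt φ conj χ_k · gs ρ ω · gs e (one1 e)) (y + log N l)`.  Reindex `l = e * i`
(`Finset.sum_sigma'` / `sum_comm'` / `sum_bij`): with `I = (ball L).filter Prim`, `S i = (ball L).filter (fun e => Prim e ∧ e * i ∈ S)`,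
`Gs k = ∑_{i ∈ I} (if IsCoprime i k then (N i)⁻¹ else 0) * Hs φ ρ ω (S i) (fun e => β (e * i)) (y + log N i) t k`.
`hs_bound` with `2A`, `L / N i ≥ 1`, `y + log N i`; the `cB` is at most the stated one; `mink` with
`w i = (N i)⁻¹`, `sum_inv_Z`. -/
theorem core : ∃ B0 : ℕ, ∀ (A ε : ℝ), 0 < ε → ∃ (C : ℝ) (B : ℕ), 0 ≤ C ∧ ∀ Z : ℝ, 3 ≤ Z →
    ∀ Q0 : O, Q0 ≠ 0 → (3 : O) ∣ Q0 → N Q0 ≤ Z ^ A →
    ∀ φ : O → ℂ, Per Q0 φ → (∀ m, ‖φ m‖ ≤ 1) →
    ∀ (ρ : O) (ω : O → ℂ) (D : ℝ), Prim ρ → IsCoprime ρ Q0 → IsChar ρ ω → N ρ ≤ Z ^ A →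
    (∀ n, ‖gs ρ (dual ρ ω) n‖ ≤ D) →
    ∀ (R S : Finset O) (β : O → ℂ) (K L y t : ℝ), Sq6 R K → Sq6 S L →
    (∀ k ∈ R, IsCoprime k Q0 ∧ IsCoprime k ρ) → (∀ l ∈ S, IsCoprime l Q0 ∧ IsCoprime l ρ) →
    (∀ l, ‖β l‖ ≤ 1) → 1 ≤ K → K ≤ Z ^ A → 1 ≤ L → L ≤ Z ^ A → |y| ≤ A * Real.log Z →
    ∑ k ∈ R, ‖Gs φ (gs ρ ω) S β y t k‖ ^ 2 ≤
      C * Z ^ ε * N Q0 ^ B0 * (1 + |t|) ^ B * D ^ 2 *
        cB K L (K ^ 2 * N ρ ^ 2 * L / Real.exp y) (Real.exp (y / 4)) := by
  obtain ⟨B0, H⟩ := hs_bound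
  refine ⟨B0, fun A ε hε => ?_⟩
  obtain ⟨C, B, hC, H⟩ := H (2 * A) (ε / 2) (by positivity)
  obtain ⟨C1, hC1, H1⟩ := sum_inv_Z A (ε := ε / 4) (by positivity)
  refine ⟨C1 ^ 2 * C, B, by positivity, fun Z hZ Q0 hQ h3 hQA φ hφ hφ1 ρ ω D hρ hρQ hω hρA hD
    R S β K L y t hR hS hRc hSc hβ hK hKA hL hLA hy => ?_⟩
  have hA := nonneg_of_le_rpow hZ hK hKA
  have hZ1 : 1 ≤ Z := by linarith
  have h2 : Z ^ A ≤ Z ^ (2 * A) := Real.rpow_le_rpow_of_exponent_le hZ1 (by linarith)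
  have hQ0 := N_nonneg Q0
  have hB : 0 ≤ cB K L (K ^ 2 * N ρ ^ 2 * L / Real.exp y) (Real.exp (y / 4)) :=
    cB_nonneg (by linarith) (by linarith) (by positivity) (by positivity)
  rw [Finset.sum_congr rfl fun k hk => by
    rw [core_id hφ1 hρ.ne_zero hω hS β y t (hR.coprime_six hk)]]
  refine (mink _ R _ (fun i => (N i)⁻¹) (C * Z ^ (ε / 2) * N Q0 ^ B0 * (1 + |t|) ^ B * D ^ 2 *
    cB K L (K ^ 2 * N ρ ^ 2 * L / Real.exp y) (Real.exp (y / 4)))
    (fun i _ => inv_nonneg.2 (N_nonneg i)) (by positivity) fun i hi => ?_).trans ?_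
  · obtain ⟨hi0, hiL⟩ := mem_ball.1 (Finset.mem_filter.1 hi).1
    have h1 := one_le_N hi0
    have h4 : Real.log (N i) ≤ A * Real.log Z := by
      rw [← Real.log_rpow (by linarith)]
      exact Real.log_le_log (by linarith) (hiL.trans hLA)
    have h5 := H Z hZ Q0 hQ h3 (hQA.trans h2) φ hφ hφ1 ρ ω D hρ hρQ hω (hρA.trans h2) hD R
      ((ball L).filter fun e => Prim e ∧ e * i ∈ S) (fun e => β (e * i)) K (L / N i)
      (y + Real.log (N i)) t hR (fun e he => ?_) hRc (fun e he => ?_) (fun _ => hβ _) hK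
      (hKA.trans h2) ((one_le_div (by linarith)).2 hiL)
      ((div_le_self (by linarith) h1).trans (hLA.trans h2))
      ((abs_add_le _ _).trans (by rw [abs_of_nonneg (Real.log_nonneg h1)]; linarith))
    · refine le_trans ?_ (mul_le_mul_of_nonneg_left (h5.trans (mul_le_mul_of_nonneg_left
        (core_cB (by linarith) h1) (by positivity))) (sq_nonneg _))
      rw [Finset.mul_sum]
      refine Finset.sum_le_sum fun k _ => ?_
      split_ifs
      · rw [norm_mul, mul_pow, norm_inv, Complex.norm_real, Real.norm_of_nonneg (N_nonneg i)]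
      · rw [zero_mul, norm_zero, zero_pow two_ne_zero]
        positivity
    · obtain ⟨h6, h7⟩ := (Finset.mem_filter.1 he).2
      obtain ⟨-, h8, h9, h10⟩ := hS _ h7
      exact ⟨h6, h8.of_mul_left, h9.of_mul_left_left,
        (le_div_iff₀ (by linarith)).2 (by rwa [← N_mul])⟩
    · obtain ⟨h8, h9⟩ := hSc _ (Finset.mem_filter.1 he).2.2
      exact ⟨h8.of_mul_left_left, h9.of_mul_left_left⟩
  · have h4 := pow_le_pow_left₀ (Finset.sum_nonneg fun i _ => inv_nonneg.2 (N_nonneg i))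
      (H1 Z hZ ((ball L).filter Prim) fun i hi => (mem_ball.1 (Finset.mem_filter.1 hi).1).imp_right
        fun h => h.trans hLA) 2
    refine (mul_le_mul_of_nonneg_right h4 (by positivity)).trans_eq ?_
    have h5 : Z ^ ε = (Z ^ (ε / 4)) ^ 2 * Z ^ (ε / 2) := by
      rw [← Real.rpow_natCast, ← Real.rpow_mul (by linarith), ← Real.rpow_add (by linarith)]
      congr 1
      push_cast
      ring
    rw [h5]
    ring

end TN
end Crest.Agent.R17
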