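import Crest.Agent.R17.Chars
import Crest.Agent.R17.Block

/-!
# R17 / ThetaNorm_Defs : definitions for `thetaNorm` (owner helper84).  DO NOT EDIT.

Chain: Aux → (WQ, H, Shape) → Dual1 → Dual2 → Dual3 → (Sep) → Box → Boxes → (Split) → Hs → Core →
(Exp, Pow) → Row → Prim → ThetaNorm.
-/

set_option autoImplicit false

noncomputable section

open scoped Classical ComplexConjugate
open MeasureTheory

namespace Crest.Agent.R17
namespace TN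

/-- the principal character modulo `e` -/
def one1 (e : O) : O → ℂ := fun x => if IsCoprime x e then 1 else 0

/-- the dual character in the Voronoi formula -/
def dual (ρ : O) (ω : O → ℂ) : O → ℂ := fun x => conj (ω x) * conj (cub ρ x)

/-- powerful elements -/
def Pw (r : O) : Prop := ∀ p, Prime p → p ∣ r → p ^ 2 ∣ r

/-- a set of primary squarefree odd elements of norm `≤ L` -/
def Sq6 (S : Finset O) (L : ℝ) : Prop :=
  ∀ l ∈ S, Prim l ∧ Squarefree l ∧ IsCoprime l 2 ∧ N l ≤ L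

/-- support and size of theta coefficients -/
def Shape (Q : O) (U : ℝ) (u : O → ℂ) : Prop :=
  ∀ n, u n ≠ 0 → n ≠ 0 ∧ ∃ c, CubeShape Q n c ∧ ‖u n‖ ≤ U * Real.sqrt (N c)

/-- dyadic index: `2 ^ dy n ≤ N n < 2 ^ (dy n + 1)` for `n ≠ 0` -/
def dy (n : O) : ℕ := Nat.log 2 (nm n)

/-- the bound for the dual norm -/
def dualB (K L X : ℝ) : ℝ :=
  L * (K * (X + X ^ (3 / 4 : ℝ) * L ^ (5 / 4 : ℝ)) + X ^ 2 + X ^ (3 / 2 : ℝ) * L ^ (3 / 2 : ℝ))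

/-- the bound for a fixed powerful part -/
def cB (K L M E : ℝ) : ℝ := K + Real.sqrt K * L * E + M + Real.sqrt M * L ^ (3 / 2 : ℝ)

/-- the final bound -/
def mainB (K L y : ℝ) : ℝ :=
  K + K ^ 2 * L / Real.exp y + L ^ 3 + Real.sqrt K * L * Real.exp (y / 4)

/-- the two properties of the Voronoi kernel -/
def KerHyp (𝒦 : ℝ → ℝ → ℂ) (C : ℝ) : Prop :=
  (∀ t, ∃ κ : ℝ → ℂ, Integrable κ ∧ (∫ τ, ‖κ τ‖) ≤ C ∧
      ∀ u, 𝒦 t u = Real.exp (u / 2) * ∫ τ : ℝ, κ τ * Complex.exp (τ * u * Complex.I)) ∧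
    ∀ j : ℕ, ∃ (Cj : ℝ) (Bj : ℕ), ∀ t u, ‖𝒦 t u‖ ≤ Cj * (1 + |t|) ^ Bj * Real.exp (-(j * u))

/-- the Voronoi identity for one class `cs` (verbatim from `voronoi`) -/
def VorId (𝒦 : ℝ → ℝ → ℂ) (ja : ℤ) (Q0 Q' R1 R2 : O) (κQ : ℝ) (φ : O → ℂ) (cs : O)
    (τ' : O → ℂ) : Prop :=
  ∀ c1 : O, Prim c1 → IsCoprime c1 Q0 → Q' ∣ c1 - cs → ∀ ψ : O → ℂ, IsChar c1 ψ →
    ∀ y t : ℝ,
    pb (fun m => tt m * φ m * gs c1 ψ m) y t =
      conj (ψ R1) * cub c1 R2 * ang c1 ^ ja * (N c1 : ℂ) ^ (-(2 * t * Complex.I)) *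
      ∑' n : O, τ' n * gs c1 (fun x => conj (ψ x) * conj (cub c1 x)) n *
        (N n : ℂ) ^ (-(1 / 2 : ℂ) + t * Complex.I) *
        Complex.exp (-(κQ * t * Complex.I)) *
        𝒦 t (Real.log (N n) + y - 2 * Real.log (N c1) - κQ)

/-- the dual sum -/
def Phi (𝒦 : ℝ → ℂ) (v β : O → ℂ) (S : Finset O) (s t : ℝ) (k : O) : ℂ :=
  ∑ l ∈ S.filter (fun l => IsCoprime l k), β l / (Real.sqrt (N l) : ℂ) *
    ∑' n : O, v n * qua k n * cub l n * (N n : ℂ) ^ (-(1 / 2 : ℂ) + t * Complex.I) *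
      𝒦 (Real.log (N n) + s - Real.log (N l) - 2 * Real.log (N k))

/-- the sum after expanding `1_{l ∣ m}` into Ramanujan sums -/
def Hs (φ : O → ℂ) (ρ : O) (ω : O → ℂ) (S : Finset O) (β : O → ℂ) (y t : ℝ) (k : O) : ℂ :=
  ∑ l ∈ S.filter (fun l => IsCoprime l k), β l / (N l : ℂ) *
    pb (fun m => tt m * φ m * (conj (chi k m) * gs ρ ω m * gs l (one1 l) m))
      (y + Real.log (N l)) t

/-- marked sum with squarefree row `k` and an extra factor `f` -/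
def Gs (φ f : O → ℂ) (S : Finset O) (a : O → ℂ) (y t : ℝ) (k : O) : ℂ :=
  ∑ l ∈ S, a l * pb (fun m => if l ∣ m then tt m * φ m * (conj (chi k m) * f m) else 0)
    (y + Real.log (N l)) t

/-- marked sum with a primary row `k` -/
def F1 (φ : O → ℂ) (S : Finset O) (a : O → ℂ) (y t : ℝ) (k : O) : ℂ :=
  ∑ l ∈ S, a l * pb (fun m => if l ∣ m then tt m * φ m * conj (chi k m) else 0)
    (y + Real.log (N l)) t

/-- `f` is a combination of Gauss sums of characters `ω i` modulo `ρ i`, `ρ i ^ 2 ∣ r`, whose dual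
Gauss sums have total weight `≤ W` -/
def Expn (r : O) (f : O → ℂ) (W : ℝ) : Prop :=
  ∃ (ι : Type) (s : Finset ι) (c : ι → ℂ) (ρ : ι → O) (ω : ι → O → ℂ) (D : ι → ℝ),
    (∀ i ∈ s, Prim (ρ i) ∧ ρ i ^ 2 ∣ r ∧ IsChar (ρ i) (ω i) ∧
      ∀ n, ‖gs (ρ i) (dual (ρ i) (ω i)) n‖ ≤ D i) ∧
    (∀ m, f m = ∑ i ∈ s, c i * gs (ρ i) (ω i) m) ∧ ∑ i ∈ s, ‖c i‖ * D i ≤ W

end TN
end Crest.Agent.R17
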