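import Crest.Agent.R17.ThetaNorm_Aux
import Crest.Agent.R17.TLS

/-!
# R17 / ThetaNorm_H : mean square of `∑_l β(l) cub l m`, and the shape of theta frequencies (task).
Statements frozen.
-/

set_option autoImplicit false

noncomputable section

open scoped Classical ComplexConjugate
open MeasureTheory

namespace Crest.Agent.R17
namespace TN

theorem h_min {L M θ : ℝ} (hL : 0 < L) (hM : 0 < M) (h0 : 0 ≤ θ) (h1 : θ ≤ 1) :
    min (L ^ 2) (M * L) ≤ M ^ θ * L ^ (2 - θ) := by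
  rcases le_total L M with h | h
  · refine (min_le_left _ _).trans ?_
    have e : L ^ 2 = L ^ θ * L ^ (2 - θ) := by
      rw [← Real.rpow_add hL, add_sub_cancel, Real.rpow_two]
    rw [e]
    exact mul_le_mul_of_nonneg_right (Real.rpow_le_rpow hL.le h h0) (by positivity)
  · refine (min_le_right _ _).trans ?_
    have e1 : M = M ^ θ * M ^ (1 - θ) := by
      rw [← Real.rpow_add hM, add_sub_cancel, Real.rpow_one]
    have e2 : L ^ (2 - θ) = L ^ (1 - θ) * L := by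
      rw [← Real.rpow_add_one hL.ne']
      congr 1
      ring
    calc M * L = M ^ θ * (M ^ (1 - θ) * L) := by rw [← mul_assoc, ← e1]
      _ ≤ M ^ θ * (L ^ (1 - θ) * L) := by
        gcongr
      _ = _ := by rw [e2]

theorem h_hsum0 : ∃ C, 0 ≤ C ∧ ∀ (S : Finset O) (β : O → ℂ) (L M : ℝ), Sq6 S L → 1 ≤ L →
    (∀ l ∈ S, ‖β l‖ ≤ 1) → 0 < M →
    ∑ m ∈ ball M, ‖∑ l ∈ S, β l * cub l m‖ ^ 2 ≤ C * L * (M + min (L ^ 2) (M * L)) := by
  obtain ⟨C0, hC0⟩ := tls_ball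
  refine ⟨324 * |C0| + 5832, by positivity, fun S β L M hS hL hβ hM => ?_⟩
  have hL0 : 0 < L := by linarith
  have hmin : 0 ≤ min (L ^ 2) (M * L) := le_min (by positivity) (by positivity)
  rcases lt_or_ge M 1 with hM1 | hM1
  · rw [ball_eq_empty hM1, Finset.sum_empty]
    positivity
  have hcard : (S.card : ℝ) ≤ 18 * L :=
    (Nat.cast_le.2 (Finset.card_le_card hS.subset_ball)).trans (card_ball_le hL0.le)
  rcases le_total L M with h | h
  · have e : min (L ^ 2) (M * L) = L ^ 2 := min_eq_left (by nlinarith)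
    rw [e]
    have h1 := hC0 2 (by decide) S β (fun n hn => ⟨(hS n hn).1, (hS n hn).2.1, (hS n hn).2.2.1⟩)
      M hM
    have e2 : ∀ m, ∑ l ∈ S, β l * cub l m = ∑ n ∈ S, β n * chi n m ^ 2 := fun m =>
      Finset.sum_congr rfl fun l hl => by rw [chi_sq (hS.coprime_six hl)]
    simp only [e2]
    have h2 : ∑ n ∈ S, ‖β n‖ ^ 2 ≤ 18 * L := by
      refine le_trans ?_ hcard
      rw [Finset.card_eq_sum_ones, Nat.cast_sum]
      refine Finset.sum_le_sum fun n hn => ?_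
      have := hβ n hn
      have := norm_nonneg (β n)
      push_cast
      nlinarith
    have h3 : ∑ n ∈ S, ‖β n‖ * Real.sqrt (N n) ≤ 18 * L * Real.sqrt L := by
      calc ∑ n ∈ S, ‖β n‖ * Real.sqrt (N n) ≤ ∑ n ∈ S, Real.sqrt L := by
            refine Finset.sum_le_sum fun n hn => ?_
            calc ‖β n‖ * Real.sqrt (N n) ≤ 1 * Real.sqrt L := by
                  gcongr
                  · exact hβ n hn
                  · exact (hS n hn).2.2.2
              _ = _ := one_mul _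
        _ = S.card * Real.sqrt L := by rw [Finset.sum_const, nsmul_eq_mul]
        _ ≤ _ := by gcongr
    have h4 : (∑ n ∈ S, ‖β n‖ * Real.sqrt (N n)) ^ 2 ≤ 324 * L ^ 3 := by
      calc _ ≤ (18 * L * Real.sqrt L) ^ 2 := by
            gcongr
        _ = 324 * L ^ 2 * Real.sqrt L ^ 2 := by ring
        _ = _ := by rw [Real.sq_sqrt hL0.le]; ring
    have h5 : (1 + M) * ∑ n ∈ S, ‖β n‖ ^ 2 ≤ 2 * M * (18 * L) := by
      gcongr
      linarith
    have h6 : 0 ≤ (1 + M) * ∑ n ∈ S, ‖β n‖ ^ 2 + (∑ n ∈ S, ‖β n‖ * Real.sqrt (N n)) ^ 2 := by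
      positivity
    refine h1.trans ((mul_le_mul_of_nonneg_right (le_abs_self C0) h6).trans ?_)
    have h7 : 0 ≤ |C0| := abs_nonneg _
    calc _ ≤ |C0| * (2 * M * (18 * L) + 324 * L ^ 3) := by gcongr
      _ ≤ |C0| * (324 * L * (M + L ^ 2)) := by
          gcongr
          nlinarith [mul_pos hM hL0]
      _ = 324 * |C0| * L * (M + L ^ 2) := by ring
      _ ≤ _ := by
          gcongr
          linarith
  · have e : min (L ^ 2) (M * L) = M * L := min_eq_right (by nlinarith)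
    rw [e]
    have h1 : ∀ m, ‖∑ l ∈ S, β l * cub l m‖ ≤ 18 * L := fun m => by
      refine (norm_sum_le _ _).trans (le_trans ?_ hcard)
      rw [Finset.card_eq_sum_ones, Nat.cast_sum]
      refine Finset.sum_le_sum fun l hl => ?_
      rw [norm_mul, Nat.cast_one]
      have h2 : ‖cub l m‖ ≤ 1 :=
        norm_sym_le (k := 3) (by simp) (by simpa using (hS l hl).1.isCoprime_three) m
      exact mul_le_one₀ (hβ l hl) (norm_nonneg _) h2
    calc _ ≤ ∑ m ∈ ball M, (18 * L) ^ 2 := by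
          refine Finset.sum_le_sum fun m _ => ?_
          gcongr
          exact h1 m
      _ = (ball M).card * (18 * L) ^ 2 := by rw [Finset.sum_const, nsmul_eq_mul]
      _ ≤ 18 * M * (18 * L) ^ 2 := by
          gcongr
          exact card_ball_le hM.le
      _ = 5832 * L * (M * L) := by ring
      _ ≤ _ := by
          gcongr
          · have := abs_nonneg C0
            linarith
          · linarith

/-- For `M < 1` the ball is empty.  For `M ≥ 1`: `tls_ball` with `j = 2` (`chi_sq`) and `card_ball_le` give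
`≤ C L (M + L²)`; trivially `≤ 18 M (18 L)²`.  So `≤ C L (M + min (L², M L))`, and
`min a b ≤ a^{1/4} b^{3/4}`, `min a b ≤ a^{1/2} b^{1/2}`. -/
theorem hsum : ∃ C, 0 ≤ C ∧ ∀ (S : Finset O) (β : O → ℂ) (L M : ℝ), Sq6 S L → 1 ≤ L →
    (∀ l ∈ S, ‖β l‖ ≤ 1) → 0 < M →
    ∑ m ∈ ball M, ‖∑ l ∈ S, β l * cub l m‖ ^ 2 ≤
        C * L * (M + M ^ (3 / 4 : ℝ) * L ^ (5 / 4 : ℝ)) ∧
    ∑ m ∈ ball M, ‖∑ l ∈ S, β l * cub l m‖ ^ 2 ≤
        C * L * (M + M ^ (1 / 2 : ℝ) * L ^ (3 / 2 : ℝ)) := by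
  obtain ⟨C, hC, h⟩ := h_hsum0
  refine ⟨C, hC, fun S β L M hS hL hβ hM => ?_⟩
  have hL0 : 0 < L := by linarith
  have h1 := h_min (θ := 3 / 4) hL0 hM (by norm_num) (by norm_num)
  have h2 := h_min (θ := 1 / 2) hL0 hM (by norm_num) (by norm_num)
  rw [show (2 - 3 / 4 : ℝ) = 5 / 4 by norm_num] at h1
  rw [show (2 - 1 / 2 : ℝ) = 3 / 2 by norm_num] at h2
  constructor
  · refine (h S β L M hS hL hβ hM).trans ?_
    gcongr
  · refine (h S β L M hS hL hβ hM).trans ?_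
    gcongr

theorem h_sq {c : O} (hc : Prim c) :
    ∃ d s, Prim d ∧ Prim s ∧ Squarefree s ∧ c = d ^ 2 * s := by
  refine Prim.induction (P := fun c => ∃ d s, Prim d ∧ Prim s ∧ Squarefree s ∧ c = d ^ 2 * s)
    ⟨1, 1, Prim.one, Prim.one, squarefree_one, by ring⟩ ?_ hc
  rintro p a hp hp' - ⟨d, s, hd, hs, hss, rfl⟩
  by_cases h : p ∣ s
  · obtain ⟨s', rfl⟩ := h
    exact ⟨p * d, s', hp'.mul hd, hs.of_mul_left hp', hss.squarefree_of_dvd ⟨p, by ring⟩, by ring⟩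
  · refine ⟨d, p * s, hd, hp'.mul hs, ?_, by ring⟩
    rw [squarefree_mul_iff]
    exact ⟨hp.irreducible.isRelPrime_iff_not_dvd.2 h, hp.irreducible.squarefree, hss⟩

/-- `n = n₂ m₀ c³`, `c = c₀ c₁` (`exists_split`), `c₁ = s d²` with `s` squarefree, `s, d` primary
(`exists_sq_mul_squarefree`, `exists_unit_mul_prim`, `Prim.of_mul_left`), `s = g c'`, `m₀ = g m`
(`exists_prim_gcd`), `n₀ = n₂ c₀³ ∣ Q^(2+3j)`, `N c₀³ ≤ N n₀`. -/
theorem shape {Q n c : O} (hQ : Q ≠ 0) (h3 : (3 : O) ∣ Q) (hn : n ≠ 0) (h : CubeShape Q n c) :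
    ∃ (n0 g d m c' : O) (j : ℕ), n0 ∣ Q ^ j ∧ Prim g ∧ Prim d ∧ Prim c' ∧ Squarefree (m * c') ∧
      n = n0 * g ^ 4 * d ^ 6 * (m * c' ^ 3) ∧
      Real.sqrt (N c) ≤ N n0 ^ (1 / 6 : ℝ) * Real.sqrt (N g) * N d * Real.sqrt (N c') := by
  obtain ⟨n2, m0, hn', hn2, hm0, hsq, -⟩ := h
  have hc : c ≠ 0 := by
    rintro rfl
    exact hn (by rw [hn']; ring)
  have hn20 : n2 ≠ 0 := by
    rintro rfl
    exact hn (by rw [hn']; ring)
  obtain ⟨c0, c1, j, hc0, hc1, -, rfl⟩ := exists_split hQ h3 hc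
  obtain ⟨d, s, hd, hs, hss, e1⟩ := h_sq hc1
  obtain ⟨g, c', m, hg, hc', hm, e2, e3, hcop⟩ := exists_prim_gcd hs hm0
  refine ⟨n2 * c0 ^ 3, g, d, m, c', 2 + j * 3, ?_, hg, hd, hc', ?_, ?_, ?_⟩
  · rw [pow_add, pow_mul]
    exact mul_dvd_mul hn2 (pow_dvd_pow_of_dvd hc0 3)
  · rw [squarefree_mul_iff]
    exact ⟨hcop.symm.isRelPrime, hsq.squarefree_of_dvd ⟨g, by rw [e3]; ring⟩,
      hss.squarefree_of_dvd ⟨g, by rw [e2]; ring⟩⟩
  · rw [hn', e1, e2, e3]
    ring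
  · have h1 : Real.sqrt (N c0) ≤ N (n2 * c0 ^ 3) ^ (1 / 6 : ℝ) := by
      have h2 : N c0 ^ 3 ≤ N (n2 * c0 ^ 3) := by
        rw [N_mul, N_pow]
        exact le_mul_of_one_le_left (pow_nonneg (N_nonneg _) _) (one_le_N hn20)
      calc Real.sqrt (N c0) = (N c0 ^ 3) ^ (1 / 6 : ℝ) := by
            rw [Real.sqrt_eq_rpow, ← Real.rpow_natCast, ← Real.rpow_mul (N_nonneg _)]
            norm_num
        _ ≤ _ := Real.rpow_le_rpow (pow_nonneg (N_nonneg _) _) h2 (by norm_num)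
    have e4 : Real.sqrt (N (c0 * c1)) =
        Real.sqrt (N c0) * Real.sqrt (N g) * N (d) * Real.sqrt (N c') := by
      rw [e1, e2, N_mul, N_mul, N_mul g, N_pow, Real.sqrt_mul (N_nonneg _),
        Real.sqrt_mul (sq_nonneg _), Real.sqrt_mul (N_nonneg _), Real.sqrt_sq (N_nonneg _)]
      ring
    rw [e4]
    have := N_nonneg (d)
    gcongr

end TN
end Crest.Agent.R17
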