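import Crest.Agent.R17.ThetaNorm_WQ
import Crest.Agent.R17.ThetaNorm_H

/-!
# R17 / ThetaNorm_Dual1 : the dual norm for fixed square part (task).  Statement frozen.
-/

set_option autoImplicit false

noncomputable section

open scoped Classical ComplexConjugate
open MeasureTheory

namespace Crest.Agent.R17
namespace TN

theorem d1_num {K L Y x H C : ℝ} (hK : 0 ≤ K) (hL : 0 ≤ L) (hY : 0 < Y) (hx : 1 ≤ x) (hC : 0 ≤ C)
    (h1 : H ≤ C * L * (Y / x ^ 3 + (Y / x ^ 3) ^ (3 / 4 : ℝ) * L ^ (5 / 4 : ℝ)))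
    (h2 : H ≤ C * L * (Y / x ^ 3 + (Y / x ^ 3) ^ (1 / 2 : ℝ) * L ^ (3 / 2 : ℝ))) :
    (K + Y / x ^ 2) * x * H ≤ C * dualB K L Y * x⁻¹ := by
  have hx0 : 0 < x := by linarith
  have hM : Y / x ^ 3 ≤ Y := div_le_self hY.le (one_le_pow₀ hx)
  have a1 : Y / x ^ 3 ≤ Y / x ^ 2 :=
    div_le_div_of_nonneg_left hY.le (by positivity) (pow_le_pow_right₀ hx (by norm_num))
  have a2 : (Y / x ^ 3) ^ (3 / 4 : ℝ) ≤ Y ^ (3 / 4 : ℝ) / x ^ 2 := by
    rw [Real.div_rpow hY.le (by positivity)]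
    refine div_le_div_of_nonneg_left (by positivity) (by positivity) ?_
    rw [← Real.rpow_natCast, ← Real.rpow_natCast, ← Real.rpow_mul hx0.le]
    exact Real.rpow_le_rpow_of_exponent_le hx (by norm_num)
  have a3 : Y * (Y / x ^ 3) ^ (1 / 2 : ℝ) ≤ Y ^ (3 / 2 : ℝ) := by
    rw [show (3 / 2 : ℝ) = 1 + 1 / 2 by norm_num, Real.rpow_add hY, Real.rpow_one]
    gcongr
  have b1 : K * x * H ≤ C * (L * (K * (Y + Y ^ (3 / 4 : ℝ) * L ^ (5 / 4 : ℝ)))) * x⁻¹ := by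
    calc K * x * H ≤ K * x * (C * L * (Y / x ^ 2 + Y ^ (3 / 4 : ℝ) / x ^ 2 * L ^ (5 / 4 : ℝ))) := by
          refine mul_le_mul_of_nonneg_left (h1.trans ?_) (by positivity)
          gcongr
      _ = _ := by field_simp
  have b2 : Y / x ^ 2 * x * H ≤ C * (L * (Y ^ 2 + Y ^ (3 / 2 : ℝ) * L ^ (3 / 2 : ℝ))) * x⁻¹ := by
    calc Y / x ^ 2 * x * H
        ≤ Y / x ^ 2 * x * (C * L * (Y + (Y / x ^ 3) ^ (1 / 2 : ℝ) * L ^ (3 / 2 : ℝ))) := by
          refine mul_le_mul_of_nonneg_left (h2.trans ?_) (by positivity)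
          gcongr
      _ = C * (L * (Y ^ 2 + Y * (Y / x ^ 3) ^ (1 / 2 : ℝ) * L ^ (3 / 2 : ℝ))) * x⁻¹ := by
          field_simp
      _ ≤ _ := by gcongr
  unfold dualB
  linarith

/-- If `T` is empty there is nothing to do; otherwise `Y ≥ 1`.  `wqls_pairs` (`N (m c) ≤ Y / N c² ≤ Z^A`) bounds the
sum by `C Z^ε ∑_{(m,c) ∈ T} (K + Y / N c²) N c ‖h_c(m)‖²`, `h_c(m) = ∑_l β c l cub l m`, and
`T ⊆ {(m,c) : c ∈ ball Y, m ∈ ball (Y / N c³)}`.  For each `c` use the first bound of `hsum` (with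
`M = Y / N c³`) for the `K`-term and the second one for the `Y / N c²`-term: the powers of `N c` are
`-2, -5/4, -4, -5/2 ≤ -1`, so the `c`-term is `≤ C dualB K L Y / N c`; finish with `sum_inv_Z`. -/
theorem dual1 (A : ℝ) {ε : ℝ} (hε : 0 < ε) : ∃ C, 0 ≤ C ∧ ∀ Z : ℝ, 3 ≤ Z →
    ∀ (R S : Finset O) (K L Y : ℝ), Sq6 R K → Sq6 S L → 1 ≤ K → K ≤ Z ^ A → 1 ≤ L → 0 < Y →
    Y ≤ Z ^ A → ∀ (T : Finset (O × O)) (u : O × O → ℂ) (β : O → O → ℂ),
    (∀ p ∈ T, Prim p.2 ∧ Squarefree (p.1 * p.2) ∧ N p.1 * N p.2 ^ 3 ≤ Y ∧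
      ‖u p‖ ≤ Real.sqrt (N p.2)) →
    (∀ c, ∀ l ∈ S, ‖β c l‖ ≤ 1) →
    ∑ k ∈ R, ‖∑ p ∈ T, u p * (∑ l ∈ S, β p.2 l * cub l p.1) * qua k (p.1 * p.2)‖ ^ 2 ≤
      C * Z ^ ε * dualB K L Y := by
  obtain ⟨C1, hC1, h1⟩ := wqls_pairs A (half_pos hε)
  obtain ⟨C2, hC2, h2⟩ := hsum
  obtain ⟨C3, hC3, h3⟩ := sum_inv_Z A (half_pos hε)
  refine ⟨C1 * C2 * C3, by positivity, ?_⟩
  intro Z hZ R S K L Y hR hS hK1 hK2 hL hY hYZ T u β hT hβ
  have hZ0 : 0 < Z := by linarith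
  have hne : ∀ p ∈ T, p.1 ≠ 0 ∧ p.2 ≠ 0 := fun p hp =>
    mul_ne_zero_iff.1 (hT p hp).2.1.ne_zero
  have hN : ∀ p ∈ T, N (p.1 * p.2) ≤ Y / N p.2 ^ 2 := fun p hp => by
    rw [le_div_iff₀ (pow_pos (N_pos (hne p hp).2) 2), N_mul]
    have := (hT p hp).2.2.1
    linarith
  have hdiv : ∀ c : O, c ≠ 0 → ∀ j : ℕ, Y / N c ^ j ≤ Y := fun c hc j =>
    div_le_self hY.le (one_le_pow₀ (one_le_N hc))
  refine (h1 Z hZ R K hR hK1 hK2 T (fun p => u p * ∑ l ∈ S, β p.2 l * cub l p.1) fun p hp =>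
    ⟨(hT p hp).1, (hT p hp).2.1, (hN p hp).trans ((hdiv _ (hne p hp).2 2).trans hYZ)⟩).trans ?_
  have hB := dualB_nonneg (K := K) (L := L) (X := Y) (by linarith) (by linarith) hY.le
  have key : ∑ p ∈ T, (K + N (p.1 * p.2)) * ‖u p * ∑ l ∈ S, β p.2 l * cub l p.1‖ ^ 2 ≤
      C2 * dualB K L Y * (C3 * Z ^ (ε / 2)) := by
    calc _ ≤ ∑ p ∈ T, (K + Y / N p.2 ^ 2) * N p.2 * ‖∑ l ∈ S, β p.2 l * cub l p.1‖ ^ 2 := by
          refine Finset.sum_le_sum fun p hp => ?_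
          have hu : ‖u p‖ ^ 2 ≤ N p.2 := by
            rw [← Real.sq_sqrt (N_nonneg p.2)]
            exact pow_le_pow_left₀ (norm_nonneg _) (hT p hp).2.2.2 2
          have := hN p hp
          have := N_nonneg (p.1 * p.2)
          rw [norm_mul, mul_pow, ← mul_assoc]
          gcongr
      _ ≤ ∑ p ∈ (ball Y ×ˢ ball Y).filter (fun p => p.1 ∈ ball (Y / N p.2 ^ 3)),
            (K + Y / N p.2 ^ 2) * N p.2 * ‖∑ l ∈ S, β p.2 l * cub l p.1‖ ^ 2 := by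
          refine Finset.sum_le_sum_of_subset_of_nonneg (fun p hp => ?_) fun p _ _ => ?_
          · obtain ⟨n1, n2⟩ := hne p hp
            have a1 : N p.1 ≤ Y / N p.2 ^ 3 := by
              rw [le_div_iff₀ (pow_pos (N_pos n2) 3)]; exact (hT p hp).2.2.1
            have a2 : N p.2 ≤ Y :=
              (N_le_of_dvd (mul_ne_zero n1 n2) (dvd_mul_left _ _)).trans
                ((hN p hp).trans (hdiv _ n2 2))
            simp only [Finset.mem_filter, Finset.mem_product, mem_ball]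
            exact ⟨⟨⟨n1, a1.trans (hdiv _ n2 3)⟩, n2, a2⟩, n1, a1⟩
          · have := N_nonneg p.2
            positivity
      _ = ∑ c ∈ ball Y, ∑ m ∈ ball (Y / N c ^ 3),
            (K + Y / N c ^ 2) * N c * ‖∑ l ∈ S, β c l * cub l m‖ ^ 2 := by
          refine Finset.sum_finset_product_right _ _ _ fun p => ?_
          simp only [Finset.mem_filter, Finset.mem_product, mem_ball]
          exact ⟨fun h => ⟨h.1.2, h.2⟩, fun h => ⟨⟨⟨h.2.1, h.2.2.trans (hdiv _ h.1.1 3)⟩, h.1⟩, h.2⟩⟩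
      _ ≤ ∑ c ∈ ball Y, C2 * dualB K L Y * (N c)⁻¹ := by
          refine Finset.sum_le_sum fun c hc => ?_
          have hc0 := (mem_ball.1 hc).1
          obtain ⟨b1, b2⟩ := h2 S (β c) L (Y / N c ^ 3) hS hL (hβ c)
            (div_pos hY (pow_pos (N_pos hc0) 3))
          rw [← Finset.mul_sum]
          exact d1_num (by linarith) (by linarith) hY (one_le_N hc0) hC2 b1 b2
      _ ≤ _ := by
          rw [← Finset.mul_sum]
          exact mul_le_mul_of_nonneg_left (h3 Z hZ _ fun c hc =>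
            ⟨(mem_ball.1 hc).1, (mem_ball.1 hc).2.trans hYZ⟩) (by positivity)
  refine (mul_le_mul_of_nonneg_left key (by positivity)).trans (le_of_eq ?_)
  have e : Z ^ ε = Z ^ (ε / 2) * Z ^ (ε / 2) := by rw [← Real.rpow_add hZ0, add_halves]
  rw [e]; ring

end TN
end Crest.Agent.R17
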