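import Crest.Agent.R17.ThetaNorm_Dual1

/-!
# R17 / ThetaNorm_Dual2 : the dual norm without coprimality (task).  Statements frozen.
-/

set_option autoImplicit false

noncomputable section

open scoped Classical ComplexConjugate
open MeasureTheory

namespace Crest.Agent.R17
namespace TN

theorem d2_div_rpow {X E a : ℝ} (hX : 0 ≤ X) (hE : 1 ≤ E) (ha : 3 / 4 ≤ a) :
    (X / E) ^ a ≤ E ^ (-(3 / 4) : ℝ) * X ^ a := by
  have hE0 : 0 ≤ E := by linarith
  rw [Real.div_rpow hX hE0, div_eq_inv_mul, ← Real.rpow_neg hE0]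
  exact mul_le_mul_of_nonneg_right (Real.rpow_le_rpow_of_exponent_le hE (by linarith))
    (Real.rpow_nonneg hX _)

theorem dualB_div {K L X E : ℝ} (hK : 0 ≤ K) (hL : 0 ≤ L) (hX : 0 ≤ X) (hE : 1 ≤ E) :
    dualB K L (X / E) ≤ E ^ (-(3 / 4) : ℝ) * dualB K L X := by
  have h1 := d2_div_rpow hX hE (a := 1) (by norm_num)
  have h2 := d2_div_rpow hX hE (a := 3 / 4) le_rfl
  have h3 := d2_div_rpow hX hE (a := 2) (by norm_num)
  have h4 := d2_div_rpow hX hE (a := 3 / 2) (by norm_num)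
  rw [Real.rpow_one, Real.rpow_one] at h1
  rw [Real.rpow_two, Real.rpow_two] at h3
  unfold dualB
  calc _ ≤ L * (K * (E ^ (-(3 / 4) : ℝ) * X + E ^ (-(3 / 4) : ℝ) * X ^ (3 / 4 : ℝ) * L ^ (5 / 4 : ℝ))
        + E ^ (-(3 / 4) : ℝ) * X ^ 2 + E ^ (-(3 / 4) : ℝ) * X ^ (3 / 2 : ℝ) * L ^ (3 / 2 : ℝ)) := by
        gcongr
    _ = _ := by ring

theorem d2_qua {k : O} (hk : IsCoprime k 2) (e m c : O) :
    qua k (e * (m * c ^ 3)) = qua k e * qua k (m * c) := by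
  have hk' : IsCoprime k ((2 : ℕ) : O) := by simpa using hk
  have h := sym_isChar (k := 2) (by simp) hk'
  have h2 := sym_pow_eq (k := 2) (by simp) hk' c
  have e1 : e * (m * c ^ 3) = e * (m * (c * (c * c))) := by ring
  unfold qua
  rw [e1]
  simp only [h.mul]
  split_ifs at h2
  · linear_combination (sym 2 k e * sym 2 k m * sym 2 k c) * h2
  · rw [pow_eq_zero_iff two_ne_zero] at h2
    rw [h2]; ring

theorem d2_cub {l : O} (hl : Prim l) (e m c : O) :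
    cub l (e * (m * c ^ 3)) = cub l (e * c ^ 3) * cub l m := by
  have h := sym_isChar (k := 3) (by simp) (n := l) (by simpa using hl.isCoprime_three)
  unfold cub
  rw [← h.mul]; congr 1; ring

theorem d2_norm_cub {l : O} (hl : Prim l) (x : O) : ‖cub l x‖ ≤ 1 :=
  norm_sym_le (k := 3) (by simp) (by simpa using hl.isCoprime_three) x

theorem d2_fibre (A : ℝ) {ε : ℝ} (hε : 0 < ε) : ∃ C, 0 ≤ C ∧ ∀ Z : ℝ, 3 ≤ Z →
    ∀ (R S : Finset O) (β : O → ℂ) (K L X : ℝ), Sq6 R K → Sq6 S L → (∀ l ∈ S, ‖β l‖ ≤ 1) →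
    1 ≤ K → K ≤ Z ^ A → 1 ≤ L → 0 < X → X ≤ Z ^ A →
    ∀ (e : O) (t : ℝ) (u : O → ℂ) (F : Finset O) (m c : O → O), e ≠ 0 → 0 < t →
    (∀ n ∈ F, n = e * (m n * c n ^ 3) ∧ Prim (c n) ∧ Squarefree (m n * c n) ∧ N n ≤ X ∧
      ‖u n‖ ≤ t * Real.sqrt (N (c n))) →
    ∑ k ∈ R, ‖∑ n ∈ F, u n * qua k n * ∑ l ∈ S, β l * cub l n‖ ^ 2 ≤
      t ^ 2 * N e ^ (-(3 / 4) : ℝ) * (C * Z ^ ε * dualB K L X) := by
  obtain ⟨C, hC, h⟩ := dual1 A hε
  refine ⟨C, hC, ?_⟩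
  intro Z hZ R S β K L X hR hS hβ hK1 hK2 hL hX hXZ e t u F m c he ht hF
  have hNe := one_le_N he
  have hNe0 := N_pos he
  have ht' : (t : ℂ) ≠ 0 := by exact_mod_cast ht.ne'
  have h1 := h Z hZ R S K L (X / N e) hR hS hK1 hK2 hL (div_pos hX hNe0)
    ((div_le_self hX.le hNe).trans hXZ) (F.image fun n => (m n, c n))
    (fun p => u (e * (p.1 * p.2 ^ 3)) / t) (fun c l => β l * cub l (e * c ^ 3)) ?_ ?_
  rotate_left
  · intro p hp
    obtain ⟨n, hn, rfl⟩ := Finset.mem_image.1 hp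
    obtain ⟨a1, a2, a3, a4, a5⟩ := hF n hn
    refine ⟨a2, a3, ?_, ?_⟩
    · rw [a1, N_mul, N_mul, N_pow] at a4
      rw [le_div_iff₀ hNe0]
      linarith
    · dsimp only
      rw [← a1, norm_div, Complex.norm_real, Real.norm_of_nonneg ht.le, div_le_iff₀ ht]
      linarith
  · intro c l hl
    rw [norm_mul]
    exact mul_le_one₀ (hβ l hl) (norm_nonneg _) (d2_norm_cub (hS l hl).1 _)
  have hZe : 0 ≤ Z ^ ε := Real.rpow_nonneg (by linarith) _
  calc _ ≤ ∑ k ∈ R, t ^ 2 * ‖∑ p ∈ F.image fun n => (m n, c n), u (e * (p.1 * p.2 ^ 3)) / t *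
        (∑ l ∈ S, β l * cub l (e * p.2 ^ 3) * cub l p.1) * qua k (p.1 * p.2)‖ ^ 2 := by
        refine Finset.sum_le_sum fun k hk => ?_
        have hk2 := (hR k hk).2.2.1
        have e1 : ∑ n ∈ F, u n * qua k n * ∑ l ∈ S, β l * cub l n =
            t * qua k e * ∑ p ∈ F.image fun n => (m n, c n), u (e * (p.1 * p.2 ^ 3)) / t *
              (∑ l ∈ S, β l * cub l (e * p.2 ^ 3) * cub l p.1) * qua k (p.1 * p.2) := by
          rw [Finset.sum_image fun x hx y hy hxy => by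
            obtain ⟨q1, q2⟩ := Prod.mk.inj hxy
            rw [(hF x hx).1, (hF y hy).1, q1, q2],
            Finset.mul_sum]
          refine Finset.sum_congr rfl fun n hn => ?_
          have e2 : ∑ l ∈ S, β l * cub l n =
              ∑ l ∈ S, β l * cub l (e * c n ^ 3) * cub l (m n) :=
            Finset.sum_congr rfl fun l hl => by
              rw [mul_assoc, ← d2_cub (hS l hl).1, ← (hF n hn).1]
          have e3 : qua k n = qua k e * qua k (m n * c n) := by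
            rw [← d2_qua hk2, ← (hF n hn).1]
          dsimp only
          rw [← (hF n hn).1, e2, e3]
          field_simp
        have hq : ‖qua k e‖ ≤ 1 := norm_sym_le (k := 2) (by simp) (by simpa using hk2) e
        rw [e1, norm_mul, norm_mul, mul_pow, Complex.norm_real, Real.norm_of_nonneg ht.le]
        refine mul_le_mul_of_nonneg_right ?_ (sq_nonneg _)
        exact pow_le_pow_left₀ (by positivity) (mul_le_of_le_one_right ht.le hq) 2
    _ ≤ t ^ 2 * (C * Z ^ ε * dualB K L (X / N e)) := by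
        rw [← Finset.mul_sum]
        exact mul_le_mul_of_nonneg_left h1 (sq_nonneg _)
    _ ≤ t ^ 2 * (C * Z ^ ε * (N e ^ (-(3 / 4) : ℝ) * dualB K L X)) := by
        have := dualB_div (K := K) (L := L) (by linarith) (by linarith) hX.le hNe
        gcongr
    _ = _ := by ring

theorem d2_num {a b d : ℝ} (ha : 1 ≤ a) (hb : 1 ≤ b) (hd : 1 ≤ d) :
    (a ^ (1 / 6 : ℝ) * Real.sqrt b * d) ^ 2 * (a * b ^ 4 * d ^ 6) ^ (-(3 / 4) : ℝ) ≤
      (a ^ (-(5 / 24) : ℝ) * (b⁻¹ * d⁻¹)) ^ 2 := by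
  have h1 := Real.log_nonneg hd
  rw [← Real.exp_log (show 0 < a by linarith), ← Real.exp_log (show 0 < b by linarith),
    ← Real.exp_log (show 0 < d by linarith)]
  generalize Real.log a = x
  generalize Real.log b = y
  generalize Real.log d = z at h1
  rw [Real.sqrt_eq_rpow]
  simp only [← Real.exp_mul, ← Real.exp_nat_mul, ← Real.exp_add, ← Real.exp_neg, Real.exp_le_exp]
  push_cast
  linarith

/-- If `U = 0` then `u = 0`.  Restrict to `P = (ball X).filter (u · ≠ 0)` and choose by `shape` a key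
`κ n = (n₀, g, d)` and a pair `π n = (m, c)` with `n = n₀ g⁴ d⁶ (m c³)`.  Split the `n`-sum along the fibres of `κ`
(`Finset.sum_fiberwise_of_maps_to` over `P.image κ`).  On a fibre put `e = n₀ g⁴ d⁶`; `π` is injective there,
`qua k n = qua k e * qua k (m c)` (`x³ = x` for `x = qua k c`, `sym_pow_eq`), `cub l n = cub l (e c³) * cub l m`; apply `dual1` with
`T = image π`, `Y = X / N e`, `u p = u (e * (p.1 * p.2^3)) / (U N n₀^{1/6} √N g N d)`,
`β c l = β l * cub l (e c³)`.  With `dualB_div` the fibre contributes `w² C Z^ε' U² dualB K L X`,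
`w = N n₀^{-5/24} (N g)⁻¹ (N d)⁻¹` (as `N n₀^{1/3-3/4} N g^{1-3} N d^{2-9/2} ≤ w²`).  `mink`; the keys lie in
`S₀ ×ˢ ball X ×ˢ ball X`, `∑ w ≤ (C N Q^{1/2}) (C Z^ε')²` (`sum_smooth_le` with `ε = 1/2`, `sum_inv_Z`). -/
theorem dual2 (A : ℝ) {ε : ℝ} (hε : 0 < ε) : ∃ C, 0 ≤ C ∧ ∀ Z : ℝ, 3 ≤ Z →
    ∀ Q : O, Q ≠ 0 → (3 : O) ∣ Q → ∀ (U : ℝ) (u : O → ℂ), 0 ≤ U → Shape Q U u →
    ∀ (R S : Finset O) (β : O → ℂ) (K L X : ℝ), Sq6 R K → Sq6 S L → (∀ l ∈ S, ‖β l‖ ≤ 1) →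
    1 ≤ K → K ≤ Z ^ A → 1 ≤ L → 0 < X → X ≤ Z ^ A →
    ∑ k ∈ R, ‖∑ n ∈ ball X, u n * qua k n * ∑ l ∈ S, β l * cub l n‖ ^ 2 ≤
      C * Z ^ ε * N Q * U ^ 2 * dualB K L X := by
  have hε' : 0 < ε / 5 := by positivity
  obtain ⟨C1, hC1, h1⟩ := d2_fibre A hε'
  obtain ⟨C2, h2⟩ := sum_smooth_le (σ := 5 / 24) (ε := 1 / 2) (by norm_num) (by norm_num)
  obtain ⟨C3, hC3, h3⟩ := sum_inv_Z A hε'
  refine ⟨C2 ^ 2 * C3 ^ 4 * C1, by positivity, ?_⟩
  intro Z hZ Q hQ hQ3 U u hU hu R S β K L X hR hS hβ hK1 hK2 hL hX hXZ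
  have hZ0 : 0 < Z := by linarith
  have hex : ∀ n, u n ≠ 0 → ∃ (n0 g d m c' : O) (j : ℕ), n0 ∣ Q ^ j ∧ Prim c' ∧
      Squarefree (m * c') ∧ n = n0 * g ^ 4 * d ^ 6 * (m * c' ^ 3) ∧
      ‖u n‖ ≤ U * (N n0 ^ (1 / 6 : ℝ) * Real.sqrt (N g) * N d) * Real.sqrt (N c') := by
    intro n hn
    obtain ⟨a1, c, a2, a3⟩ := hu n hn
    obtain ⟨n0, g, d, m, c', j, b1, -, -, b4, b5, b6, b7⟩ := shape hQ hQ3 a1 a2
    refine ⟨n0, g, d, m, c', j, b1, b4, b5, b6, a3.trans ?_⟩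
    rw [mul_assoc U]
    exact mul_le_mul_of_nonneg_left b7 hU
  choose! n0 g d m c j s1 s2 s3 s4 s5 using hex
  set P := (ball X).filter fun n => u n ≠ 0 with hP
  have hP1 : ∀ n ∈ P, u n ≠ 0 ∧ n ≠ 0 ∧ N n ≤ X := fun n hn => by
    rw [hP, Finset.mem_filter, mem_ball] at hn
    exact ⟨hn.2, hn.1⟩
  have hP2 : ∀ n ∈ P, n0 n ≠ 0 ∧ (g n ≠ 0 ∧ N (g n) ≤ Z ^ A) ∧ d n ≠ 0 ∧ N (d n) ≤ Z ^ A := by
    intro n hn
    obtain ⟨a1, a2, a3⟩ := hP1 n hn
    have d1 : n0 n ∣ n := ⟨g n ^ 4 * d n ^ 6 * (m n * c n ^ 3), (s4 n a1).trans (by ring)⟩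
    have d2 : g n ∣ n := ⟨n0 n * g n ^ 3 * d n ^ 6 * (m n * c n ^ 3), (s4 n a1).trans (by ring)⟩
    have d3 : d n ∣ n := ⟨n0 n * g n ^ 4 * d n ^ 5 * (m n * c n ^ 3), (s4 n a1).trans (by ring)⟩
    exact ⟨ne_zero_of_dvd_ne_zero a2 d1,
      ⟨ne_zero_of_dvd_ne_zero a2 d2, (N_le_of_dvd a2 d2).trans (a3.trans hXZ)⟩,
      ne_zero_of_dvd_ne_zero a2 d3, (N_le_of_dvd a2 d3).trans (a3.trans hXZ)⟩
  have hB := dualB_nonneg (K := K) (L := L) (X := X) (by linarith) (by linarith) hX.le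
  have hsplit : ∀ k, ∑ n ∈ ball X, u n * qua k n * ∑ l ∈ S, β l * cub l n =
      ∑ i ∈ P.image (fun n => (n0 n, g n, d n)),
        ∑ n ∈ P.filter (fun n => (n0 n, g n, d n) = i), u n * qua k n * ∑ l ∈ S, β l * cub l n := by
    intro k
    rw [Finset.sum_fiberwise_of_maps_to fun n hn => Finset.mem_image_of_mem _ hn, hP,
      Finset.sum_filter_of_ne fun n _ hn => left_ne_zero_of_mul (left_ne_zero_of_mul hn)]
  simp only [hsplit]
  have hw : ∀ i : O × O × O, 0 ≤ N i.1 ^ (-(5 / 24) : ℝ) * ((N i.2.1)⁻¹ * (N i.2.2)⁻¹) := fun i => by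
    have := N_nonneg i.1
    have := N_nonneg i.2.1
    have := N_nonneg i.2.2
    positivity
  refine (mink (P.image fun n => (n0 n, g n, d n)) R
    (fun i k => ∑ n ∈ P.filter (fun n => (n0 n, g n, d n) = i),
      u n * qua k n * ∑ l ∈ S, β l * cub l n)
    (fun i => N i.1 ^ (-(5 / 24) : ℝ) * ((N i.2.1)⁻¹ * (N i.2.2)⁻¹))
    (U ^ 2 * (C1 * Z ^ (ε / 5) * dualB K L X)) (fun i _ => hw i) (by positivity) ?_).trans ?_
  · intro i hi
    obtain ⟨n1, hn1, rfl⟩ := Finset.mem_image.1 hi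
    obtain ⟨b1, ⟨b2, -⟩, b3, -⟩ := hP2 n1 hn1
    have c1 := N_pos b1
    have c2 := N_pos b2
    have c3 := N_pos b3
    have hU0 : 0 < U := by
      refine hU.lt_of_ne fun h0 => (hP1 n1 hn1).1 (norm_le_zero_iff.1 ?_)
      simpa [← h0] using s5 n1 (hP1 n1 hn1).1
    refine (h1 Z hZ R S β K L X hR hS hβ hK1 hK2 hL hX hXZ (n0 n1 * g n1 ^ 4 * d n1 ^ 6)
      (U * (N (n0 n1) ^ (1 / 6 : ℝ) * Real.sqrt (N (g n1)) * N (d n1))) u _ m c
      (mul_ne_zero (mul_ne_zero b1 (pow_ne_zero _ b2)) (pow_ne_zero _ b3)) (by positivity)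
      fun n hn => ?_).trans ?_
    · obtain ⟨hn, he⟩ := Finset.mem_filter.1 hn
      obtain ⟨a1, -, a3⟩ := hP1 n hn
      simp only [Prod.mk.injEq] at he
      rw [← he.1, ← he.2.1, ← he.2.2]
      exact ⟨s4 n a1, s2 n a1, s3 n a1, a3, s5 n a1⟩
    · have := d2_num (one_le_N b1) (one_le_N b2) (one_le_N b3)
      rw [N_mul, N_mul, N_pow, N_pow, mul_pow U, mul_assoc (U ^ 2), mul_assoc (U ^ 2),
        mul_left_comm _ (U ^ 2)]
      gcongr
  · have hs : ∑ i ∈ P.image (fun n => (n0 n, g n, d n)),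
        N i.1 ^ (-(5 / 24) : ℝ) * ((N i.2.1)⁻¹ * (N i.2.2)⁻¹) ≤
        |C2| * N Q ^ (1 / 2 : ℝ) * (C3 * Z ^ (ε / 5) * (C3 * Z ^ (ε / 5))) := by
      calc _ ≤ ∑ i ∈ P.image n0 ×ˢ P.image g ×ˢ P.image d,
            N i.1 ^ (-(5 / 24) : ℝ) * ((N i.2.1)⁻¹ * (N i.2.2)⁻¹) := by
            refine Finset.sum_le_sum_of_subset_of_nonneg (fun i hi => ?_) fun i _ _ => hw i
            obtain ⟨n, hn, rfl⟩ := Finset.mem_image.1 hi
            exact Finset.mem_product.2 ⟨Finset.mem_image_of_mem _ hn, Finset.mem_product.2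
              ⟨Finset.mem_image_of_mem _ hn, Finset.mem_image_of_mem _ hn⟩⟩
        _ = (∑ x ∈ P.image n0, N x ^ (-(5 / 24) : ℝ)) *
            ((∑ x ∈ P.image g, (N x)⁻¹) * ∑ x ∈ P.image d, (N x)⁻¹) := by
            rw [Finset.sum_mul_sum (P.image g), ← Finset.sum_product', Finset.sum_mul_sum,
              ← Finset.sum_product']
        _ ≤ _ := by
            have t1 := h2 Q hQ (P.image n0) fun f hf => by
              obtain ⟨n, hn, rfl⟩ := Finset.mem_image.1 hf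
              exact ⟨j n, s1 n (hP1 n hn).1⟩
            have t2 := h3 Z hZ (P.image g) fun f hf => by
              obtain ⟨n, hn, rfl⟩ := Finset.mem_image.1 hf
              exact (hP2 n hn).2.1
            have t3 := h3 Z hZ (P.image d) fun f hf => by
              obtain ⟨n, hn, rfl⟩ := Finset.mem_image.1 hf
              exact (hP2 n hn).2.2
            have t4 : ∀ T : Finset O, 0 ≤ ∑ x ∈ T, (N x)⁻¹ := fun T =>
              Finset.sum_nonneg fun x _ => inv_nonneg.2 (N_nonneg x)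
            have t5 := Real.rpow_nonneg (N_nonneg Q) (1 / 2)
            exact mul_le_mul (t1.trans (mul_le_mul_of_nonneg_right (le_abs_self _) t5))
              (mul_le_mul t2 t3 (t4 _) (by positivity)) (mul_nonneg (t4 _) (t4 _)) (by positivity)
    refine (mul_le_mul_of_nonneg_right (pow_le_pow_left₀ (Finset.sum_nonneg fun i _ => hw i) hs 2)
      (by positivity)).trans (le_of_eq ?_)
    have e1 : (N Q ^ (1 / 2 : ℝ)) ^ 2 = N Q := by
      rw [← Real.sqrt_eq_rpow, Real.sq_sqrt (N_nonneg Q)]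
    have e2 : Z ^ ε = (Z ^ (ε / 5)) ^ 5 := by
      rw [← Real.rpow_natCast, ← Real.rpow_mul hZ0.le]; congr 1; push_cast; ring
    rw [mul_pow, mul_pow, sq_abs, e1, e2]
    ring

end TN
end Crest.Agent.R17
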