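import Crest.Agent.R17.ThetaNorm_Dual2

/-!
# R17 / ThetaNorm_Dual3 : the dual norm with `(l,k) = 1` (task).  Statements frozen.
-/

set_option autoImplicit false

noncomputable section

open scoped Classical ComplexConjugate
open MeasureTheory

namespace Crest.Agent.R17
namespace TN

theorem dualB_div_L {K L X E : ℝ} (hK : 0 ≤ K) (hL : 0 ≤ L) (hX : 0 ≤ X) (hE : 1 ≤ E) :
    dualB K (L / E) X ≤ E⁻¹ * dualB K L X := by
  have hE0 : 0 < E := by linarith
  have h1 : L / E ≤ L := div_le_self hL hE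
  have h2 : 0 ≤ L / E := by positivity
  unfold dualB
  rw [← mul_assoc, ← div_eq_inv_mul]
  gcongr

theorem d3_fix (A : ℝ) {ε : ℝ} (hε : 0 < ε) : ∃ C, 0 ≤ C ∧ ∀ Z : ℝ, 3 ≤ Z →
    ∀ Q : O, Q ≠ 0 → (3 : O) ∣ Q → ∀ (U : ℝ) (u : O → ℂ), 0 ≤ U → Shape Q U u →
    ∀ (R S : Finset O) (β : O → ℂ) (K L X : ℝ), Sq6 R K → Sq6 S L → (∀ l ∈ S, ‖β l‖ ≤ 1) →
    1 ≤ K → K ≤ Z ^ A → 1 ≤ L → 0 < X → X ≤ Z ^ A → ∀ e : O, Prim e →
    ∑ k ∈ R, ‖∑ n ∈ ball X, u n * qua k n *
        ∑ l ∈ S.filter (fun l => e ∣ l), β l * cub l n‖ ^ 2 ≤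
      C * Z ^ ε * N Q * U ^ 2 * dualB K L X * (N e)⁻¹ := by
  obtain ⟨C, hC, h⟩ := dual2 A hε
  refine ⟨C, hC, ?_⟩
  intro Z hZ Q hQ hQ3 U u hU hu R S β K L X hR hS hβ hK1 hK2 hL hX hXZ e he
  have he0 := he.ne_zero
  have hNe := N_pos he0
  have hNQ := N_nonneg Q
  have hZe : 0 ≤ Z ^ ε := Real.rpow_nonneg (by linarith) _
  have hB := dualB_nonneg (K := K) (L := L) (X := X) (by linarith) (by linarith) hX.le
  rcases (S.filter fun l => e ∣ l).eq_empty_or_nonempty with h0 | ⟨l0, hl0⟩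
  · rw [h0]
    simp only [Finset.sum_empty, mul_zero, Finset.sum_const_zero, norm_zero, ne_eq,
      OfNat.ofNat_ne_zero, not_false_eq_true, zero_pow]
    positivity
  have hcan : ∀ l ∈ S.filter (fun l => e ∣ l), e * (l / e) = l := fun l hl =>
    EuclideanDomain.mul_div_cancel' he0 (Finset.mem_filter.1 hl).2
  have heL : 1 ≤ L / N e := by
    obtain ⟨a1, a2⟩ := Finset.mem_filter.1 hl0
    rw [le_div_iff₀ hNe, one_mul]
    exact (N_le_of_dvd (hS l0 a1).1.ne_zero a2).trans (hS l0 a1).2.2.2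
  have h1 := h Z hZ Q hQ hQ3 (U * 1) (fun n => u n * cub e n) (by linarith)
    (hu.mul (d2_norm_cub he)) R ((S.filter fun l => e ∣ l).image (· / e)) (fun l => β (e * l))
    K (L / N e) X hR ?_ ?_ hK1 hK2 heL hX hXZ
  rotate_left
  · intro l' hl'
    obtain ⟨l, hl, rfl⟩ := Finset.mem_image.1 hl'
    have hc := hcan l hl
    obtain ⟨a1, a2⟩ := Finset.mem_filter.1 hl
    obtain ⟨b1, b2, b3, b4⟩ := hS l a1
    have hd : l / e ∣ l := Dvd.intro_left e hc
    refine ⟨b1.div he a2, b2.squarefree_of_dvd hd, b3.of_isCoprime_of_dvd_left hd, ?_⟩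
    rw [le_div_iff₀ hNe, mul_comm, ← N_mul, hc]
    exact b4
  · intro l' hl'
    obtain ⟨l, hl, rfl⟩ := Finset.mem_image.1 hl'
    rw [hcan l hl]
    exact hβ l (Finset.mem_filter.1 hl).1
  have e1 : ∀ k n, u n * qua k n * ∑ l ∈ S.filter (fun l => e ∣ l), β l * cub l n =
      u n * cub e n * qua k n *
        ∑ l ∈ (S.filter fun l => e ∣ l).image (· / e), β (e * l) * cub l n := by
    intro k n
    have : ∑ l ∈ S.filter (fun l => e ∣ l), β l * cub l n =
        cub e n * ∑ l ∈ (S.filter fun l => e ∣ l).image (· / e), β (e * l) * cub l n := by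
      rw [Finset.sum_image fun x hx y hy hxy => by
        rw [← hcan x hx, ← hcan y hy]; exact congrArg (e * ·) hxy, Finset.mul_sum]
      refine Finset.sum_congr rfl fun l hl => ?_
      have hc := hcan l hl
      have hl0 : l / e ≠ 0 := fun h0 => (hS l (Finset.mem_filter.1 hl).1).1.ne_zero
        (by rw [← hc, h0, mul_zero])
      have : cub l n = cub e n * cub (l / e) n := by
        unfold cub
        rw [← sym_mul_left 3 he0 hl0, hc]
      rw [hc, this]; ring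
    rw [this]; ring
  simp only [e1]
  refine h1.trans ?_
  have := dualB_div_L (K := K) (L := L) (X := X) (by linarith) (by linarith) hX.le (one_le_N he0)
  rw [mul_one, mul_assoc _ (dualB K L X), mul_comm (dualB K L X)]
  gcongr

/-- `1_{(l,k)=1} = ∑_{e ∈ pdiv k, e ∣ l} mu e` (`sum_mu_coprime`), so the `k`-th term is `∑_{e ∈ pdiv k} mu e * G e k`,
`G e k = ∑_n u n qua k n ∑_{l ∈ S, e ∣ l} β l cub l n`; Cauchy–Schwarz costs `card (pdiv k) ≤ C Z^ε'`.  Swap:
`∑_{k ∈ R} ∑_{e ∈ pdiv k} ≤ ∑_{e ∈ ball K, Prim e} ∑_{k ∈ R, e ∣ k}`.  For fixed `e` with some `l ∈ S`, `e ∣ l`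
(otherwise `G e k = 0`): `N e ≤ L`, `l = e l'`, `cub l n = cub e n * cub l' n` (`sym_mul_left`); apply `dual2` with the
same rows `R`, `u n * cub e n` (`Shape.mul`), `S' = (S.filter (e ∣ ·)).image (· / e)`, `β' l' = β (e * l')`,
`L / N e`; `dualB_div_L`, `sum_inv_Z`. -/
theorem dual3 (A : ℝ) {ε : ℝ} (hε : 0 < ε) : ∃ C, 0 ≤ C ∧ ∀ Z : ℝ, 3 ≤ Z →
    ∀ Q : O, Q ≠ 0 → (3 : O) ∣ Q → ∀ (U : ℝ) (u : O → ℂ), 0 ≤ U → Shape Q U u →
    ∀ (R S : Finset O) (β : O → ℂ) (K L X : ℝ), Sq6 R K → Sq6 S L → (∀ l ∈ S, ‖β l‖ ≤ 1) →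
    1 ≤ K → K ≤ Z ^ A → 1 ≤ L → 0 < X → X ≤ Z ^ A →
    ∑ k ∈ R, ‖∑ n ∈ ball X, u n * qua k n *
        ∑ l ∈ S.filter (fun l => IsCoprime l k), β l * cub l n‖ ^ 2 ≤
      C * Z ^ ε * N Q * U ^ 2 * dualB K L X := by
  have hε' : 0 < ε / 3 := by positivity
  obtain ⟨C1, hC1, h1⟩ := d3_fix A hε'
  obtain ⟨C2, hC2, h2⟩ := card_pdiv_Z A hε'
  obtain ⟨C3, hC3, h3⟩ := sum_inv_Z A hε'
  refine ⟨C1 * C2 * C3, by positivity, ?_⟩
  intro Z hZ Q hQ hQ3 U u hU hu R S β K L X hR hS hβ hK1 hK2 hL hX hXZ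
  have hZ0 : 0 < Z := by linarith
  have hNQ := N_nonneg Q
  have hB := dualB_nonneg (K := K) (L := L) (X := X) (by linarith) (by linarith) hX.le
  calc _ ≤ ∑ k ∈ R, C2 * Z ^ (ε / 3) * ∑ e ∈ (ball K).filter Prim,
        ‖∑ n ∈ ball X, u n * qua k n * ∑ l ∈ S.filter (fun l => e ∣ l), β l * cub l n‖ ^ 2 := by
        refine Finset.sum_le_sum fun k hk => ?_
        obtain ⟨k1, -, -, k4⟩ := hR k hk
        have e1 : ∀ n, ∑ l ∈ S.filter (fun l => IsCoprime l k), β l * cub l n =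
            ∑ e ∈ pdiv k, mu e * ∑ l ∈ S.filter (fun l => e ∣ l), β l * cub l n := by
          intro n
          simp only [Finset.sum_filter, Finset.mul_sum]
          rw [Finset.sum_comm]
          refine Finset.sum_congr rfl fun l _ => ?_
          have := congrArg (· * (β l * cub l n)) (sum_mu_coprime k1 l)
          simp only [Finset.sum_filter, Finset.sum_mul, ite_mul, one_mul, zero_mul] at this
          simp only [mul_ite, mul_zero]
          exact this.symm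
        have e2 : ∑ n ∈ ball X, u n * qua k n *
            ∑ l ∈ S.filter (fun l => IsCoprime l k), β l * cub l n =
            ∑ e ∈ pdiv k, mu e * ∑ n ∈ ball X, u n * qua k n *
              ∑ l ∈ S.filter (fun l => e ∣ l), β l * cub l n := by
          simp only [e1, Finset.mul_sum (pdiv k), Finset.mul_sum (ball X)]
          rw [Finset.sum_comm]
          exact Finset.sum_congr rfl fun e _ => Finset.sum_congr rfl fun n _ => by ring
        rw [e2]
        refine (pow_le_pow_left₀ (norm_nonneg _) (norm_sum_le _ _) 2).trans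
          (sq_sum_le_card_mul_sum_sq.trans ?_)
        refine mul_le_mul (h2 Z hZ k k1.ne_zero (k4.trans hK2)) ?_
          (Finset.sum_nonneg fun _ _ => sq_nonneg _) (by positivity)
        refine (Finset.sum_le_sum fun e _ => ?_).trans
          (Finset.sum_le_sum_of_subset_of_nonneg (fun e he => ?_) fun _ _ _ => sq_nonneg _)
        · rw [norm_mul]
          exact pow_le_pow_left₀ (by positivity)
            (mul_le_of_le_one_left (norm_nonneg _) (norm_mu_le e)) 2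
        · obtain ⟨a1, a2⟩ := (mem_pdiv k1.ne_zero).1 he
          exact Finset.mem_filter.2
            ⟨mem_ball.2 ⟨a1.ne_zero, (N_le_of_dvd k1.ne_zero a2).trans k4⟩, a1⟩
    _ ≤ C2 * Z ^ (ε / 3) * ∑ e ∈ (ball K).filter Prim,
        C1 * Z ^ (ε / 3) * N Q * U ^ 2 * dualB K L X * (N e)⁻¹ := by
        rw [← Finset.mul_sum, Finset.sum_comm]
        refine mul_le_mul_of_nonneg_left (Finset.sum_le_sum fun e he => ?_) (by positivity)
        exact h1 Z hZ Q hQ hQ3 U u hU hu R S β K L X hR hS hβ hK1 hK2 hL hX hXZ e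
          (Finset.mem_filter.1 he).2
    _ ≤ C2 * Z ^ (ε / 3) * (C1 * Z ^ (ε / 3) * N Q * U ^ 2 * dualB K L X * (C3 * Z ^ (ε / 3))) := by
        rw [← Finset.mul_sum]
        have := h3 Z hZ ((ball K).filter Prim) fun e he =>
          ⟨(mem_ball.1 (Finset.mem_filter.1 he).1).1,
            (mem_ball.1 (Finset.mem_filter.1 he).1).2.trans hK2⟩
        gcongr
    _ = _ := by
        have e2 : Z ^ ε = (Z ^ (ε / 3)) ^ 3 := by
          rw [← Real.rpow_natCast, ← Real.rpow_mul hZ0.le]; congr 1; push_cast; ring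
        rw [e2]; ring

end TN
end Crest.Agent.R17
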