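import Crest.Agent.R17.ThetaNorm_Split

/-!
# R17 / ThetaNorm_Exp : additive expansion of `conj χ_r` for powerful `r` (task).  Statements frozen.
-/

set_option autoImplicit false

noncomputable section

open scoped Classical ComplexConjugate
open MeasureTheory

namespace Crest.Agent.R17
namespace TN

theorem Expn.mono {r : O} {f : O → ℂ} {W W' : ℝ} (h : Expn r f W) (hW : W ≤ W') : Expn r f W' := by
  obtain ⟨ι, s, c, ρ, ω, D, h1, h2, h3⟩ := h
  exact ⟨ι, s, c, ρ, ω, D, h1, h2, h3.trans hW⟩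

theorem exp_isChar_one : IsChar (1 : O) (fun _ => (1 : ℂ)) :=
  ⟨rfl, fun _ _ => (one_mul _).symm, fun _ _ => rfl, fun n => by simp [isCoprime_one_right]⟩

theorem exp_dual_one (n : O) : ‖gs 1 (dual 1 (fun _ => 1)) n‖ ≤ 1 := by
  rw [(s3_unit isUnit_one (isChar_dual Prim.one exp_isChar_one) n).2, norm_one]

theorem Expn.nonneg {r : O} {f : O → ℂ} {W : ℝ} (h : Expn r f W) : 0 ≤ W := by
  obtain ⟨ι, s, c, ρ, ω, D, h1, _, h3⟩ := h
  exact le_trans (Finset.sum_nonneg (fun i hi => mul_nonneg (norm_nonneg _)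
    ((norm_nonneg _).trans ((h1 i hi).2.2.2 0)))) h3

/-- one term `ρ = 1`, `ω = 1` (`s3_unit`) -/
theorem expn_one : Expn 1 (fun _ => 1) 1 := by
  refine ⟨Unit, {()}, fun _ => 1, fun _ => 1, fun _ _ => 1, fun _ => 1,
    fun _ _ => ⟨Prim.one, by simp, exp_isChar_one, exp_dual_one⟩, fun m => ?_, by simp⟩
  simp [(s3_unit isUnit_one exp_isChar_one m).2]

/-- index set `s ×ˢ s'`, moduli `ρ i * ρ' j`, characters `ω i * ω' j`; by `gs_mul` the new coefficient is
`c i * c' j * (ω i (ρ' j) * ω' j (ρ i))⁻¹` (unimodular correction); `dual (ρ ρ') (ω ω') = dual ρ ω * dual ρ' ω'`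
pointwise, so `gs_mul` bounds the dual Gauss sum by `D i * D' j`. -/
theorem Expn.mul {r r' : O} {f f' : O → ℂ} {W W' : ℝ} (h : Expn r f W) (h' : Expn r' f' W')
    (hc : IsCoprime r r') : Expn (r * r') (fun m => f m * f' m) (W * W') := by
  have hW := h.nonneg
  obtain ⟨ι, s, c, ρ, ω, D, h1, h2, h3⟩ := h
  obtain ⟨ι', s', c', ρ', ω', D', h1', h2', h3'⟩ := h'
  have hcop : ∀ i ∈ s, ∀ j ∈ s', IsCoprime (ρ i) (ρ' j) := fun i hi j hj =>
    (hc.of_isCoprime_of_dvd_left ((dvd_pow_self _ two_ne_zero).trans (h1 i hi).2.1)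
      ).of_isCoprime_of_dvd_right ((dvd_pow_self _ two_ne_zero).trans (h1' j hj).2.1)
  have hn1 : ∀ i ∈ s, ∀ j ∈ s', ‖ω i (ρ' j) * ω' j (ρ i)‖ = 1 := fun i hi j hj => by
    rw [norm_mul, (h1 i hi).2.2.1.norm_eq_one (h1 i hi).1.ne_zero (hcop i hi j hj).symm,
      (h1' j hj).2.2.1.norm_eq_one (h1' j hj).1.ne_zero (hcop i hi j hj), mul_one]
  refine ⟨ι × ι', s ×ˢ s', fun p => c p.1 * c' p.2 * (ω p.1 (ρ' p.2) * ω' p.2 (ρ p.1))⁻¹,
    fun p => ρ p.1 * ρ' p.2, fun p x => ω p.1 x * ω' p.2 x, fun p => D p.1 * D' p.2, ?_, ?_, ?_⟩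
  · rintro ⟨i, j⟩ hp
    obtain ⟨hi, hj⟩ := Finset.mem_product.1 hp
    obtain ⟨a1, a2, a3, a4⟩ := h1 i hi
    obtain ⟨b1, b2, b3, b4⟩ := h1' j hj
    refine ⟨a1.mul b1, by rw [mul_pow]; exact mul_dvd_mul a2 b2, a3.mul_moduli b3, fun n => ?_⟩
    have e : dual (ρ i * ρ' j) (fun x => ω i x * ω' j x) =
        fun x => dual (ρ i) (ω i) x * dual (ρ' j) (ω' j) x := by
      funext x
      unfold dual cub
      rw [sym_mul_left 3 a1.ne_zero b1.ne_zero, map_mul, map_mul]
      ring
    have d1 := isChar_dual a1 a3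
    have d2 := isChar_dual b1 b3
    simp only
    rw [e, gs_mul a1.ne_zero b1.ne_zero (hcop i hi j hj) d1 d2, norm_mul, norm_mul, norm_mul,
      d1.norm_eq_one a1.ne_zero (hcop i hi j hj).symm, d2.norm_eq_one b1.ne_zero (hcop i hi j hj),
      one_mul, one_mul]
    exact mul_le_mul (a4 n) (b4 n) (norm_nonneg _) ((norm_nonneg _).trans (a4 n))
  · intro m
    beta_reduce
    rw [h2 m, h2' m, Finset.sum_mul_sum, Finset.sum_product]
    refine Finset.sum_congr rfl (fun i hi => Finset.sum_congr rfl (fun j hj => ?_))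
    have hne : ω i (ρ' j) * ω' j (ρ i) ≠ 0 := by
      intro h0
      have := hn1 i hi j hj
      rw [h0, norm_zero] at this
      exact zero_ne_one this
    simp only
    rw [gs_mul (h1 i hi).1.ne_zero (h1' j hj).1.ne_zero (hcop i hi j hj) (h1 i hi).2.2.1
      (h1' j hj).2.2.1]
    generalize ω i (ρ' j) * ω' j (ρ i) = u at hne
    field_simp
  · rw [Finset.sum_product]
    calc _ = (∑ i ∈ s, ‖c i‖ * D i) * ∑ j ∈ s', ‖c' j‖ * D' j := by
          rw [Finset.sum_mul_sum]
          refine Finset.sum_congr rfl (fun i hi => Finset.sum_congr rfl (fun j hj => ?_))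
          simp only
          rw [norm_mul, norm_inv, hn1 i hi j hj, norm_mul]
          ring
      _ ≤ _ := mul_le_mul h3 h3' (Finset.sum_nonneg (fun j hj => mul_nonneg (norm_nonneg _)
          ((norm_nonneg _).trans ((h1' j hj).2.2.2 0)))) hW

theorem exp_six {p : O} (hp' : Prim p) (h2 : IsCoprime p 2) : IsCoprime p 6 := by
  have := h2.mul_right hp'.isCoprime_three
  rwa [show (2 : O) * 3 = 6 by norm_num] at this

theorem exp_isChar_chi {p : O} (h6 : IsCoprime p 6) : IsChar p (chi p) :=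
  sym_isChar (k := 6) (by simp) h6

theorem exp_dual {p : O} (h6 : IsCoprime p 6) (v : ℕ) :
    dual p (fun x => chi p x ^ v) = fun x => chi p x ^ (5 * (v + 2)) := by
  funext x
  unfold dual
  rw [← chi_sq h6, ← map_mul, ← pow_add, map_pow, conj_chi h6, pow_mul]

theorem exp_norm_dual {p : O} (hp : Prime p) (h6 : IsCoprime p 6) {v : ℕ} (hv : v % 6 ≠ 4) (n : O) :
    ‖gs p (dual p (fun x => chi p x ^ v)) n‖ ≤ Real.sqrt (N p) := by
  have hj : ¬ 6 ∣ 5 * (v + 2) := by omega
  rw [exp_dual h6, gs_chi_pow h6 hp.squarefree hj, norm_mul, norm_gs_chi_pow h6 hp.squarefree hj,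
    Complex.norm_conj]
  exact mul_le_of_le_one_left (Real.sqrt_nonneg _)
    (((exp_isChar_chi h6).pow_char (by omega)).norm_le hp.ne_zero n)

/-- `6 ∤ v`: one term `ω = χ_p^v`, `c = (gs p ω 1)⁻¹` (`gs_chi_pow`, `norm_gs_chi_pow`),
`dual p ω = conj χ_p^(v+2) = χ_p^(5(v+2))`: `D = √N p` if `6 ∤ v + 2`, and `D = N p` always (`norm_gs_le`).
`6 ∣ v`: `conj χ_p^v = 1_{p ∤ m} = (1 - 1/N p) - (1/N p) gs p (one1 p) m` (`gs_prime_princ` or
`dvd_eq_sum_ramanujan`), `dual p (one1 p) = χ_p^4`, `D = 1` and `D = √N p`. -/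
theorem expn_prime_pow {p : O} (hp : Prime p) (hp' : Prim p) (h2 : IsCoprime p 2) {v : ℕ}
    (hv : 2 ≤ v) : Expn (p ^ v) (fun m => conj (chi (p ^ v) m))
      (2 * if v % 6 = 4 then Real.sqrt (N p) else 1) := by
  have h6 := exp_six hp' h2
  have hω : IsChar p (fun x => chi p x ^ v) := (exp_isChar_chi h6).pow_char (by omega)
  have hN := N_pos hp.ne_zero
  have hN1 := one_le_N hp.ne_zero
  have hs := Real.sqrt_pos.2 hN
  have hss := Real.mul_self_sqrt hN.le
  have hpv : p ^ 2 ∣ p ^ v := pow_dvd_pow p hv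
  have hchi : ∀ m, chi (p ^ v) m = chi p m ^ v := fun m => sym_pow_left 6 hp.ne_zero v m
  by_cases h0 : 6 ∣ v
  · have hval : ∀ m, chi p m ^ v = if IsCoprime m p then 1 else 0 := by
      intro m
      obtain ⟨j, rfl⟩ := h0
      have := sym_pow_eq (k := 6) (by simp) h6 m
      rw [pow_mul, chi, this]
      split_ifs
      · exact one_pow _
      · exact zero_pow (by omega)
    have hnp : ¬ NonPrinc p (fun x => chi p x ^ v) := by
      rintro ⟨n, hn, hn'⟩
      exact hn' (by simp only; rw [hval, if_pos hn])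
    refine ⟨Bool, Finset.univ, fun b => cond b (1 - (N p : ℂ)⁻¹) (-(N p : ℂ)⁻¹),
      fun b => cond b 1 p, fun b => cond b (fun _ => 1) (fun x => chi p x ^ v),
      fun b => cond b 1 (Real.sqrt (N p)), ?_, fun m => ?_, ?_⟩
    · rintro (_ | _) _
      · exact ⟨hp', hpv, hω, exp_norm_dual hp h6 (by omega)⟩
      · exact ⟨Prim.one, by simp, exp_isChar_one, exp_dual_one⟩
    · have hN' : (N p : ℂ) ≠ 0 := by exact_mod_cast hN.ne'
      simp only [Fintype.sum_bool, cond_true, cond_false]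
      rw [(s3_unit isUnit_one exp_isChar_one m).2, gs_prime_princ hp hω hnp, hchi, hval]
      by_cases hm : p ∣ m
      · rw [if_pos hm, if_neg (fun hc => hp.not_isUnit (hc.isUnit_of_dvd' hm dvd_rfl))]
        field_simp
        simp
      · rw [if_neg hm, if_pos (hp.irreducible.coprime_iff_not_dvd.2 hm).symm]
        simp
    · simp only [Fintype.sum_bool, cond_true, cond_false]
      rw [if_neg (by omega)]
      have a1 : ‖1 - (N p : ℂ)⁻¹‖ ≤ 1 := by
        have : 1 - (N p : ℂ)⁻¹ = ((1 - (N p)⁻¹ : ℝ) : ℂ) := by push_cast; rfl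
        have b1 : (N p)⁻¹ ≤ 1 := inv_le_one_of_one_le₀ hN1
        have b2 : 0 ≤ (N p)⁻¹ := by positivity
        rw [this, Complex.norm_real, Real.norm_of_nonneg (by linarith)]
        linarith
      have a2 : ‖-(N p : ℂ)⁻¹‖ * Real.sqrt (N p) ≤ 1 := by
        rw [norm_neg, norm_inv, Complex.norm_real, Real.norm_of_nonneg hN.le,
          inv_mul_le_iff₀ hN, mul_one]
        have : 1 ≤ Real.sqrt (N p) := Real.one_le_sqrt.2 hN1
        nlinarith
      linarith
  · have hg := norm_gs_chi_pow h6 hp.squarefree h0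
    have hg0 : gs p (fun x => chi p x ^ v) 1 ≠ 0 := by
      intro h
      rw [h, norm_zero] at hg
      exact hs.ne hg
    refine ⟨Unit, {()}, fun _ => (gs p (fun x => chi p x ^ v) 1)⁻¹, fun _ => p,
      fun _ x => chi p x ^ v, fun _ => if v % 6 = 4 then N p else Real.sqrt (N p),
      fun _ _ => ⟨hp', hpv, hω, fun n => ?_⟩, fun m => ?_, ?_⟩
    · split_ifs with h4
      · exact norm_gs_le hp.ne_zero ((isChar_dual hp' hω).norm_le hp.ne_zero) n
      · exact exp_norm_dual hp h6 h4 n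
    · beta_reduce
      rw [Finset.sum_singleton, gs_chi_pow h6 hp.squarefree h0 m, hchi]
      field_simp
    · rw [Finset.sum_singleton, norm_inv, hg]
      split_ifs
      · rw [inv_mul_le_iff₀ hs]; nlinarith
      · rw [inv_mul_cancel₀ hs.ne']; norm_num

/-- Strong induction on `nm r`: `r = p^v r₁`, `p ∤ r₁` (`Prim.exists_prime_dvd`, `WfDvdMonoid.max_power_factor`),
`v ≥ 2`, `r₁` primary and powerful.  If `v % 6 = 4` take `(p r₄, p^(v-2) r')`, otherwise `(r₄, p^v r')`;
`insert p ((pdiv r₁).filter Prime) ⊆ (pdiv r).filter Prime`. -/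
theorem expn {r : O} (hr : Prim r) (h2 : IsCoprime r 2) (hw : Pw r) :
    ∃ r4 r' : O, Prim r4 ∧ r = r4 ^ 2 * r' ∧ r4 ∣ r' ∧ Pw r' ∧
      Expn r (fun m => conj (chi r m))
        (2 ^ ((pdiv r).filter Prime).card * Real.sqrt (N r4)) := by
  induction h : nm r using Nat.strong_induction_on generalizing r with
  | _ k ih =>
    by_cases h1 : r = 1
    · subst h1
      refine ⟨1, 1, Prim.one, by simp, dvd_rfl, hw, ?_⟩
      have : (fun m => conj (chi 1 m)) = fun _ => (1 : ℂ) := by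
        funext m; rw [chi, sym_one, map_one]
      rw [this]
      refine expn_one.mono ?_
      rw [N_one, Real.sqrt_one, mul_one]
      exact one_le_pow₀ (by norm_num)
    obtain ⟨p, hp, hp', hpr⟩ := hr.exists_prime_dvd h1
    obtain ⟨v, r1, hnd, rfl⟩ := WfDvdMonoid.max_power_factor hr.ne_zero hp.irreducible
    have hcop : IsCoprime p r1 := hp.irreducible.coprime_iff_not_dvd.2 hnd
    have hr1 : Prim r1 := hr.of_mul_left (hp'.pow v)
    have hv : 2 ≤ v := by
      have := (hcop.pow_left (m := 2)).dvd_of_dvd_mul_right (hw p hp hpr)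
      exact (pow_dvd_pow_iff hp.ne_zero hp.not_isUnit).1 this
    have hw1 : Pw r1 := by
      intro q hq hq1
      have hqp : IsCoprime q p := by
        rw [hq.irreducible.coprime_iff_not_dvd]
        intro hd
        exact hq.not_isUnit (hcop.isUnit_of_dvd' hd hq1)
      exact (hqp.pow (m := 2) (n := v)).dvd_of_dvd_mul_left (hw q hq (hq1.mul_left _))
    have hp2 : IsCoprime p 2 := h2.of_isCoprime_of_dvd_left hpr
    have hlt : nm r1 < k := by
      have a1 : (2 : ℝ) ≤ N p := Prime.two_le_N hp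
      have a2 := N_pos hr1.ne_zero
      have a3 : N p ≤ N p ^ v := le_self_pow₀ (by linarith) (by omega)
      have : N r1 < N (p ^ v * r1) := by rw [N_mul, N_pow]; nlinarith
      rw [← h]
      unfold N at this
      exact_mod_cast this
    obtain ⟨r4, r', a1, a2, a3, a4, a5⟩ := ih _ hlt hr1 h2.of_mul_left_right hw1 rfl
    have hE := (expn_prime_pow hp hp' hp2 hv).mul a5 (hcop.pow_left (m := v))
    have hf : (fun m => conj (chi (p ^ v * r1) m)) =
        fun m => conj (chi (p ^ v) m) * conj (chi r1 m) := by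
      funext m
      rw [chi, sym_mul_left 6 (pow_ne_zero _ hp.ne_zero) hr1.ne_zero, map_mul]
      rfl
    have hcard : ((pdiv r1).filter Prime).card + 1 ≤ ((pdiv (p ^ v * r1)).filter Prime).card := by
      rw [← Finset.card_insert_of_notMem (a := p) (by
        rw [Finset.mem_filter, mem_pdiv hr1.ne_zero]
        exact fun hc => hnd hc.1.2)]
      refine Finset.card_le_card (fun q hq => ?_)
      rw [Finset.mem_filter, mem_pdiv hr.ne_zero]
      rcases Finset.mem_insert.1 hq with rfl | hq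
      · exact ⟨⟨hp', hpr⟩, hp⟩
      · rw [Finset.mem_filter, mem_pdiv hr1.ne_zero] at hq
        exact ⟨⟨hq.1.1, hq.1.2.mul_left _⟩, hq.2⟩
    have hpow : (2 : ℝ) * 2 ^ ((pdiv r1).filter Prime).card ≤
        2 ^ ((pdiv (p ^ v * r1)).filter Prime).card := by
      rw [← pow_succ']
      exact pow_le_pow_right₀ (by norm_num) hcard
    have hPw : ∀ j, 2 ≤ j → Pw (p ^ j * r') := by
      intro j hj q hq hd
      rcases hq.dvd_or_dvd hd with hd | hd
      · exact ((pow_dvd_pow_of_dvd (hq.dvd_of_dvd_pow hd) 2).trans (pow_dvd_pow p hj)).mul_right _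
      · exact (a4 q hq hd).mul_left _
    rw [hf]
    by_cases h4 : v % 6 = 4
    · obtain ⟨j, rfl⟩ : ∃ j, v = j + 2 := ⟨v - 2, by omega⟩
      refine ⟨p * r4, p ^ j * r', hp'.mul a1, by rw [a2]; ring,
        mul_dvd_mul (dvd_pow_self p (by omega)) a3, hPw j (by omega), hE.mono ?_⟩
      rw [if_pos h4, N_mul, Real.sqrt_mul (N_nonneg p)]
      calc _ = 2 * 2 ^ ((pdiv r1).filter Prime).card * (Real.sqrt (N p) * Real.sqrt (N r4)) := by
            ring
        _ ≤ _ := mul_le_mul_of_nonneg_right hpow (by positivity)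
    · refine ⟨r4, p ^ v * r', a1, by rw [a2]; ring, a3.mul_left _, hPw v hv, hE.mono ?_⟩
      rw [if_neg h4]
      calc _ = 2 * 2 ^ ((pdiv r1).filter Prime).card * Real.sqrt (N r4) := by ring
        _ ≤ _ := mul_le_mul_of_nonneg_right hpow (by positivity)

end TN
end Crest.Agent.R17
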