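import Crest.Agent.R17.ThetaNorm_Aux

/-!
# R17 / ThetaNorm_Split : Gauss sum algebra (task).  Statements frozen.

`k, l` primary, squarefree, odd; `ρ` primary; pairwise coprime.  `c₁ = k ρ l`, `ψ = χ_k · ω · 1_l`.
-/

set_option autoImplicit false

noncomputable section

open scoped Classical ComplexConjugate
open MeasureTheory

namespace Crest.Agent.R17
namespace TN

variable {k ρ l : O} {ω : O → ℂ}

theorem isChar_one1 (e : O) : IsChar e (one1 e) := s3_princ e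

theorem isChar_dual (hρ : Prim ρ) (hω : IsChar ρ ω) : IsChar ρ (dual ρ ω) := by
  exact hω.conj.mul_char (rcub_isChar hρ).conj

theorem isChar_psi (hk6 : IsCoprime k 6) (hω : IsChar ρ ω) :
    IsChar (k * ρ * l) (fun x => chi k x * ω x * one1 l x) := by
  exact ((rkey_chi hk6).mul_moduli hω).mul_moduli (isChar_one1 l)

/-- `gs_mul` twice, `gs_chi_pow` with `j = 1`; `one1 l (k ρ) = 1` -/
theorem gs_split (hk6 : IsCoprime k 6) (hks : Squarefree k) (hρ : ρ ≠ 0) (hl : l ≠ 0)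
    (hω : IsChar ρ ω) (hkρ : IsCoprime k ρ) (hkl : IsCoprime k l) (hρl : IsCoprime ρ l) (m : O) :
    gs (k * ρ * l) (fun x => chi k x * ω x * one1 l x) m =
      (chi k ρ * ω k * gs k (chi k) 1) * ω l * chi k l *
        (conj (chi k m) * gs ρ ω m * gs l (one1 l) m) := by
  have hk : k ≠ 0 := rkey_ne (rkey_two hk6)
  have h1 := gs_mul (mul_ne_zero hk hρ) hl (hkl.mul_left hρl) ((rkey_chi hk6).mul_moduli hω)
    (isChar_one1 l) m
  have h2 := gs_mul hk hρ hkρ (rkey_chi hk6) hω m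
  have h3 := gs_chi_pow hk6 hks (j := 1) (by norm_num) m
  simp only [pow_one] at h3
  have h4 : one1 l (k * ρ) = 1 := if_pos (hkl.mul_left hρl)
  beta_reduce at h1
  rw [h1, h2, h4]
  change _ * _ * (_ * _ * gs k (fun x => chi k x) m * _) * _ = _
  rw [h3]
  change _ = _ * _ * gs k (fun x => chi k x) 1 * _ * _ * _
  ring

theorem sp_three {l : O} (h : IsCoprime l 6) : IsCoprime l 3 :=
  h.of_isCoprime_of_dvd_right ⟨2, by norm_num⟩

theorem sp_conj_cub {l : O} (h : IsCoprime l 6) :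
    (fun x => conj (cub l x)) = fun x => chi l x ^ 4 := by
  funext x
  rw [conj_cub (sp_three h), ← chi_sq h, ← pow_mul]

theorem sp_gs_cub {l : O} (h : IsCoprime l 6) (hs : Squarefree l) (n : O) :
    gs l (fun x => conj (cub l x)) n = cub l n * gs l (fun x => conj (cub l x)) 1 := by
  have e := congrFun (sp_conj_cub h) n
  rw [sp_conj_cub h, gs_chi_pow h hs (j := 4) (by norm_num) n, ← e, Complex.conj_conj]

theorem sp_norm_gs_cub {l : O} (h : IsCoprime l 6) (hs : Squarefree l) :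
    ‖gs l (fun x => conj (cub l x)) 1‖ = Real.sqrt (N l) := by
  rw [sp_conj_cub h, norm_gs_chi_pow h hs (j := 4) (by norm_num)]

/-- `conj ψ · conj cub c₁ = qua k · dual ρ ω · conj cub l` pointwise (`sym_mul_left`, `chi_sq`, `chi_cube`, `conj_qua`);
`gs_mul` twice, `gs_qua`, `gs_chi_pow` with `j = 4` (`conj cub = cub² = χ⁴`). -/
theorem gs_split_dual (hk6 : IsCoprime k 6) (hks : Squarefree k) (hρ : Prim ρ) (hl6 : IsCoprime l 6)
    (hls : Squarefree l) (hω : IsChar ρ ω) (hkρ : IsCoprime k ρ) (hkl : IsCoprime k l)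
    (hρl : IsCoprime ρ l) (n : O) :
    gs (k * ρ * l)
        (fun x => conj (chi k x * ω x * one1 l x) * conj (cub (k * ρ * l) x)) n =
      (qua k ρ * dual ρ ω k * (Real.sqrt (N k) : ℂ) * gam k) *
        (dual ρ ω l * conj (cub l ρ) * gs l (fun x => conj (cub l x)) 1) *
        (qua k l * conj (cub l k)) * (gs ρ (dual ρ ω) n * qua k n * cub l n) := by
  have hk2 := rkey_two hk6
  have hk : k ≠ 0 := rkey_ne hk2
  have hl : l ≠ 0 := rkey_ne (rkey_two hl6)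
  have hl3 := sp_three hl6
  have hcl : IsChar l (cub l) := sym_isChar (k := 3) (by norm_num) (by exact_mod_cast hl3)
  have e : (fun x => conj (chi k x * ω x * one1 l x) * conj (cub (k * ρ * l) x)) =
      fun x => (qua k x * dual ρ ω x) * conj (cub l x) := by
    funext x
    have e1 : cub (k * ρ * l) x = cub k x * cub ρ x * cub l x := by
      unfold cub
      rw [sym_mul_left 3 (mul_ne_zero hk hρ.ne_zero) hl, sym_mul_left 3 hk hρ.ne_zero]
    have e2 : conj (chi k x) * conj (cub k x) = qua k x := by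
      rw [← map_mul, ← chi_sq hk6, ← pow_succ', chi_cube hk6, conj_qua hk2]
    have e3 : conj (one1 l x) * conj (cub l x) = conj (cub l x) := by
      unfold one1
      split_ifs with h
      · rw [map_one, one_mul]
      · rw [(hcl.zero_iff x).2 h, map_zero, mul_zero]
    rw [e1, ← e2, dual]
    simp only [map_mul]
    linear_combination (conj (chi k x) * conj (cub k x) * conj (ω x) * conj (cub ρ x)) * e3
  have h1 := gs_mul (mul_ne_zero hk hρ.ne_zero) hl (hkl.mul_left hρl)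
    ((rkey_qua hk2).mul_moduli (isChar_dual hρ hω)) hcl.conj n
  have h2 := gs_mul hk hρ.ne_zero hkρ (rkey_qua hk2) (isChar_dual hρ hω) n
  beta_reduce at h1
  rw [e, h1, h2, gs_qua hk2 hks, sp_gs_cub hl6 hls n, hcl.mul, map_mul]
  ring

/-- `chi_eq_qua_mul`, `cub_rec`: the cross factors cancel -/
theorem cross (hk : Prim k) (hk2 : IsCoprime k 2) (hl : Prim l) :
    qua k l * conj (cub l k) = chi k l := by
  rw [chi_eq_qua_mul (rkey_six hk hk2), cub_rec hk hl]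

/-- the `ρ`-factor -/
def spR (ja : ℤ) (R1 R2 : O) (κQ : ℝ) (ρ : O) (ω : O → ℂ) (t : ℝ) : ℂ :=
  conj (ω R1) * cub ρ R2 * ang ρ ^ ja * (N ρ : ℂ) ^ (-(2 * t * Complex.I)) *
    Complex.exp (-(κQ * t * Complex.I))

/-- the `k`-factor -/
def spA (ja : ℤ) (R1 R2 : O) (ρ : O) (ω : O → ℂ) (t : ℝ) (k : O) : ℂ :=
  (chi k ρ * ω k * gs k (chi k) 1)⁻¹ *
    (qua k ρ * dual ρ ω k * (Real.sqrt (N k) : ℂ) * gam k) *
    (conj (chi k R1) * cub k R2 * ang k ^ ja * (N k : ℂ) ^ (-(2 * t * Complex.I)))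

/-- the `l`-factor -/
def spB (ja : ℤ) (R1 R2 : O) (ρ : O) (ω : O → ℂ) (t : ℝ) (l : O) : ℂ :=
  (ω l)⁻¹ *
    (dual ρ ω l * conj (cub l ρ) * (gs l (fun x => conj (cub l x)) 1 / (Real.sqrt (N l) : ℂ))) *
    (conj (one1 l R1) * cub l R2 * ang l ^ ja * (N l : ℂ) ^ (-(2 * t * Complex.I)))

theorem sp_hz (t : ℝ) {x : O} (hx : x ≠ 0) : ‖(N x : ℂ) ^ (-(2 * t * Complex.I))‖ = 1 := by
  rw [Complex.norm_cpow_eq_rpow_re_of_pos (N_pos hx)]
  simp

theorem sp_hang (ja : ℤ) {x : O} (hx : x ≠ 0) : ‖ang x ^ ja‖ = 1 := by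
  rw [norm_zpow, norm_ang hx, one_zpow]

theorem sp_hcub {x : O} (hx : Prim x) (d : O) : ‖cub x d‖ ≤ 1 :=
  (rcub_isChar hx).norm_le hx.ne_zero d

theorem sp_normR (ja : ℤ) (R1 R2 : O) (κQ : ℝ) (hρ : Prim ρ) (hω : IsChar ρ ω) (t : ℝ) :
    ‖spR ja R1 R2 κQ ρ ω t‖ ≤ 1 := by
  have hρ0 := hρ.ne_zero
  have e : ‖Complex.exp (-(κQ * t * Complex.I))‖ = 1 := by
    rw [Complex.norm_exp]; simp
  rw [spR, norm_mul, norm_mul, norm_mul, norm_mul, sp_hz t hρ0, sp_hang ja hρ0, e, mul_one,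
    mul_one, mul_one]
  exact mul_le_one₀ (by rw [RCLike.norm_conj]; exact hω.norm_le hρ0 _) (norm_nonneg _)
    (sp_hcub hρ _)

theorem sp_norma (hρ : Prim ρ) (hω : IsChar ρ ω) (hk : Prim k) (hks : Squarefree k)
    (hk2 : IsCoprime k 2) (hkρ : IsCoprime k ρ) :
    ‖chi k ρ * ω k * gs k (chi k) 1‖ = Real.sqrt (N k) := by
  have hk6 := rkey_six hk hk2
  have h3 := norm_gs_chi_pow hk6 hks (j := 1) (by norm_num)
  simp only [pow_one] at h3
  rw [norm_mul, norm_mul, (rkey_chi hk6).norm_eq_one hk.ne_zero hkρ.symm,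
    hω.norm_eq_one hρ.ne_zero hkρ, one_mul, one_mul]
  exact h3

theorem sp_normA (ja : ℤ) (R1 R2 : O) (t : ℝ) (hρ : Prim ρ) (hω : IsChar ρ ω) (hk : Prim k)
    (hks : Squarefree k) (hk2 : IsCoprime k 2) (hkρ : IsCoprime k ρ) :
    ‖spA ja R1 R2 ρ ω t k‖ ≤ 1 := by
  have hk0 := hk.ne_zero
  have hk6 := rkey_six hk hk2
  have hs : 0 < Real.sqrt (N k) := Real.sqrt_pos.2 (N_pos hk0)
  rw [spA, norm_mul, norm_mul, norm_inv, sp_norma hρ hω hk hks hk2 hkρ, norm_mul, norm_mul,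
    norm_mul, norm_mul, norm_mul, norm_mul, sp_hz t hk0, sp_hang ja hk0, norm_gam hk2,
    Complex.norm_real, Real.norm_of_nonneg hs.le]
  have h1 := (rkey_qua hk2).norm_le hk0 ρ
  have h2 := (isChar_dual hρ hω).norm_le hρ.ne_zero k
  have h3 : ‖conj (chi k R1)‖ ≤ 1 := by
    rw [RCLike.norm_conj]; exact (rkey_chi hk6).norm_le hk0 R1
  have h4 := sp_hcub hk R2
  have h5 := mul_le_one₀ (mul_le_one₀ h1 (norm_nonneg _) h2) (by positivity)
    (mul_le_one₀ h3 (norm_nonneg _) h4)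
  refine le_trans (le_of_eq ?_) h5
  rw [mul_one, mul_one, mul_one, mul_comm _ (Real.sqrt (N k)), inv_mul_cancel_left₀ hs.ne']

theorem sp_normB (ja : ℤ) (R1 R2 : O) (t : ℝ) (hρ : Prim ρ) (hω : IsChar ρ ω) (hl : Prim l)
    (hls : Squarefree l) (hl2 : IsCoprime l 2) (hlρ : IsCoprime l ρ) :
    ‖spB ja R1 R2 ρ ω t l‖ ≤ 1 := by
  have hl0 := hl.ne_zero
  have hl6 := rkey_six hl hl2
  have hs : 0 < Real.sqrt (N l) := Real.sqrt_pos.2 (N_pos hl0)
  rw [spB, norm_mul, norm_mul, norm_inv, hω.norm_eq_one hρ.ne_zero hlρ, norm_mul, norm_mul,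
    norm_div, sp_norm_gs_cub hl6 hls, norm_mul, norm_mul, norm_mul, sp_hz t hl0, sp_hang ja hl0,
    Complex.norm_real, Real.norm_of_nonneg hs.le, div_self hs.ne', RCLike.norm_conj, inv_one,
    one_mul, mul_one, mul_one, mul_one]
  exact mul_le_one₀ (mul_le_one₀ ((isChar_dual hρ hω).norm_le hρ.ne_zero l) (norm_nonneg _)
    (sp_hcub hl ρ)) (by positivity)
    (mul_le_one₀ (by rw [RCLike.norm_conj]; exact (isChar_one1 l).norm_le hl0 R1) (norm_nonneg _)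
      (sp_hcub hl R2))

theorem sp_pb (c : ℂ) (f g : O → ℂ) (y t : ℝ) :
    pb (fun m => f m * (c * g m)) y t = c * pb (fun m => f m * g m) y t := by
  unfold pb blk
  rw [← blks_smul]
  have : (prim fun m => f m * (c * g m)) = fun n => c * prim (fun m => f m * g m) n := by
    funext m
    unfold prim
    split_ifs
    · ring
    · rw [mul_zero]
  rw [this]

theorem sp_tsum (c e : ℂ) (a b d x y z : O → ℂ) :
    ∑' n : O, a n * (c * (b n * d n * x n)) * y n * e * z n =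
      c * e * ∑' n : O, a n * b n * d n * x n * y n * z n := by
  rw [← tsum_mul_left]
  exact tsum_congr fun n => by ring

theorem sp_alg {a w x s P T q1 q2 g c1 c2 c3 d1 d2 d3 e1 e2 e3 f1 f2 f3 E : ℂ}
    (ha : a ≠ 0) (hw : w ≠ 0) (hx : x ≠ 0) (hs : s ≠ 0)
    (h : a * w * x * P = c1 * c2 * c3 * (d1 * d2 * d3) * (e1 * e2 * e3) * (f1 * f2 * f3) *
      (q1 * (q2 * g) * x * E * T)) :
    P = a⁻¹ * q1 * (c1 * d1 * e1 * f1) * (c2 * d2 * e2 * f2 * E) *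
      (w⁻¹ * (q2 * (g / s)) * (c3 * d3 * e3 * f3)) * s * T := by
  have h1 : P = a⁻¹ * w⁻¹ * x⁻¹ * (a * w * x * P) := by field_simp
  have hx' := inv_mul_cancel₀ hx
  have hs' := inv_mul_cancel₀ hs
  rw [h1, h, div_eq_mul_inv]
  linear_combination (a⁻¹ * w⁻¹ * (c1 * c2 * c3 * (d1 * d2 * d3) * (e1 * e2 * e3) * (f1 * f2 * f3)) *
    q1 * q2 * g * E * T) * (hx' - hs')

/-- Multiply `VorId` (for `c₁`, `ψ`) by the inverse of the unimodular factors of `gs_split` (`blks_smul`).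
`A k = (χ_k(ρ) ω(k) gs k χ_k 1)⁻¹ · qua k ρ · dual ρ ω k · √N k · gam k · χ_k(R1) cub k R2 · ang k^ja N k^{-2it}` times the
`ρ`-factors `ω(R1) cub ρ R2 ang ρ^ja N ρ^{-2it} e^{-iκt}`, `B l = ω(l)⁻¹ dual ρ ω l · conj (cub l ρ) ·
gs l (conj cub) 1 / √N l · one1 l R1 · cub l R2 · ang l^ja N l^{-2it}`; set `A`, `B` to `0` outside the admissible `k`, `l`.
(`norm_gs_chi_pow`, `norm_gam`, `IsChar.norm_le`, `IsChar.norm_eq_one`, `ang_mul`, `mul_zpow`, `tsum_mul_left`.) -/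
theorem vor_split (𝒦 : ℝ → ℝ → ℂ) (ja : ℤ) (Q0 Q' R1 R2 : O) (κQ : ℝ) (hρ : Prim ρ)
    (hρQ : IsCoprime ρ Q0) (hω : IsChar ρ ω) (t : ℝ) :
    ∃ A B : O → ℂ, (∀ k, ‖A k‖ ≤ 1) ∧ (∀ l, ‖B l‖ ≤ 1) ∧
      ∀ (φ : O → ℂ) (cs : O) (τ' : O → ℂ), VorId 𝒦 ja Q0 Q' R1 R2 κQ φ cs τ' →
      ∀ k l : O, Prim k → Squarefree k → IsCoprime k 2 → IsCoprime k Q0 → IsCoprime k ρ →
        Prim l → Squarefree l → IsCoprime l 2 → IsCoprime l Q0 → IsCoprime l ρ → IsCoprime l k →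
        Q' ∣ k * ρ * l - cs → ∀ y : ℝ,
        pb (fun m => tt m * φ m * (conj (chi k m) * gs ρ ω m * gs l (one1 l) m)) y t =
          A k * B l * (Real.sqrt (N l) : ℂ) *
            ∑' n : O, τ' n * gs ρ (dual ρ ω) n * qua k n * cub l n *
              (N n : ℂ) ^ (-(1 / 2 : ℂ) + t * Complex.I) *
              𝒦 t (Real.log (N n) + y - 2 * Real.log (N (k * ρ * l)) - κQ) := by
  have hρ0 := hρ.ne_zero
  refine ⟨fun k => if Prim k ∧ Squarefree k ∧ IsCoprime k 2 ∧ IsCoprime k ρ then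
      spA ja R1 R2 ρ ω t k * spR ja R1 R2 κQ ρ ω t else 0,
    fun l => if Prim l ∧ Squarefree l ∧ IsCoprime l 2 ∧ IsCoprime l ρ then
      spB ja R1 R2 ρ ω t l else 0,
    fun k => ?_, fun l => ?_, ?_⟩
  · beta_reduce
    split_ifs with h
    · rw [norm_mul]
      exact mul_le_one₀ (sp_normA ja R1 R2 t hρ hω h.1 h.2.1 h.2.2.1 h.2.2.2) (norm_nonneg _)
        (sp_normR ja R1 R2 κQ hρ hω t)
    · simp
  · beta_reduce
    split_ifs with h
    · exact sp_normB ja R1 R2 t hρ hω h.1 h.2.1 h.2.2.1 h.2.2.2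
    · simp
  intro φ cs τ' hV k l hk hks hk2 hkQ hkρ hl hls hl2 hlQ hlρ hlk hcs y
  have hk0 := hk.ne_zero
  have hl0 := hl.ne_zero
  have hk6 := rkey_six hk hk2
  have hl6 := rkey_six hl hl2
  have h := hV (k * ρ * l) ((hk.mul hρ).mul hl) ((hkQ.mul_left hρQ).mul_left hlQ) hcs _
    (isChar_psi (l := l) hk6 hω) y t
  have ha0 : chi k ρ * ω k * gs k (chi k) 1 ≠ 0 := by
    rw [← norm_pos_iff, sp_norma hρ hω hk hks hk2 hkρ]
    exact Real.sqrt_pos.2 (N_pos hk0)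
  have hωl : ω l ≠ 0 := fun h0 => (hω.zero_iff l).1 h0 hlρ
  have hχ : chi k l ≠ 0 := fun h0 => ((rkey_chi hk6).zero_iff l).1 h0 hlk
  have hsl : (Real.sqrt (N l) : ℂ) ≠ 0 :=
    Complex.ofReal_ne_zero.2 (Real.sqrt_pos.2 (N_pos hl0)).ne'
  have e1 := funext (gs_split hk6 hks hρ0 hl0 hω hkρ hlk.symm hlρ.symm)
  have e2 := funext (gs_split_dual hk6 hks hρ hl6 hls hω hkρ hlk.symm hlρ.symm)
  rw [cross hk hk2 hl] at e2
  have e3 : cub (k * ρ * l) R2 = cub k R2 * cub ρ R2 * cub l R2 := by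
    unfold cub
    rw [sym_mul_left 3 (mul_ne_zero hk0 hρ0) hl0, sym_mul_left 3 hk0 hρ0]
  have e4 : ∀ z : ℂ, (N (k * ρ * l) : ℂ) ^ z = (N k : ℂ) ^ z * (N ρ : ℂ) ^ z * (N l : ℂ) ^ z := by
    intro z
    rw [N_mul, N_mul, Complex.ofReal_mul,
      Complex.mul_cpow_ofReal_nonneg (mul_nonneg (N_nonneg _) (N_nonneg _)) (N_nonneg _),
      Complex.ofReal_mul, Complex.mul_cpow_ofReal_nonneg (N_nonneg _) (N_nonneg _)]
  beta_reduce at h
  rw [e1, e2] at h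
  beta_reduce at h
  rw [sp_pb, sp_tsum, e3, e4, ang_mul, ang_mul, mul_zpow, mul_zpow, map_mul,
    map_mul] at h
  beta_reduce
  rw [if_pos ⟨hk, hks, hk2, hkρ⟩, if_pos ⟨hl, hls, hl2, hlρ⟩]
  exact sp_alg ha0 hωl hχ hsl h

end TN
end Crest.Agent.R17
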