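import Crest.Agent.R17.Reflect
import Crest.Agent.R17.VoC6
import Crest.Agent.R17.VoGam

/-!
# R17 / Voronoi : the cubic theta function and its Voronoi summation formula  (PART C)

Only the theorem `voronoi` is used by the rest of the project.  Complete proof plan:

**C1. Geometry.** `X = ℂ × ℝ_{>0}` (points `w = (z,v)`), `dμ = dz dv / v³`.  For
`g = (A B; C D) ∈ SL₂(ℂ)`: `g w = (((Az+B) conj(Cz+D) + A conj(C) v²)/Δ, v/Δ)`,
`Δ = |Cz+D|² + |C|²v²`.  It is an action (check via the Hermitian matrix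
`H(w) = v⁻¹ (|z|²+v², z; z̄, 1)`, `H(gw) = g H(w) g*`), `u(w,w') = (|z-z'|²+v²+v'²)/(2vv') ≥ 1` is
invariant (`u = ½ tr(H(w) adj H(w'))`), `μ` is invariant (Bruhat: `g = n(A/C) diag(1/C, C) S n(D/C)`;
`S` is inversion in the unit sphere composed with a reflection, Jacobian `‖x‖^{-6}`).
`Γ = Γ(3) ⊂ SL₂(O)` and, for a primary prime `p`, `Γ' = Γ ∩ Γ₀(p)` (`p ∣ c`).  They act properly
discontinuously (`u(gw,w) ≤ R` bounds the entries) and freely (torsion free: `(1+3X)^n = 1`; or only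
a.e.); so there is a measurable fundamental domain `F` (countable cover by small balls, or
`IsFundamentalDomain` by the standard "first ball meeting the orbit" construction).  Do everything
for a general subgroup `G ≤ Γ` containing some `Γ(Q)`(used for `G = Γ` and `G = Γ'`).
`κ(γ) = cub d c` is a homomorphism `Γ → μ₃` (`kubota`), trivial on `Γ_∞ = {n(b) : b ∈ 3O}`.
**C2. Hilbert space.** `H_G = L²(F_G, μ)`, identified with functions `f(γw) = conj κ(γ) f(w)`.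
`T f(w) = ∫_X k(u(w,w')) f(w') dμ(w')`, `k(u) = max(0, 2-u)` (continuous, `≥ 0`, compact support).
Schur test: bounded, self-adjoint.  `T v^s = ĥ(s) v^s`, `ĥ(s) = ∫ Qk(x) e^{(s-1)x} dx`,
`Qk(x) = π ∫_0^∞ k(r/2 + cosh x) dr` even, `≥ 0`, supported in `|x| ≤ R₀ = arcosh 2`; `ĥ` is entire,
`Im ĥ(1+a+ib) = ∫ Qk sinh(ax) sin(bx) > 0` for `a > 0`, `0 < b < 1`, and `ĥ'(4/3) > 0`.
Abstract lemma: `T` bounded self-adjoint, `μ₀` real, `z_n → μ₀` with `|z_n - μ₀| ≤ C |Im z_n|` ⇒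
`(μ₀ - z_n)(T - z_n)⁻¹ f → P_{ker(T-μ₀)} f` (split `H = ker ⊕ closure range`).
**C3. Eisenstein series.** For `φ` on `ℝ_{>0}`: `E_φ(w) = ∑_{Γ_∞\G} κ(γ) φ(v(γw))`
(= sum over bottom rows `(c,d)`, `3 ∣ c`, `d ≡ 1 (3)`, coprime, [`p ∣ c`]; `κ = cub d c`).
Horoballs `v > 1/3` are disjoint (`v(γw) ≤ 1/(|c|²v)`, `|c|² ≥ 9`).  Fix a continuous cut-off
`χ(v)` (`0` for `v ≤ 10`, `1` for `v ≥ 11`); `h_s = E_{χ v^s}`, `f_s = (T - ĥ(s)) h_s = E_{φ_s}` with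
`φ_s` supported in `[1, 50]`, so `f_s ∈ H_G` is holomorphic in `s`.  On
`Ω = {Re s > 1, 0 < Im s < 1}` put `Ẽ(s) = h_s - (T - ĥ(s))⁻¹ f_s`.  For `Re s > 2`,
`E(s) = E_{v^s}` converges absolutely, `E(s) - h_s ∈ H_G` (unfold: `∫_F |E_φ|² ≤ ∫_0^{11} v^{σ-3}
(const term of E_{|φ|})(v) dv`, and the constant term is `≤ v^σ + C ∑_c N c · v² min((Nc v)^{-σ},
(Nc v)^{-1}) = O(1)`), `T E = ĥ E`, hence `Ẽ(s) = E(s)`.  Pointwise values: `Ẽ(s)(w) :=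
ĥ(s)⁻¹ T Ẽ(s)(w)` (evaluation of `T f` at `w` is a bounded functional on `H_G`, locally uniformly).
`θ_G := lim_{ε↓0} iε Ẽ(4/3+iε)` `= const · P_{ker(T - ĥ(4/3))} f_{4/3}`, continuous,
`θ_G(γw) = conj κ(γ) θ_G(w)`.
**C4. Fourier coefficients.** For `σ ∈ SL₂(O)`, `Ẽ(σ w)` is periodic under `9O` (resp. `9pO`);
for `Re s > 2` the coefficient of `ee(n z/9)` at height `v` is
`ψ_σ(n,s) v^{2-s} W_s(|n| v)` (`n ≠ 0`), `W_s(y) = ∫_ℂ (1+|z|²)^{-s} ee(-y z/9) dz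
= (π/Γ(s)) ∫_0^∞ t^{s-2} e^{-t - c y²/t} dt`; `ψ_σ(n,s) = ∑_c N(c)^{-s} (Kloosterman-type sum)`.
Write `c = uλ^i c₁` (`c₁` primary): by CRT, reciprocity (`cub_rec`, `cub_congr`) and homogeneity
of the `λ`-part under `1 + 3O`, `ψ_σ(n,s) = ∑_{u,i} 3^{-is} G_λ(σ,u,i,n) ψ₀(n (uλ^i)^a , s)` with
`|G_λ| ≤ C 3^i` and `ψ₀(r,s) = ∑_{c primary} gs c (cub c) r · N(c)^{-s}`, which only depends on `r`
modulo cubes of `λ` and of units (finitely many functions for given `n`).  For `σ = S = (0 -1; 1 0)`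
only `i = 0` occurs, which continues `Ψ₀(r,s) := W_s(1) ψ₀(r,s)` to `Ω` (take `v = 1/|n|`);
all linear relations valid for `Re s > 2` persist on `Ω` (identity theorem), and pass to
`ρ₀(r) := lim iε ψ₀(r, 4/3+iε)` (`W_{4/3} > 0`).  Constant term at `∞`: `v^s + φ(s) v^{2-s}`,
`φ(s) = Φ_λ(s) ζ^{(λ)}(3s-3)/ζ^{(λ)}(3s-2)` (only cubes `c₁` and those `uλ^i` with trivial symbol on
`1+3O` contribute; `Φ_λ(4/3) > 0`), so `θ` has constant term `c_∞ v^{2/3}`, `c_∞ ≠ 0`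
(`Ef_one`, `Lf`).
**C5. Hecke relations.** For a primary prime `p` (`q = N p`, `p = -2` allowed): `θ_{Γ'} = θ_Γ/(q+1)`.
Indeed both lie in the closed span `𝓔` of the incomplete Eisenstein series `E_φ` of `Γ'` at the two
cusps `∞` and `δ∞` (`δ ∈ Γ`, `δ ≡ S mod p`; `E_φ^Γ` is the sum of the two), `𝓔` is `T`-invariant so
the projection onto `ker(T - μ₀)` preserves it, and the difference has zero constant terms at both
cusps (local factor at `p`: `1 + 1/q` for `Γ`; `1/q` for `Γ'` at both cusps), i.e. is orthogonal to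
`𝓔` by unfolding.  Comparing coefficients at `S`: `ρ_p(r) = q/(q+1) ρ₀(r)` where `ρ_p` is the
residue of `ψ₀` restricted to `p ∤ c` (which depends on `r` modulo `p³`).  With
`gs(ab) = cub(a,b)² gs gs`, for `p ∤ r`: `ψ₀(r) = A₀ + q^{-s} g(r,p) A₁`,
`ψ₀(rp²) = (1 - q^{2-3s}) A₂`, `A_j = ψ_p(r p^j)`.  Hence `ρ₀(rp³) = ρ₀(r)` (all `r`),
`ρ₀(rp²) = 0`, `ρ₀(rp) = q^{-2/3} conj(g(r,p)) ρ₀(r)` (`p ∤ r`).  So for `r₀ = uλ^j`, `m` primary:
`N(m)^{1/6} ρ₀(r₀ m) = ρ₀(r₀) cub m r₀ · tau m`, and for every `σ`, `n = uλ^j m`: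
`|τ_σ(n)| := |n|^{1/3}|res ψ_σ(n)| ≤ C 3^{j/6} |tau m|`.  Some `ρ₀(r₀) ≠ 0`: otherwise `θ = c_∞ v^{2/3}`,
contradicting `|θ(γw)| = |θ(w)|`.
**C6. Voronoi.** `Θ_σ(z,v) = θ(σ w) = c_σ v^{2/3} + ∑_n τ_σ(n) v^{2/3} W(|n|v) ee(nz/9)` (a continuous
function equals its absolutely convergent Fourier series).  For `x₀ = a₀/c₀`, `θ_S(n(x₀) ·)` is
`conj κ`-automorphic under `Γ(9c₀²)` (conjugation computation with `cub_congr`; `κ(SγS⁻¹) = κ(γ)`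
up to inversion: `cub a b = conj (cub d c)`... fix conventions so that for
`β = (Q'a₁, b; c₁, d)` with `Q' ∣ d`, `c₁` primary: `β S⁻¹ ∈ Γ` and `κ(βS⁻¹) = cub c₁ d`).
The periodic twist `Θ_φ = ∑_{x₀} φ̂(x₀) θ_S(n(x₀)·)` picks the frequencies `r₀ m`, `m` primary, with
weight `φ(m) conj(cub m r₀)`.  For `c₁ ≡ c* mod Q'`, `Θ_φ(βw') = conj(cub c₁ d) cub c* d* Θ_φ(β* w')`,
`w' = β⁻¹(Q'a₁/c₁ + ζ, v) = (-d/c₁ - conj ζ /(c₁²(|ζ|²+v²)), v/(|c₁|²(|ζ|²+v²)))`.  `Θ_φ(β* ·)` is a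
combination of `Θ_σ(T ·)` with `T` upper triangular rational (`n(x₀)β* = σT`), which gives the
coefficients `τ'` and their bound/shape.  Apply `∂_ζ` at `ζ = 0` (termwise; exponential decay of
`W`), take Mellin transforms in `v` (`∫ v^{2/3} W(v) v^{2s} dv ∝ Γ(s+1/3)Γ(s+2/3)`), sum over
`a₁ mod c₁` against `ψ`, and apply `kernel_lemma` with
`γ(s) = Γ(4/3-s)Γ(5/3-s)/(Γ(s+1/3)Γ(s+2/3))` (`|γ| = 1` on `Re s = 1/2`,
`|γ| = |(1/3+it)(2/3+it)|⁻¹ ≤ 9/2` on `Re s = 1`, polynomial on `Re s = 1/2 - j`).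
-/

set_option autoImplicit false

noncomputable section

open scoped Classical ComplexConjugate
open MeasureTheory

namespace Crest.Agent.R17

/-- **Voronoi summation for the cubic theta function.** -/
theorem voronoi : ∃ (𝒦 : ℝ → ℝ → ℂ) (B : ℕ) (C : ℝ) (ja : ℤ),
    (∀ t, ∃ κ : ℝ → ℂ, Integrable κ ∧ (∫ τ, ‖κ τ‖) ≤ C ∧
      ∀ u, 𝒦 t u = Real.exp (u / 2) * ∫ τ : ℝ, κ τ * Complex.exp (τ * u * Complex.I)) ∧
    (∀ j : ℕ, ∃ (Cj : ℝ) (Bj : ℕ), ∀ t u, ‖𝒦 t u‖ ≤ Cj * (1 + |t|) ^ Bj * Real.exp (-(j * u))) ∧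
    ∀ Q0 : O, Q0 ≠ 0 → (3 : O) ∣ Q0 → ∃ (Q' R1 R2 : O) (κQ : ℝ),
      Q' ≠ 0 ∧ N Q' ≤ N Q0 ^ B ∧ |κQ| ≤ B * Real.log (N Q0) ∧
      (∀ c, IsCoprime c Q0 → IsCoprime c Q' ∧ IsCoprime c R1 ∧ IsCoprime c R2) ∧
      ∀ φ : O → ℂ, Per Q0 φ → (∀ m, ‖φ m‖ ≤ 1) → ∀ cs : O, ∃ τ' : O → ℂ,
        τ' 0 = 0 ∧
        (∀ n, τ' n ≠ 0 → ∃ c, CubeShape Q0 n c ∧ ‖τ' n‖ ≤ N Q0 ^ B * Real.sqrt (N c)) ∧
        ∀ c1 : O, Prim c1 → IsCoprime c1 Q0 → Q' ∣ c1 - cs → ∀ ψ : O → ℂ, IsChar c1 ψ →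
          ∀ y t : ℝ,
          pb (fun m => tt m * φ m * gs c1 ψ m) y t =
            conj (ψ R1) * cub c1 R2 * ang c1 ^ ja * (N c1 : ℂ) ^ (-(2 * t * Complex.I)) *
            ∑' n : O, τ' n * gs c1 (fun x => conj (ψ x) * conj (cub c1 x)) n *
              (N n : ℂ) ^ (-(1 / 2 : ℂ) + t * Complex.I) *
              Complex.exp (-(κQ * t * Complex.I)) *
              𝒦 t (Real.log (N n) + y - 2 * Real.log (N c1) - κQ) := by
  obtain ⟨B, hB⟩ := Vor.vor_fe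
  obtain ⟨C, hC⟩ := Vor.kern_gamL_one
  refine ⟨kern (Vor.gamL 1) (1 / 2), max B 10, C, 2, hC, fun j => ?_, fun Q0 hQ h3 => ?_⟩
  · obtain ⟨Cj, -, h⟩ := Vor.kern_gamL_le 1 j
    exact ⟨Cj, 4 * j, fun t u => h _ t u (by norm_num)⟩
  have hN9 : 9 ≤ N Q0 := by
    have := N_le_of_dvd hQ h3
    have e : N (3 : O) = 9 := by
      have := nm_natCast 3
      unfold N; rw [show (3 : O) = ((3 : ℕ) : O) by norm_num, this]; norm_num
    linarith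
  have hN1 : 1 ≤ N Q0 := by linarith
  have e81 : N (81 * Q0 ^ 2) = 9 ^ 4 * N Q0 ^ 2 := by
    rw [N_mul, N_pow]
    have := nm_natCast 81
    have e : N (81 : O) = 9 ^ 4 := by
      unfold N; rw [show (81 : O) = ((81 : ℕ) : O) by norm_num, this]; norm_num
    rw [e]
  have hc1 := one_lt_c0
  have hc4 : c0 < 4 := by
    unfold c0
    rw [div_lt_iff₀ (by positivity)]
    have h1 := Real.pi_lt_d2
    have h2 : (1.7 : ℝ) < Real.sqrt 3 := Real.lt_sqrt_of_sq_lt (by norm_num)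
    linarith
  set ρ0 : ℝ := 9 * N (81 * Q0 ^ 2) / c0 ^ 4 with hρ0
  have hc04 : 1 ≤ c0 ^ 4 := one_le_pow₀ hc1.le
  have hc44 : c0 ^ 4 ≤ 4 ^ 4 := pow_le_pow_left₀ (by linarith) hc4.le 4
  have hρ1 : 1 ≤ ρ0 := by
    rw [hρ0, e81, le_div_iff₀ (by positivity)]; nlinarith
  have hρ2 : ρ0 ≤ N Q0 ^ 10 := by
    have h1 : ρ0 ≤ 9 * (9 ^ 4 * N Q0 ^ 2) := by
      rw [hρ0, e81]; exact div_le_self (by positivity) hc04
    have h2 : (9 : ℝ) ^ 5 ≤ N Q0 ^ 5 := pow_le_pow_left₀ (by norm_num) hN9 5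
    have h3 : N Q0 ^ 7 ≤ N Q0 ^ 10 := pow_le_pow_right₀ hN1 (by norm_num)
    have h4 : N Q0 ^ 7 = N Q0 ^ 5 * N Q0 ^ 2 := by ring
    nlinarith [pow_pos (by linarith : (0 : ℝ) < N Q0) 2]
  have hQ' : (81 * Q0 ^ 2 : O) ≠ 0 := by
    intro h
    have : N (81 * Q0 ^ 2) = 0 := by rw [h]; simp [N]
    rw [e81] at this
    nlinarith [pow_pos (by linarith : (0 : ℝ) < N Q0) 2]
  refine ⟨81 * Q0 ^ 2, -(3 * (81 * Q0 ^ 2)), (81 * Q0 ^ 2) ^ 2, Real.log ρ0, hQ', ?_, ?_, ?_, ?_⟩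
  · rw [e81]
    have h2 : (9 : ℝ) ^ 4 ≤ N Q0 ^ 4 := pow_le_pow_left₀ (by norm_num) hN9 4
    have h3 : N Q0 ^ 6 ≤ N Q0 ^ (max B 10) := pow_le_pow_right₀ hN1 (le_max_of_le_right (by norm_num))
    have h4 : N Q0 ^ 6 = N Q0 ^ 4 * N Q0 ^ 2 := by ring
    nlinarith [pow_pos (by linarith : (0 : ℝ) < N Q0) 2]
  · rw [abs_of_nonneg (Real.log_nonneg hρ1)]
    have h1 := Real.log_le_log (by linarith) hρ2
    rw [Real.log_pow] at h1
    have h2 : (10 : ℝ) ≤ (max B 10 : ℕ) := by exact_mod_cast le_max_right B 10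
    have h3 := Real.log_nonneg hN1
    push_cast at h1
    nlinarith
  · intro c hc
    have hc3 : IsCoprime c 3 := hc.of_isCoprime_of_dvd_right h3
    have h81 : IsCoprime c (81 * Q0 ^ 2) := by
      rw [show (81 : O) = 3 ^ 4 by norm_num]
      exact (hc3.pow_right).mul_right hc.pow_right
    exact ⟨h81, (hc3.mul_right h81).neg_right, h81.pow_right⟩
  intro φ hφ hφ1 cs
  obtain ⟨τ', τ0, h0, hsh, -, hτ0, hFE⟩ := hB 1 Q0 hQ h3 φ hφ hφ1 cs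
  refine ⟨τ', h0, fun n hn => ?_, fun c1 hc1' hcQ hcs ψ hψ y t => ?_⟩
  · obtain ⟨c, h1, h2⟩ := hsh n hn
    refine ⟨c, h1, h2.trans (mul_le_mul_of_nonneg_right ?_ (Real.sqrt_nonneg _))⟩
    exact pow_le_pow_right₀ hN1 (le_max_left _ _)
  obtain ⟨E, hE, hgr, ⟨σa, ha⟩, ⟨σb, hb⟩⟩ := hFE c1 hc1' hcQ hcs ψ hψ
  rw [hτ0 one_ne_zero] at ha hb
  simp only [zero_mul, mul_zero, zero_div, add_zero] at ha hb
  have hc0 := hc1'.ne_zero
  have hNc := N_pos hc0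
  have hρ : 0 < N c1 ^ 2 * ρ0 := by positivity
  have pa : PolyBd (prim (fun m => tau m * ang m ^ (1 : ℤ) * φ m * gs c1 ψ m)) := by
    refine ⟨N c1, 1, fun n hn => ?_⟩
    unfold prim
    split_ifs with hp
    · rw [norm_mul, norm_mul, norm_mul, zpow_one, norm_ang hn, mul_one, pow_one]
      have h1 := norm_tau_le hp
      have h2 : N n ^ (1 / 6 : ℝ) ≤ N n := by
        conv_rhs => rw [← Real.rpow_one (N n)]
        exact Real.rpow_le_rpow_of_exponent_le (one_le_N hn) (by norm_num)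
      have h3 := norm_gs_le hc0 (hψ.norm_le hc0) n
      calc ‖tau n‖ * ‖φ n‖ * ‖gs c1 ψ n‖ ≤ N n * 1 * N c1 :=
            mul_le_mul (mul_le_mul (h1.trans h2) (hφ1 n) (norm_nonneg _) (N_nonneg _)) h3
              (norm_nonneg _) (by have := N_nonneg n; positivity)
        _ = N c1 * N n := by ring
    · rw [norm_zero]; have := N_nonneg n; positivity
  have hχ : ∀ x, ‖conj (ψ x) * conj (cub c1 x)‖ ≤ 1 := fun x => by
    rw [norm_mul, RCLike.norm_conj, RCLike.norm_conj]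
    exact mul_le_one₀ (hψ.norm_le hc0 x) (norm_nonneg _) ((rcub_isChar hc1').norm_le hc0 x)
  have pb' : PolyBd (fun n => conj (ψ (-(3 * (81 * Q0 ^ 2)))) * cub c1 ((81 * Q0 ^ 2) ^ 2) *
      ang c1 ^ (2 * (1 : ℤ)) * (τ' n * gs c1 (fun x => conj (ψ x) * conj (cub c1 x)) n)) := by
    refine ⟨‖conj (ψ (-(3 * (81 * Q0 ^ 2)))) * cub c1 ((81 * Q0 ^ 2) ^ 2) *
      ang c1 ^ (2 * (1 : ℤ))‖ * (N Q0 ^ B * N c1), 1, fun n hn => ?_⟩
    rw [norm_mul, pow_one, mul_assoc _ (N Q0 ^ B * N c1)]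
    refine mul_le_mul_of_nonneg_left ?_ (norm_nonneg _)
    by_cases hτ : τ' n = 0
    · rw [hτ, zero_mul, norm_zero]; have := N_nonneg n; positivity
    obtain ⟨c, ⟨n2, m0, hnc, -⟩, h2⟩ := hsh n hτ
    have hcn : N c ≤ N n := N_le_of_dvd hn ⟨n2 * m0 * c ^ 2, by rw [hnc]; ring⟩
    have h1n := one_le_N hn
    have h3 : Real.sqrt (N c) ≤ N n := by
      rw [Real.sqrt_le_left (by linarith)]; nlinarith
    have h4 := norm_gs_le hc0 hχ n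
    rw [norm_mul]
    calc ‖τ' n‖ * ‖gs c1 (fun x => conj (ψ x) * conj (cub c1 x)) n‖ ≤ (N Q0 ^ B * N n) * N c1 :=
          mul_le_mul (h2.trans (mul_le_mul_of_nonneg_left h3 (by positivity))) h4 (norm_nonneg _)
            (by positivity)
      _ = N Q0 ^ B * N c1 * N n := by ring
  have key := (kernel_lemma pa pb' (s1 := 5 / 6 + ((1 : ℤ).natAbs : ℝ) / 2) hρ hE (Vor.gamL_diff 1)
    ⟨σa, ha⟩ ⟨σb, hb⟩ hgr (Vor.gamL_growth 1) (σ := 1 / 2) (by norm_num) y t).2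
  have e1 : (fun m => tt m * φ m * gs c1 ψ m) =
      fun m => tau m * ang m ^ (1 : ℤ) * φ m * gs c1 ψ m := by
    funext m; rw [zpow_one, tt]
  have e2 : Real.log (N c1 ^ 2 * ρ0) = 2 * Real.log (N c1) + Real.log ρ0 := by
    rw [Real.log_mul (by positivity) (by positivity), Real.log_pow]; norm_num
  have e3 : ((N c1 ^ 2 * ρ0 : ℝ) : ℂ) ^ (-(t * Complex.I)) =
      (N c1 : ℂ) ^ (-(2 * t * Complex.I)) * Complex.exp (-(Real.log ρ0 * t * Complex.I)) := by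
    rw [Kn.cpow_eq hρ, Kn.cpow_eq hNc, ← Complex.exp_add, e2]
    congr 1; push_cast; ring
  rw [pb, e1, key, e3, e2, ← tsum_mul_left, ← tsum_mul_left]
  refine tsum_congr fun n => ?_
  split_ifs with hn
  · rw [hn, h0]; simp
  · rw [show Real.log (N n) + y - (2 * Real.log (N c1) + Real.log ρ0) =
      Real.log (N n) + y - 2 * Real.log (N c1) - Real.log ρ0 by ring]
    norm_num
    ring

end Crest.Agent.R17
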