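import Crest.Agent.R17.ThetaNorm_Boxes
import Crest.Agent.R17.ThetaNorm_Split
import Crest.Agent.R17.Voronoi

/-!
# R17 / ThetaNorm_Hs : applying Voronoi (task).  Statement frozen.
-/

set_option autoImplicit false

noncomputable section

open scoped Classical ComplexConjugate
open MeasureTheory

namespace Crest.Agent.R17
namespace TN

theorem hs_cB {K L M E M' E' W : ℝ} (hK : 0 ≤ K) (hL : 0 ≤ L) (hE : 0 ≤ E) (hW : 1 ≤ W)
    (h1 : M ≤ W * M') (h2 : E ≤ W * E') : cB K L M E ≤ W * cB K L M' E' := by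
  refine (cB_mono hL hE le_rfl le_rfl h1 h2).trans ?_
  have h3 : Real.sqrt (W * M') ≤ W * Real.sqrt M' := by
    rw [Real.sqrt_mul (by linarith)]
    exact mul_le_mul_of_nonneg_right (Real.sqrt_le_self_iff.2 (Or.inr hW)) (Real.sqrt_nonneg _)
  have h4 := mul_le_mul_of_nonneg_right h3 (Real.rpow_nonneg hL (3 / 2))
  have h5 := le_mul_of_one_le_left hK hW
  unfold cB
  linarith

/-- Take `𝒦, B₁, C₀, ja` from `voronoi` (its first two clauses are `KerHyp 𝒦 C₀`, its last clause is `VorId`), `B0 = 6 B₁ + 1`.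
Split rows and marks into classes mod `Q'` (`k % Q'`, `b4_mod_mem_res`, `b4_dvd_sub_mod`, `card_res`).  For classes `x, z` let
`τ'` belong to `cs = x ρ z`, `v n = τ' n * gs ρ (dual ρ ω) n` (`Shape Q0 (N Q0^B₁ * D) v` by `Shape.mul`),
`s = y - 2 log N ρ - κQ`, `|s| ≤ (3 + B₁) A log Z`.  By `vor_split`, for `k` in the class `x`,
`Hs … (S in class z) … k = A k * Phi (𝒦 t) v (β * B) (S in class z) s t k`.  `boxes ((3 + B₁) A)`, `mink` with `w = 1`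
(loss `N Q'^3 ≤ N Q0^{3 B₁}`), and `cB K L (K² L / e^s) e^{s/4} ≤ N Q0^{B₁} cB K L (K² N ρ² L / e^y) e^{y/4}` since
`e^{|κQ|} ≤ N Q0^{B₁}`, `1 ≤ N ρ`. -/
theorem hs_bound : ∃ B0 : ℕ, ∀ (A ε : ℝ), 0 < ε → ∃ (C : ℝ) (B : ℕ), 0 ≤ C ∧ ∀ Z : ℝ, 3 ≤ Z →
    ∀ Q0 : O, Q0 ≠ 0 → (3 : O) ∣ Q0 → N Q0 ≤ Z ^ A →
    ∀ φ : O → ℂ, Per Q0 φ → (∀ m, ‖φ m‖ ≤ 1) →
    ∀ (ρ : O) (ω : O → ℂ) (D : ℝ), Prim ρ → IsCoprime ρ Q0 → IsChar ρ ω → N ρ ≤ Z ^ A →
    (∀ n, ‖gs ρ (dual ρ ω) n‖ ≤ D) →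
    ∀ (R S : Finset O) (β : O → ℂ) (K L y t : ℝ), Sq6 R K → Sq6 S L →
    (∀ k ∈ R, IsCoprime k Q0 ∧ IsCoprime k ρ) → (∀ l ∈ S, IsCoprime l Q0 ∧ IsCoprime l ρ) →
    (∀ l, ‖β l‖ ≤ 1) → 1 ≤ K → K ≤ Z ^ A → 1 ≤ L → L ≤ Z ^ A → |y| ≤ A * Real.log Z →
    ∑ k ∈ R, ‖Hs φ ρ ω S β y t k‖ ^ 2 ≤
      C * Z ^ ε * N Q0 ^ B0 * (1 + |t|) ^ B * D ^ 2 *
        cB K L (K ^ 2 * N ρ ^ 2 * L / Real.exp y) (Real.exp (y / 4)) := by
  obtain ⟨𝒦, B₁, C₀, ja, k1, k2, hV⟩ := voronoi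
  refine ⟨6 * B₁ + 1, fun A ε hε => ?_⟩
  obtain ⟨C, B, hC, hbox⟩ := boxes ⟨k1, k2⟩ ((3 + B₁) * A) hε
  refine ⟨C, B, hC, fun Z hZ Q0 hQ0 h3 hQZ φ hφ hφ1 ρ ω D hρ hρQ hω hρZ hD R S β K L y t hR hS hRc
    hSc hβ hK hKZ hL hLZ hy => ?_⟩
  obtain ⟨Q', R1, R2, κ, hQ', hNQ, hκ, -, hτ⟩ := hV Q0 hQ0 h3
  choose τ τ0 τ1 τ2 using hτ φ hφ hφ1
  clear hV hτ k1 k2
  obtain ⟨a, b, ha, hb, hab⟩ := vor_split 𝒦 ja Q0 Q' R1 R2 κ hρ hρQ hω t
  have hA := nonneg_of_le_rpow hZ hK hKZ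
  have hD0 : 0 ≤ D := (norm_nonneg _).trans (hD 0)
  have q1 := one_le_N hQ0
  have r1 := one_le_N hρ.ne_zero
  have hlog : ∀ x, 1 ≤ x → x ≤ Z ^ A → Real.log x ≤ A * Real.log Z := fun x h1 h2 =>
    (Real.log_le_log (by linarith) h2).trans_eq (Real.log_rpow (by linarith) _)
  have hZA : Z ^ A ≤ Z ^ ((3 + B₁) * A) := Real.rpow_le_rpow_of_exponent_le (by linarith)
    (le_mul_of_one_le_left hA (by linarith [B₁.cast_nonneg (α := ℝ)]))
  obtain ⟨s, hs⟩ : ∃ s, s = y - 2 * Real.log (N ρ) - κ := ⟨_, rfl⟩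
  obtain ⟨W, hW⟩ : ∃ W, W = N Q0 ^ B₁ := ⟨_, rfl⟩
  have W1 : 1 ≤ W := hW ▸ one_le_pow₀ q1
  have r0 := Real.log_nonneg r1
  have hs1 : |s| ≤ (3 + B₁) * A * Real.log Z := by
    have h1 := hlog _ r1 hρZ
    have h2 := mul_le_mul_of_nonneg_left (hlog _ q1 hQZ) (B₁.cast_nonneg (α := ℝ))
    rw [abs_le] at hy hκ ⊢
    constructor <;> linarith
  have hκW : ∀ u, u ≤ |κ| → Real.exp u ≤ W := fun u hu => by
    rw [← Real.le_log_iff_exp_le (by linarith), hW, Real.log_pow]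
    linarith
  have hcB : cB K L (K ^ 2 * L / Real.exp s) (Real.exp (s / 4)) ≤
      W * cB K L (K ^ 2 * N ρ ^ 2 * L / Real.exp y) (Real.exp (y / 4)) := by
    refine hs_cB (by linarith) (by linarith) (Real.exp_pos _).le W1 ?_ ?_
    · have e : K ^ 2 * L / Real.exp s = Real.exp κ * (K ^ 2 * N ρ ^ 2 * L / Real.exp y) := by
        rw [hs, Real.exp_sub, Real.exp_sub, two_mul, Real.exp_add, Real.exp_log (by linarith)]
        field_simp
      rw [e]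
      exact mul_le_mul_of_nonneg_right (hκW _ (le_abs_self _)) (by positivity)
    · rw [show s / 4 = (s - y) / 4 + y / 4 by ring, Real.exp_add]
      exact mul_le_mul_of_nonneg_right (hκW _ (by linarith [neg_abs_le κ, abs_nonneg κ]))
        (Real.exp_pos _).le
  have c0 := cB_nonneg (K := K) (L := L) (M := K ^ 2 * N ρ ^ 2 * L / Real.exp y)
    (E := Real.exp (y / 4)) (by positivity) (by positivity) (by positivity) (by positivity)
  generalize cB K L (K ^ 2 * N ρ ^ 2 * L / Real.exp y) (Real.exp (y / 4)) = c at hcB c0 ⊢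
  have z0 : 0 ≤ Z ^ ε := by positivity
  have key : ∀ x z, ∑ k ∈ R.filter (· % Q' = x), ‖Hs φ ρ ω (S.filter (· % Q' = z)) β y t k‖ ^ 2 ≤
      1 ^ 2 * (C * Z ^ ε * N Q0 * (W * D) ^ 2 * (1 + |t|) ^ B * (W * c)) := fun x z => by
    have h1 := hbox Z hZ Q0 hQ0 h3 (W * D) _ (by positivity)
      (Shape.mul (u := τ (x * ρ * z)) (fun n hn => ⟨fun e => hn (e ▸ τ0 _), hW ▸ τ1 _ n hn⟩) hD)
      _ _ (fun l => β l * b l) K L s t (hR.mono (Finset.filter_subset (· % Q' = x) _) le_rfl)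
      (hS.mono (Finset.filter_subset (· % Q' = z) _) le_rfl)
      (fun l _ => (norm_mul_le _ _).trans (mul_le_one₀ (hβ l) (norm_nonneg _) (hb l)))
      hK (hKZ.trans hZA) hL (hLZ.trans hZA) hs1
    rw [one_pow, one_mul]
    refine le_trans (Finset.sum_le_sum fun k hk => pow_le_pow_left₀ (norm_nonneg _) ?_ 2)
      (h1.trans (mul_le_mul_of_nonneg_left hcB (by positivity)))
    refine le_trans (le_of_eq ?_) ((norm_mul_le (a k) _).trans
      (mul_le_of_le_one_left (norm_nonneg _) (ha k)))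
    rw [Finset.mem_filter] at hk
    obtain ⟨hk, rfl⟩ := hk
    rw [Hs, Phi, Finset.mul_sum]
    refine congrArg _ (Finset.sum_congr rfl fun l hl => ?_)
    rw [Finset.mem_filter, Finset.mem_filter] at hl
    obtain ⟨⟨hl, rfl⟩, hlk⟩ := hl
    obtain ⟨a1, a2, a3, -⟩ := hR k hk
    obtain ⟨b1, b2, b3, -⟩ := hS l hl
    have k0 := N_pos a1.ne_zero
    have l0 := N_pos b1.ne_zero
    have hd : Q' ∣ k * ρ * l - k % Q' * ρ * (l % Q') := by
      convert ((b4_dvd_sub_mod Q' k).mul_right (ρ * l)).add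
        ((b4_dvd_sub_mod Q' l).mul_left (k % Q' * ρ)) using 1
      ring
    have e : ∀ u, u + (y + Real.log (N l)) - 2 * Real.log (N (k * ρ * l)) - κ =
        u + s - Real.log (N l) - 2 * Real.log (N k) := fun u => by
      rw [N_mul, N_mul, Real.log_mul (by positivity) l0.ne', Real.log_mul k0.ne' (by positivity), hs]
      ring
    have e2 : (N l : ℂ) = (Real.sqrt (N l) : ℂ) ^ 2 := by
      rw [← Complex.ofReal_pow, Real.sq_sqrt l0.le]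
    have e3 : (Real.sqrt (N l) : ℂ) ≠ 0 := Complex.ofReal_ne_zero.2 (Real.sqrt_pos.2 l0).ne'
    rw [hab φ _ _ (τ2 _) k l a1 a2 a3 (hRc k hk).1 (hRc k hk).2 b1 b2 b3 (hSc l hl).1 (hSc l hl).2
      hlk hd]
    simp only [e]
    generalize (∑' n : O, _ : ℂ) = T
    rw [e2]
    field_simp
  have hcard : ((res Q').card : ℝ) ≤ W := by rw [card_res hQ', hW]; exact hNQ
  have split : ∀ k, Hs φ ρ ω S β y t k =
      ∑ z ∈ res Q', Hs φ ρ ω (S.filter (· % Q' = z)) β y t k := fun k => by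
    simp only [Hs, Finset.filter_comm (· % Q' = _)]
    exact (Finset.sum_fiberwise_of_maps_to (fun l _ => b4_mod_mem_res hQ' l) _).symm
  rw [← Finset.sum_fiberwise_of_maps_to (g := (· % Q')) fun l _ => b4_mod_mem_res hQ' l]
  simp only [split]
  refine (Finset.sum_le_sum fun x _ => mink _ _ _ (fun _ => 1) _ (fun _ _ => zero_le_one)
    (by positivity) fun z _ => key x z).trans ?_
  simp only [Finset.sum_const, nsmul_eq_mul, mul_one]
  calc _ ≤ W * (W ^ 2 * (C * Z ^ ε * N Q0 * (W * D) ^ 2 * (1 + |t|) ^ B * (W * c))) := by gcongr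
    _ = _ := by rw [hW]; ring

end TN
end Crest.Agent.R17
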