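import Crest.Agent.R17.ThetaNorm_Core
import Crest.Agent.R17.ThetaNorm_Exp

/-!
# R17 / ThetaNorm_Row : rows with a fixed powerful part (task).  Statements frozen.
-/

set_option autoImplicit false

noncomputable section

open scoped Classical ComplexConjugate
open MeasureTheory

namespace Crest.Agent.R17
namespace TN

/-- every term gains `E^{-1/2}`; `√M L^{3/2} ≤ M + L³` -/
theorem cB_row {K L y E P : ℝ} (hK : 0 ≤ K) (hL : 0 ≤ L) (hE : 1 ≤ E) (hP : P ^ 2 ≤ E) :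
    cB (K / E) L ((K / E) ^ 2 * P ^ 2 * L / Real.exp y) (Real.exp (y / 4)) ≤
      2 * E ^ (-(1 / 2) : ℝ) * mainB K L y := by
  have hE0 : 0 < E := by linarith
  set s := Real.sqrt E with hs
  have hs1 : 1 ≤ s := Real.one_le_sqrt.2 hE
  have hs0 : 0 < s := by linarith
  have hss : s * s = E := Real.mul_self_sqrt hE0.le
  have hsE : s ≤ E := by nlinarith
  have e1 : E ^ (-(1 / 2) : ℝ) = s⁻¹ := by
    rw [Real.rpow_neg hE0.le, hs, Real.sqrt_eq_rpow]
  have hy := Real.exp_pos y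
  set M0 := K ^ 2 * L / Real.exp y with hM0
  have hM00 : 0 ≤ M0 := by positivity
  have h1 : (K / E) ^ 2 * P ^ 2 * L / Real.exp y ≤ M0 / E := by
    calc (K / E) ^ 2 * P ^ 2 * L / Real.exp y ≤ (K / E) ^ 2 * E * L / Real.exp y := by gcongr
      _ = M0 / E := by rw [hM0]; field_simp
  have h2 : M0 / E ≤ M0 / s := by gcongr
  have h3 : K / E ≤ K / s := by gcongr
  have h4 : Real.sqrt (K / E) = Real.sqrt K / s := Real.sqrt_div hK E
  have h5 : Real.sqrt ((K / E) ^ 2 * P ^ 2 * L / Real.exp y) ≤ Real.sqrt M0 / s :=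
    (Real.sqrt_le_sqrt h1).trans_eq (Real.sqrt_div hM00 E)
  have h6 : (L ^ (3 / 2 : ℝ)) ^ 2 = L ^ 3 := by
    rw [← Real.rpow_natCast, ← Real.rpow_mul hL, ← Real.rpow_natCast]
    norm_num
  have h7 : Real.sqrt M0 * L ^ (3 / 2 : ℝ) ≤ M0 + L ^ 3 := by
    have := Real.sq_sqrt hM00
    have h8 : 0 ≤ L ^ 3 := by positivity
    nlinarith [sq_nonneg (Real.sqrt M0 - L ^ (3 / 2 : ℝ))]
  have h8 : 0 ≤ Real.sqrt K * L * Real.exp (y / 4) := by positivity
  have h9 : 0 ≤ L ^ 3 := by positivity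
  unfold cB mainB
  rw [e1, h4, ← hM0]
  calc K / E + Real.sqrt K / s * L * Real.exp (y / 4) + (K / E) ^ 2 * P ^ 2 * L / Real.exp y +
        Real.sqrt ((K / E) ^ 2 * P ^ 2 * L / Real.exp y) * L ^ (3 / 2 : ℝ)
      ≤ K / s + Real.sqrt K / s * L * Real.exp (y / 4) + M0 / s +
        Real.sqrt M0 / s * L ^ (3 / 2 : ℝ) := by
        exact add_le_add (add_le_add (add_le_add h3 le_rfl) (h1.trans h2))
          (mul_le_mul_of_nonneg_right h5 (by positivity))
    _ = s⁻¹ * (K + Real.sqrt K * L * Real.exp (y / 4) + M0 + Real.sqrt M0 * L ^ (3 / 2 : ℝ)) := by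
        ring
    _ ≤ s⁻¹ * (2 * (K + M0 + L ^ 3 + Real.sqrt K * L * Real.exp (y / 4))) := by
        gcongr
        linarith
    _ = _ := by ring

theorem row_pb_zero (y t : ℝ) : pb (fun _ => 0) y t = 0 := by
  unfold pb blk blks prim
  simp

theorem row_expand {ι : Type} (s : Finset ι) (c : ι → ℂ) (ρ : ι → O) (ω : ι → O → ℂ) {φ : O → ℂ}
    (hφ : ∀ m, ‖φ m‖ ≤ 1) {r k : O} (hr0 : r ≠ 0) (hr : IsCoprime r 6) (hk0 : k ≠ 0)
    (hk : IsCoprime k 6) (hρ : ∀ i ∈ s, ρ i ≠ 0 ∧ IsChar (ρ i) (ω i))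
    (hf : ∀ m, conj (chi r m) = ∑ i ∈ s, c i * gs (ρ i) (ω i) m) (S : Finset O) (a : O → ℂ)
    (y t : ℝ) : F1 φ S a y t (k * r) =
      ∑ i ∈ s, c i * Gs φ (gs (ρ i) (ω i)) (S.filter fun l => IsCoprime l r) a y t k := by
  unfold F1 Gs
  simp only [Finset.mul_sum]
  rw [Finset.sum_comm, Finset.sum_filter]
  refine Finset.sum_congr rfl fun l _ => ?_
  split_ifs with hl
  · have e : (fun m => if l ∣ m then tt m * φ m * conj (chi (k * r) m) else 0) = fun m => tt m *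
        ∑ i ∈ s, c i * (if l ∣ m then φ m * (conj (chi k m) * gs (ρ i) (ω i) m) else 0) := by
      funext m
      split_ifs
      · have : chi (k * r) m = chi k m * chi r m := sym_mul_left 6 hk0 hr0 m
        rw [this, map_mul, hf, Finset.mul_sum, Finset.mul_sum, Finset.mul_sum]
        exact Finset.sum_congr rfl fun i _ => by ring
      · simp
    rw [e, pb_tt_sum, Finset.mul_sum]
    · refine Finset.sum_congr rfl fun i _ => ?_
      rw [mul_left_comm]
      congr 3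
      funext m
      split_ifs
      · ring
      · exact mul_zero _
    · intro i hi
      refine ⟨N (ρ i), fun m => ?_⟩
      split_ifs
      · have h1 : ‖chi k m‖ ≤ 1 := norm_sym_le (k := 6) (by simp) (by simpa using hk) m
        have h2 := norm_gs_le (hρ i hi).1 ((hρ i hi).2.norm_le (hρ i hi).1) m
        rw [norm_mul, norm_mul, RCLike.norm_conj]
        calc ‖φ m‖ * (‖chi k m‖ * ‖gs (ρ i) (ω i) m‖) ≤ 1 * (1 * N (ρ i)) := by
              gcongr
              exact hφ m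
          _ = _ := by ring
      · rw [norm_zero]; exact N_nonneg _
  · have e : (fun m => if l ∣ m then tt m * φ m * conj (chi (k * r) m) else 0) = fun _ => 0 := by
      funext m
      split_ifs with hm
      · have h1 : chi (k * r) m = chi k m * chi r m := sym_mul_left 6 hk0 hr0 m
        have h2 : chi r m = 0 := ((sym_isChar (k := 6) (by simp) (by simpa using hr)).zero_iff m).2
          fun h => hl (h.of_isCoprime_of_dvd_left hm)
        rw [h1, h2]
        simp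
      · rfl
    rw [e, row_pb_zero, mul_zero]

/-- `chi (k * r) m = chi k m * chi r m`; marks not coprime to `r` contribute `0`; with
`S' = S.filter (IsCoprime · r)` and the family of `Expn`: `F1 (k r) = ∑ i, c i * Gs φ (gs (ρ i) (ω i)) S' a y t k`
(`pb_tt_sum`, `norm_gs_le`).  `core` (with `K / N r`), `cB_row` (`N (ρ i)² ≤ N r`), `mink` with `w i = ‖c i‖ * D i`. -/
theorem row : ∃ B0 : ℕ, ∀ (A ε : ℝ), 0 < ε → ∃ (C : ℝ) (B : ℕ), 0 ≤ C ∧ ∀ Z : ℝ, 3 ≤ Z →
    ∀ Q0 : O, Q0 ≠ 0 → (3 : O) ∣ Q0 → N Q0 ≤ Z ^ A →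
    ∀ φ : O → ℂ, Per Q0 φ → (∀ m, ‖φ m‖ ≤ 1) →
    ∀ (r : O) (W : ℝ), Prim r → IsCoprime r 2 → IsCoprime r Q0 →
    Expn r (fun m => conj (chi r m)) W →
    ∀ (R S : Finset O) (a : O → ℂ) (K L y t : ℝ), Sq6 R (K / N r) → Sq6 S L →
    (∀ k ∈ R, IsCoprime k Q0 ∧ IsCoprime k r) → (∀ l ∈ S, IsCoprime l Q0) →
    (∀ l, ‖a l‖ ≤ 1) → N r ≤ K → K ≤ Z ^ A → 1 ≤ L → L ≤ Z ^ A → |y| ≤ A * Real.log Z →
    ∑ k ∈ R, ‖F1 φ S a y t (k * r)‖ ^ 2 ≤
      C * Z ^ ε * N Q0 ^ B0 * (1 + |t|) ^ B * W ^ 2 * N r ^ (-(1 / 2) : ℝ) * mainB K L y := by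
  obtain ⟨B0, hB0⟩ := core
  refine ⟨B0, fun A ε hε => ?_⟩
  obtain ⟨C, B, hC, h⟩ := hB0 A ε hε
  refine ⟨2 * C, B, by positivity, fun Z hZ Q0 hQ0 h3 hQ φ hper hφ r W hr hr2 hrQ hE R S a K L y t
    hR hS hRc hSc ha hrK hK hL1 hL hy => ?_⟩
  obtain ⟨ι, s, c, ρ, ω, D, h1, h2, h4⟩ := hE
  have hr0 := hr.ne_zero
  have hN1 := one_le_N hr0
  have hN0 : 0 < N r := N_pos hr0
  have hK0 : 0 ≤ K := by linarith
  have hD : ∀ i ∈ s, 0 ≤ D i := fun i hi => (norm_nonneg _).trans ((h1 i hi).2.2.2 0)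
  have hm : 0 ≤ mainB K L y := by
    have : 0 ≤ L := by linarith
    unfold mainB
    positivity
  set T := C * Z ^ ε * N Q0 ^ B0 * (1 + |t|) ^ B with hT
  have hT0 : 0 ≤ T := by
    have := N_nonneg Q0
    have : 0 ≤ Z := by linarith
    positivity
  set U := 2 * N r ^ (-(1 / 2) : ℝ) * mainB K L y with hU
  have hU0 : 0 ≤ U := by positivity
  have key := mink s R
    (fun i k => c i * Gs φ (gs (ρ i) (ω i)) (S.filter fun l => IsCoprime l r) a y t k)
    (fun i => ‖c i‖ * D i) (T * U) (fun i hi => mul_nonneg (norm_nonneg _) (hD i hi))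
    (mul_nonneg hT0 hU0) fun i hi => by
      obtain ⟨e1, e2, e3, e4⟩ := h1 i hi
      have e5 : ρ i ∣ r := (dvd_pow_self _ two_ne_zero).trans e2
      have e6 := h Z hZ Q0 hQ0 h3 hQ φ hper hφ (ρ i) (ω i) (D i) e1
        (hrQ.of_isCoprime_of_dvd_left e5) e3 ((N_le_of_dvd hr0 e5).trans (hrK.trans hK)) e4 R
        (S.filter fun l => IsCoprime l r) a (K / N r) L y t hR
        (hS.mono (Finset.filter_subset _ _) le_rfl)
        (fun k hk => ⟨(hRc k hk).1, (hRc k hk).2.of_isCoprime_of_dvd_right e5⟩)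
        (fun l hl => ⟨hSc l (Finset.mem_filter.1 hl).1,
          (Finset.mem_filter.1 hl).2.of_isCoprime_of_dvd_right e5⟩) ha
        ((one_le_div hN0).2 hrK) ((div_le_self hK0 hN1).trans hK) hL1 hL hy
      have e7 := cB_row (y := y) hK0 (by linarith : 0 ≤ L) hN1
        ((N_pow (ρ i) 2).symm.trans_le (N_le_of_dvd hr0 e2))
      simp only [norm_mul, mul_pow]
      rw [← Finset.mul_sum, mul_assoc]
      refine mul_le_mul_of_nonneg_left (e6.trans ?_) (sq_nonneg _)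
      calc T * D i ^ 2 * _ ≤ T * D i ^ 2 * U := mul_le_mul_of_nonneg_left e7 (by positivity)
        _ = _ := by ring
  rw [Finset.sum_congr rfl fun k hk => by
    rw [row_expand s c ρ ω hφ hr0 (rkey_six hr hr2) (hR k hk).1.ne_zero (hR.coprime_six hk)
      (fun i hi => ⟨(h1 i hi).1.ne_zero, (h1 i hi).2.2.1⟩) h2]]
  refine key.trans ?_
  have h5 : 0 ≤ ∑ i ∈ s, ‖c i‖ * D i :=
    Finset.sum_nonneg fun i hi => mul_nonneg (norm_nonneg _) (hD i hi)
  calc (∑ i ∈ s, ‖c i‖ * D i) ^ 2 * (T * U) ≤ W ^ 2 * (T * U) := by gcongr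
    _ = _ := by rw [hT, hU]; ring

end TN
end Crest.Agent.R17
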