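import Crest.Agent.R17.ThetaNorm_Aux
import Crest.Agent.R17.QLS

/-!
# R17 / ThetaNorm_WQ : weighted quadratic large sieve (task).  Statements frozen.
-/

set_option autoImplicit false

noncomputable section

open scoped Classical ComplexConjugate
open MeasureTheory

namespace Crest.Agent.R17
namespace TN

theorem wq_norm_sum_sq {ι : Type*} (s : Finset ι) (f : ι → ℂ) :
    ‖∑ i ∈ s, f i‖ ^ 2 ≤ s.card * ∑ i ∈ s, ‖f i‖ ^ 2 :=
  (pow_le_pow_left₀ (norm_nonneg _) (norm_sum_le _ _) 2).trans sq_sum_le_card_mul_sum_sq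

theorem wq_half {Z ε : ℝ} (hZ : 3 ≤ Z) : Z ^ ε = Z ^ (ε / 2) * Z ^ (ε / 2) := by
  rw [← Real.rpow_add (by linarith), add_halves]

theorem wq_piece (A : ℝ) {ε : ℝ} (hε : 0 < ε) : ∃ C, 0 ≤ C ∧ ∀ Z : ℝ, 3 ≤ Z →
    ∀ (R : Finset O) (K : ℝ), Sq6 R K → 1 ≤ K → K ≤ Z ^ A → ∀ (S : Finset O) (a : O → ℂ) (j : ℕ),
    (∀ b ∈ S, Squarefree b ∧ N b ≤ Z ^ A ∧ dy b = j) →
    ∑ k ∈ R, ‖∑ b ∈ S, a b * qua k b‖ ^ 2 ≤ C * Z ^ ε * ∑ b ∈ S, (K + N b) * ‖a b‖ ^ 2 := by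
  obtain ⟨C, hC⟩ := qls (A + 1) hε
  refine ⟨2 * |C|, by positivity, fun Z hZ R K hR hK hKZ S a j hS => ?_⟩
  have hZ0 : 0 < Z := by linarith
  rcases S.eq_empty_or_nonempty with rfl | ⟨b0, hb0⟩
  · simp
  have hZA : 2 * Z ^ A ≤ Z ^ (A + 1) := by
    rw [Real.rpow_add hZ0, Real.rpow_one]
    nlinarith [Real.rpow_pos_of_pos hZ0 A]
  have hX : ∀ b ∈ S, (2 : ℝ) ^ j ≤ N b ∧ N b ≤ 2 * 2 ^ j := fun b hb => by
    have := dy_spec (hS b hb).1.ne_zero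
    rwa [(hS b hb).2.2] at this
  have h1 : (1 : ℝ) ≤ 2 ^ j := one_le_pow₀ one_le_two
  have hsub : S ⊆ (ball (2 * 2 ^ j)).filter Squarefree := fun b hb =>
    Finset.mem_filter.2 ⟨mem_ball.2 ⟨(hS b hb).1.ne_zero, (hX b hb).2⟩, (hS b hb).1⟩
  have h2 := hC Z hZ K (2 * 2 ^ j) hK (by linarith [Real.rpow_pos_of_pos hZ0 A]) (by linarith)
    (by linarith [(hX b0 hb0).1, (hS b0 hb0).2.1]) fun b => if b ∈ S then a b else 0
  have e1 : ∀ k, ∑ b ∈ (ball (2 * 2 ^ j)).filter Squarefree, (if b ∈ S then a b else 0) * qua k b =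
      ∑ b ∈ S, a b * qua k b := fun k => by
    rw [← Finset.sum_subset hsub fun b _ hb => by rw [if_neg hb, zero_mul]]
    exact Finset.sum_congr rfl fun b hb => by rw [if_pos hb]
  have e2 : ∑ b ∈ (ball (2 * 2 ^ j)).filter Squarefree, ‖if b ∈ S then a b else 0‖ ^ 2 =
      ∑ b ∈ S, ‖a b‖ ^ 2 := by
    rw [← Finset.sum_subset hsub fun b _ hb => by rw [if_neg hb, norm_zero, zero_pow two_ne_zero]]
    exact Finset.sum_congr rfl fun b hb => by rw [if_pos hb]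
  simp only [e1, e2] at h2
  have hRsub : R ⊆ (ball K).filter (fun k => Prim k ∧ Squarefree k ∧ IsCoprime k 2) := fun k hk =>
    Finset.mem_filter.2 ⟨hR.subset_ball hk, (hR k hk).1, (hR k hk).2.1, (hR k hk).2.2.1⟩
  refine (Finset.sum_le_sum_of_subset_of_nonneg hRsub fun _ _ _ => sq_nonneg _).trans
    (h2.trans ?_)
  have h3 : (K + 2 * 2 ^ j) * ∑ b ∈ S, ‖a b‖ ^ 2 ≤ 2 * ∑ b ∈ S, (K + N b) * ‖a b‖ ^ 2 := by
    rw [Finset.mul_sum, Finset.mul_sum]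
    refine Finset.sum_le_sum fun b hb => ?_
    rw [← mul_assoc]
    exact mul_le_mul_of_nonneg_right (by linarith [(hX b hb).1]) (sq_nonneg _)
  have h4 : 0 ≤ (K + 2 * 2 ^ j) * ∑ b ∈ S, ‖a b‖ ^ 2 := by positivity
  calc C * Z ^ ε * (K + 2 * 2 ^ j) * ∑ b ∈ S, ‖a b‖ ^ 2
      = C * Z ^ ε * ((K + 2 * 2 ^ j) * ∑ b ∈ S, ‖a b‖ ^ 2) := by ring
    _ ≤ |C| * Z ^ ε * (2 * ∑ b ∈ S, (K + N b) * ‖a b‖ ^ 2) := by
        gcongr
        exact le_abs_self C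
    _ = _ := by ring

/-- Split `S` by `dy b` (`dy_Z`, `Finset.sum_fiberwise_of_maps_to`), Cauchy–Schwarz over the `J` pieces; on the piece
`dy b = j` apply `qls (A+1)` with `X = 2 * 2^j ≤ 2 N b` and the coefficients cut to the piece
(`R ⊆ (ball K).filter _`); `K + X ≤ 2 (K + N b)`.  (The constant of `qls` may be replaced by its
absolute value.) -/
theorem wqls (A : ℝ) {ε : ℝ} (hε : 0 < ε) : ∃ C, 0 ≤ C ∧ ∀ Z : ℝ, 3 ≤ Z → ∀ (R : Finset O) (K : ℝ),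
    Sq6 R K → 1 ≤ K → K ≤ Z ^ A → ∀ (S : Finset O) (a : O → ℂ),
    (∀ b ∈ S, Squarefree b ∧ N b ≤ Z ^ A) →
    ∑ k ∈ R, ‖∑ b ∈ S, a b * qua k b‖ ^ 2 ≤ C * Z ^ ε * ∑ b ∈ S, (K + N b) * ‖a b‖ ^ 2 := by
  obtain ⟨C1, h1, hC1⟩ := wq_piece A (half_pos hε)
  obtain ⟨C2, h2, hC2⟩ := dy_Z A (half_pos hε)
  refine ⟨C2 * C1, by positivity, fun Z hZ R K hR hK hKZ S a hS => ?_⟩
  have hZ0 : 0 < Z := by linarith
  obtain ⟨J, hJ, hJ'⟩ := hC2 Z hZ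
  have hmap : ∀ b ∈ S, dy b ∈ Finset.range J := fun b hb =>
    Finset.mem_range.2 (hJ' b (hS b hb).1.ne_zero (hS b hb).2)
  have h3 : 0 ≤ ∑ b ∈ S, (K + N b) * ‖a b‖ ^ 2 :=
    Finset.sum_nonneg fun b _ => mul_nonneg (by linarith [N_nonneg b]) (sq_nonneg _)
  calc ∑ k ∈ R, ‖∑ b ∈ S, a b * qua k b‖ ^ 2
      ≤ ∑ k ∈ R, (J : ℝ) * ∑ j ∈ Finset.range J,
          ‖∑ b ∈ S.filter (fun b => dy b = j), a b * qua k b‖ ^ 2 := by
        refine Finset.sum_le_sum fun k _ => ?_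
        rw [← Finset.sum_fiberwise_of_maps_to hmap]
        simpa using wq_norm_sum_sq (Finset.range J)
          fun j => ∑ b ∈ S.filter (fun b => dy b = j), a b * qua k b
    _ = J * ∑ j ∈ Finset.range J, ∑ k ∈ R,
          ‖∑ b ∈ S.filter (fun b => dy b = j), a b * qua k b‖ ^ 2 := by
        rw [← Finset.mul_sum, Finset.sum_comm]
    _ ≤ J * ∑ j ∈ Finset.range J, C1 * Z ^ (ε / 2) *
          ∑ b ∈ S.filter (fun b => dy b = j), (K + N b) * ‖a b‖ ^ 2 := by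
        refine mul_le_mul_of_nonneg_left (Finset.sum_le_sum fun j _ => ?_) (Nat.cast_nonneg J)
        refine hC1 Z hZ R K hR hK hKZ _ a j fun b hb => ?_
        obtain ⟨h4, h5⟩ := Finset.mem_filter.1 hb
        exact ⟨(hS b h4).1, (hS b h4).2, h5⟩
    _ = J * (C1 * Z ^ (ε / 2) * ∑ b ∈ S, (K + N b) * ‖a b‖ ^ 2) := by
        rw [← Finset.mul_sum, Finset.sum_fiberwise_of_maps_to hmap]
    _ ≤ C2 * Z ^ (ε / 2) * (C1 * Z ^ (ε / 2) * ∑ b ∈ S, (K + N b) * ‖a b‖ ^ 2) :=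
        mul_le_mul_of_nonneg_right hJ (by positivity)
    _ = _ := by
        rw [wq_half (ε := ε) hZ]
        ring

/-- Group the pairs by `b = p.1 * p.2`; the fibre over `b` injects into `pdiv b` by `p ↦ p.2`
(`card_pdiv_Z`), Cauchy–Schwarz on the fibre. -/
theorem wqls_pairs (A : ℝ) {ε : ℝ} (hε : 0 < ε) : ∃ C, 0 ≤ C ∧ ∀ Z : ℝ, 3 ≤ Z →
    ∀ (R : Finset O) (K : ℝ), Sq6 R K → 1 ≤ K → K ≤ Z ^ A →
    ∀ (T : Finset (O × O)) (a : O × O → ℂ),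
    (∀ p ∈ T, Prim p.2 ∧ Squarefree (p.1 * p.2) ∧ N (p.1 * p.2) ≤ Z ^ A) →
    ∑ k ∈ R, ‖∑ p ∈ T, a p * qua k (p.1 * p.2)‖ ^ 2 ≤
      C * Z ^ ε * ∑ p ∈ T, (K + N (p.1 * p.2)) * ‖a p‖ ^ 2 := by
  obtain ⟨C1, h1, hC1⟩ := wqls A (half_pos hε)
  obtain ⟨C2, h2, hC2⟩ := card_pdiv_Z A (half_pos hε)
  refine ⟨C1 * C2, by positivity, fun Z hZ R K hR hK hKZ T a hT => ?_⟩
  have hZ0 : 0 < Z := by linarith
  have hmap : ∀ p ∈ T, p.1 * p.2 ∈ T.image fun p => p.1 * p.2 := fun p hp =>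
    Finset.mem_image_of_mem _ hp
  have hS : ∀ b ∈ T.image fun p => p.1 * p.2, Squarefree b ∧ N b ≤ Z ^ A := fun b hb => by
    obtain ⟨p, hp, rfl⟩ := Finset.mem_image.1 hb
    exact (hT p hp).2
  have h3 := hC1 Z hZ R K hR hK hKZ _ (fun b => ∑ p ∈ T.filter (fun p => p.1 * p.2 = b), a p) hS
  have e1 : ∀ k, ∑ b ∈ T.image fun p => p.1 * p.2,
      (∑ p ∈ T.filter (fun p => p.1 * p.2 = b), a p) * qua k b =
      ∑ p ∈ T, a p * qua k (p.1 * p.2) := fun k => by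
    rw [← Finset.sum_fiberwise_of_maps_to hmap]
    refine Finset.sum_congr rfl fun b _ => ?_
    rw [Finset.sum_mul]
    exact Finset.sum_congr rfl fun p hp => by rw [(Finset.mem_filter.1 hp).2]
  simp only [e1] at h3
  refine h3.trans ?_
  have h4 : ∑ b ∈ T.image fun p => p.1 * p.2,
      (K + N b) * ‖∑ p ∈ T.filter (fun p => p.1 * p.2 = b), a p‖ ^ 2 ≤
      C2 * Z ^ (ε / 2) * ∑ p ∈ T, (K + N (p.1 * p.2)) * ‖a p‖ ^ 2 := by
    rw [← Finset.sum_fiberwise_of_maps_to hmap, Finset.mul_sum]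
    refine Finset.sum_le_sum fun b hb => ?_
    have hb0 := (hS b hb).1.ne_zero
    have hcard : ((T.filter fun p => p.1 * p.2 = b).card : ℝ) ≤ C2 * Z ^ (ε / 2) := by
      refine le_trans (Nat.cast_le.2 (Finset.card_le_card_of_injOn (fun p => p.2)
        (fun p hp => ?_) fun p hp q hq h => ?_)) (hC2 Z hZ b hb0 (hS b hb).2)
      · obtain ⟨h5, h6⟩ := Finset.mem_filter.1 (Finset.mem_coe.1 hp)
        exact Finset.mem_coe.2 ((mem_pdiv hb0).2 ⟨(hT p h5).1, Dvd.intro_left _ h6⟩)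
      · obtain ⟨h5, h6⟩ := Finset.mem_filter.1 (Finset.mem_coe.1 hp)
        obtain ⟨-, h7⟩ := Finset.mem_filter.1 (Finset.mem_coe.1 hq)
        have h8 : p.2 = q.2 := h
        refine Prod.ext (mul_right_cancel₀ (hT p h5).1.ne_zero ?_) h8
        rw [h6, h8, h7]
    have e2 : ∑ p ∈ T.filter (fun p => p.1 * p.2 = b), (K + N (p.1 * p.2)) * ‖a p‖ ^ 2 =
        (K + N b) * ∑ p ∈ T.filter (fun p => p.1 * p.2 = b), ‖a p‖ ^ 2 := by
      rw [Finset.mul_sum]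
      exact Finset.sum_congr rfl fun p hp => by rw [(Finset.mem_filter.1 hp).2]
    rw [e2, mul_left_comm]
    refine mul_le_mul_of_nonneg_left ((wq_norm_sum_sq _ _).trans ?_) (by linarith [N_nonneg b])
    exact mul_le_mul_of_nonneg_right hcard (Finset.sum_nonneg fun _ _ => sq_nonneg _)
  refine (mul_le_mul_of_nonneg_left h4 (by positivity)).trans (le_of_eq ?_)
  rw [wq_half (ε := ε) hZ]
  ring

end TN
end Crest.Agent.R17
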