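import Crest.Agent.R17.VoDefs

/-!
# R17 / VoAbs : the resolvent of a bounded self-adjoint operator near a real point

`g s = -(resolvent T (h s)) (f s)`, i.e. `g s = (T - h s)⁻¹ f s`; `h s ∉ spectrum` because it is not
real (`IsSelfAdjoint.mem_spectrum_eq_re` / `SpectrumRestricts`), holomorphy from
`spectrum.hasDerivAt_resolvent_const_left` (resolvent set is open).  `‖(T - z) x‖ ≥ |Im z| ‖x‖`
(imaginary part of `⟪x, (T - z) x⟫`), so `‖(T - z)⁻¹‖ ≤ 1/|Im z|`.  Let `z_ε = h(4/3 + iε) =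
μ₀ + iε h₁ + o(ε)`; then `ε/|Im z_ε|` and `|z_ε - μ₀|/|Im z_ε|` stay bounded and
`iε/(μ₀ - z_ε) → -1/h₁`.  Let `u` be the orthogonal projection of `f(4/3)` on
`K = ker (T - μ₀)`; `f(4/3) - u ∈ Kᗮ = closure (range (T - μ₀))`
(`ContinuousLinearMap.orthogonal_ker`/`IsSelfAdjoint`, `Submodule.orthogonal_orthogonal_eq_closure`).
On `u`: `(T - z)⁻¹ u = u/(μ₀ - z)`.  On `x = (T - μ₀) y`:
`iε (T - z)⁻¹ x = iε (y + (z - μ₀)(T - z)⁻¹ y) → 0`; extend to the closure by the uniform bound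
`‖iε (T - z_ε)⁻¹‖ ≤ C`; the same bound and continuity of `f` handle `f(4/3+iε) - f(4/3)`.
-/

set_option autoImplicit false

noncomputable section

open scoped Classical ComplexConjugate Topology ENNReal InnerProductSpace
open MeasureTheory Filter

namespace Crest.Agent.R17.Vor

section
variable {H : Type} [NormedAddCommGroup H] [InnerProductSpace ℂ H] [CompleteSpace H]

theorem VoAbs_mem {T : H →L[ℂ] H} (hT : IsSelfAdjoint T) {z : ℂ} (hz : z.im ≠ 0) :
    z ∈ resolventSet ℂ T := by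
  by_contra h
  exact hz (hT.im_eq_zero_of_mem_spectrum h)

theorem VoAbs_left {T : H →L[ℂ] H} {z : ℂ} (hz : z ∈ resolventSet ℂ T) (x : H) :
    resolvent T z (z • x - T x) = x := by
  have h : resolvent T z * (algebraMap ℂ (H →L[ℂ] H) z - T) = 1 :=
    Ring.inverse_mul_cancel _ hz
  have := congrArg (fun S : H →L[ℂ] H => S x) h
  simpa [Algebra.algebraMap_eq_smul_one] using this

theorem VoAbs_right {T : H →L[ℂ] H} {z : ℂ} (hz : z ∈ resolventSet ℂ T) (x : H) :
    z • resolvent T z x - T (resolvent T z x) = x := by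
  have h : (algebraMap ℂ (H →L[ℂ] H) z - T) * resolvent T z = 1 :=
    Ring.mul_inverse_cancel _ hz
  have := congrArg (fun S : H →L[ℂ] H => S x) h
  simpa [Algebra.algebraMap_eq_smul_one] using this

theorem VoAbs_lower {T : H →L[ℂ] H} (hT : IsSelfAdjoint T) (z : ℂ) (y : H) :
    |z.im| * ‖y‖ ≤ ‖z • y - T y‖ := by
  have h1 : (⟪y, T y⟫_ℂ).im = 0 := by
    have h2 : ⟪T y, y⟫_ℂ = ⟪y, T y⟫_ℂ := hT.isSymmetric y y
    have h3 : conj ⟪y, T y⟫_ℂ = ⟪y, T y⟫_ℂ := by rw [inner_conj_symm, h2]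
    exact Complex.conj_eq_iff_im.1 h3
  have h2 : (⟪y, z • y - T y⟫_ℂ).im = z.im * ‖y‖ ^ 2 := by
    rw [inner_sub_right, inner_smul_right, Complex.sub_im, h1, inner_self_eq_norm_sq_to_K]
    simp [← Complex.ofReal_pow]
  have h3 : |z.im| * ‖y‖ ^ 2 ≤ ‖y‖ * ‖z • y - T y‖ := by
    calc |z.im| * ‖y‖ ^ 2 = |(⟪y, z • y - T y⟫_ℂ).im| := by
          rw [h2, abs_mul, abs_of_nonneg (sq_nonneg ‖y‖)]
      _ ≤ ‖⟪y, z • y - T y⟫_ℂ‖ := Complex.abs_im_le_norm _
      _ ≤ _ := norm_inner_le_norm _ _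
  rcases (norm_nonneg y).eq_or_lt with h0 | h0
  · rw [← h0, mul_zero]; exact norm_nonneg _
  · exact le_of_mul_le_mul_left (by nlinarith) h0

omit [CompleteSpace H] in
theorem VoAbs_small {ι : Type} {l : Filter ι} {A : ι → H →L[ℂ] H} {C : ℝ}
    (hA : ∀ᶠ i in l, ∀ x, ‖A i x‖ ≤ C * ‖x‖) {w : ι → H} (hw : Tendsto w l (𝓝 0)) :
    Tendsto (fun i => A i (w i)) l (𝓝 0) := by
  refine squeeze_zero_norm' (hA.mono fun i hi => hi (w i)) ?_
  simpa using hw.norm.const_mul C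

omit [CompleteSpace H] in
theorem VoAbs_closure {ι : Type} {l : Filter ι} {A : ι → H →L[ℂ] H} {C : ℝ} (hC : 0 < C)
    (hA : ∀ᶠ i in l, ∀ x, ‖A i x‖ ≤ C * ‖x‖) {S : Set H}
    (hS : ∀ x ∈ S, Tendsto (fun i => A i x) l (𝓝 0)) {v : H} (hv : v ∈ closure S) :
    Tendsto (fun i => A i v) l (𝓝 0) := by
  rw [NormedAddGroup.tendsto_nhds_zero]
  intro δ hδ
  obtain ⟨x, hx, hxv⟩ := Metric.mem_closure_iff.1 hv (δ / 2 / C) (by positivity)
  have h1 := (NormedAddGroup.tendsto_nhds_zero.1 (hS x hx)) (δ / 2) (by positivity)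
  filter_upwards [hA, h1] with i h2 h3
  have h4 := h2 (v - x)
  rw [← dist_eq_norm] at h4
  have h5 : C * dist v x < δ / 2 := by
    rw [lt_div_iff₀ hC] at hxv; linarith
  calc ‖A i v‖ = ‖A i (v - x) + A i x‖ := by rw [← map_add, sub_add_cancel]
    _ ≤ ‖A i (v - x)‖ + ‖A i x‖ := norm_add_le _ _
    _ < δ := by linarith

end

theorem resolvent_main {H : Type} [NormedAddCommGroup H] [InnerProductSpace ℂ H] [CompleteSpace H]
    (T : H →L[ℂ] H) (hT : IsSelfAdjoint T) {h : ℂ → ℂ} (hh : Differentiable ℂ h)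
    (him : ∀ s ∈ Omg, (h s).im ≠ 0) {μ0 h1 : ℝ} (h0 : h (4 / 3) = μ0)
    (hd : HasDerivAt h (h1 : ℂ) (4 / 3)) (h1ne : h1 ≠ 0) {f : ℂ → H} (hf : Differentiable ℂ f) :
    ∃ (g : ℂ → H) (u : H), DifferentiableOn ℂ g Omg ∧
      (∀ s ∈ Omg, ∀ x, T x - h s • x = f s → x = g s) ∧ T u = (μ0 : ℂ) • u ∧
      Tendsto (fun ε : ℝ => ((ε : ℂ) * Complex.I) • g (4 / 3 + ε * Complex.I)) (𝓝[>] 0)
        (𝓝 (-((h1 : ℂ)⁻¹ • u))) ∧
      ∀ D, T D = (μ0 : ℂ) • D → ⟪f (4 / 3), D⟫_ℂ = ⟪u, D⟫_ℂ := by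
  have hOpen : ∀ s ∈ Omg, h s ∈ resolventSet ℂ T := fun s hs => VoAbs_mem hT (him s hs)
  let S : H →L[ℂ] H := T - (μ0 : ℂ) • 1
  have hS : IsSelfAdjoint S := by
    refine hT.sub ?_
    rw [IsSelfAdjoint, star_smul, star_one, Complex.star_def, Complex.conj_ofReal]
  have hSx : ∀ x, S x = T x - (μ0 : ℂ) • x := fun x => by simp [S]
  let K : Submodule ℂ H := S.ker
  have hKc : IsClosed (K : Set H) := S.isClosed_ker
  have : CompleteSpace K := hKc.completeSpace_coe
  let u : H := K.starProjection (f (4 / 3))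
  have hu : T u = (μ0 : ℂ) • u := by
    have : u ∈ K := K.starProjection_apply_mem _
    have h2 : S u = 0 := this
    rwa [hSx, sub_eq_zero] at h2
  have hv : f (4 / 3) - u ∈ Kᗮ := K.sub_starProjection_mem_orthogonal _
  refine ⟨fun s => -(resolvent T (h s) (f s)), u, ?_, ?_, hu, ?_, ?_⟩
  · intro s hs
    have h1 : DifferentiableAt ℂ (fun s => resolvent T (h s)) s :=
      (spectrum.hasDerivAt_resolvent_const_left (hOpen s hs)).differentiableAt.comp s (hh s)
    exact (h1.clm_apply (hf s)).neg.differentiableWithinAt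
  · intro s hs x hx
    have := VoAbs_left (hOpen s hs) x
    rw [← neg_sub, hx, map_neg] at this
    exact this.symm
  · -- the limit
    let sε : ℝ → ℂ := fun ε => 4 / 3 + ε * Complex.I
    let e : ℝ → ℂ := fun ε => ε * Complex.I
    let c : ℝ → ℂ := fun ε => (e ε)⁻¹ * (h (sε ε) - μ0)
    have he0 : Tendsto e (𝓝[>] 0) (𝓝 0) := by
      have : Continuous e := by fun_prop
      simpa [e] using (this.tendsto 0).mono_left nhdsWithin_le_nhds
    have hene : ∀ ε : ℝ, 0 < ε → e ε ≠ 0 := fun ε hε =>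
      mul_ne_zero (Complex.ofReal_ne_zero.2 hε.ne') Complex.I_ne_zero
    have hpos : ∀ᶠ ε : ℝ in 𝓝[>] 0, 0 < ε := self_mem_nhdsWithin
    have hc : Tendsto c (𝓝[>] 0) (𝓝 (h1 : ℂ)) := by
      have h2 := hasDerivAt_iff_tendsto_slope_zero.1 hd
      have h3 : Tendsto e (𝓝[>] 0) (𝓝[≠] 0) :=
        tendsto_nhdsWithin_iff.2 ⟨he0, hpos.mono fun ε hε => hene ε hε⟩
      have h4 := h2.comp h3
      rw [h0] at h4
      exact h4
    have hs0 : Tendsto sε (𝓝[>] 0) (𝓝 (4 / 3)) := by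
      simpa using he0.const_add (4 / 3 : ℂ)
    have hOm : ∀ᶠ ε : ℝ in 𝓝[>] 0, sε ε ∈ Omg := by
      filter_upwards [Ioo_mem_nhdsGT (show (0 : ℝ) < 1 by norm_num)] with ε hε
      refine ⟨?_, ?_, ?_⟩
      · simp [sε]; norm_num
      · simpa [sε] using hε.1
      · simpa [sε] using hε.2
    have hz : ∀ ε : ℝ, 0 < ε → h (sε ε) = μ0 + e ε * c ε := by
      intro ε hε
      simp only [c]
      rw [mul_inv_cancel_left₀ (hene ε hε)]; ring
    have habs : 0 < |h1| := abs_pos.2 h1ne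
    have hre : ∀ᶠ ε : ℝ in 𝓝[>] 0, |h1| / 2 < |(c ε).re| := by
      have h2 : Tendsto (fun ε => |(c ε).re|) (𝓝[>] 0) (𝓝 |h1|) := by
        simpa using ((Complex.continuous_re.tendsto _).comp hc).abs
      exact h2.eventually (lt_mem_nhds (by linarith))
    let A : ℝ → H →L[ℂ] H := fun ε => e ε • resolvent T (h (sε ε))
    have hA : ∀ᶠ ε : ℝ in 𝓝[>] 0, ∀ x, ‖A ε x‖ ≤ 2 / |h1| * ‖x‖ := by
      filter_upwards [hpos, hOm, hre] with ε hε h2 h3 x
      have h4 := VoAbs_lower hT (h (sε ε)) (resolvent T (h (sε ε)) x)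
      rw [VoAbs_right (hOpen _ h2)] at h4
      have h5 : (h (sε ε)).im = ε * (c ε).re := by
        rw [hz ε hε]; simp [e]
      have h6 : ‖A ε x‖ = ε * ‖resolvent T (h (sε ε)) x‖ := by
        simp [A, e, norm_smul, abs_of_pos hε]
      rw [h5, abs_mul, abs_of_pos hε] at h4
      rw [h6, div_mul_eq_mul_div, le_div_iff₀ habs]
      have h7 : 0 ≤ ε * ‖resolvent T (h (sε ε)) x‖ := by positivity
      nlinarith
    have t1 : Tendsto (fun ε => A ε (f (sε ε) - f (4 / 3))) (𝓝[>] 0) (𝓝 0) := by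
      refine VoAbs_small hA ?_
      simpa using ((hf.continuous.tendsto _).comp hs0).sub_const (f (4 / 3))
    have t2 : Tendsto (fun ε => A ε (f (4 / 3) - u)) (𝓝[>] 0) (𝓝 0) := by
      refine VoAbs_closure (by positivity) hA (S := (S.range : Set H)) ?_ ?_
      · rintro x ⟨y, rfl⟩
        have h2 : Tendsto (fun ε => A ε ((e ε * c ε) • y) - e ε • y) (𝓝[>] 0) (𝓝 0) := by
          have h3 : Tendsto (fun ε => (e ε * c ε) • y) (𝓝[>] 0) (𝓝 0) := by
            simpa using (he0.mul hc).smul_const y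
          simpa using (VoAbs_small hA h3).sub (he0.smul_const y)
        refine h2.congr' ?_
        filter_upwards [hpos, hOm] with ε hε h3
        have h4 := VoAbs_left (hOpen _ h3) y
        have h5 : (S : H →ₗ[ℂ] H) y = (e ε * c ε) • y - (h (sε ε) • y - T y) := by
          rw [hz ε hε, add_smul]
          change S y = _
          rw [hSx]; abel
        rw [h5, map_sub]
        simp only [A, smul_apply, h4]
      · have h2 := ContinuousLinearMap.orthogonal_ker S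
        rw [hS.adjoint_eq] at h2
        rw [← Submodule.topologicalClosure_coe, ← h2]
        exact hv
    have t3 : Tendsto (fun ε => A ε u) (𝓝[>] 0) (𝓝 ((h1 : ℂ)⁻¹ • u)) := by
      have h2 : Tendsto (fun ε => (c ε)⁻¹ • u) (𝓝[>] 0) (𝓝 ((h1 : ℂ)⁻¹ • u)) :=
        (hc.inv₀ (Complex.ofReal_ne_zero.2 h1ne)).smul_const u
      refine h2.congr' ?_
      filter_upwards [hpos, hOm, hre] with ε hε h3 h4
      have h5 := VoAbs_left (hOpen _ h3) u
      have hc0 : c ε ≠ 0 := by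
        intro h6
        rw [h6] at h4
        simp only [Complex.zero_re, abs_zero] at h4
        linarith
      have h6 : h (sε ε) • u - T u = (c ε * e ε) • u := by
        rw [hu, ← sub_smul, hz ε hε]; congr 1; ring
      rw [h6, map_smul, mul_smul] at h5
      simp only [A, smul_apply]
      rw [eq_comm, eq_inv_smul_iff₀ hc0, h5]
    have t4 := ((t1.add t2).add t3).neg
    rw [zero_add, zero_add] at t4
    refine t4.congr fun ε => ?_
    rw [← map_add, ← map_add, sub_add_sub_cancel, sub_add_cancel]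
    simp only [A, smul_apply, smul_neg, e, sε]
  · intro D hD
    have hDK : D ∈ K := by
      change S D = 0
      rw [hSx, hD, sub_self]
    have := Submodule.inner_left_of_mem_orthogonal hDK hv
    rwa [inner_sub_left, sub_eq_zero] at this

end Crest.Agent.R17.Vor
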