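import Crest.Agent.R17.VoGrp
import Crest.Agent.R17.Sym3

/-!
# R17 / VoArith1 : the row functions `kp π`, `tr σ k0`; cusps
-/

set_option autoImplicit false

noncomputable section

open scoped Classical ComplexConjugate Topology ENNReal InnerProductSpace
open MeasureTheory Filter

namespace Crest.Agent.R17.Vor

theorem voar_prim_congr {d d' : O} (h : (3 : O) ∣ d' - d) : Prim d' ↔ Prim d := by
  unfold Prim
  rw [show d' - 1 = (d' - d) + (d - 1) by ring]
  exact dvd_add_right h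

theorem voar_dvd_congr {q d d' : O} (h : q ∣ d' - d) : q ∣ d' ↔ q ∣ d := by
  rw [show d' = (d' - d) + d by ring]
  simpa using dvd_add_right (c := d) h

theorem voar_sub_one {a : O} (ha : Prim a) (x : O) : (3 : O) ∣ a * x - x := by
  rw [show a * x - x = (a - 1) * x by ring]
  exact Dvd.dvd.mul_right ha x

theorem voar_cub_neg {d : O} (hd : Prim d) (c : O) : cub d (-c) = cub d c := by
  rw [← neg_one_mul, (rcub_isChar hd).mul, cub_neg_one hd.isCoprime_three, one_mul]

theorem voar_kp_ne {π : O → Prop} {c d : O} (h : kp π c d ≠ 0) :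
    (3 : O) ∣ c ∧ Prim d ∧ π d ∧ IsCoprime c d := by
  unfold kp at h
  split_ifs at h with h1
  · refine ⟨h1.1, h1.2.1, h1.2.2, ?_⟩
    by_contra hc
    exact h (((rcub_isChar h1.2.1).zero_iff c).2 hc)
  · exact absurd rfl h

theorem voar_tr_bd {κ : O → O → ℂ} (hκ : RowBd κ) (σ : SL O) : RowBd (tr σ κ) := by
  refine ⟨fun c d => hκ.1 _ _, fun c d h => ?_⟩
  obtain ⟨u, v, huv⟩ := hκ.2 _ _ h
  exact ⟨u * σ.d - v * σ.b, v * σ.a - u * σ.c, by linear_combination huv⟩

theorem rowBd_kp (π : O → Prop) : RowBd (kp π) := by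
  refine ⟨fun c d => ?_, fun c d h => (voar_kp_ne h).2.2.2⟩
  unfold kp
  split_ifs with h
  · exact (rcub_isChar h.2.1).norm_le h.2.1.ne_zero c
  · simp
/-- coprime rows in the support: complete with `exists_Gam_row` (`p = 1`) and use `kubota`/`kap_mul`;
for non-coprime rows both sides vanish (`IsChar.zero_iff`; `(c,d)γ` is not coprime either); the
support condition is invariant -/
theorem equi_kp {p : O} {π : O → Prop}
    (hπ : ∀ d d' x : O, IsCoprime x p → p ∣ d' - d * x → (π d' ↔ π d)) : Equi p (kp π) := by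
  intro γ hγ c d
  obtain ⟨h1, h2, h3, h4, h5⟩ := mem_Gam.1 hγ
  have e1 : (3 : O) ∣ c * γ.a + d * γ.c ↔ (3 : O) ∣ c := voar_dvd_congr (by
    rw [show c * γ.a + d * γ.c - c = (γ.a * c - c) + d * γ.c by ring]
    exact dvd_add (voar_sub_one h1 c) (h3.mul_left d))
  have e2 : Prim (c * γ.b + d * γ.d) ↔ Prim d := voar_prim_congr (by
    rw [show c * γ.b + d * γ.d - d = (γ.d * d - d) + c * γ.b by ring]
    exact dvd_add (voar_sub_one h4 d) (h2.mul_left c))
  have e3 : π (c * γ.b + d * γ.d) ↔ π d := by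
    refine hπ d _ γ.d ?_ (by rw [add_sub_cancel_right]; exact h5.mul_left c)
    obtain ⟨t, ht⟩ := h5
    exact ⟨γ.a, -(t * γ.c), by linear_combination γ.det + γ.c * ht⟩
  unfold kp
  simp only [e1, e2, e3]
  split_ifs with h
  · by_cases hc : IsCoprime c d
    · obtain ⟨g, hg, rfl, rfl⟩ := exists_Gam_row (p := 1) h.1 h.2.1 hc isCoprime_one_left
      exact kap_mul hg (Gam_le p hγ)
    · rw [((rcub_isChar h.2.1).zero_iff c).2 hc, zero_mul]
      refine ((rcub_isChar (e2.2 h.2.1)).zero_iff _).2 fun ⟨u, v, huv⟩ => hc ?_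
      exact ⟨u * γ.a + v * γ.b, u * γ.c + v * γ.d, by linear_combination huv⟩
  · simp
theorem equi_k0 (p : O) : Equi p k0 := equi_kp fun _ _ _ _ _ => Iff.rfl
theorem voar_dvd_iff {p d d' x : O} (hx : IsCoprime x p) (h : p ∣ d' - d * x) : p ∣ d' ↔ p ∣ d :=
  (voar_dvd_congr h).trans ⟨hx.symm.dvd_of_dvd_mul_right, fun h => h.mul_right x⟩
theorem equi_dvd (p : O) : Equi p (kp (fun d => p ∣ d)) :=   equi_kp fun _ _ _ hx h => voar_dvd_iff hx h
theorem equi_not_dvd (p : O) : Equi p (kp (fun d => ¬ p ∣ d)) :=   equi_kp fun _ _ _ hx h => (voar_dvd_iff hx h).not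
theorem k0_eq_add (p : O) :
    k0 = fun c d => kp (fun d => p ∣ d) c d + kp (fun d => ¬ p ∣ d) c d := by
  funext c d
  by_cases h : p ∣ d <;> simp [k0, kp, h]

theorem cusp_k0 : Cusp 1 k0 1 3 := by
  refine ⟨by decide, fun c d h => ?_, fun x => ?_⟩
  · obtain ⟨h1, h2, -, h3⟩ := voar_kp_ne h
    simpa only [one_mul] using exists_Gam_row (p := 1) h1 h2 h3 isCoprime_one_left
  · rw [inv_one, one_mul, mul_one, nn_mem_Gam]
    simp
theorem cusp_not_dvd {p : O} (hp : Prime p) (hp' : Prim p) :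
    Cusp p (kp (fun d => ¬ p ∣ d)) 1 (3 * p) := by
  refine ⟨mul_ne_zero (by decide) hp.ne_zero, fun c d h => ?_, fun x => ?_⟩
  · obtain ⟨h1, h2, h4, h3⟩ := voar_kp_ne h
    simpa only [one_mul] using exists_Gam_row h1 h2 h3 ((hp.irreducible.coprime_iff_not_dvd).2 h4)
  · rw [inv_one, one_mul, mul_one, nn_mem_Gam]
    exact ⟨fun h => hp'.isCoprime_three.symm.mul_dvd h.1 h.2,
      fun h => ⟨(dvd_mul_right _ _).trans h, (dvd_mul_left _ _).trans h⟩⟩
/-- `δ = (a, b; 3, p)`.  Support: if `g ∈ Γ(3)` has the row `(c,d)`, `p ∣ d`, then `γ = δ⁻¹ g` has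
`γ.b = p g.b - δ.b d`.  Stabiliser: `δ⁻¹ n(x) δ = (1 + 3px, p²x; -9x, 1 - 3px)`. -/
theorem cusp_dvd {p : O} (hp' : Prim p) : ∃ δ ∈ Gam 1, δ.c = 3 ∧ δ.d = p ∧
    Cusp p (kp (fun d => p ∣ d)) δ 3 := by
  obtain ⟨δ, hδ, hc, hd⟩ := exists_Gam_row (p := 1) (dvd_refl (3 : O)) hp'
    hp'.isCoprime_three.symm isCoprime_one_left
  refine ⟨δ, hδ, hc, hd, by decide, fun c d h => ?_, fun x => ?_⟩
  · obtain ⟨h1, h2, h4, h3⟩ := voar_kp_ne h
    obtain ⟨g, hg, rfl, rfl⟩ := exists_Gam_row (p := 1) h1 h2 h3 isCoprime_one_left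
    obtain ⟨k1, k2, k3, k4, -⟩ := mem_Gam.1 (mul_mem (inv_mem hδ) hg)
    refine ⟨δ⁻¹ * g, ⟨k1, k2, k3, k4, ?_⟩, by rw [mul_inv_cancel_left], by rw [mul_inv_cancel_left]⟩
    rw [SL.mul_b, SL.inv_a, hd]
    exact dvd_add (dvd_mul_right _ _) (h4.mul_left _)
  · have hdet := δ.det
    rw [hc, hd] at hdet
    have ea : (δ⁻¹ * nn x * δ).a - 1 = 3 * (p * x) := by
      simp only [SL.mul_a, SL.mul_b, SL.inv_a, SL.inv_b, nn, hc, hd]
      linear_combination hdet
    have eb : (δ⁻¹ * nn x * δ).b = p * (p * x) := by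
      simp only [SL.mul_a, SL.mul_b, SL.inv_a, SL.inv_b, nn, hd]
      ring
    have ec : (δ⁻¹ * nn x * δ).c = 3 * (-3 * x) := by
      simp only [SL.mul_c, SL.mul_d, SL.inv_c, SL.inv_d, nn, hc]
      ring
    have ed : (δ⁻¹ * nn x * δ).d - 1 = 3 * (-(p * x)) := by
      simp only [SL.mul_c, SL.mul_d, SL.inv_c, SL.inv_d, nn, hc, hd]
      linear_combination hdet
    rw [mem_Gam, Prim, Prim, ea, eb, ec, ed]
    have h3 := hp'.isCoprime_three.symm
    exact ⟨fun h => h3.dvd_of_dvd_mul_left (h3.dvd_of_dvd_mul_left h.2.1), fun h =>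
      ⟨dvd_mul_right _ _, (h.mul_left p).mul_left p, dvd_mul_right _ _, dvd_mul_right _ _,
        dvd_mul_right _ _⟩⟩

/-- `p1`: `cub_rec`; `p3`: `cub_congr_three_mul` -/
theorem rowFn_k0 : RowFn 3 k0 := by
  refine ⟨rowBd_kp _, fun a ha C D => ?_, fun a ha C D => ?_, fun C D t => ?_⟩
  · simp only [k0, kp, voar_dvd_congr (voar_sub_one ha C)]
    split_ifs with h
    · rw [(rcub_isChar h.2.1).mul, cub_rec ha h.2.1]
    · simp
  · simp only [k0, kp, voar_prim_congr (voar_sub_one ha D)]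
    split_ifs with h
    · exact rkub_mul_left ha h.2.1 C
    · simp
  · have e1 : Prim (D + 3 * C * t) ↔ Prim D := voar_prim_congr ⟨C * t, by ring⟩
    simp only [k0, kp, e1]
    split_ifs with h
    · exact cub_congr_three_mul (e1.2 h.2.1) h.2.1 h.1 ⟨t, by ring⟩
    · rfl
theorem per_kp {p : O} {π : O → Prop} (hπ : ∀ d t, π (d + p * t) ↔ π d) (C D t : O) :
    kp π C (D + 3 * p * C * t) = kp π C D := by
  have e1 : Prim (D + 3 * p * C * t) ↔ Prim D := voar_prim_congr ⟨p * C * t, by ring⟩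
  have e2 : π (D + 3 * p * C * t) ↔ π D := by
    rw [show 3 * p * C * t = p * (3 * C * t) by ring, hπ]
  unfold kp
  simp only [e1, e2]
  split_ifs with h
  · exact cub_congr_three_mul (e1.2 h.2.1) h.2.1 h.1 ⟨p * t, by ring⟩
  · rfl
theorem tr_SS (π : O → Prop) (C D : O) :
    tr SS (kp π) C D = if (3 : O) ∣ D ∧ Prim C ∧ π C then cub C D else 0 := by
  simp only [tr, SS, kp, mul_zero, mul_one, zero_sub, mul_neg, neg_neg, add_zero, dvd_neg]
  split_ifs with h
  · exact voar_cub_neg h.2.1 D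
  · rfl
theorem per_SS (π : O → Prop) (C D t : O) :
    tr SS (kp π) C (D + 3 * C * t) = tr SS (kp π) C D := by
  have e1 : (3 : O) ∣ D + 3 * C * t ↔ (3 : O) ∣ D := voar_dvd_congr ⟨C * t, by ring⟩
  simp only [tr_SS, e1]
  split_ifs with h
  · exact rkub_congr ⟨3 * t, by ring⟩
  · rfl
/-- `equi_k0` with `γ = σ n(9t) σ⁻¹` and `kap_conj_nn` -/
theorem per_tr (σ : SL O) (C D t : O) : tr σ k0 C (D + 9 * C * t) = tr σ k0 C D := by
  have h := equi_k0 1 _ (kap_conj_nn σ t).1 (C * σ.d - D * σ.c) (-(C * σ.b) + D * σ.a)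
  rw [(kap_conj_nn σ t).2, mul_one] at h
  rw [tr, tr, ← h]
  congr 1
  · simp only [SL.mul_a, SL.mul_b, SL.mul_c, SL.mul_d, SL.inv_a, SL.inv_c, nn]
    linear_combination (-(C * σ.d - (D + 9 * C * t) * σ.c)) * σ.det
  · simp only [SL.mul_a, SL.mul_b, SL.mul_c, SL.mul_d, SL.inv_b, SL.inv_d, nn]
    linear_combination (-(-(C * σ.b) + (D + 9 * C * t) * σ.a)) * σ.det
theorem voar_tr_LL (x C D : O) :
    tr (LL x) k0 C D = if (3 : O) ∣ C - D * x ∧ Prim D then cub D C else 0 := by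
  simp only [tr, LL, k0, kp, mul_zero, mul_one, neg_zero, zero_add, and_true]
  split_ifs with h
  · exact rkub_congr ⟨-x, by ring⟩
  · rfl
theorem voar_tr_UU (x C D : O) :
    tr (UU x) k0 C D = if (3 : O) ∣ D ∧ Prim (C + D * x) then cub (C + D * x) D else 0 := by
  simp only [tr, UU, k0, kp, mul_zero, mul_one, zero_sub, mul_neg, neg_neg, and_true, dvd_neg]
  split_ifs with h
  · exact voar_cub_neg h.2 D
  · rfl
/-- `tr (LL x) k0 C D = [3 ∣ C - xD, Prim D] cub D C` -/
theorem rowFn_LL (x : O) : RowFn 9 (tr (LL x) k0) := by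
  refine ⟨voar_tr_bd (rowBd_kp _) _, fun a ha C D => ?_, fun a ha C D => ?_, per_tr _⟩
  · have e1 : (3 : O) ∣ a * C - D * x ↔ (3 : O) ∣ C - D * x :=
      voar_dvd_congr (by rw [sub_sub_sub_cancel_right]; exact voar_sub_one ha C)
    simp only [voar_tr_LL, e1]
    split_ifs with h
    · rw [(rcub_isChar h.2).mul, cub_rec ha h.2]
    · simp
  · have e1 : (3 : O) ∣ C - a * D * x ↔ (3 : O) ∣ C - D * x := voar_dvd_congr (by
      rw [show C - a * D * x - (C - D * x) = a * (-(D * x)) - -(D * x) by ring]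
      exact voar_sub_one ha _)
    simp only [voar_tr_LL, e1, voar_prim_congr (voar_sub_one ha D)]
    split_ifs with h
    · exact rkub_mul_left ha h.2 C
    · simp
/-- `tr (UU x) k0 C D = [3 ∣ D, Prim C] cub (C + xD) D`.  `p1`: `aC + xD ≡ a(C + xD) mod 3D`
(`cub_congr_three_mul`); `p2`: `cub (C + axD) a = cub a C` by reciprocity and
`C + axD ≡ C + xD mod 3D`. -/
theorem rowFn_UU (x : O) : RowFn 9 (tr (UU x) k0) := by
  refine ⟨voar_tr_bd (rowBd_kp _) _, fun a ha C D => ?_, fun a ha C D => ?_, per_tr _⟩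
  · have e1 : Prim (a * C + D * x) ↔ Prim (C + D * x) :=
      voar_prim_congr (by rw [add_sub_add_right_eq_sub]; exact voar_sub_one ha C)
    simp only [voar_tr_UU, e1]
    split_ifs with h
    · rw [← rkub_mul_left ha h.2]
      obtain ⟨k, hk⟩ := id ha
      exact cub_congr_three_mul (e1.2 h.2) (ha.mul h.2) h.1
        ⟨-(k * x), by linear_combination (-(D * x)) * hk⟩
    · simp
  · have e1 : Prim (C + a * D * x) ↔ Prim (C + D * x) := voar_prim_congr (by
      rw [add_sub_add_left_eq_sub, mul_assoc]; exact voar_sub_one ha _)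
    simp only [voar_tr_UU, e1, voar_dvd_congr (voar_sub_one ha D)]
    split_ifs with h
    · rw [(rcub_isChar (e1.2 h.2)).mul, cub_rec (e1.2 h.2) ha,
        rkub_congr (d := a) (x := C + a * D * x) (y := C) ⟨D * x, by ring⟩]
      obtain ⟨k, hk⟩ := id ha
      rw [cub_congr_three_mul (e1.2 h.2) h.2 h.1 ⟨k * x, by linear_combination (D * x) * hk⟩]
    · simp

theorem voar_gs_three {C : O} (hC : Prim C) (n : O) :
    gs (3 * C) (fun D => if (3 : O) ∣ D then cub C D else 0) n = gs C (cub C) (9 * n) := by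
  have h3 : (3 : O) ≠ 0 := by decide
  have hc := rcub_isChar hC
  have hper : Per (3 * C) fun D => (if (3 : O) ∣ D then cub C D else 0) * ad (3 * C) (n * D) := by
    refine Per.mul (fun D t => ?_) (ad_per _ _)
    have e1 : (3 : O) ∣ D + 3 * C * t ↔ (3 : O) ∣ D := voar_dvd_congr ⟨C * t, by ring⟩
    simp only [e1]
    rw [rkub_congr (d := C) (x := D + 3 * C * t) (y := D) ⟨3 * t, by ring⟩]
  have h0 : (0 : O) ∈ res 3 := (b4_mem_res h3).2 (EuclideanDomain.zero_mod 3)
  have h9 : conj (cub C 9) = cub C 3 := by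
    rw [conj_cub hC.isCoprime_three, show (9 : O) = 3 ^ 2 by norm_num, rkub_pow hC]
    linear_combination cub C 3 * rcub_cube hC hC.isCoprime_three.symm
  rw [gs_mul_unit hC.ne_zero hc (show IsCoprime (9 : O) C by
    rw [show (9 : O) = 3 ^ 2 by norm_num]; exact hC.isCoprime_three.symm.pow_left), h9, gs,
    sum_res_tower h3 hC.ne_zero hper, Finset.sum_eq_single_of_mem 0 h0, gs, Finset.mul_sum]
  · refine Finset.sum_congr rfl fun y _ => ?_
    rw [zero_add, if_pos (dvd_mul_right _ _), hc.mul, mul_left_comm n, ad_mul_cancel h3, mul_assoc]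
  · intro y hy hy0
    refine Finset.sum_eq_zero fun z _ => ?_
    rw [if_neg, zero_mul]
    intro h
    refine hy0 (res_inj h3 hy h0 ?_)
    rw [sub_zero]
    exact (dvd_add_left (dvd_mul_right _ _)).1 h

/-- `∑_{D mod 3C, 3 ∣ D} cub C D ee(nD/(3C)) = cub C 3 · g(C, n) = g(C, 9n)` (`sum_res_tower`,
`gs_mul_unit`, `cub C 27 = 1`) -/
theorem DS_SS (π : O → Prop) (n : O) (s : ℂ) : DS 3 (tr SS (kp π)) n s = psi π (9 * n) s := by
  rw [DS, psi]
  congr 1
  funext C
  by_cases h : Prim C ∧ π C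
  · rw [prim, if_pos h.1, if_pos h.2, ← voar_gs_three h.1]
    congr 1
    funext D
    simp only [tr_SS, h.1, h.2, and_true]
  · have h1 : tr SS (kp π) C = fun _ => 0 := funext fun D => by
      rw [tr_SS, if_neg fun h' => h h'.2]
    rw [h1, prim]
    by_cases h2 : Prim C
    · rw [if_pos h2, if_neg fun h' => h ⟨h2, h'⟩]
      simp [gs]
    · rw [if_neg h2]
      simp [gs]
theorem psi0_eq_psi (r : O) : psi0 r = psi (fun _ => True) r := by
  funext s
  simp only [psi0, psi, if_true]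
/-- `g(c, a³ r) = g(c, r)` for `a` coprime to `c` -/
theorem gs_cub_cube {c a : O} (hc : Prim c) (ha : IsCoprime a c) (r : O) :
    gs c (cub c) (r * a ^ 3) = gs c (cub c) r := by
  rw [mul_comm, gs_mul_unit hc.ne_zero (rcub_isChar hc) ha.pow_left, rkub_pow hc, rcub_cube hc ha,
    map_one, one_mul]
theorem voar_psi_cube {π : O → Prop} {a : O} (h : ∀ c, Prim c → π c → IsCoprime a c) (r : O) :
    psi π (r * a ^ 3) = psi π r := by
  funext s
  rw [psi, psi]
  congr 1
  funext c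
  by_cases h1 : Prim c
  · by_cases h2 : π c
    · simp only [prim, if_pos h1, if_pos h2, gs_cub_cube h1 (h c h1 h2) r]
    · simp only [prim, if_neg h2]
  · simp only [prim, if_neg h1]
theorem psi_lam_cube (π : O → Prop) (r : O) : psi π (r * lam ^ 3) = psi π r :=   voar_psi_cube (fun _ hc _ => hc.isCoprime_lam.symm) r
theorem psi_neg (π : O → Prop) (r : O) : psi π (-r) = psi π r := by
  rw [show -r = r * (-1) ^ 3 by ring]
  exact voar_psi_cube (fun _ _ _ => isCoprime_one_left.neg_left) r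
theorem psi_prime_cube {p : O} (hp : Prime p) (r : O) :
    psi (fun c => ¬ p ∣ c) (r * p ^ 3) = psi (fun c => ¬ p ∣ c) r :=   voar_psi_cube (fun _ _ h => hp.irreducible.coprime_iff_not_dvd.2 h) r
theorem rho0_lam_cube' (r : O) : rho0 (r * lam ^ 3) = rho0 r := by
  rw [rho0, rho0, psi0_eq_psi, psi0_eq_psi, psi_lam_cube]
theorem rho0_neg' (r : O) : rho0 (-r) = rho0 r := by
  rw [rho0, rho0, psi0_eq_psi, psi0_eq_psi, psi_neg]

end Crest.Agent.R17.Vor
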