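import Crest.Agent.R17.VoDefs

/-!
# R17 / VoRes : the calculus of `HasRes`

`Omg` is open and convex (preconnected); two functions holomorphic on `Omg` which agree on
`Omg ∩ {Re s > 2}` (a neighbourhood of `3 + i/2`) agree on `Omg`
(`AnalyticOnNhd.eqOn_of_preconnected_of_eventuallyEq`); `4/3 + iε ∈ Omg` for `0 < ε < 1`.
-/

set_option autoImplicit false

noncomputable section

open scoped Classical ComplexConjugate Topology ENNReal InnerProductSpace
open MeasureTheory Filter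

namespace Crest.Agent.R17.Vor

theorem isOpen_Omg : IsOpen Omg := by
  exact (isOpen_lt continuous_const Complex.continuous_re).inter
    ((isOpen_lt continuous_const Complex.continuous_im).inter
      (isOpen_lt Complex.continuous_im continuous_const))

theorem eqOn_Omg {G G' : ℂ → ℂ} (h : DifferentiableOn ℂ G Omg) (h' : DifferentiableOn ℂ G' Omg)
    (e : ∀ s ∈ Omg, 2 < s.re → G s = G' s) : Set.EqOn G G' Omg := by
  have hconv : Convex ℝ Omg := (convex_halfSpace_re_gt 1).inter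
    ((convex_halfSpace_im_gt 0).inter (convex_halfSpace_im_lt 1))
  have hm : (⟨3, 1 / 2⟩ : ℂ) ∈ Omg := ⟨by norm_num, by norm_num, by norm_num⟩
  refine AnalyticOnNhd.eqOn_of_preconnected_of_eventuallyEq (h.analyticOnNhd isOpen_Omg)
    (h'.analyticOnNhd isOpen_Omg) hconv.isPreconnected hm ?_
  filter_upwards [isOpen_Omg.mem_nhds hm, (isOpen_lt continuous_const
    Complex.continuous_re).mem_nhds (show (2 : ℝ) < (⟨3, 1 / 2⟩ : ℂ).re by norm_num)] with s h1 h2
  exact e s h1 h2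

theorem eventually_mem_Omg :
    ∀ᶠ ε : ℝ in 𝓝[>] 0, (4 / 3 + ε * Complex.I : ℂ) ∈ Omg := by
  filter_upwards [Ioo_mem_nhdsGT (zero_lt_one' ℝ)] with ε hε
  refine ⟨?_, ?_, ?_⟩
  · simp
    norm_num
  · simpa using hε.1
  · simpa using hε.2

theorem tendsto_43 : Tendsto (fun ε : ℝ => (4 / 3 + ε * Complex.I : ℂ)) (𝓝[>] 0) (𝓝 (4 / 3)) := by
  have h : Continuous fun ε : ℝ => (4 / 3 + ε * Complex.I : ℂ) := by fun_prop
  have := h.tendsto 0
  simp only [Complex.ofReal_zero, zero_mul, add_zero] at this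
  exact this.mono_left nhdsWithin_le_nhds


theorem res_sub : Omg ⊆ {s | 1 < s.re} := fun _ hs => hs.1

theorem res_tendsto {A : ℂ → ℂ} (hA : DifferentiableOn ℂ A {s | 1 < s.re}) :
    Tendsto (fun ε : ℝ => A (4 / 3 + ε * Complex.I)) (𝓝[>] 0) (𝓝 (A (4 / 3))) := by
  have h : (4 / 3 : ℂ) ∈ {s : ℂ | 1 < s.re} := by
    simp
    norm_num
  exact (hA.continuousOn.continuousAt
    ((isOpen_lt continuous_const Complex.continuous_re).mem_nhds h)).tendsto.comp tendsto_43

theorem res_tendsto_zero : Tendsto (fun ε : ℝ => (ε * Complex.I : ℂ)) (𝓝[>] 0) (𝓝 0) := by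
  have h : Continuous fun ε : ℝ => (ε * Complex.I : ℂ) := by fun_prop
  have := h.tendsto 0
  simp only [Complex.ofReal_zero, zero_mul] at this
  exact this.mono_left nhdsWithin_le_nhds

theorem HasRes.unique {F : ℂ → ℂ} {r r' : ℂ} (h : HasRes F r) (h' : HasRes F r') : r = r' := by
  obtain ⟨G, hG, e, l⟩ := h
  obtain ⟨G', hG', e', l'⟩ := h'
  have hE := eqOn_Omg hG hG' fun s hs h2 => (e s hs h2).trans (e' s hs h2).symm
  refine tendsto_nhds_unique_of_eventuallyEq l l' ?_
  filter_upwards [eventually_mem_Omg] with ε hε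
  rw [hE hε]

theorem HasRes.res43_eq {F : ℂ → ℂ} {r : ℂ} (h : HasRes F r) : res43 F = r := by
  have h' : ∃ r, HasRes F r := ⟨r, h⟩
  rw [res43, dif_pos h']
  exact h'.choose_spec.unique h

theorem HasRes.hasRes_res43 {F : ℂ → ℂ} {r : ℂ} (h : HasRes F r) : HasRes F (res43 F) := by
  rwa [h.res43_eq]

theorem HasRes.congr {F F' : ℂ → ℂ} {r : ℂ} (h : HasRes F r)
    (e : ∀ s ∈ Omg, 2 < s.re → F s = F' s) : HasRes F' r := by
  obtain ⟨G, hG, e1, l⟩ := h
  exact ⟨G, hG, fun s hs h2 => (e1 s hs h2).trans (e s hs h2), l⟩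

theorem HasRes.add {F F' : ℂ → ℂ} {r r' : ℂ} (h : HasRes F r) (h' : HasRes F' r') :
    HasRes (fun s => F s + F' s) (r + r') := by
  obtain ⟨G, hG, e, l⟩ := h
  obtain ⟨G', hG', e', l'⟩ := h'
  refine ⟨fun s => G s + G' s, hG.add hG', fun s hs h2 => by simp only [e s hs h2, e' s hs h2], ?_⟩
  simpa only [mul_add] using l.add l'

theorem HasRes.sub {F F' : ℂ → ℂ} {r r' : ℂ} (h : HasRes F r) (h' : HasRes F' r') :
    HasRes (fun s => F s - F' s) (r - r') := by
  obtain ⟨G, hG, e, l⟩ := h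
  obtain ⟨G', hG', e', l'⟩ := h'
  refine ⟨fun s => G s - G' s, hG.sub hG', fun s hs h2 => by simp only [e s hs h2, e' s hs h2], ?_⟩
  simpa only [mul_sub] using l.sub l'

theorem HasRes.const_mul {F : ℂ → ℂ} {r : ℂ} (h : HasRes F r) (a : ℂ) :
    HasRes (fun s => a * F s) (a * r) := by
  obtain ⟨G, hG, e, l⟩ := h
  refine ⟨fun s => a * G s, hG.const_mul a, fun s hs h2 => by simp only [e s hs h2], ?_⟩
  simpa only [mul_left_comm a] using l.const_mul a

theorem HasRes.sum {ι : Type} (S : Finset ι) {F : ι → ℂ → ℂ} {r : ι → ℂ}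
    (h : ∀ i ∈ S, HasRes (F i) (r i)) : HasRes (fun s => ∑ i ∈ S, F i s) (∑ i ∈ S, r i) := by
  induction S using Finset.induction_on with
  | empty => exact ⟨fun _ => 0, differentiableOn_const 0, fun _ _ _ => by simp, by simp⟩
  | insert a S ha ih =>
    simp only [Finset.sum_insert ha]
    exact (h a (Finset.mem_insert_self a S)).add (ih fun i hi => h i (Finset.mem_insert_of_mem hi))

theorem HasRes.hol_mul {F A : ℂ → ℂ} {r : ℂ} (h : HasRes F r)
    (hA : DifferentiableOn ℂ A {s | 1 < s.re}) : HasRes (fun s => A s * F s) (A (4 / 3) * r) := by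
  obtain ⟨G, hG, e, l⟩ := h
  refine ⟨fun s => A s * G s, (hA.mono res_sub).mul hG, fun s hs h2 => by simp only [e s hs h2], ?_⟩
  exact ((res_tendsto hA).mul l).congr fun ε => by ring

theorem hasRes_of_hol {A : ℂ → ℂ} (hA : DifferentiableOn ℂ A {s | 1 < s.re}) : HasRes A 0 := by
  refine ⟨A, hA.mono res_sub, fun _ _ _ => rfl, ?_⟩
  simpa only [zero_mul] using res_tendsto_zero.mul (res_tendsto hA)

theorem hasRes_pole {A : ℂ → ℂ} (hA : DifferentiableOn ℂ A {s | 1 < s.re}) :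
    HasRes (fun s => A s / (s - 4 / 3)) (A (4 / 3)) := by
  refine ⟨fun s => A s / (s - 4 / 3), (hA.mono res_sub).div (by fun_prop) fun s hs h => ?_,
    fun _ _ _ => rfl, (res_tendsto hA).congr' ?_⟩
  · have h1 := hs.2.1
    rw [sub_eq_zero.1 h] at h1
    simp at h1
  · filter_upwards [self_mem_nhdsWithin] with ε hε
    have h1 : (ε : ℂ) ≠ 0 := by exact_mod_cast ne_of_gt hε
    rw [add_sub_cancel_left, mul_div_cancel₀ _ (mul_ne_zero h1 Complex.I_ne_zero)]


/-- **division.**  Let `G i` continue `A i · F`.  Then `G i · A j = G j · A i` on `Omg` (`eqOn_Omg`).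
Put `G s = G (i s) s / A (i s) s` with `A (i s) s ≠ 0`; near `s₀`, `G = G i₀ / A i₀` for
`i₀ = i s₀`, so `G` is holomorphic; near `4/3`, `G = G i0 / A i0`. -/
theorem HasRes.of_mul {ι : Type} {F : ℂ → ℂ} {A : ι → ℂ → ℂ}
    (hA : ∀ i, DifferentiableOn ℂ (A i) {s | 1 < s.re}) (hne : ∀ s : ℂ, 1 < s.re → ∃ i, A i s ≠ 0)
    {r : ι → ℂ} (h : ∀ i, HasRes (fun s => A i s * F s) (r i)) {i0 : ι} (h0 : A i0 (4 / 3) ≠ 0) :
    HasRes F (r i0 / A i0 (4 / 3)) := by
  choose G hG e l using h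
  have hGA : ∀ i j, Set.EqOn (fun s => G i s * A j s) (fun s => G j s * A i s) Omg := fun i j =>
    eqOn_Omg ((hG i).mul ((hA j).mono res_sub)) ((hG j).mul ((hA i).mono res_sub))
      fun s hs h2 => by
        simp only [e i s hs h2, e j s hs h2]
        ring
  choose ix hix using fun s : {s : ℂ // 1 < s.re} => hne s.1 s.2
  let G0 : ℂ → ℂ := fun s => if hs : 1 < s.re then G (ix ⟨s, hs⟩) s / A (ix ⟨s, hs⟩) s else 0
  have key : ∀ s ∈ Omg, ∀ j, A j s ≠ 0 → G0 s = G j s / A j s := by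
    intro s hs j hj
    simp only [G0, dif_pos hs.1]
    rw [div_eq_div_iff (hix ⟨s, hs.1⟩) hj]
    exact hGA _ _ hs
  refine ⟨G0, fun s hs => ?_, fun s hs h2 => ?_, ?_⟩
  · obtain ⟨j, hj⟩ := hne s hs.1
    have hAj := ((hA j).mono res_sub).differentiableAt (isOpen_Omg.mem_nhds hs)
    have hGj := (hG j).differentiableAt (isOpen_Omg.mem_nhds hs)
    refine ((hGj.div hAj hj).congr_of_eventuallyEq ?_).differentiableWithinAt
    filter_upwards [isOpen_Omg.mem_nhds hs, hAj.continuousAt.eventually_ne hj] with s' h1 h2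
    exact key s' h1 j h2
  · obtain ⟨j, hj⟩ := hne s hs.1
    rw [key s hs j hj, e j s hs h2, mul_div_cancel_left₀ _ hj]
  · refine ((l i0).div (res_tendsto (hA i0)) h0).congr' ?_
    filter_upwards [eventually_mem_Omg, (res_tendsto (hA i0)).eventually_ne h0] with ε h1 h2
    rw [key _ h1 i0 h2, Pi.div_apply, mul_div_assoc]


theorem hasRes_clm {H : Type} [NormedAddCommGroup H] [NormedSpace ℂ H] (Λ : H →L[ℂ] ℂ)
    {U : ℂ → H} (hU : DifferentiableOn ℂ U Omg) {u : H}
    (hl : Tendsto (fun ε : ℝ => ((ε : ℂ) * Complex.I) • U (4 / 3 + ε * Complex.I)) (𝓝[>] 0) (𝓝 u))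
    {F : ℂ → ℂ} (e : ∀ s ∈ Omg, 2 < s.re → Λ (U s) = F s) : HasRes F (Λ u) := by
  refine ⟨fun s => Λ (U s), Λ.differentiable.comp_differentiableOn hU, e, ?_⟩
  refine ((Λ.continuous.tendsto u).comp hl).congr fun ε => ?_
  simp only [Function.comp_apply, map_smul, smul_eq_mul]


theorem res_term {a : O → ℂ} {C α : ℝ} (h : ∀ n, n ≠ 0 → ‖a n‖ ≤ C * N n ^ α) {β : ℝ} {s : ℂ}
    (hs : β ≤ s.re) (n : O) :
    ‖if n = 0 then 0 else a n * (N n : ℂ) ^ (-s)‖ ≤ |C| * N n ^ (-(β - α)) := by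
  have hN := N_nonneg n
  split_ifs with hn
  · rw [norm_zero]
    positivity
  · rw [norm_mul, Complex.norm_cpow_eq_rpow_re_of_pos (N_pos hn), Complex.neg_re]
    have h1 : ‖a n‖ ≤ |C| * N n ^ α :=
      (h n hn).trans (mul_le_mul_of_nonneg_right (le_abs_self C) (by positivity))
    have h2 : N n ^ (-s.re) ≤ N n ^ (-β) :=
      Real.rpow_le_rpow_of_exponent_le (one_le_N hn) (by linarith)
    calc _ ≤ |C| * N n ^ α * N n ^ (-β) := by gcongr
      _ = _ := by
        rw [mul_assoc, ← Real.rpow_add (N_pos hn)]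
        congr 2
        ring

/-- Dirichlet series with `|a n| ≤ C N(n)^α` are holomorphic on `Re s > 1 + α`
(`differentiableOn_tsum_of_summable_norm` on half-planes, `summable_N_rpow`) -/
theorem differentiableOn_dser {a : O → ℂ} {C α : ℝ} (h : ∀ n, n ≠ 0 → ‖a n‖ ≤ C * N n ^ α) :
    DifferentiableOn ℂ (dser a) {s | 1 + α < s.re} := by
  intro s hs
  have hs' : 1 + α < s.re := hs
  obtain ⟨β, h1, h2⟩ := exists_between hs'
  have ho : IsOpen {s : ℂ | β < s.re} := isOpen_lt continuous_const Complex.continuous_re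
  have hd : DifferentiableOn ℂ (dser a) {s | β < s.re} := by
    refine Complex.differentiableOn_tsum_of_summable_norm
      ((summable_N_rpow (σ := β - α) (by linarith)).mul_left |C|) (fun n => ?_) ho
      fun n w hw => res_term h (le_of_lt hw) n
    by_cases hn : n = 0
    · simp only [hn, if_true]
      exact differentiableOn_const 0
    · simp only [hn, if_false]
      have hN : (N n : ℂ) ≠ 0 := by exact_mod_cast (N_pos hn).ne'
      exact ((differentiable_id.neg.const_cpow (Or.inl hN)).const_mul _).differentiableOn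
  exact (hd.differentiableAt (ho.mem_nhds h2)).differentiableWithinAt

theorem summable_dser {a : O → ℂ} {C α : ℝ} (h : ∀ n, n ≠ 0 → ‖a n‖ ≤ C * N n ^ α) {s : ℂ}
    (hs : 1 + α < s.re) :
    Summable (fun n : O => ‖if n = 0 then 0 else a n * (N n : ℂ) ^ (-s)‖) := by
  exact Summable.of_nonneg_of_le (fun _ => norm_nonneg _) (res_term h le_rfl)
    ((summable_N_rpow (σ := s.re - α) (by linarith)).mul_left |C|)


end Crest.Agent.R17.Vor
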