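import Crest.Agent.R17.VoArith1
import Crest.Agent.R17.VoRes

/-!
# R17 / VoArith2 : factorisation of the Dirichlet series `DS` through `psi0`
-/

set_option autoImplicit false

noncomputable section

open scoped Classical ComplexConjugate Topology ENNReal InnerProductSpace
open MeasureTheory Filter

namespace Crest.Agent.R17.Vor

theorem va2_isChar {a : O} (ha : Prim a) : IsChar a (cub a) :=
  sym_isChar (k := 3) (Or.inr (Or.inl rfl)) (by exact_mod_cast ha.isCoprime_three)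

theorem va2_cube {a y : O} (ha : Prim a) (hy : IsCoprime y a) : cub a y ^ 3 = 1 := by
  have := sym_pow_eq (k := 3) (Or.inr (Or.inl rfl)) (n := a)
    (by exact_mod_cast ha.isCoprime_three) y
  rwa [if_pos hy] at this

/-- CRT: `D = x ℓC + y a` (`sum_res_crt`; periodicity modulo `ℓ a C` is `p3`);
`κ (aC) D = cub a D · κ C D = cub a (ℓC) cub a x · cub a C · κ C y`. -/
theorem gs_factor {ℓ : O} (hℓ : ℓ ≠ 0) {κ : O → O → ℂ} (hκ : RowFn ℓ κ) {a C : O} (ha : Prim a)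
    (hC : C ≠ 0) (hco : IsCoprime a (ℓ * C)) (n : O) :
    gs (ℓ * (a * C)) (κ (a * C)) n =
      cub a (ℓ * C ^ 2) * gs a (cub a) n * gs (ℓ * C) (κ C) n := by
  have h1 := ha.ne_zero
  have h2 : ℓ * C ≠ 0 := mul_ne_zero hℓ hC
  have hχ := va2_isChar ha
  have hper : Per (a * (ℓ * C)) (κ (a * C)) := fun x t => by
    rw [show a * (ℓ * C) * t = ℓ * (a * C) * t by ring, hκ.p3]
  rw [show ℓ * (a * C) = a * (ℓ * C) by ring, gs, sum_res_crt h1 h2 hco (hper.mul (ad_per _ n)),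
    gs, gs, mul_assoc, Finset.sum_mul_sum, Finset.mul_sum]
  refine Finset.sum_congr rfl fun x _ => ?_
  rw [Finset.mul_sum]
  refine Finset.sum_congr rfl fun y _ => ?_
  have e1 : cub a (x * (ℓ * C) + y * a) = cub a x * cub a (ℓ * C) := by
    rw [mul_comm y, hχ.per, hχ.mul]
  have e2 : κ C (x * (ℓ * C) + y * a) = cub a C * κ C y := by
    rw [show x * (ℓ * C) + y * a = a * y + ℓ * C * x by ring, hκ.p3, hκ.p2 a ha]
  have e3 : ad (a * (ℓ * C)) (n * (x * (ℓ * C) + y * a)) = ad a (n * x) * ad (ℓ * C) (n * y) := by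
    rw [show n * (x * (ℓ * C) + y * a) = (ℓ * C) * (n * x) + a * (n * y) by ring, ad_add,
      ad_mul_cancel h1, mul_comm a, ad_mul_cancel h2]
  have e4 : cub a (ℓ * C ^ 2) = cub a (ℓ * C) * cub a C := by
    rw [← hχ.mul]
    congr 1
    ring
  rw [hκ.p1 a ha, e1, e2, e3, e4]
  ring

/-- `cub a y · g(a, n) = g(a, y² n)` (`gs_mul_unit`, `conj_cub`, `cub a y³ = 1`) -/
theorem cub_mul_gs {a y : O} (ha : Prim a) (hy : IsCoprime y a) (n : O) :
    cub a y * gs a (cub a) n = gs a (cub a) (y ^ 2 * n) := by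
  have hχ := va2_isChar ha
  rw [gs_mul_unit ha.ne_zero hχ hy.pow_left, conj_cub ha.isCoprime_three, pow_two y, hχ.mul]
  linear_combination (-(cub a y * gs a (cub a) n)) * va2_cube ha hy

theorem va2_lam_ne : lam ≠ 0 := prime_lam.ne_zero

theorem va2_N_unit {u : O} (hu : IsUnit u) : N u = 1 := by
  rw [N, isUnit_iff_nm.1 hu, Nat.cast_one]

theorem va2_N_ul {u : O} (hu : IsUnit u) (i : ℕ) : N (u * lam ^ i) = 3 ^ i := by
  rw [N_mul, va2_N_unit hu, N_pow, one_mul, N, nm_lam, Nat.cast_ofNat]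

theorem va2_ne {ℓ : O} (hℓ : ℓ = 3 ∨ ℓ = 9) : ℓ ≠ 0 := by
  rcases hℓ with rfl | rfl <;> decide

theorem va2_coprime_ul {a u : O} (ha : Prim a) (hu : IsUnit u) (i : ℕ) :
    IsCoprime (u * lam ^ i) a :=
  (b1_unit_coprime hu a).mul_left ha.isCoprime_lam.symm.pow_left

theorem va2_coprime_l {ℓ a : O} (hℓ : ℓ = 3 ∨ ℓ = 9) (ha : Prim a) : IsCoprime ℓ a := by
  rcases hℓ with rfl | rfl
  · exact ha.isCoprime_three.symm
  · have := ha.isCoprime_three.symm.pow_left (m := 2)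
    rwa [show (3 : O) ^ 2 = 9 by norm_num] at this

theorem va2_not_dvd {a u : O} (ha : Prim a) (hu : IsUnit u) : ¬ lam ∣ a * u := fun h =>
  b1_not_lam_dvd ha.isCoprime_three ((hu.dvd_mul_right).1 h)

theorem va2_le {a a' u u' : O} {i i' : ℕ} (ha : Prim a) (hu : IsUnit u)
    (h : a * (u * lam ^ i) = a' * (u' * lam ^ i')) : i' ≤ i := by
  by_contra hlt
  obtain ⟨k, rfl⟩ := Nat.exists_eq_add_of_lt (not_le.1 hlt)
  refine va2_not_dvd ha hu ⟨a' * u' * lam ^ k, ?_⟩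
  apply mul_right_cancel₀ (pow_ne_zero i va2_lam_ne)
  rw [mul_assoc, h]
  ring

/-- the parametrisation of the non-zero elements -/
def va2_par (p : units6 × ℕ × {a : O | Prim a}) : O := p.2.2.1 * (p.1.1 * lam ^ p.2.1)

theorem va2_par_inj : Function.Injective va2_par := by
  rintro ⟨⟨u, hu⟩, i, ⟨a, ha⟩⟩ ⟨⟨u', hu'⟩, i', ⟨a', ha'⟩⟩ h
  have hu1 := isUnit_iff_mem_units6.2 hu
  have hu2 := isUnit_iff_mem_units6.2 hu'
  have h' : a * (u * lam ^ i) = a' * (u' * lam ^ i') := h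
  obtain rfl : i = i' := le_antisymm (va2_le ha' hu2 h'.symm) (va2_le ha hu1 h')
  rw [← mul_assoc, ← mul_assoc] at h'
  have h1 : a * u = a' * u' := mul_right_cancel₀ (pow_ne_zero i va2_lam_ne) h'
  have h2 : Associated a a' :=
    ((associated_mul_unit_right a u hu1).trans (h1 ▸ Associated.refl _)).trans
      (associated_mul_unit_left a' u' hu2)
  obtain rfl : a = a' := Prim.eq_of_associated ha ha' h2
  obtain rfl : u = u' := mul_left_cancel₀ (Prim.ne_zero ha) h1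
  rfl

theorem va2_par_range {C : O} (hC : C ≠ 0) : C ∈ Set.range va2_par := by
  obtain ⟨u, j, b, hu, hb, rfl⟩ := exists_eq_unit_lam_prim hC
  exact ⟨⟨⟨u, isUnit_iff_mem_units6.1 hu⟩, j, ⟨b, hb⟩⟩, by rw [va2_par]; ring⟩

theorem va2_tsum {F : O → ℂ} (hF : Summable F) (h0 : F 0 = 0) :
    ∑' C, F C = ∑ u ∈ units6, ∑' i : ℕ, ∑' a : {a : O | Prim a}, F (a.1 * (u * lam ^ i)) := by
  have h1 : Function.support F ⊆ Set.range va2_par := fun C hC =>
    va2_par_range fun h => hC (h ▸ h0)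
  have h2 : Summable (fun p => F (va2_par p)) := hF.comp_injective va2_par_inj
  rw [← va2_par_inj.tsum_eq h1, h2.tsum_prod, tsum_fintype,
    ← Finset.sum_coe_sort units6]
  refine Finset.sum_congr rfl fun u _ => ?_
  exact (h2.prod_factor u).tsum_prod

theorem va2_psi0 (r : O) (s : ℂ) :
    psi0 r s = ∑' a : {a : O | Prim a}, gs a.1 (cub a.1) r * (N a.1 : ℂ) ^ (-s) := by
  rw [tsum_subtype {a : O | Prim a} fun a => gs a (cub a) r * (N a : ℂ) ^ (-s), psi0, dser]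
  refine tsum_congr fun a => ?_
  by_cases ha : Prim a
  · rw [if_neg ha.ne_zero, prim, if_pos ha, Set.indicator_of_mem (show a ∈ {a | Prim a} from ha)]
  · rw [Set.indicator_of_notMem (show a ∉ {a | Prim a} from ha), prim, if_neg ha, zero_mul,
      ite_self]

theorem va2_cpow (x : ℝ) (hx : 0 ≤ x) (i : ℕ) (s : ℂ) :
    ((x * 3 ^ i : ℝ) : ℂ) ^ (-s) = (x : ℂ) ^ (-s) * (3 : ℂ) ^ (-(i * s)) := by
  rw [Complex.ofReal_mul, Complex.mul_cpow_ofReal_nonneg hx (by positivity)]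
  congr 1
  have := Complex.natCast_cpow_natCast_mul 3 i (-s)
  rw [mul_neg] at this
  push_cast at this ⊢
  exact this.symm

/-- every `C ≠ 0` is uniquely `u λ^i a` (`exists_eq_unit_lam_prim`); absolute convergence from
`norm_gs_le` and `summable_dser`; `(ℓ C²)² = ℓ² C · C³` and `gs_cub_cube` -/
theorem DS_eq {ℓ : O} (hℓ : ℓ = 3 ∨ ℓ = 9) {κ : O → O → ℂ} (hκ : RowFn ℓ κ) (n : O) {s : ℂ}
    (hs : 2 < s.re) : DS ℓ κ n s = ∑ u ∈ units6, ∑' i : ℕ, (3 : ℂ) ^ (-(i * s)) *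
      gs (ℓ * (u * lam ^ i)) (κ (u * lam ^ i)) n * psi0 (ℓ ^ 2 * (u * lam ^ i) * n) s := by
  have hl := va2_ne hℓ
  have hsum := summable_dser (a := fun C => gs (ℓ * C) (κ C) n) (C := N ℓ) (α := 1)
    (fun C hC => by
      rw [Real.rpow_one, ← N_mul]
      exact norm_gs_le (mul_ne_zero hl hC) (hκ.bd.1 C) n) (s := s) (by linarith)
  rw [DS, dser, va2_tsum hsum.of_norm (if_pos rfl)]
  refine Finset.sum_congr rfl fun u hu => tsum_congr fun i => ?_
  have hu' := isUnit_iff_mem_units6.2 hu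
  rw [va2_psi0, ← tsum_mul_left]
  refine tsum_congr fun ⟨a, ha⟩ => ?_
  have ha' : Prim a := ha
  have hC : u * lam ^ i ≠ 0 := mul_ne_zero hu'.ne_zero (pow_ne_zero i va2_lam_ne)
  have c1 := va2_coprime_ul ha' hu' i
  have c2 := va2_coprime_l hℓ ha'
  simp only
  rw [if_neg (mul_ne_zero ha'.ne_zero hC), gs_factor hl hκ ha' hC (c2.mul_left c1).symm,
    cub_mul_gs ha' (c2.mul_left c1.pow_left),
    show (ℓ * (u * lam ^ i) ^ 2) ^ 2 * n = ℓ ^ 2 * (u * lam ^ i) * n * (u * lam ^ i) ^ 3 by ring,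
    gs_cub_cube ha' c1, N_mul, va2_N_ul hu', va2_cpow _ (N_nonneg a)]
  ring

theorem va2_term_le {ℓ : O} (hℓ : ℓ ≠ 0) {κ : O → O → ℂ} (hκ : RowBd κ) (n : O) {u : O}
    (hu : IsUnit u) (i : ℕ) (s : ℂ) :
    ‖(3 : ℂ) ^ (-(i * s)) * gs (ℓ * (u * lam ^ i)) (κ (u * lam ^ i)) n‖ ≤
      N ℓ * ((3 : ℝ) ^ (1 - s.re)) ^ i := by
  have hC : u * lam ^ i ≠ 0 := mul_ne_zero hu.ne_zero (pow_ne_zero i va2_lam_ne)
  have h1 := norm_gs_le (mul_ne_zero hℓ hC) (hκ.1 (u * lam ^ i)) n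
  rw [N_mul, va2_N_ul hu] at h1
  have h2 : ‖(3 : ℂ) ^ (-(i * s))‖ = ((3 : ℝ) ^ (-s.re)) ^ i := by
    have := Complex.norm_natCast_cpow_of_pos (n := 3) (by norm_num) (-s)
    rw [← mul_neg, Complex.cpow_nat_mul, norm_pow]
    push_cast at this
    rw [this, Complex.neg_re]
  rw [norm_mul, h2, sub_eq_add_neg, Real.rpow_add (by norm_num), Real.rpow_one, mul_pow]
  calc ((3 : ℝ) ^ (-s.re)) ^ i * ‖gs (ℓ * (u * lam ^ i)) (κ (u * lam ^ i)) n‖
      ≤ ((3 : ℝ) ^ (-s.re)) ^ i * (N ℓ * 3 ^ i) := by gcongr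
    _ = _ := by ring

theorem va2_geom (c : ℝ) {σ : ℝ} (hσ : 1 < σ) :
    Summable fun i : ℕ => c * ((3 : ℝ) ^ (1 - σ)) ^ i :=
  (summable_geometric_of_lt_one (by positivity)
    (Real.rpow_lt_one_of_one_lt_of_neg (by norm_num) (by linarith))).mul_left c

theorem va2_group {c P : ℕ → ℂ} (hc : Summable c) (hP : ∀ i, P (i + 3) = P i) :
    ∑' i, c i * P i = ∑ j ∈ Finset.range 3, (∑' i, if i % 3 = j then c i else 0) * P j := by
  have hP' : ∀ k i, P (i + 3 * k) = P i := by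
    intro k
    induction k with
    | zero => simp
    | succ k ih => intro i; rw [Nat.mul_succ, ← add_assoc, hP, ih]
  have hs : ∀ j, Summable fun i => if i % 3 = j then c i else 0 := fun j =>
    (hc.indicator {i | i % 3 = j}).congr fun i => by simp [Set.indicator_apply]
  simp_rw [← tsum_mul_right]
  rw [← Summable.tsum_finsetSum fun j _ => (hs j).mul_right _]
  refine tsum_congr fun i => ?_
  rw [Finset.sum_eq_single (i % 3)]
  · rw [if_pos rfl, ← hP' (i / 3) (i % 3), Nat.mod_add_div]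
  · intro j _ hj
    rw [if_neg hj.symm, zero_mul]
  · intro h
    exact absurd (Finset.mem_range.2 (Nat.mod_lt i (by norm_num))) h

theorem va2_hol {ℓ : O} (hℓ : ℓ ≠ 0) {κ : O → O → ℂ} (hκ : RowBd κ) (n : O) {u : O}
    (hu : IsUnit u) (j : ℕ) :
    DifferentiableOn ℂ (fun s : ℂ => ∑' i : ℕ, if i % 3 = j then
      (3 : ℂ) ^ (-(i * s)) * gs (ℓ * (u * lam ^ i)) (κ (u * lam ^ i)) n else 0) {s | 1 < s.re} := by
  intro s₀ hs₀
  obtain ⟨σ, h1, h2⟩ := exists_between (show 1 < s₀.re from hs₀)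
  have hU : IsOpen {s : ℂ | σ < s.re} := isOpen_lt continuous_const Complex.continuous_re
  refine ((Complex.differentiableOn_tsum_of_summable_norm (va2_geom (N ℓ) h1) (fun i => ?_) hU
    fun i s hs => ?_).differentiableAt (hU.mem_nhds h2)).differentiableWithinAt
  · split_ifs
    · refine Differentiable.differentiableOn (Differentiable.mul_const ?_ _)
      exact Differentiable.const_cpow (by fun_prop) (Or.inl (by norm_num))
    · exact differentiableOn_const _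
  · split_ifs
    · refine (va2_term_le hℓ hκ n hu i s).trans ?_
      have h3 : (3 : ℝ) ^ (1 - s.re) ≤ 3 ^ (1 - σ) :=
        Real.rpow_le_rpow_of_exponent_le (by norm_num) (by linarith [show σ < s.re from hs])
      have := N_nonneg ℓ
      gcongr
    · rw [norm_zero]
      have := N_nonneg ℓ
      positivity

theorem va2_summable {ℓ : O} (hℓ : ℓ ≠ 0) {κ : O → O → ℂ} (hκ : RowBd κ) (n : O) {u : O}
    (hu : IsUnit u) {s : ℂ} (hs : 1 < s.re) :
    Summable fun i : ℕ => (3 : ℂ) ^ (-(i * s)) * gs (ℓ * (u * lam ^ i)) (κ (u * lam ^ i)) n :=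
  Summable.of_norm_bounded (va2_geom (N ℓ) hs) fun i => va2_term_le hℓ hκ n hu i s

/-- group `i` modulo `3` (`psi_lam_cube`, `rho0_lam_cube'`, `Nat.sumByResidueClasses` or
`HasSum` over `i = 3k + j`): the coefficient functions `∑'_k 3^{-(3k+j)s} gs(..)` are holomorphic on
`Re s > 1` since `|gs| ≤ N ℓ · 3^i`; then `HasRes.hol_mul`, `HasRes.sum`. -/
theorem hasRes_DS_of {ℓ : O} (hℓ : ℓ = 3 ∨ ℓ = 9) {κ : O → O → ℂ} (hκ : RowFn ℓ κ)
    (h : ∀ r, HasRes (psi0 r) (rho0 r)) (n : O) :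
    HasRes (DS ℓ κ n) (∑ u ∈ units6, ∑' i : ℕ, (3 : ℂ) ^ (-(i * (4 / 3 : ℂ))) *
      gs (ℓ * (u * lam ^ i)) (κ (u * lam ^ i)) n * rho0 (ℓ ^ 2 * (u * lam ^ i) * n)) := by
  have hl := va2_ne hℓ
  have e : ∀ (u : O) (i : ℕ),
      ℓ ^ 2 * (u * lam ^ (i + 3)) * n = ℓ ^ 2 * (u * lam ^ i) * n * lam ^ 3 := fun u i => by ring
  have h43 : (1 : ℝ) < (4 / 3 : ℂ).re := by norm_num
  have key := HasRes.sum units6 fun u hu => HasRes.sum (Finset.range 3) fun j _ =>
    (h (ℓ ^ 2 * (u * lam ^ j) * n)).hol_mul (va2_hol hl hκ.bd n (isUnit_iff_mem_units6.2 hu) j)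
  convert key.congr (F' := DS ℓ κ n) fun s _ hs => ?_ using 1
  · refine Finset.sum_congr rfl fun u hu => ?_
    exact va2_group (va2_summable hl hκ.bd n (isUnit_iff_mem_units6.2 hu) h43)
      (P := fun i => rho0 (ℓ ^ 2 * (u * lam ^ i) * n)) fun i => by
        simp only [e, rho0_lam_cube']
  · rw [DS_eq hℓ hκ n hs]
    refine Finset.sum_congr rfl fun u hu => ?_
    exact (va2_group (va2_summable hl hκ.bd n (isUnit_iff_mem_units6.2 hu) (by linarith))
      (P := fun i => psi0 (ℓ ^ 2 * (u * lam ^ i) * n) s) fun i => by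
        simp only [e, psi0_eq_psi, psi_lam_cube]).symm

/-- `|gs| ≤ 81 · 3^i`, `∑ 3^{-i/3} ≤ 4` -/
theorem norm_res_DS_le {κ : O → O → ℂ} (hκ : RowBd κ) (n : O) {B : ℝ}
    (hB : ∀ (u : O) (i : ℕ), IsUnit u → ‖rho0 (9 ^ 2 * (u * lam ^ i) * n)‖ ≤ B) :
    ‖∑ u ∈ units6, ∑' i : ℕ, (3 : ℂ) ^ (-(i * (4 / 3 : ℂ))) *
      gs (9 * (u * lam ^ i)) (κ (u * lam ^ i)) n * rho0 (9 ^ 2 * (u * lam ^ i) * n)‖ ≤
      2000 * B := by
  have hB0 : 0 ≤ B := (norm_nonneg _).trans (hB 1 0 isUnit_one)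
  have h9 : N 9 = 81 := by
    rw [N, show nm 9 = 81 by decide]
    norm_num
  have hq : (3 : ℝ) ^ (1 - (4 / 3 : ℂ).re) ≤ 3 / 4 := by
    have e : 1 - (4 / 3 : ℂ).re = -(1 / 3) := by norm_num
    rw [e]
    refine le_of_pow_le_pow_left₀ (n := 3) (by norm_num) (by norm_num) ?_
    rw [← Real.rpow_natCast, ← Real.rpow_mul (by norm_num)]
    norm_num
  have hg : HasSum (fun i : ℕ => 81 * B * (3 / 4 : ℝ) ^ i) (81 * B * (1 - 3 / 4)⁻¹) :=
    (hasSum_geometric_of_lt_one (by norm_num) (by norm_num)).mul_left _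
  refine (norm_sum_le_of_le (n := fun _ => 81 * B * (1 - 3 / 4)⁻¹) _ fun u hu => ?_).trans ?_
  · refine tsum_of_norm_bounded hg fun i => ?_
    have hu' := isUnit_iff_mem_units6.2 hu
    have h1 := va2_term_le (ℓ := 9) (by decide) hκ n hu' i (4 / 3)
    rw [h9] at h1
    have h2 : ((3 : ℝ) ^ (1 - (4 / 3 : ℂ).re)) ^ i ≤ (3 / 4) ^ i := by gcongr
    rw [norm_mul]
    calc _ ≤ 81 * (3 / 4 : ℝ) ^ i * B := by
          refine mul_le_mul (h1.trans (by gcongr)) (hB u i hu') (norm_nonneg _) (by positivity)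
      _ = _ := by ring
  · rw [Finset.sum_const, card_units6, nsmul_eq_mul]
    norm_num
    linarith

end Crest.Agent.R17.Vor
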