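import Crest.Agent.R17.ThetaCore
import Crest.Agent.R17.Block1

/-!
# R17 / VoC0 : definitions for C6 (Voronoi) and the algebra of expansions `HasExp`

Overview of C6 (owner helper54).  `kth = 2/(9√3)`, `xth = rho0 9`, `ath n = kth * rho0 (9 n)`.
* `VoC0`  : (this file) `HasExp` is stable under sums, scalars, upper triangular maps; uniqueness.
* `VoC1`  : `xth ≠ 0`, `ath m = kth xth cub m λ tau m N(m)^{-1/6}` for primary `m`.
* `VoC2`  : the periodic twist `twist q f` and its automorphy under `Γ(9q²)`.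
* `VoC3`  : expansion of `twist q f` at every cusp, with the shape/size of the coefficients.
* `VoC4`  : `F₁ = F₂ ∘ S` ⇒ inversion formula for the angular harmonics `Phi ℓ`.
* `VoC5`  : inversion formula ⇒ functional equation (Mathlib's `WeakFEPair`).
* `VoGam` : bounds for the gamma factor `gamL ℓ`.
* `VoC6`  : the master functional equation `vor_fe ℓ`;  `Voronoi` : `voronoi` (`ℓ = 1`).
-/

set_option autoImplicit false

noncomputable section

open scoped Classical ComplexConjugate Topology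
open MeasureTheory Filter

namespace Crest.Agent.R17.Vor

/-- `2 / (9 √3)` -/
def kth : ℂ := ((2 / (9 * Real.sqrt 3) : ℝ) : ℂ)
/-- the first coefficient -/
def xth : ℂ := rho0 9
/-- the coefficients of `theta` (frequencies `n / 3`) -/
def ath (n : O) : ℂ := kth * rho0 (9 * n)

/-- the twist of `theta` by a function `f` periodic modulo `3 q` -/
def twist (q : O) (f : O → ℂ) (w : X) : ℂ :=
  (N (3 * q) : ℂ)⁻¹ * ∑ j ∈ res (3 * q), gs (3 * q) f j * theta (act (nn (-(toC j / toC q))) w)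

/-- the harmonic monomial `α^ℓ` (`ℓ ≥ 0`), `conj α ^ |ℓ|` (`ℓ < 0`) -/
def hp (ℓ : ℤ) (α : ℂ) : ℂ := if 0 ≤ ℓ then α ^ ℓ.natAbs else conj α ^ ℓ.natAbs

/-- the `ℓ`-th angular harmonic of an expansion -/
def Phi (ℓ : ℤ) (M : O) (a : O → ℂ) (v : ℝ) : ℂ :=
  ∑' n : O, a n * hp ℓ (toC n / toC M) * (Vr (‖toC n / toC M‖ * v) : ℂ)

/-- the gamma factor of the functional equation -/
def gamL (ℓ : ℤ) (s : ℂ) : ℂ :=
  Complex.Gamma (5 / 6 + (ℓ.natAbs : ℂ) / 2 - s) * Complex.Gamma (7 / 6 + (ℓ.natAbs : ℂ) / 2 - s) *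
    (Complex.Gamma (s - 1 / 6 + (ℓ.natAbs : ℂ) / 2))⁻¹ *
    (Complex.Gamma (s + 1 / 6 + (ℓ.natAbs : ℂ) / 2))⁻¹

/-- at most exponential growth in vertical strips -/
def ExpGr (E : ℂ → ℂ) : Prop :=
  ∀ σ1 σ2 : ℝ, ∃ C, ∀ s : ℂ, σ1 ≤ s.re → s.re ≤ σ2 → ‖E s‖ ≤ C * Real.exp (C * |s.im|)

/-- `dser a` continues to `E s + R/(s - 5/6)` (`E` entire) and satisfies the functional equation
with dual coefficients `b`, conductor `ρ` and gamma factor `gamL ℓ`. -/
def HasFE (ℓ : ℤ) (a b : O → ℂ) (ρ : ℝ) (R : ℂ) : Prop :=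
  ∃ E : ℂ → ℂ, Differentiable ℂ E ∧ ExpGr E ∧
    (∃ σ0 : ℝ, ∀ s : ℂ, σ0 < s.re → E s + R / (s - 5 / 6) = dser a s) ∧
    (∃ σ0 : ℝ, ∀ s : ℂ, s.re < σ0 →
      E s + R / (s - 5 / 6) = (ρ : ℂ) ^ (1 / 2 - s) * gamL ℓ s * dser b (1 - s))

/-- the constant `3 Γ(4/3) c0^{4/3} / Γ(2/3)` in the residue -/
def cres : ℝ := 3 * Real.Gamma (4 / 3) * c0 ^ (4 / 3 : ℝ) / Real.Gamma (2 / 3)

theorem kth_ne : kth ≠ 0 := by
  unfold kth
  have : (0 : ℝ) < 2 / (9 * Real.sqrt 3) := by positivity
  exact_mod_cast this.ne'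

theorem HasExp.congr {F G : X → ℂ} {M : O} {a b : O → ℂ} (h : HasExp F M a) (hF : ∀ w, F w = G w)
    (hab : ∀ n, a n = b n) : HasExp G M b := by
  have h1 : F = G := funext hF
  have h2 : a = b := funext hab
  rw [← h1, ← h2]; exact h

theorem voc0_hasSum_congr {f g : O → ℂ} {x : ℂ} (h : HasSum f x) (e : ∀ n, g n = f n) :
    HasSum g x := by
  rw [funext e]; exact h

theorem HasExp.smul {F : X → ℂ} {M : O} {a : O → ℂ} (h : HasExp F M a) (c : ℂ) :
    HasExp (fun w => c * F w) M (fun n => c * a n) := fun z v hv => by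
  have := (h z v hv).mul_left c
  simpa only [mul_assoc] using this

theorem HasExp.sum {ι' : Type*} (S : Finset ι') {F : ι' → X → ℂ} {M : O} {a : ι' → O → ℂ}
    (h : ∀ i ∈ S, HasExp (F i) M (a i)) :
    HasExp (fun w => ∑ i ∈ S, F i w) M (fun n => ∑ i ∈ S, a i n) := fun z v hv => by
  have := hasSum_sum (fun i hi => h i hi z v hv)
  simpa only [Finset.sum_mul] using this

/-- Upper triangular maps.  Proof: `act_upper`; the term `n` at `(t² z + t y, |t|² v)` is the term
`n' = k n` at `(z, v)` because `n t² / M = n k / M'` (`ee_add`, `Real.mul_rpow`); reindex by the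
injective map `n ↦ k n` (`Function.Injective.hasSum_iff`, `EuclideanDomain.mul_div_cancel_left`). -/
theorem HasExp.upperTri {F : X → ℂ} {M M' k : O} {a : O → ℂ} (h : HasExp F M a) (g : SL ℂ)
    (hc : g.c = 0) (hk : k ≠ 0) (hM : g.a ^ 2 / toC M = toC k / toC M') :
    HasExp (fun w => F (act g w)) M' (fun n => if k ∣ n then
      a (n / k) * ((‖g.a‖ ^ (4 / 3 : ℝ) : ℝ) : ℂ) * ee (toC (n / k) * (g.a * g.b) / toC M)
      else 0) := by
  intro z v hv
  have h1 : g.a * g.d = 1 := by have := g.det; rw [hc] at this; simpa using this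
  have ha : g.a ≠ 0 := left_ne_zero_of_mul_eq_one h1
  have ha' : 0 < ‖g.a‖ := norm_pos_iff.2 ha
  have hs := h (g.a ^ 2 * z + g.a * g.b) (‖g.a‖ ^ 2 * v) (by positivity)
  have hinj : Function.Injective fun n : O => k * n := mul_right_injective₀ hk
  simp only
  rw [act_upper g hc z hv]
  refine (hinj.hasSum_iff (fun n hn => ?_)).1 ?_
  · rw [if_neg (fun ⟨c, hc⟩ => hn ⟨c, hc.symm⟩), zero_mul, zero_mul]
  · refine voc0_hasSum_congr hs fun n => ?_
    have e1 : toC (k * n) / toC M' = toC n / toC M * g.a ^ 2 := by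
      rw [map_mul, mul_comm (toC k), mul_div_assoc, ← hM]; ring
    have e2 : toC (k * n) * z / toC M' = toC n * (g.a ^ 2 * z) / toC M := by
      rw [mul_div_right_comm, e1]; ring
    have e3 : (‖g.a‖ ^ 2 * v) ^ (2 / 3 : ℝ) = ‖g.a‖ ^ (4 / 3 : ℝ) * v ^ (2 / 3 : ℝ) := by
      rw [Real.mul_rpow (by positivity) hv.le, ← Real.rpow_natCast, ← Real.rpow_mul ha'.le]
      norm_num
    have e4 : toC n * (g.a ^ 2 * z + g.a * g.b) / toC M =
        toC n * (g.a * g.b) / toC M + toC n * (g.a ^ 2 * z) / toC M := by ring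
    simp only [Function.comp_apply]
    rw [if_pos (dvd_mul_right k n), mul_div_cancel_left₀ _ hk, e2, e1, e3, e4,
      ee_add, norm_mul, norm_pow, mul_assoc ‖toC n / toC M‖]
    push_cast
    ring

/-- translations (`HasExp.upperTri` with `k = 1`) -/
theorem HasExp.transl {F : X → ℂ} {M : O} {a : O → ℂ} (h : HasExp F M a) (y : ℂ) :
    HasExp (fun w => F (act (nn y) w)) M (fun n => a n * ee (toC n * y / toC M)) := by
  refine (h.upperTri (M' := M) (k := 1) (nn y) rfl one_ne_zero (by simp [nn])).congr (fun _ => rfl)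
    fun n => ?_
  simp [nn]

/-- Uniqueness of the coefficients.  Proof: subtract; let `b n = (a n - a' n) Vr(|n/M|)` (`v = 1`), so
`∑ b n ee(n z/M) = 0` for all `z` and `b` is (absolutely) summable.  For `q ≠ 0` take `z = M x/q`,
multiply by `ad q (-(n₀ x))` and sum over `x ∈ res q` (`sum_ad`): `∑_{q ∣ n - n₀} b n = 0`.  With
`q = (j : O)`, `j → ∞`, the terms `n ≠ n₀` have `N (n - n₀) ≥ j²` and their sum tends to `0`
(`tendsto_tsum_compl_atTop_zero`, or `tendsto_tsum_of_dominated_convergence`); `core_Vr_pos`. -/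
theorem HasExp.unique {F : X → ℂ} {M : O} (hM : M ≠ 0) {a a' : O → ℂ} (h : HasExp F M a)
    (h' : HasExp F M a') : a = a' := by
  have hM' := b4_toC_ne_zero hM
  set b : O → ℂ := fun n => (a n - a' n) *
    (((1 : ℝ) ^ (2 / 3 : ℝ) * Vr (‖toC n / toC M‖ * 1) : ℝ) : ℂ) with hb
  have h0 : ∀ z : ℂ, HasSum (fun n => b n * ee (toC n * z / toC M)) 0 := by
    intro z
    have := (h z 1 one_pos).sub (h' z 1 one_pos)
    rw [sub_self] at this
    refine voc0_hasSum_congr this fun n => ?_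
    simp only [hb]
    ring
  have hsum : Summable b := by
    have := (h0 0).summable
    simpa only [mul_zero, zero_div, ee_zero, mul_one] using this
  funext n₀
  have h1 : ∀ q : O, q ≠ 0 → HasSum (fun n => if q ∣ n - n₀ then b n else 0) 0 := by
    intro q hq
    have hq' := b4_toC_ne_zero hq
    have hN : (N q : ℂ) ≠ 0 := by exact_mod_cast (N_pos hq).ne'
    have h2 : ∀ x ∈ res q, HasSum (fun n => b n * ad q ((n - n₀) * x)) 0 := by
      intro x _
      have := (h0 (toC M * toC x / toC q)).mul_right (ad q (-(n₀ * x)))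
      rw [zero_mul] at this
      refine voc0_hasSum_congr this fun n => ?_
      have e : toC n * (toC M * toC x / toC q) / toC M = toC (n * x) / toC q := by
        rw [map_mul]; field_simp
      have e' : ad q ((n - n₀) * x) = ee (toC (n * x) / toC q) * ad q (-(n₀ * x)) := by
        change _ = ad q (n * x) * _
        rw [← ad_add]
        congr 1
        ring
      rw [e, e', mul_assoc (b n)]
    have h3 := (hasSum_sum h2).mul_left (N q : ℂ)⁻¹
    simp only [Finset.sum_const_zero, mul_zero] at h3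
    refine voc0_hasSum_congr h3 fun n => ?_
    rw [← Finset.mul_sum, sum_ad hq]
    split_ifs
    · field_simp
    · simp
  have h4 : Tendsto (fun j : ℕ => ∑' n, if (j : O) ∣ n - n₀ then b n else 0) atTop
      (𝓝 (∑' n, if n = n₀ then b n else 0)) := by
    refine tendsto_tsum_of_dominated_convergence hsum.norm (fun n => ?_)
      (Eventually.of_forall fun j n => ?_)
    · by_cases hn : n = n₀
      · subst hn
        simp
      · rw [if_neg hn]
        refine tendsto_const_nhds.congr' ?_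
        filter_upwards [eventually_gt_atTop (nm (n - n₀))] with j hj
        rw [if_neg]
        intro hd
        have h5 := Nat.le_of_dvd (nm_pos (sub_ne_zero.2 hn)) (b1_nm_dvd hd)
        rw [nm_natCast] at h5
        nlinarith
    · split_ifs
      · exact le_rfl
      · simp
  have h5 : Tendsto (fun j : ℕ => ∑' n, if (j : O) ∣ n - n₀ then b n else 0) atTop (𝓝 0) := by
    refine tendsto_const_nhds.congr' ?_
    filter_upwards [eventually_gt_atTop 0] with j hj
    exact (h1 j (by exact_mod_cast hj.ne')).tsum_eq.symm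
  have h6 := tendsto_nhds_unique h4 h5
  rw [tsum_ite_eq] at h6
  have h7 : ((((1 : ℝ) ^ (2 / 3 : ℝ) * Vr (‖toC n₀ / toC M‖ * 1) : ℝ)) : ℂ) ≠ 0 := by
    have := core_Vr_pos (‖toC n₀ / toC M‖ * 1)
    exact_mod_cast (by positivity : (0 : ℝ) < (1 : ℝ) ^ (2 / 3 : ℝ) * _).ne'
  exact sub_eq_zero.1 ((mul_eq_zero.1 h6).resolve_right h7)

/-- `∑ N(n)^j exp(-δ |n|) < ∞` (`exp(-δ x) ≤ C x^{-(2j+4)}`, `summable_N_rpow`) -/
theorem summable_N_pow_exp (j : ℕ) {δ : ℝ} (hδ : 0 < δ) :
    Summable (fun n : O => N n ^ j * Real.exp (-(δ * ‖toC n‖))) := by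
  have key : ∀ n : O, n ≠ 0 → N n ^ j * Real.exp (-(δ * ‖toC n‖)) ≤
      ((2 * j + 4).factorial / δ ^ (2 * j + 4)) * N n ^ (-(2 : ℝ)) := by
    intro n hn
    have hN := N_pos hn
    have hx : 0 < ‖toC n‖ := norm_pos_iff.2 (b4_toC_ne_zero hn)
    have h1 := Real.pow_div_factorial_le_exp (δ * ‖toC n‖) (by positivity) (2 * j + 4)
    have h2 : ‖toC n‖ ^ (2 * j + 4) = N n ^ j * N n ^ 2 := by
      rw [← norm_toC_sq]; ring
    rw [mul_pow, h2, div_le_iff₀ (by positivity)] at h1
    rw [Real.rpow_neg hN.le, Real.exp_neg, Real.rpow_two, ← div_eq_mul_inv, ← div_eq_mul_inv,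
      div_div, div_le_div_iff₀ (by positivity) (by positivity)]
    nlinarith
  refine Summable.of_norm_bounded_eventually
    ((summable_N_rpow (σ := 2) one_lt_two).mul_left ((2 * j + 4).factorial / δ ^ (2 * j + 4))) ?_
  filter_upwards [(Set.finite_singleton (0 : O)).compl_mem_cofinite] with n hn
  rw [Real.norm_of_nonneg (mul_nonneg (pow_nonneg (N_nonneg n) _) (Real.exp_pos _).le)]
  exact key n hn

end Crest.Agent.R17.Vor
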