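import Crest.Agent.R17.VoC0

/-!
# R17 / VoC1 : the coefficients of `theta`; the first coefficient does not vanish
-/

set_option autoImplicit false

noncomputable section

open scoped Classical ComplexConjugate Topology
open MeasureTheory Filter

namespace Crest.Agent.R17.Vor

/-- `theta_expS` and `theta_S` -/
theorem theta_exp3 : HasExp theta 3 ath := theta_expS.congr theta_S fun _ => rfl

/-- `rho0_hecke` with `u = 1`, `j = 4` (`9 = λ⁴`, `cub m (λ⁴) = cub m λ`: `rkub_pow`, `rcub_cube`) -/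
theorem ath_prim {m : O} (hm : Prim m) :
    ath m * ((N m ^ (1 / 6 : ℝ) : ℝ) : ℂ) = kth * xth * cub m lam * tau m := by
  have h := rho0_hecke isUnit_one 4 hm
  have h1 : cub m (1 * lam ^ 4) = cub m lam := by
    rw [one_mul, rkub_pow hm, pow_succ, rcub_cube hm hm.isCoprime_lam.symm, one_mul]
  have h2 : (1 : O) * lam ^ 4 = 9 := by
    rw [show lam ^ 4 = (lam ^ 2) ^ 2 by ring, lam_sq]
    norm_num
  rw [h1, h2] at h
  unfold ath xth
  linear_combination kth * h

/-- `rho0_neg` -/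
theorem ath_neg (n : O) : ath (-n) = ath n := by
  unfold ath
  rw [mul_neg, rho0_neg]

/-- `θ(w+1) = θ(w)` (`theta_T`), `HasExp.transl`, `HasExp.unique`: `ath n · ee(n/3) = ath n`, and
`ee(n/3) = exp(2πi n.im/3)` (`ee_real_om`) equals `1` only if `3 ∣ n.im`. -/
theorem ath_supp {n : O} (h : ath n ≠ 0) : (3 : ℤ) ∣ n.im := by
  have h1 := HasExp.unique (by norm_num) ((theta_exp3.transl 1).congr theta_T fun _ => rfl)
    theta_exp3
  have h2 : ee (toC n * 1 / toC 3) = 1 := (mul_eq_left₀ h).1 (congrFun h1 n)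
  have h3 : toC n * 1 / toC 3 = ((n.re / 3 : ℝ) : ℂ) + ((n.im / 3 : ℝ) : ℂ) * omC := by
    rw [toC_apply n, map_ofNat]
    push_cast
    ring
  rw [h3, ee_real_om] at h2
  obtain ⟨k, hk⟩ := b4_exp_eq_one h2
  refine ⟨k, ?_⟩
  have : (n.im : ℝ) = 3 * k := by linarith
  exact_mod_cast this

/-- `rho0_zero`, `c0 ≠ 0` -/
theorem ath_zero_ne : ath 0 ≠ 0 := by
  unfold ath
  refine mul_ne_zero kth_ne fun h => ?_
  have h1 := rho0_zero
  rw [mul_zero] at h
  rw [h, zero_mul] at h1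
  have h2 : (c0 : ℂ) ≠ 0 := Complex.ofReal_ne_zero.2 (lt_trans one_pos one_lt_c0).ne'
  exact div_ne_zero h2 (by norm_num) h1.symm

/-- **The first coefficient is non-zero.**  Suppose `xth = 0`.  Then `ath n = 0` unless `3 ∣ n`:
if `ath n ≠ 0` then `3 ∣ n.im` (`ath_supp`), and `n.re ≡ ±1 (3)` would make `± n` primary
(`b1_prim_iff`), where `ath = 0` by `ath_prim`, `ath_neg`.  Hence `ath n · ee(n ω/3) = ath n` and
`θ(n(ω) w) = θ(w)` (both sides have the same expansion; evaluate `HasExp` at `w = pt (zc w) (vc w)`,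
`HasSum.unique`), also `θ(n(-ω) w) = θ(w)`.  `n(3) ∈ Gam 1` has `kap = cub 1 0 = 1` (`sym_one`), and
`θ(S w) = θ(w)`, `θ(S⁻¹ w) = θ(w)`.  So `θ` is invariant under
`γ = n(ω) S⁻¹ n(-3) S n(-ω) = n(ω) (1 0; 3 1) n(-ω) = (1+3ω, -3ω²; 3, 1-3ω) ∈ Gam 1`, while
`kap γ = cub (1-3ω) 3 = conj (cub (1-3ω) ω)` (`3ω ≡ 1`), `cub (1-3ω) ω = ω^{(13-1)/3} = ω ≠ 1`
(`cub_om`, `nm (1-3ω) = 13`).  `theta_aut` gives `θ = 0`, so `ath = 0` (`HasExp.unique` with the zero
expansion), contradicting `ath_zero_ne`. -/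
theorem xth_ne : xth ≠ 0 := by
  intro hx
  have h0 : ∀ m, Prim m → ath m = 0 := by
    intro m hm
    have h := ath_prim hm
    rw [hx, mul_zero, zero_mul, zero_mul] at h
    refine (mul_eq_zero.1 h).resolve_right (Complex.ofReal_ne_zero.2 ?_)
    exact (Real.rpow_pos_of_pos (N_pos hm.ne_zero) _).ne'
  have h1 : ∀ n, ath n ≠ 0 → (3 : O) ∣ n := by
    intro n hn
    have h2 := ath_supp hn
    have h3 : ¬ Prim n := fun h => hn (h0 n h)
    have h4 : ¬ Prim (-n) := fun h => hn (ath_neg n ▸ h0 _ h)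
    rw [b1_prim_iff] at h3 h4
    simp only [QuadraticAlgebra.re_neg, QuadraticAlgebra.im_neg] at h4
    rw [b1_three_dvd_iff]
    omega
  have h2 : ∀ (y : O) (w : X), theta (act (ι (nn y)) w) = theta w := by
    intro y w
    have h3 : HasExp (fun w => theta (act (nn (toC y)) w)) 3 ath :=
      (theta_exp3.transl (toC y)).congr (fun _ => rfl) fun n => by
        by_cases hn : ath n = 0
        · rw [hn, zero_mul]
        · obtain ⟨t, rfl⟩ := h1 n hn
          have : toC (3 * t) * toC y / toC 3 = toC (t * y) := by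
            rw [map_mul, map_mul, map_ofNat]
            ring
          rw [this, ee_toC, mul_one]
    have h4 := (h3 (zc w) (vc w) (vc_pos w)).unique (theta_exp3 (zc w) (vc w) (vc_pos w))
    rwa [pt_zc_vc, ← ι_nn] at h4
  have h3 : ∀ w, theta (act (ι SS) w) = theta w := fun w => by rw [ι_SS, theta_S]
  have h4 : ∀ w, theta (act (ι SS⁻¹) w) = theta w := fun w => by
    rw [← h3, ← act_mul, ← map_mul, mul_inv_cancel, map_one, act_one]
  let γ : SL O := nn om * (SS⁻¹ * (nn (-3) * (SS * nn (-om))))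
  have hc : γ.c = 3 := by simp [γ, nn, SS]
  have hd : γ.d = 1 - 3 * om := by
    simp [γ, nn, SS]
    ring
  have hd' : Prim (1 - 3 * om) := ⟨-om, by ring⟩
  have hγ : γ ∈ Gam 1 := by
    refine ⟨⟨om, ?_⟩, ⟨-om ^ 2, ?_⟩, hc ▸ dvd_rfl, hd ▸ hd', one_dvd _⟩
    · simp [γ, nn, SS]
      ring
    · simp [γ, nn, SS]
      ring
  have h5 : ∀ w, theta (act (ι γ) w) = theta w := by
    intro w
    simp only [γ, map_mul, act_mul, h2, h3, h4]
  have h6 : conj (kap γ) ≠ 1 := by
    intro h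
    have h7 : kap γ = 1 := by simpa using congrArg conj h
    have h8 : cub (1 - 3 * om) (3 * om) = cub (1 - 3 * om) 1 := rkub_congr ⟨-1, by ring⟩
    have h9 : nm (1 - 3 * om) = 13 := by decide
    rw [kap, hc, hd] at h7
    rw [(rcub_isChar hd').mul, h7, (rcub_isChar hd').one, cub_om hd'.isCoprime_three, h9,
      show (13 - 1) / 3 = 3 + 1 from rfl, pow_succ, rkub_omC_cube, one_mul, one_mul] at h8
    exact rcub_omC_ne.1 h8
  have h7 : ∀ w, theta w = 0 := by
    intro w
    have h8 := theta_aut γ hγ w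
    rw [h5] at h8
    by_contra h9
    exact h6 ((mul_eq_right₀ h9).1 h8.symm)
  have h8 : HasExp theta 3 (fun _ => 0) := by
    intro z v _
    simp [h7]
  exact ath_zero_ne (congrFun (HasExp.unique (by norm_num) theta_exp3 h8) 0)

end Crest.Agent.R17.Vor
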