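import Crest.Agent.R17.VoC1

/-!
# R17 / VoC2 : periodic twists of `theta` and their automorphy
-/

set_option autoImplicit false

noncomputable section

open scoped Classical ComplexConjugate Topology
open MeasureTheory Filter

namespace Crest.Agent.R17.Vor

/-- `HasExp.transl` for each `j` (coefficient `ath n · ee(-n j/(3q)) = ath n · ad (3q) (-(j n))`),
`HasExp.sum`, `HasExp.smul`, `fourier_inv`. -/
theorem twist_exp {q : O} (hq : q ≠ 0) {f : O → ℂ} (hf : Per (3 * q) f) :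
    HasExp (twist q f) 3 (fun n => f n * ath n) := by
  have h3q : (3 * q : O) ≠ 0 := mul_ne_zero (by decide) hq
  refine ((HasExp.sum (res (3 * q)) fun j _ =>
    (theta_exp3.transl (-(toC j / toC q))).smul (gs (3 * q) f j)).smul
      (N (3 * q) : ℂ)⁻¹).congr (fun w => rfl) fun n => ?_
  rw [fourier_inv h3q hf n, mul_assoc, Finset.sum_mul]
  congr 1
  refine Finset.sum_congr rfl fun j _ => ?_
  have e : toC n * -(toC j / toC q) / toC 3 = toC (-(j * n)) / toC (3 * q) := by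
    rw [map_neg, map_mul, map_mul]
    ring
  rw [e, ad]
  ring

/-- `kubota` -/
theorem c2_kap_mul {g h : SL O} (hg : g ∈ Gam 1) (hh : h ∈ Gam 1) :
    kap (g * h) = kap g * kap h := by
  exact kap_mul hg hh

/-- `‖kap g‖ = 1` on `Γ(3)` (`IsChar.norm_eq_one`, `rcub_isChar`, `SL.isCoprime_row`) -/
theorem c2_norm_kap {g : SL O} (hg : g ∈ Gam 1) : ‖kap g‖ = 1 := by
  exact norm_kap hg

/-- Automorphy under `Γ(9q²)`.  For `x₀ = -j/q`, write `c = 9q²c'`, `d - a = 9q²e`: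
`n(x₀) γ = γ' n(x₀)` in `SL ℂ` with `γ' = ι (a - 9jqc', b - 9jqe - 9j²c'; c, d + 9jqc') ∈ ι (Gam 1)`
(`n(x₀) γ n(-x₀) = (a + x₀c, b + x₀(d-a) - x₀²c; c, d - x₀c)`), and `kap γ' = cub (d + 9jqc') c
= cub d c` by `cub_congr` (a prime dividing `c = 9q²c'` divides `9jqc'`; if `c = 0` then `c' = 0`).
Then `act_mul`, `theta_aut`. -/
theorem twist_aut {q : O} (hq : q ≠ 0) (f : O → ℂ) {γ : SL O} (ha : 9 * q ^ 2 ∣ γ.a - 1)
    (hb : 9 * q ^ 2 ∣ γ.b) (hc : 9 * q ^ 2 ∣ γ.c) (hd : 9 * q ^ 2 ∣ γ.d - 1) (w : X) :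
    twist q f (act (ι γ) w) = conj (kap γ) * twist q f w := by
  have h39 : (3 : O) ∣ 9 * q ^ 2 := ⟨3 * q ^ 2, by ring⟩
  have hqC : toC q ≠ 0 := b4_toC_ne_zero hq
  obtain ⟨e, he⟩ : 9 * q ^ 2 ∣ γ.d - γ.a := by
    have := dvd_sub hd ha
    rwa [sub_sub_sub_cancel_right] at this
  obtain ⟨c', hc'⟩ := hc
  have key : ∀ j : O, theta (act (nn (-(toC j / toC q))) (act (ι γ) w)) =
      conj (kap γ) * theta (act (nn (-(toC j / toC q))) w) := by
    intro j
    let γ' : SL O := ⟨γ.a - 9 * j * q * c', γ.b - 9 * j * q * e - 9 * j ^ 2 * c', γ.c,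
      γ.d + 9 * j * q * c', by
        linear_combination γ.det + (9 * j * q * e + 9 * j ^ 2 * c') * hc' - 9 * j * q * c' * he⟩
    have hd' : Prim γ'.d := by
      have := dvd_add (h39.trans hd) (⟨3 * j * q * c', by ring⟩ : (3 : O) ∣ 9 * j * q * c')
      change (3 : O) ∣ γ.d + 9 * j * q * c' - 1
      convert this using 1
      ring
    have hm : γ' ∈ Gam 1 := by
      refine ⟨?_, ?_, h39.trans ⟨c', hc'⟩, hd', one_dvd _⟩
      · have := dvd_sub (h39.trans ha) (⟨3 * j * q * c', by ring⟩ : (3 : O) ∣ 9 * j * q * c')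
        change (3 : O) ∣ γ.a - 9 * j * q * c' - 1
        convert this using 1
        ring
      · exact dvd_sub (dvd_sub (h39.trans hb) ⟨3 * j * q * e, by ring⟩) ⟨3 * j ^ 2 * c', by ring⟩
    have hk : kap γ' = kap γ := by
      change cub (γ.d + 9 * j * q * c') γ.c = cub γ.d γ.c
      by_cases h0 : c' = 0
      · rw [h0, mul_zero, add_zero]
      · refine cub_congr hd' (h39.trans hd) ?_ ⟨j * q * c', by ring⟩ fun p hp hpc => ?_
        · rw [hc']
          exact mul_ne_zero (mul_ne_zero (by decide) (pow_ne_zero _ hq)) h0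
        · rw [add_sub_cancel_left]
          have h1 : p ∣ q * (9 * q * c') := by
            rw [hc'] at hpc
            convert hpc using 1
            ring
          rcases hp.dvd_or_dvd h1 with h2 | h2
          · exact (h2.mul_left _).mul_right _
          · convert h2.mul_left j using 1
            ring
    have hC : toC γ.c = 9 * toC q ^ 2 * toC c' := by
      rw [hc', map_mul, map_mul, map_pow, map_ofNat]
    have hD : toC γ.d = toC γ.a + 9 * toC q ^ 2 * toC e := by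
      have := congrArg toC he
      rw [map_sub, map_mul, map_mul, map_pow, map_ofNat] at this
      linear_combination this
    have hcomm : nn (-(toC j / toC q)) * ι γ = ι γ' * nn (-(toC j / toC q)) := by
      ext1
      · simp only [nn, γ', SL.mul_a, ι_a, ι_b, ι_c, map_sub, map_mul, map_pow, map_ofNat, hC]
        field_simp
        ring
      · simp only [nn, γ', SL.mul_b, ι_a, ι_b, ι_d, map_sub, map_mul, map_pow, map_ofNat, hD]
        field_simp
        ring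
      · simp only [nn, γ', SL.mul_c, ι_a, ι_c, ι_d]
        ring
      · simp only [nn, γ', SL.mul_d, ι_b, ι_c, ι_d, map_add, map_mul, map_ofNat, hC]
        field_simp
        ring
    rw [← act_mul, hcomm, act_mul, theta_aut γ' hm, hk]
  unfold twist
  simp only [key, Finset.mul_sum]
  exact Finset.sum_congr rfl fun j _ => by ring

theorem c2_S {β : SL O} (ha : (3 : O) ∣ β.a) (hd : (3 : O) ∣ β.d) (hc : Prim β.c) :
    β * SS⁻¹ ∈ Gam 1 ∧ kap (β * SS⁻¹) = cub β.c β.d := by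
  have e1 : (β * SS⁻¹).a = -β.b := by simp [SS]
  have e2 : (β * SS⁻¹).b = β.a := by simp [SS]
  have e3 : (β * SS⁻¹).c = -β.d := by simp [SS]
  have e4 : (β * SS⁻¹).d = β.c := by simp [SS]
  refine ⟨mem_Gam.2 ⟨?_, e2 ▸ ha, e3 ▸ (dvd_neg.2 hd), e4 ▸ hc, one_dvd _⟩, ?_⟩
  · rw [e1]
    have := dvd_sub (Dvd.dvd.mul_left hc β.b) (ha.mul_right β.d)
    change (3 : O) ∣ -β.b - 1
    convert this using 1
    linear_combination β.det
  · rw [kap, e3, e4, ← neg_one_mul β.d, (rcub_isChar hc).mul, cub_neg_one hc.isCoprime_three, one_mul]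

/-- Two matrices `β = (Q'a, b; c, Q'd)`, `β' = (Q'a', b'; c', Q'd')` with `c ≡ c' mod Q' = 9q²`.
`γ = β β'⁻¹ ≡ 1 mod Q'` (use `-bc ≡ 1 ≡ -b'c'`), `β S⁻¹ = (-b, Q'a; -Q'd, c) ∈ Gam 1` with
`kap = cub c (-β.d) = cub c β.d` (`cub_neg_one`), same for `β'`, and
`γ · (β' S⁻¹) = β S⁻¹`, so `kap γ = cub β.c β.d · conj (cub β'.c β'.d)`; `twist_aut`. -/
theorem twist_beta {q : O} (hq : q ≠ 0) (f : O → ℂ) {β β' : SL O}
    (ha : 9 * q ^ 2 ∣ β.a) (hd : 9 * q ^ 2 ∣ β.d) (hc : Prim β.c)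
    (ha' : 9 * q ^ 2 ∣ β'.a) (hd' : 9 * q ^ 2 ∣ β'.d) (hc' : Prim β'.c)
    (hcc : 9 * q ^ 2 ∣ β.c - β'.c) (w : X) :
    twist q f (act (ι β) w) =
      conj (cub β.c β.d) * cub β'.c β'.d * twist q f (act (ι β') w) := by
  have h39 : (3 : O) ∣ 9 * q ^ 2 := ⟨3 * q ^ 2, by ring⟩
  obtain ⟨hm, hk⟩ := c2_S (h39.trans ha) (h39.trans hd) hc
  obtain ⟨hm', hk'⟩ := c2_S (h39.trans ha') (h39.trans hd') hc'
  have e1 : β * β'⁻¹ = (β * SS⁻¹) * (β' * SS⁻¹)⁻¹ := by group
  have hγ : kap (β * β'⁻¹) = cub β.c β.d * conj (cub β'.c β'.d) := by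
    rw [e1, kap_mul hm ((Gam 1).inv_mem hm'), kap_inv hm', hk, hk']
  have e2 : act (ι β) w = act (ι (β * β'⁻¹)) (act (ι β') w) := by
    rw [← act_mul, ← map_mul, inv_mul_cancel_right]
  obtain ⟨a0, ha0⟩ := ha
  obtain ⟨d0, hd0⟩ := hd
  obtain ⟨a1, ha1⟩ := ha'
  obtain ⟨d1, hd1⟩ := hd'
  obtain ⟨t, ht⟩ := hcc
  rw [e2, twist_aut hq f (γ := β * β'⁻¹), hγ, map_mul, Complex.conj_conj]
  · refine ⟨a0 * β'.d - a0 * β.d + β.b * t, ?_⟩
    simp only [SL.mul_a, SL.inv_a, SL.inv_c]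
    linear_combination β.det + (β'.d - β.d) * ha0 + β.b * ht
  · refine ⟨-(a0 * β'.b) + β.b * a1, ?_⟩
    simp only [SL.mul_b, SL.inv_b, SL.inv_d]
    linear_combination (-β'.b) * ha0 + β.b * ha1
  · refine ⟨β.c * d1 - d0 * β'.c, ?_⟩
    simp only [SL.mul_c, SL.inv_a, SL.inv_c]
    linear_combination β.c * hd1 - β'.c * hd0
  · refine ⟨a1 * β.d - a1 * β'.d - β'.b * t, ?_⟩
    simp only [SL.mul_d, SL.inv_b, SL.inv_d]
    linear_combination β'.det + (β.d - β'.d) * ha1 - β'.b * ht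

end Crest.Agent.R17.Vor
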