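import Crest.Agent.R17.VoGeo1

/-!
# R17 / VoCell : the fundamental parallelogram `cell ℓ`, unfolding on `ℂ`, orthogonality

`cell ℓ` is the image of `[0,1)²` under the real linear map `(a,b) ↦ ℓ (a + bω)` of determinant
`N ℓ · √3/2` (`Measure.addHaar_image_linearMap` after `Complex.measurableEquivRealProd` /
`Complex.volume_preserving_equiv_real_prod`; or `Basis` of `ℂ` over `ℝ` and
`ZSpan.fundamentalDomain`, `ZSpan.isAddFundamentalDomain`, `ZSpan.volume_fundamentalDomain`).
`integral_cell` is the change of variables used everywhere else.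
-/

set_option autoImplicit false

noncomputable section

open scoped Classical ComplexConjugate Topology ENNReal InnerProductSpace
open MeasureTheory Filter

namespace Crest.Agent.R17.Vor

/-- the real linear map `a + b i ↦ ℓ (a + b ω)` -/
def vocell_L (ℓ : O) : ℂ →ₗ[ℝ] ℂ where
  toFun z := toC ℓ * (z.re + z.im * omC)
  map_add' z w := by simp only [Complex.add_re, Complex.add_im]; push_cast; ring
  map_smul' r z := by
    simp only [Complex.real_smul, Complex.re_ofReal_mul, Complex.im_ofReal_mul, RingHom.id_apply]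
    push_cast; ring

theorem vocell_L_apply (ℓ : O) (z : ℂ) : vocell_L ℓ z = toC ℓ * (z.re + z.im * omC) := rfl

/-- the unit square -/
def vocell_sq : Set ℂ := Complex.measurableEquivRealProd ⁻¹' (Set.Ico 0 1 ×ˢ Set.Ico 0 1)

theorem vocell_measurableSet_sq : MeasurableSet vocell_sq :=
  Complex.measurableEquivRealProd.measurable (measurableSet_Ico.prod measurableSet_Ico)

theorem vocell_cell_eq (ℓ : O) : cell ℓ = vocell_L ℓ '' vocell_sq := by
  ext z
  constructor
  · rintro ⟨a, ha, b, hb, rfl⟩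
    exact ⟨⟨a, b⟩, ⟨ha, hb⟩, rfl⟩
  · rintro ⟨w, ⟨ha, hb⟩, rfl⟩
    exact ⟨w.re, ha, w.im, hb, rfl⟩

theorem vocell_det (ℓ : O) : LinearMap.det (vocell_L ℓ) = vol ℓ := by
  rw [← LinearMap.det_toMatrix Complex.basisOneI, Matrix.det_fin_two, vol, N_eq_normSq,
    Complex.normSq_apply]
  simp [LinearMap.toMatrix_apply, vocell_L_apply, omC]
  ring

theorem vocell_coord_inj {a b a' b' : ℝ} (h : (a : ℂ) + b * omC = a' + b' * omC) :
    a = a' ∧ b = b' := by
  have h3 : Real.sqrt 3 ≠ 0 := by positivity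
  have h1 := congrArg Complex.im h
  have h2 := congrArg Complex.re h
  simp [omC, h3] at h1 h2
  subst h1
  exact ⟨by linarith, rfl⟩

theorem vocell_L_inj {ℓ : O} (hℓ : ℓ ≠ 0) : Function.Injective (vocell_L ℓ) := by
  intro z w h
  have := vocell_coord_inj (mul_left_cancel₀ (b4_toC_ne_zero hℓ) h)
  exact Complex.ext this.1 this.2

theorem vocell_vol_nonneg (ℓ : O) : 0 ≤ vol ℓ := mul_nonneg (N_nonneg ℓ) (by positivity)

theorem vocell_norm_omC : ‖omC‖ = 1 := by
  have h : toC om = omC := by simp [toC_apply, om]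
  have h1 : omC ^ 3 = 1 := by linear_combination (omC - 1) * omC_sq
  have h2 := congrArg norm h1
  rw [norm_pow, norm_one] at h2
  exact (pow_eq_one_iff_of_nonneg (norm_nonneg _) (by norm_num)).mp h2

theorem vol_pos {ℓ : O} (hℓ : ℓ ≠ 0) : 0 < vol ℓ := mul_pos (N_pos hℓ) (by positivity)
theorem measurableSet_cell (ℓ : O) : MeasurableSet (cell ℓ) := by
  rw [vocell_cell_eq]
  by_cases hℓ : ℓ = 0
  · refine Set.Subsingleton.measurableSet ?_
    rintro _ ⟨z, -, rfl⟩ _ ⟨w, -, rfl⟩
    simp [vocell_L_apply, hℓ]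
  · exact vocell_measurableSet_sq.image_of_continuousOn_injOn
      (vocell_L ℓ).continuous_of_finiteDimensional.continuousOn (vocell_L_inj hℓ).injOn
theorem norm_le_of_mem_cell {ℓ : O} {z : ℂ} (hz : z ∈ cell ℓ) : ‖z‖ ≤ 2 * ‖toC ℓ‖ := by
  obtain ⟨a, ha, b, hb, rfl⟩ := hz
  rw [norm_mul, mul_comm]
  refine mul_le_mul_of_nonneg_right ((norm_add_le _ _).trans ?_) (norm_nonneg _)
  rw [norm_mul, vocell_norm_omC, Complex.norm_real, Complex.norm_real, Real.norm_of_nonneg ha.1,
    Real.norm_of_nonneg hb.1]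
  linarith [ha.2, hb.2]
theorem volume_cell (ℓ : O) : volume (cell ℓ) = ENNReal.ofReal (vol ℓ) := by
  rw [vocell_cell_eq, Measure.addHaar_image_linearMap, vocell_det,
    abs_of_nonneg (vocell_vol_nonneg ℓ), vocell_sq,
    Complex.volume_preserving_equiv_real_prod.measure_preimage_equiv, Measure.volume_eq_prod,
    Measure.prod_prod]
  simp
theorem integrableOn_cell {f : ℂ → ℂ} (hf : Continuous f) (ℓ : O) : IntegrableOn f (cell ℓ) := 
  (hf.continuousOn.integrableOn_compact (isCompact_closedBall (0 : ℂ) (2 * ‖toC ℓ‖))).mono_set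
    fun _ hz => mem_closedBall_zero_iff.mpr (norm_le_of_mem_cell hz)
/-- coordinates: `z / ℓ = a + bω`, `t = -⌊a⌋ - ⌊b⌋ ω` -/
theorem existsUnique_cell {ℓ : O} (hℓ : ℓ ≠ 0) (z : ℂ) : ∃! t : O, z + toC (ℓ * t) ∈ cell ℓ := by
  have h0 := b4_toC_ne_zero hℓ
  obtain ⟨a, b, hab⟩ := b4_exists_coord (z / toC ℓ)
  rw [div_eq_iff h0] at hab
  refine ⟨⟨-⌊a⌋, -⌊b⌋⟩, ⟨Int.fract a, ⟨Int.fract_nonneg a, Int.fract_lt_one a⟩, Int.fract b,
    ⟨Int.fract_nonneg b, Int.fract_lt_one b⟩, ?_⟩, ?_⟩
  · rw [map_mul, hab, toC_apply ⟨-⌊a⌋, -⌊b⌋⟩, Int.fract, Int.fract]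
    push_cast
    ring
  · rintro t ⟨a', ha', b', hb', h⟩
    have h1 : ((a + t.re : ℝ) : ℂ) + ((b + t.im : ℝ) : ℂ) * omC = a' + b' * omC := by
      refine mul_left_cancel₀ h0 ?_
      rw [← h, map_mul, hab, toC_apply t]
      push_cast
      ring
    obtain ⟨h2, h3⟩ := vocell_coord_inj h1
    have h4 : ⌊a + t.re⌋ = 0 := Int.floor_eq_zero_iff.mpr (h2 ▸ ha')
    have h5 : ⌊b + t.im⌋ = 0 := Int.floor_eq_zero_iff.mpr (h3 ▸ hb')
    rw [Int.floor_add_intCast] at h4 h5
    exact QuadraticAlgebra.ext (by dsimp only; omega) (by dsimp only; omega)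

/-- change of variables -/
theorem integral_cell {ℓ : O} (hℓ : ℓ ≠ 0) {f : ℂ → ℂ} (hf : Continuous f) :
    ∫ z in cell ℓ, f z =
      (vol ℓ : ℂ) * ∫ a in (0 : ℝ)..1, ∫ b in (0 : ℝ)..1, f (toC ℓ * (a + b * omC)) := by
  rw [vocell_cell_eq, integral_image_eq_integral_abs_det_fderiv_smul volume vocell_measurableSet_sq
    (f := vocell_L ℓ) (f' := fun _ => LinearMap.toContinuousLinearMap (vocell_L ℓ))
    (fun x _ => (LinearMap.toContinuousLinearMap (vocell_L ℓ)).hasFDerivWithinAt)
    (vocell_L_inj hℓ).injOn]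
  have hd : (LinearMap.toContinuousLinearMap (vocell_L ℓ)).det = vol ℓ := vocell_det ℓ
  rw [hd, abs_of_nonneg (vocell_vol_nonneg ℓ), integral_smul, Complex.real_smul]
  congr 1
  have hc : Continuous fun q : ℝ × ℝ => f (toC ℓ * (q.1 + q.2 * omC)) := by fun_prop
  have h1 := Complex.volume_preserving_equiv_real_prod.setIntegral_preimage_emb
    Complex.measurableEquivRealProd.measurableEmbedding
    (fun q : ℝ × ℝ => f (toC ℓ * (q.1 + q.2 * omC))) (Set.Ico 0 1 ×ˢ Set.Ico 0 1)
  refine h1.trans ?_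
  rw [Measure.volume_eq_prod, setIntegral_prod _
    ((hc.continuousOn.integrableOn_compact (isCompact_Icc.prod isCompact_Icc)).mono_set
      (Set.prod_mono Set.Ico_subset_Icc_self Set.Ico_subset_Icc_self))]
  simp only [intervalIntegral.integral_of_le zero_le_one, integral_Ico_eq_integral_Ioo,
    integral_Ioc_eq_integral_Ioo]

/-- the translates of `cell ℓ` tile `ℂ` (`IsAddFundamentalDomain.mk'`-style, or
`hasSum_integral_iUnion` and translation invariance) -/
theorem hasSum_unfold {ℓ : O} (hℓ : ℓ ≠ 0) {f : ℂ → ℂ} (hf : Integrable f) :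
    HasSum (fun t : O => ∫ z in cell ℓ, f (z + toC (ℓ * t))) (∫ z, f z) := by
  let s : O → Set ℂ := fun t => (fun z => z + toC (ℓ * -t)) ⁻¹' cell ℓ
  have hm : ∀ t, MeasurableSet (s t) := fun t => measurable_add_const _ (measurableSet_cell ℓ)
  have hd : Pairwise (Function.onFun Disjoint s) := fun t t' h =>
    Set.disjoint_left.mpr fun z h1 h2 => h (neg_injective ((existsUnique_cell hℓ z).unique h1 h2))
  have hu : ⋃ t, s t = Set.univ := by
    refine Set.eq_univ_of_forall fun z => ?_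
    obtain ⟨t, ht⟩ := (existsUnique_cell hℓ z).exists
    exact Set.mem_iUnion.mpr ⟨-t, by simpa [s] using ht⟩
  have h := hasSum_integral_iUnion hm hd hf.integrableOn
  rw [hu, Measure.restrict_univ] at h
  refine (congrArg (fun g => HasSum g (∫ z, f z)) (funext fun t => ?_)).mpr h
  rw [← (measurePreserving_add_right volume (toC (ℓ * t))).setIntegral_preimage_emb
    (measurableEmbedding_addRight _) f (s t)]
  congr 2
  ext z
  simp [s]

/-- `ee (n (a + bω)) = e(n₂ a + (n₁ - n₂) b)` for `n = n₁ + n₂ ω` (`ee_real_om`) -/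
theorem ee_coord (n : O) (a b : ℝ) : ee (toC n * (a + b * omC)) =
    Complex.exp (2 * Real.pi * ((n.im : ℝ) * a + ((n.re - n.im : ℤ) : ℝ) * b) * Complex.I) := by
  have e : toC n * (a + b * omC) = ((n.re * a - n.im * b : ℝ) : ℂ) +
      ((n.im * a + (n.re - n.im) * b : ℝ) : ℂ) * omC := by
    rw [toC_apply]
    push_cast
    linear_combination (n.im * b : ℂ) * omC_sq
  rw [e, ee_real_om]
  push_cast
  rfl
theorem continuous_ee : Continuous ee := by
  unfold ee
  fun_prop

theorem vocell_integral_exp (k : ℤ) :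
    ∫ x in (0 : ℝ)..1, Complex.exp (2 * Real.pi * Complex.I * k * x) = if k = 0 then 1 else 0 := by
  split_ifs with hk
  · simp [hk]
  · have hc : (2 * Real.pi * Complex.I * k : ℂ) ≠ 0 :=
      mul_ne_zero Complex.two_pi_I_ne_zero (by exact_mod_cast hk)
    rw [integral_exp_mul_complex hc]
    have := Complex.exp_int_mul_two_pi_mul_I k
    rw [mul_comm] at this
    simp [this]

theorem integral_cell_ee {ℓ : O} (hℓ : ℓ ≠ 0) (n : O) :
    ∫ z in cell ℓ, ee (-(toC n * z / toC ℓ)) = if n = 0 then (vol ℓ : ℂ) else 0 := by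
  have h0 := b4_toC_ne_zero hℓ
  rw [integral_cell hℓ (continuous_ee.comp' (by fun_prop))]
  have e : ∀ a b : ℝ, ee (-(toC n * (toC ℓ * (a + b * omC)) / toC ℓ)) =
      Complex.exp (2 * Real.pi * Complex.I * ((-n).im : ℤ) * a) *
        Complex.exp (2 * Real.pi * Complex.I * ((-n).re - (-n).im : ℤ) * b) := by
    intro a b
    have : -(toC n * (toC ℓ * (a + b * omC)) / toC ℓ) = toC (-n) * (a + b * omC) := by
      rw [map_neg]; field_simp
    rw [this, ee_coord, ← Complex.exp_add]
    congr 1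
    push_cast
    ring
  simp only [e, intervalIntegral.integral_const_mul, intervalIntegral.integral_mul_const,
    vocell_integral_exp]
  by_cases hn : n = 0
  · simp [hn]
  · rw [if_neg hn]
    by_cases h1 : (-n).im = 0
    · rw [if_neg (c := (-n).re - (-n).im = 0), mul_zero, mul_zero]
      intro h2
      refine hn (neg_eq_zero.mp (QuadraticAlgebra.ext ?_ h1))
      rw [h1, sub_zero] at h2
      exact h2
    · rw [if_neg h1, zero_mul, mul_zero]

theorem coef_sub {F G : X → ℂ} (hF : Continuous F) (hG : Continuous G) (ℓ n : O) (v : ℝ) :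
    coef ℓ n v (fun w => F w - G w) = coef ℓ n v F - coef ℓ n v G := by
  have he : Continuous fun z => ee (-(toC n * z / toC ℓ)) := continuous_ee.comp' (by fun_prop)
  unfold coef
  simp only [sub_mul]
  exact integral_sub (integrableOn_cell ((hF.comp' (continuous_pt v)).mul he) ℓ)
    (integrableOn_cell ((hG.comp' (continuous_pt v)).mul he) ℓ)
theorem coef_const_mul (a : ℂ) (F : X → ℂ) (ℓ n : O) (v : ℝ) :
    coef ℓ n v (fun w => a * F w) = a * coef ℓ n v F := by
  unfold coef
  simp only [mul_assoc]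
  exact integral_const_mul _ _
/-- the points `g (z, v)`, `z ∈ cell ℓ`, lie in a ball -/
theorem exists_ball_cell (g : SL ℂ) (ℓ : O) (v : ℝ) :
    ∃ R : ℝ, ∀ z ∈ cell ℓ, uu (act g (pt z v)) o ≤ R := by
  have hc : Continuous fun z => uu (act g (pt z v)) o :=
    continuous_uu.comp (f := fun z => (act g (pt z v), o))
      (((continuous_act g).comp (continuous_pt v)).prodMk continuous_const)
  obtain ⟨R, hR⟩ := (isCompact_closedBall (0 : ℂ) (2 * ‖toC ℓ‖)).bddAbove_image hc.continuousOn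
  exact ⟨R, fun z hz => hR ⟨z, mem_closedBall_zero_iff.mpr (norm_le_of_mem_cell hz), rfl⟩⟩

end Crest.Agent.R17.Vor
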