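import Crest.Agent.R17.VoDefs

/-!
# R17 / VoW : the function `W s ξ`
-/

set_option autoImplicit false

noncomputable section

open scoped Classical ComplexConjugate Topology ENNReal InnerProductSpace
open MeasureTheory Filter

namespace Crest.Agent.R17.Vor

theorem VoW_continuous_ee : Continuous ee := by
  unfold ee
  fun_prop

theorem VoW_cont {f : ℂ → ℝ} (hf : Continuous f) (h0 : ∀ y, 0 < f y) (s : ℂ) :
    Continuous fun y : ℂ => ((f y : ℝ) : ℂ) ^ s :=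
  (Complex.continuous_ofReal.comp hf).cpow continuous_const fun y =>
    Complex.ofReal_mem_slitPlane.2 (h0 y)

theorem VoW_integrable_real {σ : ℝ} (hs : 1 < σ) :
    Integrable (fun y : ℂ => (1 + ‖y‖ ^ 2 : ℝ) ^ (-σ)) := by
  have := integrable_rpow_neg_one_add_norm_sq (E := ℂ) (μ := volume) (r := 2 * σ)
    (by rw [Complex.finrank_real_complex]; push_cast; linarith)
  rwa [show -(2 * σ) / 2 = -σ by ring] at this

/-- `integrable_rpow_neg_one_add_norm_sq` (`finrank ℝ ℂ = 2 < 2 Re s`) -/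
theorem integrable_W {s : ℂ} (hs : 1 < s.re) :
    Integrable (fun y : ℂ => ((1 + ‖y‖ ^ 2 : ℝ) : ℂ) ^ (-s)) := by
  refine (VoW_integrable_real hs).mono'
    (VoW_cont (by fun_prop) (fun y => by positivity) _).aestronglyMeasurable
    (Eventually.of_forall fun y => ?_)
  rw [Complex.norm_cpow_eq_rpow_re_of_pos (by positivity), Complex.neg_re]

/-- Gaussian Fourier transform: `GaussianFourier.integral_cexp_neg_mul_sq_norm_add` with
`Im (ξ y) = ⟪I * conj ξ, y⟫_ℝ`, `c = -(4π/√3) I`, `c²/4 = -c0²` -/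
theorem integral_gauss_ee {t : ℝ} (ht : 0 < t) (ξ : ℂ) :
    ∫ y : ℂ, ((Real.exp (-t * ‖y‖ ^ 2) : ℝ) : ℂ) * ee (-(ξ * y)) =
      ((Real.pi / t * Real.exp (-(c0 ^ 2 * ‖ξ‖ ^ 2 / t)) : ℝ) : ℂ) := by
  have h := GaussianFourier.integral_cexp_neg_mul_sq_norm_add (V := ℂ) (b := (t : ℂ))
    (by simpa using ht) (-(2 * c0) * Complex.I) (Complex.I * conj ξ)
  have e1 : ∀ y : ℂ, ((Real.exp (-t * ‖y‖ ^ 2) : ℝ) : ℂ) * ee (-(ξ * y)) =
      Complex.exp (-(t : ℂ) * ‖y‖ ^ 2 +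
        -(2 * c0) * Complex.I * (⟪Complex.I * conj ξ, y⟫_ℝ : ℝ)) := fun y => by
    have : ⟪Complex.I * conj ξ, y⟫_ℝ = (ξ * y).im := by
      simp [Complex.inner]
      ring
    rw [this, ee, Complex.exp_add, Complex.neg_im, c0]
    push_cast
    congr 2
    ring
  simp only [e1]
  rw [h, Complex.finrank_real_complex, norm_mul, Complex.norm_I, one_mul, Complex.norm_conj]
  push_cast
  rw [div_self two_ne_zero, Complex.cpow_one]
  congr 2
  have ht' : (t : ℂ) ≠ 0 := by exact_mod_cast ht.ne'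
  rw [mul_pow, Complex.I_sq]
  field_simp
  ring

theorem VoW_norm {s : ℂ} {A t : ℝ} (ht : 0 < t) (z : ℂ) :
    ‖(t : ℂ) ^ (s - 1) * Complex.exp (-(A * t)) * ee z‖ = t ^ (s.re - 1) * Real.exp (-(A * t)) := by
  rw [norm_mul, norm_mul, norm_ee, mul_one, Complex.norm_cpow_eq_rpow_re_of_pos ht,
    Complex.norm_exp]
  simp

theorem VoW_fubini {s : ℂ} (hs : 1 < s.re) (ξ : ℂ) :
    Integrable (fun p : ℂ × ℝ => (p.2 : ℂ) ^ (s - 1) *
      Complex.exp (-(((1 + ‖p.1‖ ^ 2 : ℝ) : ℂ) * p.2)) * ee (-(ξ * p.1)))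
      (volume.prod (volume.restrict (Set.Ioi 0))) := by
  have hm : Measurable fun p : ℂ × ℝ => (p.2 : ℂ) ^ (s - 1) *
      Complex.exp (-(((1 + ‖p.1‖ ^ 2 : ℝ) : ℂ) * p.2)) * ee (-(ξ * p.1)) :=
    (((Complex.measurable_ofReal.comp measurable_snd).pow_const _).mul
      (Continuous.measurable (by fun_prop))).mul
      (VoW_continuous_ee.comp (by fun_prop)).measurable
  rw [integrable_prod_iff hm.aestronglyMeasurable]
  constructor
  · refine Eventually.of_forall fun y => ?_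
    have h1 := integrableOn_rpow_mul_exp_neg_mul_rpow (s := s.re - 1) (p := 1)
      (b := 1 + ‖y‖ ^ 2) (by linarith) one_pos (by positivity)
    refine Integrable.mono' h1 (hm.comp measurable_prodMk_left).aestronglyMeasurable ?_
    refine (ae_restrict_mem measurableSet_Ioi).mono fun t ht => ?_
    rw [VoW_norm ht, Real.rpow_one, neg_mul]
  · refine ((VoW_integrable_real hs).mul_const (Real.Gamma s.re)).congr
      (Eventually.of_forall fun y => ?_)
    have h0 : (0 : ℝ) < 1 + ‖y‖ ^ 2 := by positivity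
    simp only
    rw [setIntegral_congr_fun measurableSet_Ioi fun t ht => VoW_norm ht _,
      Real.integral_rpow_mul_exp_neg_mul_Ioi (by linarith) h0, one_div, Real.inv_rpow h0.le,
      Real.rpow_neg h0.le]

/-- `A^{-s} = Γ(s)⁻¹ ∫_0^∞ t^{s-1} e^{-tA} dt` (`Complex.integral_cpow_mul_exp_neg_mul_Ioi`), Fubini
(`∫∫ t^{σ-1} e^{-t} e^{-t|y|²} = π ∫ t^{σ-2} e^{-t} < ∞`), `integral_gauss_ee` -/
theorem W_eq {s : ℂ} (hs : 1 < s.re) (ξ : ℂ) : W s ξ = (Real.pi : ℂ) / Complex.Gamma s *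
    ∫ t in Set.Ioi (0 : ℝ), (t : ℂ) ^ (s - 2) *
      ((Real.exp (-t - c0 ^ 2 * ‖ξ‖ ^ 2 / t) : ℝ) : ℂ) := by
  have hG : Complex.Gamma s ≠ 0 := Complex.Gamma_ne_zero_of_re_pos (by linarith)
  have e1 : ∀ y : ℂ, ((1 + ‖y‖ ^ 2 : ℝ) : ℂ) ^ (-s) * ee (-(ξ * y)) = (Complex.Gamma s)⁻¹ *
      ∫ t in Set.Ioi (0 : ℝ), (t : ℂ) ^ (s - 1) *
        Complex.exp (-(((1 + ‖y‖ ^ 2 : ℝ) : ℂ) * t)) * ee (-(ξ * y)) := fun y => by
    have h0 : (0 : ℝ) < 1 + ‖y‖ ^ 2 := by positivity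
    rw [integral_mul_const, Complex.integral_cpow_mul_exp_neg_mul_Ioi (by linarith) h0, one_div,
      Complex.inv_cpow _ _ (by rw [Complex.arg_ofReal_of_nonneg h0.le]; exact Real.pi_pos.ne),
      Complex.cpow_neg]
    field_simp
  unfold W
  simp only [e1]
  rw [integral_const_mul, integral_integral_swap (VoW_fubini hs ξ), div_eq_inv_mul, mul_assoc,
    ← integral_const_mul (Real.pi : ℂ)]
  congr 1
  refine setIntegral_congr_fun measurableSet_Ioi fun t ht => ?_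
  have ht0 : (0 : ℝ) < t := ht
  have ht' : (t : ℂ) ≠ 0 := by exact_mod_cast ht0.ne'
  have e2 : ∀ y : ℂ, (t : ℂ) ^ (s - 1) * Complex.exp (-(((1 + ‖y‖ ^ 2 : ℝ) : ℂ) * t)) *
      ee (-(ξ * y)) = (t : ℂ) ^ (s - 1) * Complex.exp (-t) *
        (((Real.exp (-t * ‖y‖ ^ 2) : ℝ) : ℂ) * ee (-(ξ * y))) := fun y => by
    push_cast
    rw [show -((1 + (‖y‖ : ℂ) ^ 2) * t) = -t + -t * (‖y‖ : ℂ) ^ 2 by ring, Complex.exp_add]
    ring
  simp only [e2]
  rw [integral_const_mul, integral_gauss_ee ht0, show s - 2 = s - 1 - 1 by ring,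
    Complex.cpow_sub (s - 1) 1 ht', Complex.cpow_one, sub_eq_add_neg (-t), Real.exp_add]
  push_cast
  ring

/-- the integral is the Mellin transform at `s - 1` of a bounded function with exponential decay
(`mellin_differentiableAt_of_isBigO_rpow`), `Complex.differentiable_one_div_Gamma` -/
theorem differentiableOn_W (ξ : ℂ) : DifferentiableOn ℂ (fun s => W s ξ) {s | 1 < s.re} := by
  have hb : ∀ t : ℝ, 0 < t → ‖((Real.exp (-t - c0 ^ 2 * ‖ξ‖ ^ 2 / t) : ℝ) : ℂ)‖ ≤ Real.exp (-t) :=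
    fun t ht => by
      rw [Complex.norm_real, Real.norm_eq_abs, abs_of_pos (Real.exp_pos _)]
      exact Real.exp_le_exp.2 (sub_le_self _ (by positivity))
  have hd : ∀ s : ℂ, 1 < s.re → DifferentiableAt ℂ
      (mellin fun t => ((Real.exp (-t - c0 ^ 2 * ‖ξ‖ ^ 2 / t) : ℝ) : ℂ)) (s - 1) := fun s hs => by
    refine mellin_differentiableAt_of_isBigO_rpow_exp (a := 1) (b := 0) one_pos
      (ContinuousOn.locallyIntegrableOn ?_ measurableSet_Ioi) ?_ ?_ (by simpa using hs)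
    · refine Complex.continuous_ofReal.comp_continuousOn (Real.continuous_exp.comp_continuousOn ?_)
      exact continuousOn_id.neg.sub (continuousOn_const.div continuousOn_id fun t ht => ne_of_gt ht)
    · refine Asymptotics.IsBigO.of_bound 1 ((eventually_gt_atTop 0).mono fun t ht => ?_)
      simpa using hb t ht
    · refine Asymptotics.IsBigO.of_bound 1 (eventually_mem_nhdsWithin.mono fun t ht => ?_)
      have ht0 : (0 : ℝ) < t := ht
      have := (hb t ht0).trans (Real.exp_le_one_iff.2 (by linarith))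
      simpa using this
  refine DifferentiableOn.congr (f := fun s => (Real.pi : ℂ) * (Complex.Gamma s)⁻¹ *
    mellin (fun t => ((Real.exp (-t - c0 ^ 2 * ‖ξ‖ ^ 2 / t) : ℝ) : ℂ)) (s - 1))
    (fun s hs => DifferentiableAt.differentiableWithinAt ?_) fun s hs => ?_
  · exact ((Complex.differentiable_one_div_Gamma s).const_mul _).mul
      ((hd s hs).comp s (f := fun s : ℂ => s - 1) (differentiableAt_id.sub_const 1))
  · rw [W_eq hs, mellin, show s - 1 - 1 = s - 2 by ring, div_eq_mul_inv]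
    rfl

/-- `Γ(s-1)/Γ(s) = 1/(s-1)` -/
theorem W_zero {s : ℂ} (hs : 1 < s.re) : W s 0 = (Real.pi : ℂ) / (s - 1) := by
  have h1 : 0 < (s - 1).re := by simpa using hs
  have h2 : s - 1 ≠ 0 := fun h => by rw [h] at h1; simp at h1
  have h3 : Complex.Gamma (s - 1) ≠ 0 := Complex.Gamma_ne_zero_of_re_pos h1
  have h4 := Complex.Gamma_add_one (s - 1) h2
  rw [sub_add_cancel] at h4
  have h5 : ∫ t in Set.Ioi (0 : ℝ), (t : ℂ) ^ (s - 2) *
      ((Real.exp (-t - c0 ^ 2 * ‖(0 : ℂ)‖ ^ 2 / t) : ℝ) : ℂ) = Complex.Gamma (s - 1) := by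
    rw [Complex.Gamma_eq_integral h1, Complex.GammaIntegral, show s - 1 - 1 = s - 2 by ring]
    simp [mul_comm]
  rw [W_eq hs, h5, h4]
  field_simp

theorem W_43 (ξ : ℂ) : W (4 / 3) ξ = (Vr ‖ξ‖ : ℂ) := by
  have e : (4 / 3 : ℂ) = ((4 / 3 : ℝ) : ℂ) := by push_cast; rfl
  rw [W_eq (by rw [e, Complex.ofReal_re]; norm_num), Vr, Complex.ofReal_mul, Complex.ofReal_div,
    ← Complex.Gamma_ofReal, ← e, ← integral_complex_ofReal]
  congr 1
  refine setIntegral_congr_fun measurableSet_Ioi fun t ht => ?_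
  rw [Complex.ofReal_mul, Complex.ofReal_cpow (le_of_lt ht)]
  congr 2
  push_cast
  ring

theorem continuous_W {s : ℂ} (hs : 1 < s.re) : Continuous (W s) := by
  refine continuous_of_dominated (bound := fun y : ℂ => ‖((1 + ‖y‖ ^ 2 : ℝ) : ℂ) ^ (-s)‖)
    (fun ξ => ((VoW_cont (by fun_prop) (fun y => by positivity) _).mul
      (VoW_continuous_ee.comp (by fun_prop))).aestronglyMeasurable)
    (fun ξ => Eventually.of_forall fun y => ?_) (integrable_W hs).norm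
    (Eventually.of_forall fun y => continuous_const.mul (VoW_continuous_ee.comp (by fun_prop)))
  rw [norm_mul, norm_ee, mul_one]

/-- `W s (ξ v) → W s 0 ≠ 0` as `v ↓ 0` -/
theorem exists_W_ne {s : ℂ} (hs : 1 < s.re) (ξ : ℂ) : ∃ v : ℝ, 0 < v ∧ W s (ξ * v) ≠ 0 := by
  have h1 : Continuous fun v : ℝ => W s (ξ * v) := (continuous_W hs).comp (by fun_prop)
  have h2 : W s (ξ * (0 : ℝ)) ≠ 0 := by
    rw [Complex.ofReal_zero, mul_zero, W_zero hs]
    refine div_ne_zero (by exact_mod_cast Real.pi_ne_zero) fun h => ?_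
    rw [sub_eq_zero.1 h] at hs
    simp at hs
  have h3 : ∀ᶠ v : ℝ in 𝓝[>] 0, W s (ξ * v) ≠ 0 :=
    (h1.continuousAt.eventually_ne h2).filter_mono nhdsWithin_le_nhds
  obtain ⟨v, h4, h5⟩ := (h3.and eventually_mem_nhdsWithin).exists
  exact ⟨v, h5, h4⟩

theorem VoW_scale (s : ℂ) {v : ℝ} (hv : 0 < v) (y : ℂ) :
    ((‖v • y‖ ^ 2 + v ^ 2 : ℝ) : ℂ) ^ (-s) =
      (v : ℂ) ^ (-s) * (v : ℂ) ^ (-s) * ((1 + ‖y‖ ^ 2 : ℝ) : ℂ) ^ (-s) := by
  rw [← Complex.mul_cpow_ofReal_nonneg hv.le hv.le, ← Complex.ofReal_mul,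
    ← Complex.mul_cpow_ofReal_nonneg (by positivity) (by positivity), ← Complex.ofReal_mul,
    norm_smul, Real.norm_eq_abs, abs_of_pos hv]
  congr 2
  ring

theorem integrable_pw_norm {s : ℂ} (hs : 1 < s.re) {v : ℝ} (hv : 0 < v) :
    Integrable (fun z : ℂ => ((‖z‖ ^ 2 + v ^ 2 : ℝ) : ℂ) ^ (-s)) := by
  rw [← integrable_comp_smul_iff volume _ hv.ne']
  simp only [VoW_scale s hv]
  exact (integrable_W hs).const_mul _

/-- scaling `z = v y` -/
theorem integral_pw_ee {s : ℂ} (hs : 1 < s.re) {v : ℝ} (hv : 0 < v) (ξ : ℂ) :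
    ∫ z : ℂ, ((‖z‖ ^ 2 + v ^ 2 : ℝ) : ℂ) ^ (-s) * ee (-(ξ * z)) =
      (v : ℂ) ^ (2 - 2 * s) * W s (ξ * v) := by
  have hv' : (v : ℂ) ≠ 0 := by exact_mod_cast hv.ne'
  have h := Measure.integral_comp_smul (volume : Measure ℂ)
    (fun z : ℂ => ((‖z‖ ^ 2 + v ^ 2 : ℝ) : ℂ) ^ (-s) * ee (-(ξ * z))) v
  simp only [VoW_scale s hv, mul_assoc] at h
  rw [integral_const_mul, integral_const_mul, Complex.finrank_real_complex,
    abs_of_pos (by positivity), Complex.real_smul] at h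
  have e : W s (ξ * v) = ∫ y : ℂ, ((1 + ‖y‖ ^ 2 : ℝ) : ℂ) ^ (-s) * ee (-(ξ * v • y)) := by
    simp only [W, Complex.real_smul, mul_assoc]
  rw [e, show 2 - 2 * s = 2 + (-s + -s) by ring, Complex.cpow_add _ _ hv', Complex.cpow_add _ _ hv',
    mul_assoc, mul_assoc, h, Complex.cpow_two]
  push_cast
  field_simp

end Crest.Agent.R17.Vor
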