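import Crest.Agent.R17.VoEis
import Crest.Agent.R17.VoCell
import Crest.Agent.R17.VoW

/-!
# R17 / VoCoef : Fourier coefficients of `Eis κ (pw s)`, `Re s > 2`

Interchange `∫_{cell ℓ}` and `∑'` (`integral_tsum` / `hasSum_integral_of_summable_integral_norm`;
`Eis_bound_ball`, `exists_ball_cell` with `g = 1`), then `∑'_{(C,D)} = ∑'_C ∑'_D`
(`Summable.tsum_prod`).  `C = 0`: `κ 0 D ≠ 0` forces `D` to be a unit, `hr = v`,
`integral_cell_ee`.  `C ≠ 0`: `hr^s = v^s N(C)^{-s} (|z + D/C|² + v²)^{-s}`; write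
`D = D₀ + ℓ C t` (`tsum_res`), so `D/C = D₀/C + ℓ t`, `ee(-n z/ℓ)` is `ℓO`-periodic, and
`hasSum_unfold` gives `∫_ℂ (|z + D₀/C|²+v²)^{-s} ee(-nz/ℓ) dz = ad (ℓC) (n D₀) v^{2-2s} W s (n v/ℓ)`
(translation, `integral_pw_ee`).
-/

set_option autoImplicit false

noncomputable section

open scoped Classical ComplexConjugate Topology ENNReal InnerProductSpace
open MeasureTheory Filter

namespace Crest.Agent.R17.Vor

/-- the summand of the Fourier coefficient -/
def VoCoef_T (ℓ n : O) (κ : O → O → ℂ) (s : ℂ) (v : ℝ) (r : O × O) (z : ℂ) : ℂ :=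
  κ r.1 r.2 * pw s (hr (pt z v) (toC r.1) (toC r.2)) * ee (-(toC n * z / toC ℓ))

theorem VoCoef_cont {κ : O → O → ℂ} (hκ : RowBd κ) (ℓ n : O) (s : ℂ) (v : ℝ) (r : O × O) :
    Continuous (VoCoef_T ℓ n κ s v r) := by
  unfold VoCoef_T
  by_cases h : κ r.1 r.2 = 0
  · simp only [h, zero_mul]; exact continuous_const
  · have hc : toC r.1 ≠ 0 ∨ toC r.2 ≠ 0 := by
      by_contra hh
      push Not at hh
      have h1 : r.1 = 0 := toC_injective (by rw [hh.1, map_zero])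
      have h2 : r.2 = 0 := toC_injective (by rw [hh.2, map_zero])
      have := hκ.2 _ _ h
      rw [h1, h2] at this
      exact not_isCoprime_zero_zero this
    refine (continuous_const.mul ?_).mul ?_
    · unfold pw
      refine Continuous.cpow
        (Complex.continuous_ofReal.comp ((continuous_hr hc).comp (continuous_pt v)))
        continuous_const fun z => ?_
      exact Complex.ofReal_mem_slitPlane.2 (hr_pos _ hc)
    · exact continuous_ee.comp ((continuous_const.mul continuous_id).div_const _).neg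

theorem VoCoef_hasSum {κ : O → O → ℂ} (hκ : RowBd κ) (ℓ n : O) {s : ℂ} (hs : 2 < s.re) (v : ℝ) :
    HasSum (fun r : O × O => ∫ z in cell ℓ, VoCoef_T ℓ n κ s v r z)
      (coef ℓ n v (Eis κ (pw s))) := by
  have hint : ∀ r, Integrable (VoCoef_T ℓ n κ s v r) (volume.restrict (cell ℓ)) := fun r =>
    integrableOn_cell (VoCoef_cont hκ ℓ n s v r) ℓ
  obtain ⟨R, hR⟩ := exists_ball_cell 1 ℓ v
  obtain ⟨B, hB⟩ := Eis_bound_ball (adm_pw hs) R
  have hnorm : ∀ r z, ‖VoCoef_T ℓ n κ s v r z‖ =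
      ‖κ r.1 r.2 * pw s (hr (pt z v) (toC r.1) (toC r.2))‖ := fun r z => by
    unfold VoCoef_T; rw [norm_mul, norm_ee, mul_one]
  have hfin : volume (cell ℓ) ≠ ∞ := by rw [volume_cell]; exact ENNReal.ofReal_ne_top
  have hsum : Summable (fun r : O × O => ∫ z in cell ℓ, ‖VoCoef_T ℓ n κ s v r z‖) := by
    refine summable_of_sum_le (c := ∫ _ in cell ℓ, B)
      (fun r => integral_nonneg fun z => norm_nonneg _) fun S => ?_
    rw [← integral_finsetSum S fun r _ => (hint r).norm]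
    refine setIntegral_mono_on (integrable_finsetSum S fun r _ => (hint r).norm)
      (integrableOn_const hfin) (measurableSet_cell ℓ) fun z hz => ?_
    have h1 := hR z hz
    rw [act_one] at h1
    refine le_trans ?_ (hB κ hκ _ h1).1
    simp only [hnorm]
    exact (summable_norm_Eis hκ (adm_pw hs) (pt z v)).sum_le_tsum S fun r _ => norm_nonneg _
  have h := hasSum_integral_of_summable_integral_norm hint hsum
  have e : coef ℓ n v (Eis κ (pw s)) = ∫ z in cell ℓ, ∑' r, VoCoef_T ℓ n κ s v r z := by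
    unfold coef Eis VoCoef_T
    simp only [tsum_mul_right]
  rw [e]
  exact h

theorem VoCoef_zero {ℓ : O} (hℓ : ℓ ≠ 0) {κ : O → O → ℂ} (hκ : RowBd κ) (n : O) (s : ℂ) {v : ℝ}
    (hv : 0 < v) :
    ∑' D : O, ∫ z in cell ℓ, VoCoef_T ℓ n κ s v (0, D) z =
      if n = 0 then (vol ℓ : ℂ) * (∑ u ∈ units6, κ 0 u) * pw s v else 0 := by
  rw [tsum_eq_sum (s := units6)]
  · have h : ∀ D ∈ units6, ∫ z in cell ℓ, VoCoef_T ℓ n κ s v (0, D) z =
        κ 0 D * pw s v * (if n = 0 then (vol ℓ : ℂ) else 0) := by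
      intro D hD
      have h1 : ‖toC D‖ ^ 2 = 1 := by
        rw [norm_toC_sq]
        unfold N
        rw [isUnit_iff_nm.1 (isUnit_iff_mem_units6.2 hD), Nat.cast_one]
      have h2 : ∀ z, hr (pt z v) (toC 0) (toC D) = v := fun z => by
        rw [hr_eq, vc_pt z hv, map_zero, zero_mul, zero_add, h1]; simp
      unfold VoCoef_T
      simp only [h2]
      rw [integral_const_mul, integral_cell_ee hℓ]
    rw [Finset.sum_congr rfl h]
    split_ifs
    · rw [← Finset.sum_mul, ← Finset.sum_mul]; ring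
    · simp
  · intro D hD
    have h : κ 0 D = 0 := by
      by_contra h
      exact hD (isUnit_iff_mem_units6.1 (isCoprime_zero_left.1 (hκ.2 _ _ h)))
    unfold VoCoef_T
    simp [h]

theorem VoCoef_pw {C : O} (hC : C ≠ 0) (d : ℂ) (s : ℂ) {v : ℝ} (hv : 0 < v) (z : ℂ) :
    pw s (hr (pt z v) (toC C) d) =
      (v : ℂ) ^ s * (N C : ℂ) ^ (-s) * ((‖z + d / toC C‖ ^ 2 + v ^ 2 : ℝ) : ℂ) ^ (-s) := by
  have hc := b4_toC_ne_zero hC
  have hN := N_pos hC
  have hA : 0 < ‖z + d / toC C‖ ^ 2 + v ^ 2 := by positivity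
  have h1 : hr (pt z v) (toC C) d = v * ((N C)⁻¹ * (‖z + d / toC C‖ ^ 2 + v ^ 2)⁻¹) := by
    have e : toC C * z + d = toC C * (z + d / toC C) := by field_simp
    rw [hr_eq, vc_pt z hv, zc_pt z hv, e, norm_mul, mul_pow, norm_toC_sq]
    field_simp
  have hinv : ∀ x : ℝ, 0 < x → ((x⁻¹ : ℝ) : ℂ) ^ s = (x : ℂ) ^ (-s) := fun x hx => by
    rw [Complex.ofReal_inv, Complex.inv_cpow, Complex.cpow_neg]
    rw [Complex.arg_ofReal_of_nonneg hx.le]
    exact Real.pi_pos.ne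
  unfold pw
  rw [h1, Complex.ofReal_mul, Complex.mul_cpow_ofReal_nonneg hv.le (by positivity),
    Complex.ofReal_mul, Complex.mul_cpow_ofReal_nonneg (by positivity) (by positivity),
    hinv _ hN, hinv _ hA, mul_assoc]

theorem VoCoef_integrable {s : ℂ} (hs : 1 < s.re) {v : ℝ} (hv : 0 < v) (a ξ : ℂ) :
    Integrable (fun z : ℂ => ((‖z + a‖ ^ 2 + v ^ 2 : ℝ) : ℂ) ^ (-s) * ee (-(ξ * z))) := by
  have h := (integrable_pw_norm hs hv).comp_add_right a
  refine h.mul_bdd (c := 1) ?_ (Eventually.of_forall fun z => (norm_ee _).le)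
  exact (continuous_ee.comp (continuous_const.mul continuous_id).neg).aestronglyMeasurable

theorem VoCoef_integral {s : ℂ} (hs : 1 < s.re) {v : ℝ} (hv : 0 < v) (a ξ : ℂ) :
    ∫ z : ℂ, ((‖z + a‖ ^ 2 + v ^ 2 : ℝ) : ℂ) ^ (-s) * ee (-(ξ * z)) =
      ee (ξ * a) * ((v : ℂ) ^ (2 - 2 * s) * W s (ξ * v)) := by
  rw [← integral_pw_ee hs hv, ← integral_const_mul,
    ← integral_add_right_eq_self (fun z : ℂ =>
      ee (ξ * a) * (((‖z‖ ^ 2 + v ^ 2 : ℝ) : ℂ) ^ (-s) * ee (-(ξ * z)))) a]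
  refine integral_congr_ae (Eventually.of_forall fun z => ?_)
  have e : -(ξ * z) = ξ * a + -(ξ * (z + a)) := by ring
  simp only
  rw [e, ee_add]; ring

theorem VoCoef_ne {ℓ : O} (hℓ : ℓ ≠ 0) {κ : O → O → ℂ}
    (hper : ∀ C D t, κ C (D + ℓ * C * t) = κ C D) {s : ℂ} (hs : 1 < s.re) (n : O) {v : ℝ}
    (hv : 0 < v) {C : O} (hC : C ≠ 0)
    (hsum : Summable fun D : O => ∫ z in cell ℓ, VoCoef_T ℓ n κ s v (C, D) z) :
    ∑' D : O, ∫ z in cell ℓ, VoCoef_T ℓ n κ s v (C, D) z =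
      pw (2 - s) v * W s (toC n / toC ℓ * v) * (gs (ℓ * C) (κ C) n * (N C : ℂ) ^ (-s)) := by
  have hc := b4_toC_ne_zero hC
  have hl := b4_toC_ne_zero hℓ
  have hv' : (v : ℂ) ≠ 0 := by exact_mod_cast hv.ne'
  rw [tsum_res (mul_ne_zero hℓ hC) hsum]
  unfold gs
  rw [Finset.sum_mul, Finset.mul_sum]
  refine Finset.sum_congr rfl fun x _ => ?_
  have hI := (VoCoef_integrable hs hv (toC x / toC C) (toC n / toC ℓ)).const_mul
    (κ C x * ((v : ℂ) ^ s * (N C : ℂ) ^ (-s)))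
  have hU := hasSum_unfold hℓ hI
  have hT : ∀ t : O, ∫ z in cell ℓ, VoCoef_T ℓ n κ s v (C, x + ℓ * C * t) z =
      ∫ z in cell ℓ, κ C x * ((v : ℂ) ^ s * (N C : ℂ) ^ (-s)) *
        (((‖z + toC (ℓ * t) + toC x / toC C‖ ^ 2 + v ^ 2 : ℝ) : ℂ) ^ (-s) *
          ee (-(toC n / toC ℓ * (z + toC (ℓ * t))))) := by
    intro t
    refine integral_congr_ae (Eventually.of_forall fun z => ?_)
    unfold VoCoef_T
    simp only
    have e1 : z + toC (x + ℓ * C * t) / toC C = z + toC (ℓ * t) + toC x / toC C := by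
      simp only [map_add, map_mul]; field_simp; ring
    have e2 : -(toC n / toC ℓ * (z + toC (ℓ * t))) = -(toC n * z / toC ℓ) + toC (-(n * t)) := by
      simp only [map_neg, map_mul]; field_simp; ring
    rw [hper, VoCoef_pw hC _ s hv, e1, e2, ee_add, ee_toC]
    ring
  simp only [hT]
  rw [hU.tsum_eq, integral_const_mul, VoCoef_integral hs hv]
  have e3 : toC n / toC ℓ * (toC x / toC C) = toC (n * x) / toC (ℓ * C) := by
    simp only [map_mul]; field_simp
  have e4 : pw (2 - s) v = (v : ℂ) ^ s * (v : ℂ) ^ (2 - 2 * s) := by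
    unfold pw
    rw [← Complex.cpow_add _ _ hv']; congr 1; ring
  rw [e3, e4]
  unfold ad
  ring

theorem coef_Eis {ℓ : O} (hℓ : ℓ ≠ 0) {κ : O → O → ℂ} (hκ : RowBd κ)
    (hper : ∀ C D t, κ C (D + ℓ * C * t) = κ C D) {s : ℂ} (hs : 2 < s.re) (n : O) {v : ℝ}
    (hv : 0 < v) :
    coef ℓ n v (Eis κ (pw s)) =
      (if n = 0 then (vol ℓ : ℂ) * (∑ u ∈ units6, κ 0 u) * pw s v else 0) +
        pw (2 - s) v * W s (toC n / toC ℓ * v) * DS ℓ κ n s := by
  have h := VoCoef_hasSum hκ ℓ n hs v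
  rw [← h.tsum_eq, h.summable.tsum_prod, h.summable.prod.tsum_eq_add_tsum_ite 0,
    VoCoef_zero hℓ hκ n s hv]
  congr 1
  unfold DS dser
  rw [← tsum_mul_left]
  refine tsum_congr fun C => ?_
  split_ifs with hC
  · rw [mul_zero]
  · exact VoCoef_ne hℓ hper (by linarith) n hv hC (h.summable.prod_factor C)

end Crest.Agent.R17.Vor
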