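import Crest.Agent.R17.Basic

/-!
# R17 / VoDefs : definitions for the cubic theta function (PART C, files `Vo*.lean`, `ThetaCore.lean`)

Overview (read this first; every `Vo*` file has its own proofs in docstrings).

* `X = ℂ × ℝ` is hyperbolic 3-space in the coordinates `w = (y, x)`, `z = y eˣ` (`zc`), `v = eˣ`
  (`vc`); `pt z v` is the point with coordinates `(z, v)`.  In these coordinates the invariant
  measure `dz dv / v³` is the plain `volume` of `ℂ × ℝ`.  `act g` is the action of `SL₂(ℂ)`,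
  `uu = cosh (distance)`, `hr w c d = v / (|cz+d|² + |c|²v²)` is the height of `g w` for any `g`
  with bottom row `(c,d)`.
* `Gam p = {γ ∈ Γ(3) : p ∣ b}` (`Gam 1 = Γ(3)`), `kap γ = (c/d)₃` is Kubota's character.
* No fundamental domains: `rho p` is a positive weight with `∑_γ rho (γ w) = 1`, `nu p = rho · vol`
  is a finite measure, and the Hilbert space is `L²(nu p)`.  `TK p` is the integral operator with the
  automorphic kernel `Ker p`; on automorphic functions it is `TX` (convolution with `kk ∘ uu`).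
* `Eis κ φ w = ∑_{(c,d)} κ c d · φ(hr w c d)`.  `TX (Eis κ φ) = Eis κ (Tt φ)`, `Tt v^s = hh s · v^s`.
  The resolvent of `TK` continues `Eis κ (pw s)` to `Omg = {Re s > 1, 0 < Im s < 1}`; `HasRes F r`
  says that `F` (given on `Re s > 2`) continues to `Omg` and has "residue" `r` at `s = 4/3`.
* `theta = res_{s=4/3} Eis k0 (pw s)` is the cubic theta function, `rho0 r = res psi0 r`.
-/

set_option autoImplicit false

noncomputable section

open scoped Classical ComplexConjugate Topology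
open MeasureTheory Filter

namespace Crest.Agent.R17.Vor

/-! ## `SL₂` -/

/-- `2 × 2` matrices `(a b; c d)` of determinant one -/
@[ext] structure SL (R : Type) [CommRing R] where
  a : R
  b : R
  c : R
  d : R
  det : a * d - b * c = 1

namespace SL

variable {R S : Type} [CommRing R] [CommRing S]

instance : Mul (SL R) := ⟨fun g h => ⟨g.a * h.a + g.b * h.c, g.a * h.b + g.b * h.d,
  g.c * h.a + g.d * h.c, g.c * h.b + g.d * h.d, by
    linear_combination (h.a * h.d - h.b * h.c) * g.det + h.det⟩⟩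
instance : One (SL R) := ⟨⟨1, 0, 0, 1, by ring⟩⟩
instance : Inv (SL R) := ⟨fun g => ⟨g.d, -g.b, -g.c, g.a, by linear_combination g.det⟩⟩

@[simp] theorem mul_a (g h : SL R) : (g * h).a = g.a * h.a + g.b * h.c := rfl
@[simp] theorem mul_b (g h : SL R) : (g * h).b = g.a * h.b + g.b * h.d := rfl
@[simp] theorem mul_c (g h : SL R) : (g * h).c = g.c * h.a + g.d * h.c := rfl
@[simp] theorem mul_d (g h : SL R) : (g * h).d = g.c * h.b + g.d * h.d := rfl
@[simp] theorem one_a : (1 : SL R).a = 1 := rfl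
@[simp] theorem one_b : (1 : SL R).b = 0 := rfl
@[simp] theorem one_c : (1 : SL R).c = 0 := rfl
@[simp] theorem one_d : (1 : SL R).d = 1 := rfl
@[simp] theorem inv_a (g : SL R) : g⁻¹.a = g.d := rfl
@[simp] theorem inv_b (g : SL R) : g⁻¹.b = -g.b := rfl
@[simp] theorem inv_c (g : SL R) : g⁻¹.c = -g.c := rfl
@[simp] theorem inv_d (g : SL R) : g⁻¹.d = g.a := rfl

instance : Group (SL R) := Group.ofLeftAxioms
  (fun g h k => by ext <;> simp <;> ring)
  (fun g => by ext <;> simp)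
  (fun g => by
    ext <;> simp
    · linear_combination g.det
    · ring
    · ring
    · linear_combination g.det)

/-- entrywise image under a ring homomorphism -/
def map (f : R →+* S) : SL R →* SL S where
  toFun g := ⟨f g.a, f g.b, f g.c, f g.d, by
    rw [← map_mul, ← map_mul, ← map_sub, g.det, map_one]⟩
  map_one' := by ext <;> simp
  map_mul' g h := by ext <;> simp

@[simp] theorem map_a (f : R →+* S) (g : SL R) : (map f g).a = f g.a := rfl
@[simp] theorem map_b (f : R →+* S) (g : SL R) : (map f g).b = f g.b := rfl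
@[simp] theorem map_c (f : R →+* S) (g : SL R) : (map f g).c = f g.c := rfl
@[simp] theorem map_d (f : R →+* S) (g : SL R) : (map f g).d = f g.d := rfl

instance [Countable R] : Countable (SL R) :=
  Function.Injective.countable (f := fun g : SL R => (g.a, g.b, g.c, g.d)) fun g h e => by
    simp only [Prod.mk.injEq] at e
    exact SL.ext e.1 e.2.1 e.2.2.1 e.2.2.2

end SL

instance : Countable O :=
  Function.Injective.countable (f := fun x : O => (x.re, x.im)) fun x y e => by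
    simp only [Prod.mk.injEq] at e
    exact QuadraticAlgebra.ext e.1 e.2

/-- the translation `n(x) = (1 x; 0 1)` -/
def nn {R : Type} [CommRing R] (x : R) : SL R := ⟨1, x, 0, 1, by ring⟩
/-- the inversion `S = (0 -1; 1 0)` -/
def SS {R : Type} [CommRing R] : SL R := ⟨0, -1, 1, 0, by ring⟩
/-- `(1 0; x 1)` -/
def LL {R : Type} [CommRing R] (x : R) : SL R := ⟨1, 0, x, 1, by ring⟩
/-- `(x -1; 1 0)` -/
def UU {R : Type} [CommRing R] (x : R) : SL R := ⟨x, -1, 1, 0, by ring⟩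
/-- `diag (t, t⁻¹)` -/
def dg (t : ℂ) (ht : t ≠ 0) : SL ℂ := ⟨t, 0, 0, t⁻¹, by rw [mul_inv_cancel₀ ht]; ring⟩

/-- the embedding `SL₂(O) → SL₂(ℂ)` -/
def ι : SL O →* SL ℂ := SL.map toC

@[simp] theorem ι_a (g : SL O) : (ι g).a = toC g.a := rfl
@[simp] theorem ι_b (g : SL O) : (ι g).b = toC g.b := rfl
@[simp] theorem ι_c (g : SL O) : (ι g).c = toC g.c := rfl
@[simp] theorem ι_d (g : SL O) : (ι g).d = toC g.d := rfl

/-! ## Hyperbolic space -/

/-- hyperbolic 3-space; `w = (y, x)` is the point `z = y eˣ`, `v = eˣ` -/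
abbrev X : Type := ℂ × ℝ

/-- the height `v` -/
def vc (w : X) : ℝ := Real.exp w.2
/-- the horizontal coordinate `z` -/
def zc (w : X) : ℂ := w.1 * (vc w : ℂ)
/-- the point with coordinates `(z, v)`, `v > 0` -/
def pt (z : ℂ) (v : ℝ) : X := (z / (v : ℂ), Real.log v)
/-- the base point `(z, v) = (0, 1)` -/
def o : X := (0, 0)

/-- the positive Hermitian form of `w` on the row `(c, d)` -/
def Qf (w : X) (c d : ℂ) : ℝ := (‖c * zc w + d‖ ^ 2 + ‖c‖ ^ 2 * vc w ^ 2) / vc w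
/-- its polarisation -/
def Bq (w : X) (a b c d : ℂ) : ℂ :=
  ((a * zc w + b) * conj (c * zc w + d) + a * conj c * (vc w : ℂ) ^ 2) / (vc w : ℂ)
/-- the height `v / (|cz+d|² + |c|²v²)` attached to a row -/
def hr (w : X) (c d : ℂ) : ℝ := (Qf w c d)⁻¹
/-- the action of `SL₂(ℂ)` -/
def act (g : SL ℂ) (w : X) : X := (Bq w g.a g.b g.c g.d, -Real.log (Qf w g.c g.d))
/-- `cosh` of the hyperbolic distance -/
def uu (w w' : X) : ℝ := (‖zc w - zc w'‖ ^ 2 + vc w ^ 2 + vc w' ^ 2) / (2 * vc w * vc w')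
/-- the point-pair kernel -/
def kk (u : ℝ) : ℝ := max 0 (2 - u)

/-! ## The groups, Kubota's character, the measure `nu` -/

/-- `Γ(3) ∩ {p ∣ b}` -/
def Gam (p : O) : Subgroup (SL O) where
  carrier := {g | Prim g.a ∧ (3 : O) ∣ g.b ∧ (3 : O) ∣ g.c ∧ Prim g.d ∧ p ∣ g.b}
  one_mem' := ⟨Prim.one, by simp, by simp, Prim.one, by simp⟩
  mul_mem' := by
    rintro g h ⟨h1, h2, h3, h4, h5⟩ ⟨k1, k2, k3, k4, k5⟩
    refine ⟨?_, ?_, ?_, ?_, ?_⟩
    · have := dvd_add (h1.mul k1) (h2.mul_right h.c)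
      unfold Prim
      convert this using 1
      simp only [SL.mul_a]; ring
    · exact dvd_add (k2.mul_left _) (h2.mul_right _)
    · exact dvd_add (h3.mul_right _) (k3.mul_left _)
    · have := dvd_add (h4.mul k4) (h3.mul_right h.b)
      unfold Prim
      convert this using 1
      simp only [SL.mul_d]; ring
    · exact dvd_add (k5.mul_left _) (h5.mul_right _)
  inv_mem' := by
    rintro g ⟨h1, h2, h3, h4, h5⟩
    exact ⟨h4, (dvd_neg).2 h2, (dvd_neg).2 h3, h1, (dvd_neg).2 h5⟩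

theorem mem_Gam {p : O} {g : SL O} :
    g ∈ Gam p ↔ Prim g.a ∧ (3 : O) ∣ g.b ∧ (3 : O) ∣ g.c ∧ Prim g.d ∧ p ∣ g.b := Iff.rfl

/-- Kubota's character `(c/d)₃` -/
def kap (g : SL O) : ℂ := cub g.d g.c

/-- automorphy under `Gam p` -/
def Aut (p : O) (f : X → ℂ) : Prop :=
  ∀ γ ∈ Gam p, ∀ w, f (act (ι γ) w) = conj (kap γ) * f w

/-- a summable positive weight -/
def wa (w : X) : ℝ := (uu w o)⁻¹ ^ 5
/-- the partition of unity `∑_γ rho (γ w) = 1` -/
def rho (p : O) (w : X) : ℝ := wa w / ∑' γ : Gam p, wa (act (ι γ) w)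
/-- the (finite) measure replacing a fundamental domain -/
def nu (p : O) : Measure X := volume.withDensity (fun w => ENNReal.ofReal (rho p w))

/-! ## The operators -/

/-- the automorphic kernel -/
def Ker (p : O) (w w' : X) : ℂ :=
  ∑' γ : Gam p, conj (kap γ) * (kk (uu w (act (ι γ) w')) : ℂ)
/-- the operator on `L²(nu p)` -/
def TK (p : O) (f : X → ℂ) (w : X) : ℂ := ∫ w', Ker p w w' * f w' ∂(nu p)
/-- convolution with the point-pair kernel -/
def TX (f : X → ℂ) (w : X) : ℂ := ∫ w', (kk (uu w w') : ℂ) * f w'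
/-- `Qk x = ∫_ℂ kk (|y|²/2 + cosh x) dy` -/
def Qk (x : ℝ) : ℝ := Real.pi * (max 0 (2 - Real.cosh x)) ^ 2
/-- the eigenvalue of `TX` on `v^s` -/
def hh (s : ℂ) : ℂ := ∫ x : ℝ, (Qk x : ℂ) * Complex.exp ((s - 1) * x)
/-- `TX` on functions of the height -/
def Tt (φ : ℝ → ℂ) (v : ℝ) : ℂ :=
  ∫ x : ℝ, ((Qk x * Real.exp (-x) : ℝ) : ℂ) * φ (v * Real.exp x)

/-- `v^s` -/
def pw (s : ℂ) (v : ℝ) : ℂ := (v : ℂ) ^ s
/-- `v^s 1_{v ≥ 10}` -/
def hi (s : ℂ) (v : ℝ) : ℂ := if 10 ≤ v then pw s v else 0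
/-- `v^s 1_{v < 10}` -/
def lo (s : ℂ) (v : ℝ) : ℂ := if v < 10 then pw s v else 0
/-- `v^s 1_{10 ≤ v ≤ A}` -/
def mid (A : ℝ) (s : ℂ) (v : ℝ) : ℂ := if 10 ≤ v ∧ v ≤ A then pw s v else 0
/-- `(Tt - hh s) (hi s)`, supported in `[2, 50]` -/
def phs (s : ℂ) (v : ℝ) : ℂ := Tt (hi s) v - hh s * hi s v

/-- continuous automorphic `L²` eigenfunctions of `TX` with eigenvalue `hh (4/3)` -/
structure Eig (p : O) (D : X → ℂ) : Prop where
  cont : Continuous D
  aut : Aut p D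
  mem : MemLp D 2 (nu p)
  eig : ∀ w, TX D w = hh (4 / 3) * D w

/-! ## Eisenstein series -/

/-- `∑_{(c,d)} κ c d · φ(hr w c d)` -/
def Eis (κ : O → O → ℂ) (φ : ℝ → ℂ) (w : X) : ℂ :=
  ∑' r : O × O, κ r.1 r.2 * φ (hr w (toC r.1) (toC r.2))

/-- bounded by one and supported on coprime rows -/
def RowBd (κ : O → O → ℂ) : Prop :=
  (∀ c d, ‖κ c d‖ ≤ 1) ∧ ∀ c d, κ c d ≠ 0 → IsCoprime c d

/-- `κ ((c,d) γ) = κ (c,d) kap γ` -/
def Equi (p : O) (κ : O → O → ℂ) : Prop :=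
  ∀ γ ∈ Gam p, ∀ c d, κ (c * γ.a + d * γ.c) (c * γ.b + d * γ.d) = κ c d * kap γ

/-- `tr σ κ (C, D) = κ ((C, D) σ⁻¹)`, so that `Eis κ φ (σ w) = Eis (tr σ κ) φ w` -/
def tr (σ : SL O) (κ : O → O → ℂ) (C D : O) : ℂ :=
  κ (C * σ.d - D * σ.c) (-(C * σ.b) + D * σ.a)

/-- the rows of `Γ(3)` with a condition on `d` -/
def kp (π : O → Prop) (c d : O) : ℂ := if (3 : O) ∣ c ∧ Prim d ∧ π d then cub d c else 0
/-- all rows of `Γ(3)` -/
def k0 : O → O → ℂ := kp (fun _ => True)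

/-- admissible profiles: measurable and `O(v^σ)`, `σ > 2`, on bounded intervals -/
def Adm (φ : ℝ → ℂ) : Prop :=
  Measurable φ ∧ ∃ σ : ℝ, 2 < σ ∧ ∀ A : ℝ, ∃ C : ℝ, ∀ v, 0 < v → v ≤ A → ‖φ v‖ ≤ C * v ^ σ

/-- bounded on compact subsets of `(0, ∞)` -/
def LocBd (φ : ℝ → ℂ) : Prop :=
  ∀ a b : ℝ, 0 < a → ∃ C : ℝ, ∀ v, a ≤ v → v ≤ b → ‖φ v‖ ≤ C

/-- the truncated majorant `min (hr, 10)^σ` on coprime rows -/
def mh (σ : ℝ) (w : X) (r : O × O) : ℝ :=
  if IsCoprime r.1 r.2 then (min (hr w (toC r.1) (toC r.2)) 10) ^ σ else 0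

/-- the support of `κ` is the orbit of the bottom row of `δ`, and the cusp has width `ℓ` -/
structure Cusp (p : O) (κ : O → O → ℂ) (δ : SL O) (ℓ : O) : Prop where
  ne : ℓ ≠ 0
  supp : ∀ c d, κ c d ≠ 0 → ∃ γ ∈ Gam p, (δ * γ).c = c ∧ (δ * γ).d = d
  stab : ∀ x : O, δ⁻¹ * nn x * δ ∈ Gam p ↔ ℓ ∣ x

/-- the arithmetic properties of `tr σ k0` used to compute Fourier coefficients -/
structure RowFn (ℓ : O) (κ : O → O → ℂ) : Prop where
  bd : RowBd κ
  p1 : ∀ a, Prim a → ∀ C D, κ (a * C) D = cub a D * κ C D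
  p2 : ∀ a, Prim a → ∀ C D, κ C (a * D) = cub a C * κ C D
  p3 : ∀ C D t, κ C (D + ℓ * C * t) = κ C D

/-! ## Residues at `s = 4/3` -/

/-- the region of continuation -/
def Omg : Set ℂ := {s | 1 < s.re ∧ 0 < s.im ∧ s.im < 1}

/-- `F` (on `Re s > 2`) continues holomorphically to `Omg`, and `iε F(4/3 + iε) → r` -/
def HasRes (F : ℂ → ℂ) (r : ℂ) : Prop :=
  ∃ G : ℂ → ℂ, DifferentiableOn ℂ G Omg ∧ (∀ s ∈ Omg, 2 < s.re → G s = F s) ∧
    Tendsto (fun ε : ℝ => (ε * Complex.I) * G (4 / 3 + ε * Complex.I)) (𝓝[>] 0) (𝓝 r)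

/-- the residue (unique by the identity theorem) -/
def res43 (F : ℂ → ℂ) : ℂ := if h : ∃ r, HasRes F r then h.choose else 0

/-- the residue of the Eisenstein series with row function `κ` -/
def thK (κ : O → O → ℂ) (w : X) : ℂ := res43 (fun s => Eis κ (pw s) w)

/-- **the cubic theta function** -/
def theta : X → ℂ := thK k0

/-- Patterson's Dirichlet series `∑_{c primary} g(c, r) N(c)^{-s}` -/
def psi0 (r : O) (s : ℂ) : ℂ := dser (prim (fun c => gs c (cub c) r)) s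

/-- the same with a condition on `c` -/
def psi (π : O → Prop) (r : O) (s : ℂ) : ℂ :=
  dser (prim (fun c => if π c then gs c (cub c) r else 0)) s

/-- its residue at `s = 4/3` -/
def rho0 (r : O) : ℂ := res43 (psi0 r)

/-! ## Fourier coefficients -/

/-- a fundamental parallelogram for `ℓ O` -/
def cell (ℓ : O) : Set ℂ :=
  {z | ∃ a ∈ Set.Ico (0 : ℝ) 1, ∃ b ∈ Set.Ico (0 : ℝ) 1, z = toC ℓ * (a + b * omC)}

/-- its area -/
def vol (ℓ : O) : ℝ := N ℓ * (Real.sqrt 3 / 2)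

/-- unnormalised Fourier coefficient at height `v` -/
def coef (ℓ n : O) (v : ℝ) (F : X → ℂ) : ℂ :=
  ∫ z in cell ℓ, F (pt z v) * ee (-(toC n * z / toC ℓ))

/-- `∫_ℂ (1 + |y|²)^{-s} ee(-ξ y) dy` -/
def W (s ξ : ℂ) : ℂ := ∫ y : ℂ, ((1 + ‖y‖ ^ 2 : ℝ) : ℂ) ^ (-s) * ee (-(ξ * y))

/-- `W (4/3) ξ = Vr ‖ξ‖` (a Bessel function `y^{1/3} K_{1/3}(2 c0 y)` up to a constant) -/
def Vr (y : ℝ) : ℝ := Real.pi / Real.Gamma (4 / 3) *
  ∫ t in Set.Ioi (0 : ℝ), t ^ (-(2 / 3 : ℝ)) * Real.exp (-t - c0 ^ 2 * y ^ 2 / t)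

/-- the Dirichlet series in the Fourier coefficients of `Eis κ (pw s)` -/
def DS (ℓ : O) (κ : O → O → ℂ) (n : O) (s : ℂ) : ℂ := dser (fun C => gs (ℓ * C) (κ C) n) s

/-- `F(z,v) = ∑_n a(n) v^{2/3} Vr(|n/M| v) ee(n z / M)` (the term `n = 0` is the constant term) -/
def HasExp (F : X → ℂ) (M : O) (a : O → ℂ) : Prop :=
  ∀ (z : ℂ) (v : ℝ), 0 < v → HasSum (fun n : O =>
    a n * ((v ^ (2 / 3 : ℝ) * Vr (‖toC n / toC M‖ * v) : ℝ) : ℂ) * ee (toC n * z / toC M))
    (F (pt z v))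

end Crest.Agent.R17.Vor
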