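import Crest.Agent.R17.VoDefs

/-!
# R17 / VoHh : the one-dimensional transform: `Qk`, `hh`, `Tt`, and the profiles
`pw`, `hi`, `lo`, `mid`, `phs`  (real analysis on `ℝ` only)
-/

set_option autoImplicit false

noncomputable section

open scoped Classical ComplexConjugate Topology ENNReal InnerProductSpace
open MeasureTheory Filter

namespace Crest.Agent.R17.Vor

theorem continuous_Qk : Continuous Qk := by
  unfold Qk
  fun_prop

theorem Qk_nonneg (x : ℝ) : 0 ≤ Qk x := by
  unfold Qk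
  positivity

theorem Qk_neg (x : ℝ) : Qk (-x) = Qk x := by
  simp [Qk]

/-- `cosh (3/2) ≥ 1 + (3/2)²/2 > 2` -/
theorem Qk_eq_zero {x : ℝ} (h : 3 / 2 ≤ |x|) : Qk x = 0 := by
  have h1 : Real.cosh (3 / 2) ≤ Real.cosh x :=
    Real.cosh_le_cosh.2 (by rwa [abs_of_pos (by norm_num : (0 : ℝ) < 3 / 2)])
  have h2 : Real.exp (3 / 2) = Real.exp 1 * Real.exp (1 / 2) := by
    rw [← Real.exp_add]; norm_num
  have h3 := Real.add_one_le_exp (1 / 2)
  have h4 := Real.exp_one_gt_d9
  rw [Real.cosh_eq] at h1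
  rw [Qk, max_eq_left (by nlinarith [Real.exp_pos (-(3 / 2))])]
  simp

/-- `cosh 1 < 2` -/
theorem Qk_pos {x : ℝ} (h : |x| ≤ 1) : 0 < Qk x := by
  have h1 : Real.cosh x ≤ Real.cosh 1 := Real.cosh_le_cosh.2 (by rwa [abs_one])
  have h2 : Real.exp (-1) ≤ 1 := Real.exp_le_one_iff.2 (by norm_num)
  have h4 := Real.exp_one_lt_d9
  rw [Real.cosh_eq 1] at h1
  exact mul_pos Real.pi_pos (pow_pos (lt_max_of_lt_right (by linarith)) 2)

theorem vohh_supp : HasCompactSupport Qk :=
  HasCompactSupport.intro (isCompact_Icc (a := -(3 / 2)) (b := 3 / 2)) fun _ hx =>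
    Qk_eq_zero (not_lt.1 fun h => hx (abs_le.1 h.le))

theorem vohh_intQ : Integrable Qk := continuous_Qk.integrable_of_hasCompactSupport vohh_supp

theorem vohh_norm {g : ℝ → ℂ} {C : ℝ} (hb : ∀ x, |x| ≤ 3 / 2 → ‖g x‖ ≤ C) (x : ℝ) :
    ‖(Qk x : ℂ) * g x‖ ≤ Qk x * C := by
  rcases le_total |x| (3 / 2) with h | h
  · rw [norm_mul, Complex.norm_real, Real.norm_of_nonneg (Qk_nonneg x)]
    exact mul_le_mul_of_nonneg_left (hb x h) (Qk_nonneg x)
  · simp [Qk_eq_zero h]

theorem vohh_meas {g : ℝ → ℂ} (hg : Measurable g) :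
    AEStronglyMeasurable (fun x => (Qk x : ℂ) * g x) volume :=
  ((Complex.continuous_ofReal.comp continuous_Qk).measurable.mul hg).aestronglyMeasurable

theorem vohh_int {g : ℝ → ℂ} (hg : Measurable g) {C : ℝ} (hb : ∀ x, |x| ≤ 3 / 2 → ‖g x‖ ≤ C) :
    Integrable fun x => (Qk x : ℂ) * g x :=
  (vohh_intQ.mul_const C).mono' (vohh_meas hg) (Eventually.of_forall (vohh_norm hb))

theorem vohh_le {g : ℝ → ℂ} {C : ℝ} (hb : ∀ x, |x| ≤ 3 / 2 → ‖g x‖ ≤ C) :
    ‖∫ x, (Qk x : ℂ) * g x‖ ≤ (∫ x, Qk x) * C := by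
  rw [← integral_mul_const]
  exact norm_integral_le_of_norm_le (vohh_intQ.mul_const C) (Eventually.of_forall (vohh_norm hb))

theorem vohh_exp {s : ℂ} {R c x : ℝ} (hs : ‖s‖ ≤ R) (hx : |x| ≤ 3 / 2) :
    ‖Complex.exp (s * (c + x))‖ ≤ Real.exp (R * (|c| + 3 / 2)) := by
  refine (Complex.norm_exp_le_exp_norm _).trans (Real.exp_le_exp.2 ?_)
  rw [norm_mul, ← Complex.ofReal_add, Complex.norm_real, Real.norm_eq_abs]
  exact mul_le_mul hs ((abs_add_le _ _).trans (by linarith)) (abs_nonneg _)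
    ((norm_nonneg _).trans hs)

theorem vohh_deriv {a : ℝ → ℂ} (ha : Measurable a) {C : ℝ} (hb : ∀ x, |x| ≤ 3 / 2 → ‖a x‖ ≤ C)
    (c : ℝ) (s : ℂ) : HasDerivAt (fun s : ℂ => ∫ x : ℝ, (Qk x : ℂ) * (a x * Complex.exp (s * (c + x))))
      (∫ x : ℝ, (Qk x : ℂ) * (a x * (Complex.exp (s * (c + x)) * (c + x)))) s := by
  have hC : 0 ≤ C := (norm_nonneg _).trans (hb 0 (by norm_num))
  refine (hasDerivAt_integral_of_dominated_loc_of_deriv_le (Metric.ball_mem_nhds s one_pos)
    (F' := fun s x => (Qk x : ℂ) * (a x * (Complex.exp (s * (c + x)) * (c + x))))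
    (Eventually.of_forall fun z => vohh_meas (ha.mul (by fun_prop)))
    (vohh_int (ha.mul (by fun_prop)) (C := C * Real.exp (‖s‖ * (|c| + 3 / 2))) fun x hx => ?_)
    (vohh_meas (ha.mul (by fun_prop)))
    (Eventually.of_forall fun x z hz => vohh_norm
      (g := fun x => a x * (Complex.exp (z * (c + x)) * (c + x))) (fun x hx => ?_) x)
    (vohh_intQ.mul_const (C * (Real.exp ((‖s‖ + 1) * (|c| + 3 / 2)) * (|c| + 3 / 2))))
    (Eventually.of_forall fun x z _ => ?_)).2
  · rw [Pi.mul_apply, norm_mul]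
    exact mul_le_mul (hb x hx) (vohh_exp le_rfl hx) (norm_nonneg _) hC
  · rw [norm_mul, norm_mul]
    refine mul_le_mul (hb x hx) (mul_le_mul (vohh_exp ?_ hx) ?_ (norm_nonneg _) (by positivity))
      (by positivity) hC
    · linarith [norm_sub_norm_le z s, mem_ball_iff_norm.1 hz]
    · rw [← Complex.ofReal_add, Complex.norm_real, Real.norm_eq_abs]
      exact (abs_add_le _ _).trans (by linarith)
  · exact ((((hasDerivAt_id z).mul_const _).cexp.const_mul _).const_mul _).congr_deriv (by simp)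

theorem vohh_pos {f : ℝ → ℝ} (hf : Continuous f) (h0 : ∀ x, 0 ≤ x → x ≤ 3 / 2 → 0 ≤ f x + f (-x))
    (h1 : 0 < f 1 + f (-1)) : 0 < ∫ x, Qk x * f x := by
  have i1 : Integrable fun x => Qk x * f x :=
    (continuous_Qk.mul hf).integrable_of_hasCompactSupport vohh_supp.mul_right
  have h2 : 0 < ∫ x, Qk x * (f x + f (-x)) := by
    refine Continuous.integral_pos_of_hasCompactSupport_nonneg_nonzero (x := 1)
      (continuous_Qk.mul (by fun_prop)) vohh_supp.mul_right (fun x => ?_)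
      (mul_pos (Qk_pos (by simp)) h1).ne'
    rcases le_total |x| (3 / 2) with h | h
    · refine mul_nonneg (Qk_nonneg x) ?_
      rcases le_total 0 x with h' | h'
      · exact h0 x h' (abs_le.1 h).2
      · simpa [add_comm] using h0 (-x) (by linarith) (by linarith [(abs_le.1 h).1])
    · simp [Qk_eq_zero h]
  have h3 := integral_add i1 i1.comp_neg
  rw [integral_neg_eq_self (fun x => Qk x * f x)] at h3
  simp only [Qk_neg, ← mul_add] at h3
  linarith

/-- differentiation under the integral (compact support), e.g.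
`hasDerivAt_integral_of_dominated_loc_of_deriv_le` -/
theorem hasDerivAt_hh (s : ℂ) :
    HasDerivAt hh (∫ x : ℝ, (Qk x : ℂ) * x * Complex.exp ((s - 1) * x)) s := by
  have h := vohh_deriv (a := fun x : ℝ => Complex.exp (-1 * (((0 : ℝ) : ℂ) + x))) (by fun_prop)
    (fun x hx => vohh_exp (R := 1) (by simp) hx) 0 s
  have e : ∀ (z : ℂ) (x : ℝ), Complex.exp (-1 * (((0 : ℝ) : ℂ) + x)) *
      Complex.exp (z * (((0 : ℝ) : ℂ) + x)) = Complex.exp ((z - 1) * x) := fun z x => by
    rw [← Complex.exp_add]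
    congr 1
    push_cast
    ring
  simp only [← mul_assoc (Complex.exp _), e] at h
  refine h.congr_deriv (integral_congr_ae (Eventually.of_forall fun x => ?_))
  push_cast
  ring

theorem differentiable_hh : Differentiable ℂ hh := by
  exact fun s => (hasDerivAt_hh s).differentiableAt

/-- `Im hh(1+a+ib) = ∫ Qk e^{ax} sin(bx) = ∫ Qk sinh(ax) sin(bx)` (symmetrise with `x ↦ -x`); the
integrand is `≥ 0` on `|x| ≤ 3/2 < π` and `> 0` on `0 < x < 1`. -/
theorem hh_im_pos {s : ℂ} (hs : s ∈ Omg) : 0 < (hh s).im := by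
  obtain ⟨h1, h2, h3⟩ := hs
  have i1 : Integrable fun x : ℝ => (Qk x : ℂ) * Complex.exp ((s - 1) * x) :=
    vohh_int (by fun_prop) fun x hx => by simpa using vohh_exp (s := s - 1) (c := 0) le_rfl hx
  have e : (hh s).im = ∫ x : ℝ, Qk x * (Real.exp ((s.re - 1) * x) * Real.sin (s.im * x)) := by
    refine (integral_im i1).symm.trans (integral_congr_ae (Eventually.of_forall fun x => ?_))
    simp [Complex.exp_im]
  have key : ∀ x : ℝ, Real.exp ((s.re - 1) * x) * Real.sin (s.im * x) +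
      Real.exp ((s.re - 1) * -x) * Real.sin (s.im * -x) =
      (Real.exp ((s.re - 1) * x) - Real.exp ((s.re - 1) * -x)) * Real.sin (s.im * x) := fun x => by
    rw [mul_neg s.im, Real.sin_neg]
    ring
  rw [e]
  refine vohh_pos (by fun_prop) (fun x hx hx' => ?_) ?_
  · rw [key]
    exact mul_nonneg (sub_nonneg.2 (Real.exp_le_exp.2 (by nlinarith)))
      (Real.sin_nonneg_of_nonneg_of_le_pi (by positivity) (by nlinarith [Real.pi_gt_three]))
  · rw [key]
    exact mul_pos (sub_pos.2 (Real.exp_lt_exp.2 (by linarith)))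
      (Real.sin_pos_of_pos_of_lt_pi (by linarith) (by linarith [Real.pi_gt_three]))

theorem hh_43 : ∃ μ0 : ℝ, 0 < μ0 ∧ hh (4 / 3) = μ0 := by
  refine ⟨∫ x, Qk x * Real.exp (x / 3), vohh_pos (by fun_prop) (fun x _ _ => by positivity)
    (by positivity), ?_⟩
  rw [hh, ← integral_complex_ofReal]
  refine integral_congr_ae (Eventually.of_forall fun x => ?_)
  push_cast
  congr 2
  ring

/-- `hh'(4/3) = ∫ Qk x e^{x/3} = ∫ Qk x sinh(x/3) > 0` -/
theorem deriv_hh_43 : ∃ h1 : ℝ, 0 < h1 ∧ HasDerivAt hh (h1 : ℂ) (4 / 3) := by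
  refine ⟨∫ x, Qk x * (x * Real.exp (x / 3)), vohh_pos (by fun_prop) (fun x hx _ => ?_) ?_,
    (hasDerivAt_hh _).congr_deriv ?_⟩
  · nlinarith [Real.exp_le_exp.2 (show -x / 3 ≤ x / 3 by linarith)]
  · linarith [Real.exp_lt_exp.2 (show (-1 : ℝ) / 3 < 1 / 3 by norm_num)]
  · rw [← integral_complex_ofReal]
    refine integral_congr_ae (Eventually.of_forall fun x => ?_)
    push_cast
    rw [mul_assoc]
    congr 3
    ring

theorem norm_pw (s : ℂ) {v : ℝ} (hv : 0 < v) : ‖pw s v‖ = v ^ s.re := by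
  exact Complex.norm_cpow_eq_rpow_re_of_pos hv s

theorem measurable_pw (s : ℂ) : Measurable (pw s) := by
  exact Complex.measurable_ofReal.pow_const s

theorem differentiable_pw {v : ℝ} (hv : 0 < v) : Differentiable ℂ (fun s => pw s v) := by
  exact differentiable_id.const_cpow (Or.inl (Complex.ofReal_ne_zero.2 hv.ne'))

theorem locBd_pw (s : ℂ) : LocBd (pw s) := by
  refine fun a b ha => ⟨a ^ s.re + |b| ^ s.re, fun v h1 h2 => ?_⟩
  have hv := ha.trans_le h1
  rw [norm_pw s hv]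
  rcases le_total 0 s.re with h | h
  · exact le_add_of_nonneg_of_le (by positivity)
      (Real.rpow_le_rpow hv.le (h2.trans (le_abs_self b)) h)
  · exact le_add_of_le_of_nonneg (Real.rpow_le_rpow_of_nonpos ha h1 h) (by positivity)

theorem Adm.locBd {φ : ℝ → ℂ} (h : Adm φ) : LocBd φ := by
  obtain ⟨-, σ, hσ, h⟩ := h
  intro a b ha
  obtain ⟨C, hC⟩ := h b
  refine ⟨|C| * b ^ σ, fun v h1 h2 => (hC v (ha.trans_le h1) h2).trans ?_⟩
  have hv := ha.trans_le h1
  exact mul_le_mul (le_abs_self C) (Real.rpow_le_rpow hv.le h2 (by linarith)) (by positivity)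
    (abs_nonneg C)

theorem adm_pw {s : ℂ} (hs : 2 < s.re) : Adm (pw s) := by
  exact ⟨measurable_pw s, s.re, hs, fun _ => ⟨1, fun v hv _ => by rw [norm_pw s hv, one_mul]⟩⟩

theorem adm_lo {s : ℂ} (hs : 2 < s.re) : Adm (lo s) := by
  refine ⟨Measurable.ite measurableSet_Iio (measurable_pw s) measurable_const, s.re, hs,
    fun _ => ⟨1, fun v hv _ => ?_⟩⟩
  unfold lo
  split_ifs
  · rw [norm_pw s hv, one_mul]
  · rw [norm_zero]
    positivity

theorem vohh_adm {p : ℝ → Prop} [DecidablePred p] (hp : MeasurableSet {v | p v})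
    (h : ∀ v, p v → 1 ≤ v) (s : ℂ) : Adm fun v => if p v then pw s v else 0 := by
  refine ⟨Measurable.ite hp (measurable_pw s) measurable_const, 3, by norm_num, fun A => ?_⟩
  obtain ⟨C, hC⟩ := locBd_pw s 1 A one_pos
  refine ⟨|C|, fun v hv hA => ?_⟩
  simp only
  split_ifs with h'
  · exact ((hC v (h v h') hA).trans (le_abs_self C)).trans
      (le_mul_of_one_le_right (abs_nonneg C) (Real.one_le_rpow (h v h') (by norm_num)))
  · rw [norm_zero]
    positivity

theorem adm_hi (s : ℂ) : Adm (hi s) := by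
  exact vohh_adm measurableSet_Ici (fun v h => by linarith) s

theorem adm_mid (A : ℝ) (s : ℂ) : Adm (mid A s) := by
  exact vohh_adm measurableSet_Icc (fun v h => by linarith [h.1]) s

theorem lo_bound {s : ℂ} (hs : 2 < s.re) {v : ℝ} (hv : 0 < v) :
    ‖lo s v‖ ≤ 1 * (min v 10) ^ s.re := by
  unfold lo
  split_ifs with h
  · rw [norm_pw s hv, one_mul, min_eq_left h.le]
  · rw [norm_zero]
    positivity

theorem pw_eq_mid_add_lo {A : ℝ} (s : ℂ) {v : ℝ} (hv : v ≤ A) :
    pw s v = mid A s v + lo s v := by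
  unfold mid lo
  rcases lt_or_ge v 10 with h | h
  · simp [h]
  · simp [h, hv]

theorem measurable_Tt {φ : ℝ → ℂ} (hφ : Measurable φ) : Measurable (Tt φ) := by
  have hQ := continuous_Qk.measurable
  refine (StronglyMeasurable.integral_prod_right (f := fun (v x : ℝ) =>
    ((Qk x * Real.exp (-x) : ℝ) : ℂ) * φ (v * Real.exp x)) (Measurable.stronglyMeasurable ?_)).measurable
  unfold Function.uncurry
  fun_prop

theorem vohh_split (φ : ℝ → ℂ) (v x : ℝ) : ((Qk x * Real.exp (-x) : ℝ) : ℂ) * φ (v * Real.exp x) =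
    (Qk x : ℂ) * (Real.exp (-x) * φ (v * Real.exp x)) := by
  rw [Complex.ofReal_mul, mul_assoc]

theorem vohh_norm2 {z : ℂ} {C x : ℝ} (hx : |x| ≤ 3 / 2) (hz : ‖z‖ ≤ C) :
    ‖(Real.exp (-x) : ℂ) * z‖ ≤ Real.exp (3 / 2) * C := by
  rw [norm_mul, Complex.norm_real, Real.norm_of_nonneg (Real.exp_pos _).le]
  exact mul_le_mul (Real.exp_le_exp.2 (by linarith [(abs_le.1 hx).1])) hz (norm_nonneg _)
    (Real.exp_pos _).le

theorem vohh_pw (s : ℂ) {v : ℝ} (hv : 0 < v) (x : ℝ) :
    pw s (v * Real.exp x) = Complex.exp (s * (Real.log v + x)) := by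
  have h : 0 < v * Real.exp x := by positivity
  rw [pw, Complex.cpow_def_of_ne_zero (Complex.ofReal_ne_zero.2 h.ne'), ← Complex.ofReal_log h.le,
    Real.log_mul hv.ne' (Real.exp_pos x).ne', Real.log_exp, mul_comm, Complex.ofReal_add]

theorem vohh_five : Real.exp (3 / 2) < 5 := by
  have h1 : Real.exp (3 / 2) ^ 2 = Real.exp 1 ^ 3 := by
    rw [← Real.exp_nat_mul, ← Real.exp_nat_mul]; norm_num
  have h2 : Real.exp 1 ^ 3 ≤ 2.72 ^ 3 :=
    pow_le_pow_left₀ (Real.exp_pos 1).le (by linarith [Real.exp_one_lt_d9]) 3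
  exact lt_of_pow_lt_pow_left₀ 2 (by norm_num) (by rw [h1]; linarith)

theorem vohh_range {x : ℝ} (hx : |x| ≤ 3 / 2) : 1 / 5 ≤ Real.exp x ∧ Real.exp x ≤ 5 := by
  have h1 := Real.exp_le_exp.2 (abs_le.1 hx).2
  have h2 : Real.exp (-x) ≤ Real.exp (3 / 2) := Real.exp_le_exp.2 (by linarith [(abs_le.1 hx).1])
  have h3 := vohh_five
  refine ⟨?_, by linarith⟩
  rw [Real.exp_neg, inv_le_comm₀ (Real.exp_pos x) (Real.exp_pos _)] at h2
  exact le_trans (by rw [one_div]; exact inv_anti₀ (Real.exp_pos _) h3.le) h2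

theorem integrable_Tt {φ : ℝ → ℂ} (hm : Measurable φ) (hb : LocBd φ) {v : ℝ} (hv : 0 < v) :
    Integrable (fun x : ℝ => ((Qk x * Real.exp (-x) : ℝ) : ℂ) * φ (v * Real.exp x)) := by
  obtain ⟨C, hC⟩ := hb (v * (1 / 5)) (v * 5) (by positivity)
  simp only [vohh_split]
  exact vohh_int (by fun_prop) fun x hx => vohh_norm2 hx (hC _
    (mul_le_mul_of_nonneg_left (vohh_range hx).1 hv.le)
    (mul_le_mul_of_nonneg_left (vohh_range hx).2 hv.le))

/-- `(v eˣ)^s = v^s e^{sx}` -/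
theorem Tt_pw (s : ℂ) {v : ℝ} (hv : 0 < v) : Tt (pw s) v = hh s * pw s v := by
  have h := vohh_pw s hv 0
  rw [Real.exp_zero, mul_one] at h
  rw [Tt, hh, ← integral_mul_const, h]
  refine integral_congr_ae (Eventually.of_forall fun x => ?_)
  simp only [vohh_pw s hv, Complex.ofReal_mul, Complex.ofReal_exp, mul_assoc, ← Complex.exp_add]
  congr 2
  push_cast
  ring

/-- `lo = pw - hi` -/
theorem Tt_lo (s : ℂ) {v : ℝ} (hv : 0 < v) : Tt (lo s) v = hh s * lo s v - phs s v := by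
  have e : ∀ u, lo s u = pw s u - hi s u := fun u => by
    unfold lo hi
    rcases lt_or_ge u 10 with h | h
    · simp [h, not_le.2 h]
    · simp [h]
  have h := Tt_pw s hv
  rw [phs, e, Tt]
  simp only [e, mul_sub]
  rw [integral_sub (integrable_Tt (measurable_pw s) (locBd_pw s) hv)
    (integrable_Tt (adm_hi s).1 (adm_hi s).locBd hv)]
  change Tt (pw s) v - Tt (hi s) v = _
  rw [h]
  ring

theorem vohh_congr {φ ψ : ℝ → ℂ} {v : ℝ}
    (h : ∀ x, |x| ≤ 3 / 2 → φ (v * Real.exp x) = ψ (v * Real.exp x)) : Tt φ v = Tt ψ v := by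
  refine integral_congr_ae (Eventually.of_forall fun x => ?_)
  rcases le_total |x| (3 / 2) with h' | h'
  · simp only [h x h']
  · simp [Qk_eq_zero h']

/-- for `v < 2`: `v eˣ < 2 e^{3/2} < 10` on the support of `Qk`; for `v > 50`: `v eˣ ≥ 10` there, so
`Tt (hi s) v = Tt (pw s) v` (`e^{3/2} < 5`) -/
theorem phs_eq_zero (s : ℂ) {v : ℝ} (hv : 0 < v) (h : v < 2 ∨ 50 < v) : phs s v = 0 := by
  rcases h with h | h
  · rw [phs, vohh_congr (ψ := fun _ => 0) fun x hx =>
      if_neg (not_le.2 (by nlinarith [vohh_range hx])), hi, if_neg (by linarith)]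
    simp [Tt]
  · rw [phs, vohh_congr (ψ := pw s) fun x hx => if_pos (by nlinarith [vohh_range hx]),
      Tt_pw s hv, hi, if_pos (by linarith), sub_self]

theorem measurable_phs (s : ℂ) : Measurable (phs s) := by
  exact (measurable_Tt (adm_hi s).1).sub ((adm_hi s).1.const_mul _)

theorem differentiable_phs {v : ℝ} (hv : 0 < v) : Differentiable ℂ (fun s => phs s v) := by
  have h1 : Differentiable ℂ fun s => hi s v := by
    unfold hi
    split_ifs
    · exact differentiable_pw hv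
    · exact differentiable_const _
  refine Differentiable.sub (fun s => ?_) (differentiable_hh.mul h1)
  have h := (vohh_deriv (a := fun x : ℝ => Real.exp (-x) * if 10 ≤ v * Real.exp x then 1 else 0)
    (Measurable.mul (by fun_prop) (Measurable.ite (measurableSet_le measurable_const (by fun_prop))
      measurable_const measurable_const))
    (fun x hx => vohh_norm2 (C := 1) hx (by split_ifs <;> simp)) (Real.log v) s).differentiableAt
  refine h.congr_of_eventuallyEq (Eventually.of_forall fun z => ?_)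
  refine integral_congr_ae (Eventually.of_forall fun x => ?_)
  simp only [hi, vohh_pw z hv]
  split_ifs <;> simp [mul_assoc]

theorem vohh_pw_le {s : ℂ} {R A v : ℝ} (hs : ‖s‖ ≤ R) (h1 : 1 ≤ v) (h2 : v ≤ A) :
    ‖pw s v‖ ≤ |A| ^ R := by
  rw [norm_pw s (by linarith)]
  exact (Real.rpow_le_rpow_of_exponent_le h1 ((Complex.re_le_norm s).trans hs)).trans
    (Real.rpow_le_rpow (by linarith) (h2.trans (le_abs_self A)) ((norm_nonneg s).trans hs))

theorem vohh_hi_le {s : ℂ} {R v : ℝ} (hs : ‖s‖ ≤ R) (h2 : v ≤ 250) : ‖hi s v‖ ≤ |250| ^ R := by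
  unfold hi
  split_ifs with h
  · exact vohh_pw_le hs (by linarith) h2
  · rw [norm_zero]
    positivity

theorem vohh_min {z : ℂ} {C v : ℝ} (hz : ‖z‖ ≤ C) (hv : 1 ≤ v) :
    ‖z‖ ≤ C * (min v 10) ^ (3 : ℝ) :=
  hz.trans (le_mul_of_one_le_right ((norm_nonneg z).trans hz)
    (Real.one_le_rpow (le_min hv (by norm_num)) (by norm_num)))

theorem phs_bound (R : ℝ) : ∃ C : ℝ, 0 ≤ C ∧ ∀ s : ℂ, ‖s‖ ≤ R → ∀ v, 0 < v →
    ‖phs s v‖ ≤ C * (min v 10) ^ (3 : ℝ) := by
  have hQ : 0 ≤ ∫ x, Qk x := integral_nonneg Qk_nonneg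
  refine ⟨(∫ x, Qk x) * (Real.exp (3 / 2) * |250| ^ R) +
    (∫ x, Qk x) * Real.exp ((R + 1) * (|0| + 3 / 2)) * |250| ^ R, by positivity,
    fun s hs v hv => ?_⟩
  by_cases h : v < 2 ∨ 50 < v
  · rw [phs_eq_zero s hv h, norm_zero]
    positivity
  · push Not at h
    refine vohh_min ((norm_sub_le _ _).trans (add_le_add ?_ ?_)) (by linarith [h.1])
    · simp only [Tt, vohh_split]
      exact vohh_le fun x hx => vohh_norm2 hx (vohh_hi_le hs (by nlinarith [vohh_range hx]))
    · rw [norm_mul]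
      refine mul_le_mul (vohh_le fun x hx => ?_) (vohh_hi_le hs (by linarith [h.2])) (norm_nonneg _)
        (by positivity)
      simpa using vohh_exp (s := s - 1) (c := 0) (R := R + 1)
        ((norm_sub_le _ _).trans (by simpa using hs)) hx

theorem adm_phs (s : ℂ) : Adm (phs s) := by
  obtain ⟨C, hC, h⟩ := phs_bound ‖s‖
  exact ⟨measurable_phs s, 3, by norm_num, fun _ => ⟨C, fun v hv _ => (h s le_rfl v hv).trans
    (mul_le_mul_of_nonneg_left (Real.rpow_le_rpow (by positivity) (min_le_left _ _) (by norm_num))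
      hC)⟩⟩

theorem measurable_mid (A : ℝ) (s : ℂ) : Measurable (mid A s) := by
  exact (adm_mid A s).1

theorem differentiable_mid (A : ℝ) {v : ℝ} (hv : 0 < v) :
    Differentiable ℂ (fun s => mid A s v) := by
  unfold mid
  split_ifs
  · exact differentiable_pw hv
  · exact differentiable_const _

theorem mid_bound (A R : ℝ) : ∃ C : ℝ, 0 ≤ C ∧ ∀ s : ℂ, ‖s‖ ≤ R → ∀ v, 0 < v →
    ‖mid A s v‖ ≤ C * (min v 10) ^ (3 : ℝ) := by
  refine ⟨|A| ^ R, by positivity, fun s hs v hv => ?_⟩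
  unfold mid
  split_ifs with h
  · exact vohh_min (vohh_pw_le hs (by linarith [h.1]) h.2) (by linarith [h.1])
  · rw [norm_zero]
    positivity

end Crest.Agent.R17.Vor
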