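import Crest.Agent.R17.VoDefs

/-!
# R17 / VoSchur : the Schur test (abstract measure theory)

For `f ∈ L²`: `|∫ K(x,y) f(y)|² ≤ (∫ |K(x,y)| dy) (∫ |K(x,y)| |f(y)|² dy) ≤ M ∫ |K(x,y)| |f(y)|²`
(Cauchy-Schwarz, `ENNReal.lintegral_mul_le_Lp_mul_Lq` or `lintegral_mul_norm_pow_le`), and by
Tonelli and the symmetry `|K(x,y)| = |K(y,x)|`, `∫∫ |K| |f(y)|² ≤ M ‖f‖²`.  In particular
`y ↦ K x y f y` is integrable for a.e. `x`, which gives additivity a.e.; build the operator with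
`LinearMap.mkContinuous` and `MemLp.toLp`.  Self-adjointness: Fubini for
`conj (g x) K x y f y` (integrable on the product by `|g||K||f| ≤ |K|(|g|²+|f|²)/2`);
`ContinuousLinearMap.isSelfAdjoint_iff_isSymmetric`, `MeasureTheory.L2.inner_def`.
-/

set_option autoImplicit false

noncomputable section

open scoped Classical ComplexConjugate Topology ENNReal InnerProductSpace
open MeasureTheory Filter

namespace Crest.Agent.R17.Vor

section VoSchurAux

variable {α : Type} [MeasurableSpace α] {μ : Measure α}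

theorem VoSchur_cs {k g : α → ℝ≥0∞} (hk : AEMeasurable k μ) (hg : AEMeasurable g μ) :
    (∫⁻ y, k y * g y ∂μ) ^ 2 ≤ (∫⁻ y, k y ∂μ) * ∫⁻ y, k y * g y ^ 2 ∂μ := by
  have h := ENNReal.lintegral_mul_norm_pow_le hk (hk.mul (hg.pow_const 2))
    (p := 1 / 2) (q := 1 / 2) (by norm_num) (by norm_num) (by norm_num)
  have e : ∀ a : ℝ≥0∞, (a ^ 2) ^ (1 / 2 : ℝ) = a := fun a => by
    rw [← ENNReal.rpow_natCast, ← ENNReal.rpow_mul]; norm_num
  have e' : ∀ a : ℝ≥0∞, (a ^ (1 / 2 : ℝ)) ^ 2 = a := fun a => by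
    rw [← ENNReal.rpow_natCast, ← ENNReal.rpow_mul]; norm_num
  have h2 : ∀ y, k y ^ (1 / 2 : ℝ) * (k y * g y ^ 2) ^ (1 / 2 : ℝ) = k y * g y := fun y => by
    rw [← ENNReal.mul_rpow_of_nonneg _ _ (by norm_num), ← mul_assoc, ← sq, ← mul_pow, e]
  simp only [Pi.mul_apply, h2] at h
  refine (pow_le_pow_left₀ (zero_le) h 2).trans ?_
  rw [mul_pow, e', e']

theorem VoSchur_sq (f : α → ℂ) : eLpNorm f 2 μ ^ 2 = ∫⁻ x, ‖f x‖ₑ ^ 2 ∂μ := by
  rw [eLpNorm_eq_lintegral_rpow_enorm_toReal two_ne_zero ENNReal.ofNat_ne_top,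
    ← ENNReal.rpow_natCast, ← ENNReal.rpow_mul]
  simp

variable [SFinite μ] {K : α → α → ℂ} {M : ℝ}

theorem VoSchur_left (hK : Measurable (Function.uncurry K))
    (h1 : ∀ x, ∫⁻ y, ‖K x y‖ₑ ∂μ ≤ ENNReal.ofReal M) {a : α → ℝ≥0∞} (ha : Measurable a) :
    ∫⁻ p : α × α, ‖K p.1 p.2‖ₑ * a p.1 ∂(μ.prod μ) ≤ ENNReal.ofReal M * ∫⁻ x, a x ∂μ := by
  rw [lintegral_prod (fun p : α × α => ‖K p.1 p.2‖ₑ * a p.1)
      (hK.enorm.mul (ha.comp measurable_fst)).aemeasurable,
    ← lintegral_const_mul _ ha]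
  refine lintegral_mono fun x => ?_
  simp only
  rw [lintegral_mul_const _ (hK.of_uncurry_left (x := x)).enorm]
  exact mul_le_mul_left (h1 x) _

theorem VoSchur_right (hK : Measurable (Function.uncurry K))
    (h1 : ∀ x, ∫⁻ y, ‖K x y‖ₑ ∂μ ≤ ENNReal.ofReal M) (hsym : ∀ x y, K y x = conj (K x y))
    {a : α → ℝ≥0∞} (ha : Measurable a) :
    ∫⁻ p : α × α, ‖K p.1 p.2‖ₑ * a p.2 ∂(μ.prod μ) ≤ ENNReal.ofReal M * ∫⁻ x, a x ∂μ := by
  rw [lintegral_prod_symm (fun p : α × α => ‖K p.1 p.2‖ₑ * a p.2)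
      (hK.enorm.mul (ha.comp measurable_snd)).aemeasurable,
    ← lintegral_const_mul _ ha]
  refine lintegral_mono fun y => ?_
  simp only
  rw [lintegral_mul_const _ (hK.of_uncurry_right (y := y)).enorm]
  refine mul_le_mul_left (le_of_eq_of_le (lintegral_congr fun x => ?_) (h1 y)) _
  rw [hsym y x, ← ofReal_norm, ← ofReal_norm, RCLike.norm_conj]

theorem VoSchur_int (hK : Measurable (Function.uncurry K))
    (h1 : ∀ x, ∫⁻ y, ‖K x y‖ₑ ∂μ ≤ ENNReal.ofReal M) (hsym : ∀ x y, K y x = conj (K x y))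
    {f g : α → ℂ} (hf : Measurable f) (hg : Measurable g) (hf2 : MemLp f 2 μ) (hg2 : MemLp g 2 μ) :
    Integrable (fun p : α × α => g p.1 * (K p.1 p.2 * f p.2)) (μ.prod μ) := by
  refine ⟨((hg.comp measurable_fst).mul (hK.mul (hf.comp measurable_snd))).aestronglyMeasurable, ?_⟩
  rw [hasFiniteIntegral_iff_enorm]
  have h2 := VoSchur_left hK h1 (hg.enorm.pow_const 2)
  have h3 := VoSchur_right hK h1 hsym (hf.enorm.pow_const 2)
  rw [← VoSchur_sq] at h2 h3
  calc ∫⁻ p : α × α, ‖g p.1 * (K p.1 p.2 * f p.2)‖ₑ ∂(μ.prod μ)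
      ≤ ∫⁻ p : α × α, (‖K p.1 p.2‖ₑ * ‖g p.1‖ₑ ^ 2 + ‖K p.1 p.2‖ₑ * ‖f p.2‖ₑ ^ 2) ∂(μ.prod μ) := by
        refine lintegral_mono fun p => ?_
        simp only
        rw [enorm_mul, enorm_mul, mul_left_comm, ← mul_add]
        refine mul_le_mul_right ?_ _
        rcases le_total ‖g p.1‖ₑ ‖f p.2‖ₑ with h | h
        · exact (mul_le_mul_left h _).trans (by rw [← sq]; exact le_add_self)
        · exact (mul_le_mul_right h _).trans (by rw [← sq]; exact le_self_add)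
    _ = _ := lintegral_add_left (hK.enorm.mul ((hg.enorm.pow_const 2).comp measurable_fst)) _
    _ < ⊤ := ENNReal.add_lt_top.2
        ⟨h2.trans_lt (ENNReal.mul_lt_top ENNReal.ofReal_lt_top (ENNReal.pow_lt_top hg2.2)),
          h3.trans_lt (ENNReal.mul_lt_top ENNReal.ofReal_lt_top (ENNReal.pow_lt_top hf2.2))⟩

theorem VoSchur_bound (hK : Measurable (Function.uncurry K))
    (h1 : ∀ x, ∫⁻ y, ‖K x y‖ₑ ∂μ ≤ ENNReal.ofReal M) (hsym : ∀ x y, K y x = conj (K x y))
    {f : α → ℂ} (hf : Measurable f) :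
    eLpNorm (fun x => ∫ y, K x y * f y ∂μ) 2 μ ≤ ENNReal.ofReal M * eLpNorm f 2 μ := by
  rw [← ENNReal.pow_le_pow_left_iff two_ne_zero, mul_pow, VoSchur_sq, VoSchur_sq]
  have h3 := VoSchur_right hK h1 hsym (hf.enorm.pow_const 2)
  rw [lintegral_prod (fun p : α × α => ‖K p.1 p.2‖ₑ * ‖f p.2‖ₑ ^ 2)
    (hK.enorm.mul ((hf.enorm.pow_const 2).comp measurable_snd)).aemeasurable] at h3
  calc ∫⁻ x, ‖∫ y, K x y * f y ∂μ‖ₑ ^ 2 ∂μ
      ≤ ∫⁻ x, ENNReal.ofReal M * ∫⁻ y, ‖K x y‖ₑ * ‖f y‖ₑ ^ 2 ∂μ ∂μ := by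
        refine lintegral_mono fun x => ?_
        refine (pow_le_pow_left₀ (zero_le) (enorm_integral_le_lintegral_enorm _) 2).trans ?_
        simp only [enorm_mul]
        exact (VoSchur_cs (hK.of_uncurry_left (x := x)).enorm.aemeasurable
          hf.enorm.aemeasurable).trans (mul_le_mul_left (h1 x) _)
    _ = ENNReal.ofReal M * ∫⁻ x, ∫⁻ y, ‖K x y‖ₑ * ‖f y‖ₑ ^ 2 ∂μ ∂μ :=
        lintegral_const_mul' _ _ ENNReal.ofReal_ne_top
    _ ≤ _ := by
        rw [sq (ENNReal.ofReal M), mul_assoc]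
        exact mul_le_mul_right h3 _

end VoSchurAux

/-- second order Taylor estimate on the unit disc -/
theorem VoSchur_taylor {f : ℂ → ℂ} (hf : Differentiable ℂ f) {s : ℂ} {B : ℝ}
    (hB : ∀ z ∈ Metric.ball s 1, ‖f z‖ ≤ B) :
    ‖deriv f s‖ ≤ 2 * B ∧
      ∀ z ∈ Metric.ball s 1, ‖f z - f s - (z - s) * deriv f s‖ ≤ 4 * B * ‖z - s‖ ^ 2 := by
  have hs : s ∈ Metric.ball s 1 := Metric.mem_ball_self one_pos
  have h1 : ∀ z ∈ Metric.ball s 1, ‖dslope f s z‖ ≤ 2 * B := fun z hz => by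
    have := Complex.norm_dslope_le_div_of_mapsTo_ball (R₂ := 2 * B) hf.differentiableOn
      (fun y hy => by
        rw [mem_closedBall_iff_norm]
        exact (norm_sub_le _ _).trans (by linarith [hB y hy, hB s hs])) hz
    rwa [div_one] at this
  refine ⟨by simpa using h1 s hs, fun z hz => ?_⟩
  have h2 := Complex.dist_le_div_mul_dist_of_mapsTo_ball (f := dslope f s) (R₂ := 4 * B)
    ((Complex.differentiableOn_dslope (Metric.ball_mem_nhds s one_pos)).2 hf.differentiableOn)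
    (fun y hy => by
      rw [mem_closedBall_iff_norm]
      exact (norm_sub_le _ _).trans (by linarith [h1 y hy, h1 s hs])) hz
  rw [div_one, dist_eq_norm, dist_eq_norm, dslope_same] at h2
  have h3 : f z - f s - (z - s) * deriv f s = (z - s) * (dslope f s z - deriv f s) := by
    rw [← sub_smul_dslope f s z, smul_eq_mul]; ring
  rw [h3, norm_mul]
  calc ‖z - s‖ * ‖dslope f s z - deriv f s‖ ≤ ‖z - s‖ * (4 * B * ‖z - s‖) := by gcongr
    _ = _ := by ring

theorem schur {α : Type} [MeasurableSpace α] {μ : Measure α} [IsFiniteMeasure μ]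
    {K : α → α → ℂ} (hK : Measurable (Function.uncurry K)) {M : ℝ} (hM : 0 ≤ M)
    (h1 : ∀ x, ∫⁻ y, ‖K x y‖ₑ ∂μ ≤ ENNReal.ofReal M) (hsym : ∀ x y, K y x = conj (K x y)) :
    ∃ T : Lp ℂ 2 μ →L[ℂ] Lp ℂ 2 μ, IsSelfAdjoint T ∧
      ∀ f : Lp ℂ 2 μ, T f =ᵐ[μ] fun x => ∫ y, K x y * f y ∂μ := by
  have hmeas : ∀ f : Lp ℂ 2 μ, Measurable f := fun f => (Lp.stronglyMeasurable f).measurable
  have hint : ∀ f : Lp ℂ 2 μ, Integrable (fun p : α × α => K p.1 p.2 * f p.2) (μ.prod μ) := by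
    intro f
    simpa using VoSchur_int hK h1 hsym (hmeas f) (g := fun _ => 1) measurable_const (Lp.memLp f)
      (memLp_const 1)
  have hmem : ∀ f : Lp ℂ 2 μ, MemLp (fun x => ∫ y, K x y * f y ∂μ) 2 μ := fun f =>
    ⟨(hint f).integral_prod_left.aestronglyMeasurable, (VoSchur_bound hK h1 hsym (hmeas f)).trans_lt
      (ENNReal.mul_lt_top ENNReal.ofReal_lt_top (Lp.memLp f).2)⟩
  let T₀ : Lp ℂ 2 μ →ₗ[ℂ] Lp ℂ 2 μ :=
    { toFun := fun f => (hmem f).toLp _
      map_add' := fun f g => by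
        rw [← MemLp.toLp_add]
        refine MemLp.toLp_congr _ _ ?_
        filter_upwards [(hint f).prod_right_ae, (hint g).prod_right_ae] with x hf hg
        rw [Pi.add_apply, ← integral_add hf hg]
        refine integral_congr_ae ?_
        filter_upwards [Lp.coeFn_add f g] with y hy
        rw [hy, Pi.add_apply, mul_add]
      map_smul' := fun c f => by
        rw [RingHom.id_apply, ← MemLp.toLp_const_smul]
        refine MemLp.toLp_congr _ _ (Eventually.of_forall fun x => ?_)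
        simp only [Pi.smul_apply, smul_eq_mul]
        rw [← integral_const_mul]
        refine integral_congr_ae ?_
        filter_upwards [Lp.coeFn_smul c f] with y hy
        rw [hy, Pi.smul_apply, smul_eq_mul, mul_left_comm] }
  have hT₀ : ∀ f, ‖T₀ f‖ ≤ M * ‖f‖ := fun f => by
    change ‖(hmem f).toLp _‖ ≤ _
    rw [Lp.norm_toLp, Lp.norm_def, ← ENNReal.toReal_ofReal hM, ← ENNReal.toReal_mul]
    exact ENNReal.toReal_mono
      (ENNReal.mul_ne_top ENNReal.ofReal_ne_top (Lp.memLp f).2.ne) (VoSchur_bound hK h1 hsym (hmeas f))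
  have hT : ∀ f : Lp ℂ 2 μ, T₀.mkContinuous M hT₀ f =ᵐ[μ] fun x => ∫ y, K x y * f y ∂μ :=
    fun f => (hmem f).coeFn_toLp
  refine ⟨T₀.mkContinuous M hT₀, ?_, hT⟩
  rw [ContinuousLinearMap.isSelfAdjoint_iff_isSymmetric]
  intro f g
  rw [ContinuousLinearMap.coe_coe, L2.inner_def, L2.inner_def]
  have hf : Measurable fun x => conj (f x) := Complex.continuous_conj.measurable.comp (hmeas f)
  have hf2 : MemLp (fun x => conj (f x)) 2 μ :=
    (Lp.memLp f).of_le hf.aestronglyMeasurable (Eventually.of_forall fun x => by simp)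
  have h2 := VoSchur_int hK h1 hsym (hmeas g) hf (Lp.memLp g) hf2
  have h3 := integral_integral_swap (f := fun x y => conj (f x) * (K x y * g y)) h2
  calc ∫ y, ⟪(T₀.mkContinuous M hT₀ f) y, g y⟫_ℂ ∂μ
      = ∫ y, ∫ x, conj (f x) * (K x y * g y) ∂μ ∂μ := by
        refine integral_congr_ae ?_
        filter_upwards [hT f] with y hy
        rw [hy, RCLike.inner_apply, ← integral_conj, ← integral_const_mul]
        refine integral_congr_ae (Eventually.of_forall fun x => ?_)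
        simp only
        rw [map_mul, ← hsym y x]
        ring
    _ = _ := by
        rw [← h3]
        refine integral_congr_ae ?_
        filter_upwards [hT g] with x hx
        rw [hx, RCLike.inner_apply, integral_const_mul, mul_comm]

/-- a bounded measurable function defines a continuous functional on `L²` of a finite measure
(`innerSL` with `conj k`, or `LinearMap.mkContinuous` and Cauchy-Schwarz) -/
theorem exists_functional {α : Type} [MeasurableSpace α] {μ : Measure α} [IsFiniteMeasure μ]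
    {k : α → ℂ} (hk : AEStronglyMeasurable k μ) {M : ℝ} (hM : ∀ y, ‖k y‖ ≤ M) :
    ∃ Λ : Lp ℂ 2 μ →L[ℂ] ℂ, (∀ f : Lp ℂ 2 μ, Λ f = ∫ y, k y * f y ∂μ) ∧
      ‖Λ‖ ≤ M * Real.sqrt (μ.real Set.univ) := by
  have hk' : AEStronglyMeasurable (fun y => conj (k y)) μ :=
    Complex.continuous_conj.comp_aestronglyMeasurable hk
  have hb : ∀ᵐ y ∂μ, ‖conj (k y)‖ ≤ M := Eventually.of_forall fun y => by simpa using hM y
  have hmem : MemLp (fun y => conj (k y)) 2 μ := MemLp.of_bound hk' M hb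
  refine ⟨innerSL ℂ (hmem.toLp _), fun f => ?_, ?_⟩
  · rw [innerSL_apply_apply, L2.inner_def]
    refine integral_congr_ae ?_
    filter_upwards [hmem.coeFn_toLp] with y hy
    rw [hy, RCLike.inner_apply, RCLike.conj_conj, mul_comm]
  · rw [innerSL_apply_norm]
    rcases isEmpty_or_nonempty α with h | ⟨⟨y⟩⟩
    · rw [Lp.norm_toLp, eLpNorm_of_isEmpty, Measure.real, Set.univ_eq_empty_iff.2 h]
      simp
    have hM0 : 0 ≤ M := (norm_nonneg _).trans (hM y)
    refine (Lp.norm_le_of_ae_bound hM0 ?_).trans_eq ?_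
    · filter_upwards [hmem.coeFn_toLp, hb] with y hy hy'
      rwa [hy]
    · rw [mul_comm, Real.sqrt_eq_rpow]
      simp only [ENNReal.toReal_ofNat, one_div]
      rfl

/-- **holomorphy in `L²`.**  Cauchy estimates on the disc `|z - s| ≤ 1` give, uniformly in `w`,
`|F(s+h,w) - F(s,w) - h ∂F(s,w)| ≤ C |h|²` (`|h| ≤ 1/2`; e.g. apply
`Complex.norm_deriv_le_of_forall_mem_sphere_norm_le` twice and the mean value inequality, or the
Schwarz lemma `Complex.norm_dslope_le_div_of_mapsTo_ball` to `dslope`); `∂F(s,·)` is bounded and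
measurable as a pointwise limit of difference quotients; `‖·‖_{L²} ≤ sup · μ(univ)^{1/2}`. -/
theorem differentiable_toLp {α : Type} [MeasurableSpace α] {μ : Measure α} [IsFiniteMeasure μ]
    {F : ℂ → α → ℂ} (hm : ∀ s, AEStronglyMeasurable (F s) μ)
    (hd : ∀ w, Differentiable ℂ (fun s => F s w))
    (hb : ∀ R : ℝ, ∃ B : ℝ, ∀ s, ‖s‖ ≤ R → ∀ w, ‖F s w‖ ≤ B) :
    ∃ U : ℂ → Lp ℂ 2 μ, Differentiable ℂ U ∧ ∀ s, U s =ᵐ[μ] F s := by
  have hmem : ∀ s, MemLp (F s) 2 μ := fun s => by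
    obtain ⟨B, hB⟩ := hb ‖s‖
    exact MemLp.of_bound (hm s) B (Eventually.of_forall (hB s le_rfl))
  refine ⟨fun s => (hmem s).toLp _, fun s => ?_, fun s => (hmem s).coeFn_toLp⟩
  obtain ⟨B, hB⟩ := hb (‖s‖ + 1)
  have hB' : ∀ w, ∀ z ∈ Metric.ball s 1, ‖F z w‖ ≤ |B| := fun w z hz => by
    refine (hB z ?_ w).trans (le_abs_self _)
    rw [mem_ball_iff_norm] at hz
    linarith [norm_le_insert' z s]
  have hDm : AEStronglyMeasurable (fun w => deriv (fun z => F z w) s) μ := by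
    refine aestronglyMeasurable_of_tendsto_ae (𝓝[≠] s)
      (f := fun z w => (z - s)⁻¹ • (F z w - F s w))
      (fun z => ((hm z).sub (hm s)).const_smul (z - s)⁻¹) (Eventually.of_forall fun w => ?_)
    exact hasDerivAt_iff_tendsto_slope.1 (hd w s).hasDerivAt
  have hD : MemLp (fun w => deriv (fun z => F z w) s) 2 μ :=
    MemLp.of_bound hDm (2 * |B|) (Eventually.of_forall fun w => (VoSchur_taylor (hd w) (hB' w)).1)
  refine (hasDerivAt_iff_isLittleO.2 ?_ : HasDerivAt _ (hD.toLp _) s).differentiableAt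
  have h2 : (fun z : ℂ => ‖z - s‖ ^ 2) =o[𝓝 s] fun z => z - s :=
    Asymptotics.isLittleO_pow_sub_sub s one_lt_two
  refine Asymptotics.IsBigO.trans_isLittleO ?_ h2
  refine Asymptotics.IsBigO.of_bound
    ((measureUnivNNReal μ : ℝ) ^ (2 : ℝ≥0∞).toReal⁻¹ * (4 * |B|)) ?_
  filter_upwards [Metric.ball_mem_nhds s one_pos] with z hz
  rw [Real.norm_of_nonneg (by positivity), mul_assoc]
  refine Lp.norm_le_of_ae_bound (by positivity) ?_
  filter_upwards [Lp.coeFn_sub ((hmem z).toLp _ - (hmem s).toLp _) ((z - s) • hD.toLp _),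
    Lp.coeFn_sub ((hmem z).toLp _) ((hmem s).toLp _), Lp.coeFn_smul (z - s) (hD.toLp _),
    (hmem z).coeFn_toLp, (hmem s).coeFn_toLp, hD.coeFn_toLp] with w a1 a2 a3 a4 a5 a6
  rw [a1, Pi.sub_apply, a2, Pi.sub_apply, a3, Pi.smul_apply, a4, a5, a6, smul_eq_mul]
  exact (VoSchur_taylor (hd w) (hB' w)).2 z hz

end Crest.Agent.R17.Vor
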