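import Crest.Agent.R17.VoNu
import Crest.Agent.R17.VoSchur
import Crest.Agent.R17.VoHh

/-!
# R17 / VoEis : basic properties of the Eisenstein series `Eis κ φ`

Everything is dominated by `mh σ w` (`rows_bound`): if `κ c d ≠ 0` the row is coprime, hence
non-zero, so `0 < hr ≤ 2 uu w o` (`hr_pos`, `hr_le`); for `v ≤ A`,
`v^σ ≤ max 1 (A/10)^σ · (min v 10)^σ`.
-/

set_option autoImplicit false

noncomputable section

open scoped Classical ComplexConjugate Topology ENNReal InnerProductSpace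
open MeasureTheory Filter

namespace Crest.Agent.R17.Vor

theorem RowBd.hr_pos {κ : O → O → ℂ} (hκ : RowBd κ) {c d : O} (h : κ c d ≠ 0) (w : X) :
    0 < hr w (toC c) (toC d) := by
  exact Vor.hr_pos w (((hκ.2 c d h).ne_zero_or_ne_zero).imp
    (fun h => (map_ne_zero_iff toC toC_injective).2 h) fun h => (map_ne_zero_iff toC toC_injective).2 h)
theorem eis_mh_nonneg (σ : ℝ) (w : X) (r : O × O) : 0 ≤ mh σ w r := by
  unfold mh
  split_ifs
  · exact Real.rpow_nonneg (le_min (hr_nonneg _ _ _) (by norm_num)) _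
  · exact le_rfl

theorem eis_term_le {κ : O → O → ℂ} (hκ : RowBd κ) {z : ℂ} {C σ : ℝ} (hC : 0 ≤ C) {w : X} {r : O × O}
    (h : κ r.1 r.2 ≠ 0 → ‖z‖ ≤ C * (min (hr w (toC r.1) (toC r.2)) 10) ^ σ) :
    ‖κ r.1 r.2 * z‖ ≤ C * mh σ w r := by
  by_cases h0 : κ r.1 r.2 = 0
  · rw [h0, zero_mul, norm_zero]
    exact mul_nonneg hC (eis_mh_nonneg _ _ _)
  · rw [mh, if_pos (hκ.2 _ _ h0), norm_mul]
    exact (mul_le_of_le_one_left (norm_nonneg _) (hκ.1 _ _)).trans (h h0)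

theorem eis_tsum_le {f : O × O → ℂ} {C σ B : ℝ} (hC : 0 ≤ C) {w : X}
    (hB : Summable (mh σ w) ∧ ∑' r, mh σ w r ≤ B) (h : ∀ r, ‖f r‖ ≤ C * mh σ w r) :
    Summable (fun r => ‖f r‖) ∧ ∑' r, ‖f r‖ ≤ C * B ∧ ‖∑' r, f r‖ ≤ C * B := by
  have h1 : Summable fun r => ‖f r‖ :=
    Summable.of_nonneg_of_le (fun _ => norm_nonneg _) h (hB.1.mul_left C)
  have h2 : ∑' r, ‖f r‖ ≤ C * B := by
    refine (h1.tsum_le_tsum h (hB.1.mul_left C)).trans ?_
    rw [tsum_mul_left]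
    exact mul_le_mul_of_nonneg_left hB.2 hC
  exact ⟨h1, h2, (norm_tsum_le_tsum_norm h1).trans h2⟩

theorem Eis_dom {φ : ℝ → ℂ} (hφ : Adm φ) (R : ℝ) : ∃ σ C : ℝ, 2 < σ ∧ 0 ≤ C ∧
    ∀ κ : O → O → ℂ, RowBd κ → ∀ w, uu w o ≤ R → ∀ r : O × O,
      ‖κ r.1 r.2 * φ (hr w (toC r.1) (toC r.2))‖ ≤ C * mh σ w r := by
  obtain ⟨-, σ, hσ, h⟩ := hφ
  obtain ⟨C, hC⟩ := h (2 * R)
  have h1 : (0 : ℝ) ≤ max 1 (2 * R / 10) := le_max_of_le_left zero_le_one
  refine ⟨σ, |C| * (max 1 (2 * R / 10)) ^ σ, hσ, by positivity, fun κ hκ w hw r => ?_⟩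
  refine eis_term_le hκ (by positivity) fun h0 => ?_
  have h2 := hκ.hr_pos h0 w
  have h3 : hr w (toC r.1) (toC r.2) ≤ 2 * R :=
    (hr_le w (hκ.2 _ _ h0).ne_zero_or_ne_zero).trans (by linarith)
  refine (hC _ h2 h3).trans ?_
  rw [mul_assoc, ← Real.mul_rpow h1 (le_min h2.le (by norm_num))]
  refine mul_le_mul (le_abs_self C) (Real.rpow_le_rpow h2.le ?_ (by linarith))
    (Real.rpow_nonneg h2.le _) (abs_nonneg C)
  rcases le_total (hr w (toC r.1) (toC r.2)) 10 with h4 | h4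
  · rw [min_eq_left h4]
    exact le_mul_of_one_le_left h2.le (le_max_left _ _)
  · rw [min_eq_right h4]
    linarith [le_max_right 1 (2 * R / 10)]
theorem summable_norm_Eis {κ : O → O → ℂ} (hκ : RowBd κ) {φ : ℝ → ℂ} (hφ : Adm φ) (w : X) :
    Summable (fun r : O × O => ‖κ r.1 r.2 * φ (hr w (toC r.1) (toC r.2))‖) := by
  obtain ⟨σ, C, hσ, hC, h⟩ := Eis_dom hφ (uu w o)
  obtain ⟨B, hB⟩ := rows_bound hσ
  exact (eis_tsum_le hC (hB w) (h κ hκ w le_rfl)).1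
theorem Eis_bound_ball {φ : ℝ → ℂ} (hφ : Adm φ) (R : ℝ) : ∃ B : ℝ,
    ∀ κ : O → O → ℂ, RowBd κ → ∀ w, uu w o ≤ R →
      ∑' r : O × O, ‖κ r.1 r.2 * φ (hr w (toC r.1) (toC r.2))‖ ≤ B ∧ ‖Eis κ φ w‖ ≤ B := by
  obtain ⟨σ, C, hσ, hC, h⟩ := Eis_dom hφ R
  obtain ⟨B, hB⟩ := rows_bound hσ
  exact ⟨C * B, fun κ hκ w hw => (eis_tsum_le hC (hB w) (h κ hκ w hw)).2⟩
theorem Eis_bound {σ : ℝ} (hσ : 2 < σ) : ∃ B : ℝ, ∀ κ : O → O → ℂ, RowBd κ →
    ∀ (φ : ℝ → ℂ) (C : ℝ), 0 ≤ C → (∀ v, 0 < v → ‖φ v‖ ≤ C * (min v 10) ^ σ) →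
      ∀ w, ‖Eis κ φ w‖ ≤ C * B := by
  obtain ⟨B, hB⟩ := rows_bound hσ
  exact ⟨B, fun κ hκ φ C hC h w =>
    (eis_tsum_le hC (hB w) fun r => eis_term_le hκ hC fun h0 => h _ (hκ.hr_pos h0 w)).2.2⟩
theorem eis_meas_term (κ : O → O → ℂ) {φ : ℝ → ℂ} (hφ : Measurable φ) (r : O × O) :
    Measurable fun w => κ r.1 r.2 * φ (hr w (toC r.1) (toC r.2)) :=
  (hφ.comp (measurable_hr _ _)).const_mul _

theorem eis_measurable (κ : O → O → ℂ) {φ : ℝ → ℂ} (hφ : Measurable φ) : Measurable (Eis κ φ) :=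
  Measurable.tsum (eis_meas_term κ hφ)

/-- a pointwise limit of measurable partial sums (`measurable_of_tendsto_metrizable'` along
`atTop : Filter (Finset (O × O))`, which is countably generated) -/
theorem measurable_Eis {κ : O → O → ℂ} (hκ : RowBd κ) {φ : ℝ → ℂ} (hφ : Adm φ) :
    Measurable (Eis κ φ) := by
  exact eis_measurable κ hφ.1

theorem Eis_congr {κ : O → O → ℂ} {φ ψ : ℝ → ℂ} {w : X}
    (h : ∀ c d, κ c d ≠ 0 → φ (hr w (toC c) (toC d)) = ψ (hr w (toC c) (toC d))) :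
    Eis κ φ w = Eis κ ψ w := by
  refine tsum_congr fun r => ?_
  by_cases h0 : κ r.1 r.2 = 0
  · rw [h0, zero_mul, zero_mul]
  · rw [h _ _ h0]
theorem Eis_add {κ : O → O → ℂ} (hκ : RowBd κ) {φ ψ : ℝ → ℂ} (hφ : Adm φ) (hψ : Adm ψ) (w : X) :
    Eis κ (fun v => φ v + ψ v) w = Eis κ φ w + Eis κ ψ w := by
  simp only [Eis, mul_add]
  exact (summable_norm_Eis hκ hφ w).of_norm.tsum_add (summable_norm_Eis hκ hψ w).of_norm
theorem Eis_mul_sub {κ : O → O → ℂ} (hκ : RowBd κ) {φ ψ : ℝ → ℂ} (hφ : Adm φ) (hψ : Adm ψ)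
    (a : ℂ) (w : X) :
    Eis κ (fun v => a * φ v - ψ v) w = a * Eis κ φ w - Eis κ ψ w := by
  rw [Eis, Eis, Eis, ← tsum_mul_left, ← ((summable_norm_Eis hκ hφ w).of_norm.mul_left a).tsum_sub
    (summable_norm_Eis hκ hψ w).of_norm]
  exact tsum_congr fun r => by ring
theorem Eis_add_left {κ κ' : O → O → ℂ} (hκ : RowBd κ) (hκ' : RowBd κ') {φ : ℝ → ℂ} (hφ : Adm φ)
    (w : X) : Eis (fun c d => κ c d + κ' c d) φ w = Eis κ φ w + Eis κ' φ w := by
  simp only [Eis, add_mul]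
  exact (summable_norm_Eis hκ hφ w).of_norm.tsum_add (summable_norm_Eis hκ' hφ w).of_norm

theorem RowBd.tr {κ : O → O → ℂ} (hκ : RowBd κ) (σ : SL O) : RowBd (tr σ κ) := by
  refine ⟨fun c d => hκ.1 _ _, fun c d h => ?_⟩
  obtain ⟨u, v, huv⟩ := hκ.2 _ _ h
  exact ⟨u * σ.d - v * σ.b, -(u * σ.c) + v * σ.a, by linear_combination huv⟩
theorem tr_one (κ : O → O → ℂ) : tr 1 κ = κ := by
  funext C D
  simp [tr]
/-- `hr_act` and the bijection `(c,d) ↦ (c,d) σ` of `O × O` (`Equiv.tsum_eq`) -/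
theorem Eis_act (κ : O → O → ℂ) (φ : ℝ → ℂ) (σ : SL O) (w : X) :
    Eis κ φ (act (ι σ) w) = Eis (tr σ κ) φ w := by
  let e : O × O ≃ O × O :=
    { toFun := fun r => (r.1 * σ.a + r.2 * σ.c, r.1 * σ.b + r.2 * σ.d)
      invFun := fun r => (r.1 * σ.d - r.2 * σ.c, -(r.1 * σ.b) + r.2 * σ.a)
      left_inv := fun r => Prod.ext (by linear_combination r.1 * σ.det) (by linear_combination r.2 * σ.det)
      right_inv := fun r => Prod.ext (by linear_combination r.1 * σ.det) (by linear_combination r.2 * σ.det) }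
  rw [Eis, Eis, ← e.tsum_eq fun r => tr σ κ r.1 r.2 * φ (hr w (toC r.1) (toC r.2))]
  refine tsum_congr fun r => ?_
  have h1 : tr σ κ (e r).1 (e r).2 = κ r.1 r.2 := congrArg (fun x : O × O => κ x.1 x.2) (e.left_inv r)
  rw [h1, hr_act]
  simp [e]
theorem thK_act (κ : O → O → ℂ) (σ : SL O) (w : X) :
    thK κ (act (ι σ) w) = thK (tr σ κ) w := by
  simp only [thK, Eis_act]
/-- `tr γ κ = conj (kap γ) · κ` (`Equi` for `γ⁻¹`, `kap_inv`) -/
theorem aut_Eis {p : O} {κ : O → O → ℂ} (he : Equi p κ) (φ : ℝ → ℂ) : Aut p (Eis κ φ) := by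
  intro γ hγ w
  rw [Eis_act, Eis, Eis, ← tsum_mul_left]
  refine tsum_congr fun r => ?_
  have h1 := he γ⁻¹ (inv_mem hγ) r.1 r.2
  rw [kap_inv (Gam_le p hγ)] at h1
  have h2 : tr γ κ r.1 r.2 = κ r.1 r.2 * conj (kap γ) := by
    rw [← h1, tr]
    congr 1 <;> simp [sub_eq_add_neg]
  rw [h2]; ring

/-- interchange `∫` and `∑'` (`integral_tsum`; on the support `uu w w' ≤ 2` use `Eis_bound_ball`
and `lintegral_kk`); for a coprime row take `g` from `exists_row`: `hr w' c d = vc (g w')`, so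
`∫ kk (uu w w') φ(vc (g w')) dw' = TX (φ ∘ vc) (g w) = Tt φ (vc (g w))` (`integral_act`, `uu_act`,
`TX_vc`, `Adm.locBd`). -/
theorem TX_Eis {κ : O → O → ℂ} (hκ : RowBd κ) {φ : ℝ → ℂ} (hφ : Adm φ) (w : X) :
    TX (Eis κ φ) w = Eis κ (Tt φ) w := by
  have hc : Continuous fun w' : X => uu w w' :=
    continuous_uu.comp (f := fun w' : X => (w, w')) (continuous_const.prodMk continuous_id)
  have hk : Measurable fun w' : X => kk (uu w w') := (continuous_kk.comp hc).measurable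
  have hm : ∀ r : O × O, Measurable fun w' =>
      (kk (uu w w') : ℂ) * (κ r.1 r.2 * φ (hr w' (toC r.1) (toC r.2))) := fun r =>
    (Complex.measurable_ofReal.comp hk).mul (eis_meas_term κ hφ.1 r)
  obtain ⟨B, hB⟩ := Eis_bound_ball hφ (2 * 2 * uu w o)
  obtain ⟨M, -, hM⟩ := lintegral_kk
  simp only [TX, Eis, ← tsum_mul_left]
  rw [integral_tsum fun r => (hm r).aestronglyMeasurable]
  · refine tsum_congr fun r => ?_
    by_cases h0 : κ r.1 r.2 = 0
    · simp [h0]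
    · obtain ⟨g, hc, hd⟩ := exists_row (hκ.2 _ _ h0)
      have h1 : ∀ w', hr w' (toC r.1) (toC r.2) = vc (act (ι g) w') := fun w' => by
        rw [vc_act, ι_c, ι_d, hc, hd]
      rw [h1, ← TX_vc hφ.1 hφ.locBd, TX, ← integral_act (ι g) fun w' =>
        (kk (uu (act (ι g) w) w') : ℂ) * φ (vc w'), ← integral_const_mul]
      refine integral_congr_ae (Eventually.of_forall fun w' => ?_)
      simp only [h1, uu_act]
      ring
  · rw [← lintegral_tsum fun r => (hm r).enorm.aemeasurable]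
    refine ne_top_of_le_ne_top (b := ENNReal.ofReal M * ENNReal.ofReal B)
      (ENNReal.mul_ne_top ENNReal.ofReal_ne_top ENNReal.ofReal_ne_top) ?_
    refine le_trans (lintegral_mono (g := fun w' => ENNReal.ofReal (kk (uu w w')) * ENNReal.ofReal B)
      fun w' => ?_) ?_
    · rcases le_total 2 (uu w w') with h1 | h1
      · simp [kk_eq_zero h1]
      · have h2 : uu w' o ≤ 2 * 2 * uu w o := by
          refine (uu_le w' w o).trans ?_
          rw [uu_symm w' w]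
          have := one_le_uu w o
          gcongr
        simp only [enorm_mul (kk (uu w w') : ℂ), ENNReal.tsum_mul_left]
        refine mul_le_mul' (le_of_eq ?_) ?_
        · rw [← ofReal_norm, Complex.norm_real, Real.norm_of_nonneg (kk_nonneg _)]
        · simp only [← ofReal_norm]
          rw [← ENNReal.ofReal_tsum_of_nonneg (fun _ => norm_nonneg _) (summable_norm_Eis hκ hφ w')]
          exact ENNReal.ofReal_le_ofReal (hB κ hκ w' h2).1
    · rw [lintegral_mul_const _ hk.ennreal_ofReal]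
      exact mul_le_mul' (hM w) le_rfl

/-- `differentiableOn_tsum_of_summable_norm` on balls for each `w`, `Eis_bound`,
`differentiable_toLp`, `isFiniteMeasure_nu` -/
theorem exists_Lp_Eis {p : O} (hp : p ≠ 0) {κ : O → O → ℂ} (hκ : RowBd κ) {φ : ℂ → ℝ → ℂ}
    (hm : ∀ s, Measurable (φ s)) (hd : ∀ v, 0 < v → Differentiable ℂ (fun s => φ s v))
    (hb : ∀ R : ℝ, ∃ C : ℝ, 0 ≤ C ∧ ∀ s : ℂ, ‖s‖ ≤ R → ∀ v, 0 < v →
      ‖φ s v‖ ≤ C * (min v 10) ^ (3 : ℝ)) :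
    ∃ U : ℂ → Lp ℂ 2 (nu p), Differentiable ℂ U ∧ ∀ s, U s =ᵐ[nu p] Eis κ (φ s) := by
  have := isFiniteMeasure_nu hp
  obtain ⟨B, hB⟩ := rows_bound (σ := 3) (by norm_num)
  refine differentiable_toLp (fun s => (eis_measurable κ (hm s)).aestronglyMeasurable)
    (fun w s => ?_) fun R => ?_
  · obtain ⟨C, hC, h⟩ := hb (‖s‖ + 1)
    refine (Complex.differentiableOn_tsum_of_summable_norm (U := Metric.ball 0 (‖s‖ + 1))
      (F := fun (r : O × O) (s : ℂ) => κ r.1 r.2 * φ s (hr w (toC r.1) (toC r.2)))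
      ((hB w).1.mul_left C) (fun r => ?_) Metric.isOpen_ball fun r z hz => ?_).differentiableAt
      (Metric.isOpen_ball.mem_nhds (by simp))
    · by_cases h0 : κ r.1 r.2 = 0
      · simp only [h0, zero_mul]
        exact differentiableOn_const _
      · exact ((hd _ (hκ.hr_pos h0 w)).const_mul _).differentiableOn
    · exact eis_term_le hκ hC fun h0 => h z (mem_ball_zero_iff.1 hz).le _ (hκ.hr_pos h0 w)
  · obtain ⟨C, hC, h⟩ := hb R
    exact ⟨C * B, fun s hs w => (eis_tsum_le hC (hB w) fun r =>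
      eis_term_le hκ hC fun h0 => h s hs _ (hκ.hr_pos h0 w)).2.2⟩

end Crest.Agent.R17.Vor
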