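import Crest.Agent.R17.VoCell

/-!
# R17 / VoFour : a continuous periodic function with summable Fourier coefficients is the sum of
its Fourier series

Let `g = f - ∑ c n ee(n z/ℓ)` (continuous by the M-test, periodic; all its coefficients vanish by
`integral_cell_ee` and `integral_tsum`).  In the coordinates `G(a,b) = g(ℓ(a + bω))`
(`integral_cell`, `ee_coord`; `(n₁,n₂) ↦ (n₂, n₁ - n₂)` is onto `ℤ²`) we get
`∫₀¹∫₀¹ G(a,b) e(-ja - kb) = 0` for all `j,k`.  One-dimensional uniqueness (a continuous
`1`-periodic function with vanishing coefficients is zero: lift to `AddCircle 1` with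
`AddCircle.liftIco`/`Function.Periodic.lift`, `hasSum_fourier_series_of_summable`,
`fourierCoeff_eq_intervalIntegral`) applied to `a ↦ ∫₀¹ G(a,b) e(-kb) db` (continuous) and then to
`b ↦ G(a,b)`.
-/

set_option autoImplicit false

noncomputable section

open scoped Classical ComplexConjugate Topology ENNReal InnerProductSpace
open MeasureTheory Filter

namespace Crest.Agent.R17.Vor

theorem fourier_unique_one {g : ℝ → ℂ} (hg : Continuous g) (hper : Function.Periodic g 1)
    (h : ∀ k : ℤ, ∫ x in (0 : ℝ)..1, g x * Complex.exp (-(2 * Real.pi * (k * x) * Complex.I)) = 0)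
    (x : ℝ) : g x = 0 := by
  let F : C(AddCircle (1 : ℝ), ℂ) := ⟨hper.lift, continuous_coinduced_dom.2 hg⟩
  have h0 : ∀ k, fourierCoeff F k = 0 := by
    intro k
    rw [fourierCoeff_eq_intervalIntegral F k 0, zero_add, div_one, one_smul, ← h k]
    refine intervalIntegral.integral_congr fun y _ => ?_
    simp only [fourier_coe_apply, smul_eq_mul]
    rw [mul_comm]
    congr 2
    push_cast
    ring
  have h1 := has_pointwise_sum_fourier_series_of_summable (f := F)
    (by rw [funext h0]; exact summable_zero) (x : AddCircle (1 : ℝ))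
  simp only [h0, zero_smul] at h1
  exact h1.unique hasSum_zero

theorem fourier_unique {ℓ : O} (hℓ : ℓ ≠ 0) {g : ℂ → ℂ} (hg : Continuous g)
    (hper : ∀ z (t : O), g (z + toC (ℓ * t)) = g z)
    (h : ∀ n : O, ∫ z in cell ℓ, g z * ee (-(toC n * z / toC ℓ)) = 0) (z : ℂ) : g z = 0 := by
  have hℓ' := b4_toC_ne_zero hℓ
  have hom : toC om = omC := by simp [toC_apply, om]
  have hG : Continuous fun q : ℝ × ℝ => g (toC ℓ * (q.1 + q.2 * omC)) := hg.comp (by fun_prop)
  have h1 : ∀ (k : ℤ) (a : ℝ), ∫ b in (0 : ℝ)..1, g (toC ℓ * (a + b * omC)) *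
      Complex.exp (-(2 * Real.pi * (k * b) * Complex.I)) = 0 := by
    intro k
    refine fourier_unique_one ?_ (fun a => ?_) fun j => ?_
    · refine intervalIntegral.continuous_parametric_intervalIntegral_of_continuous' ?_ _ _
      exact hG.mul (by fun_prop)
    · refine intervalIntegral.integral_congr fun b _ => ?_
      beta_reduce
      rw [← hper (toC ℓ * (a + b * omC)) 1]
      congr 2
      simp only [mul_one]
      push_cast
      ring
    · have h2 := h ⟨j + k, j⟩
      have hc : Continuous fun z => g z * ee (-(toC ⟨j + k, j⟩ * z / toC ℓ)) :=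
        hg.mul (continuous_ee.comp (by fun_prop))
      rw [integral_cell hℓ hc] at h2
      have h3 : (vol ℓ : ℂ) ≠ 0 := by exact_mod_cast (vol_pos hℓ).ne'
      rw [← (mul_eq_zero.1 h2).resolve_left h3]
      refine intervalIntegral.integral_congr fun a _ => ?_
      beta_reduce
      rw [← intervalIntegral.integral_mul_const]
      refine intervalIntegral.integral_congr fun b _ => ?_
      have h4 : -(toC ⟨j + k, j⟩ * (toC ℓ * (a + b * omC)) / toC ℓ) =
          toC (-⟨j + k, j⟩) * (a + b * omC) := by
        rw [map_neg]; field_simp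
      beta_reduce
      rw [h4, ee_coord, mul_assoc, ← Complex.exp_add]
      congr 2
      simp only [QuadraticAlgebra.im_neg, QuadraticAlgebra.re_neg]
      push_cast
      ring
  obtain ⟨a, b, hab⟩ := b4_exists_coord (z / toC ℓ)
  have h2 := fourier_unique_one (g := fun b : ℝ => g (toC ℓ * (a + b * omC)))
    (hG.comp (Continuous.prodMk_right a)) (fun b => by
      beta_reduce
      rw [← hper (toC ℓ * (a + b * omC)) om, map_mul, hom]
      congr 1
      push_cast
      ring) (fun k => h1 k a) b
  rwa [← hab, mul_div_cancel₀ _ hℓ'] at h2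

theorem fourier_hasSum {ℓ : O} (hℓ : ℓ ≠ 0) {f : ℂ → ℂ} (hf : Continuous f)
    (hper : ∀ z (t : O), f (z + toC (ℓ * t)) = f z) {c : O → ℂ}
    (hc : ∀ n : O, ∫ z in cell ℓ, f z * ee (-(toC n * z / toC ℓ)) = (vol ℓ : ℂ) * c n)
    (hs : Summable (fun n => ‖c n‖)) (z : ℂ) :
    HasSum (fun n : O => c n * ee (toC n * z / toC ℓ)) (f z) := by
  have hℓ' := b4_toC_ne_zero hℓ
  have hn : ∀ (n : O) (z : ℂ), ‖c n * ee (toC n * z / toC ℓ)‖ = ‖c n‖ := fun n z => by
    rw [norm_mul, norm_ee, mul_one]
  have he : ∀ n : O, Continuous fun z => ee (toC n * z / toC ℓ) := fun n =>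
    continuous_ee.comp (by fun_prop)
  have he' : ∀ n : O, Continuous fun z => ee (-(toC n * z / toC ℓ)) := fun n =>
    continuous_ee.comp (by fun_prop)
  have hS : Continuous fun z => ∑' n : O, c n * ee (toC n * z / toC ℓ) :=
    continuous_tsum (fun n => continuous_const.mul (he n)) hs fun n z => (hn n z).le
  have h0 := fourier_unique hℓ (hf.sub hS) (fun z t => ?_) (fun m => ?_) z
  · rw [Pi.sub_apply, sub_eq_zero] at h0
    rw [h0]
    exact (Summable.of_norm (by simpa only [hn] using hs)).hasSum
  · simp only [Pi.sub_apply]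
    rw [hper]
    congr 1
    refine tsum_congr fun n => ?_
    have : toC n * (z + toC (ℓ * t)) / toC ℓ = toC n * z / toC ℓ + toC (n * t) := by
      rw [map_mul, map_mul]; field_simp
    rw [this, ee_add, ee_toC, mul_one]
  · simp only [Pi.sub_apply, sub_mul]
    rw [integral_sub (integrableOn_cell (hf.fun_mul (he' m)) ℓ)
      (integrableOn_cell (hS.fun_mul (he' m)) ℓ), hc,
      sub_eq_zero]
    have h1 : ∀ z, (∑' n : O, c n * ee (toC n * z / toC ℓ)) * ee (-(toC m * z / toC ℓ)) =
        ∑' n : O, c n * ee (-(toC (m - n) * z / toC ℓ)) := by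
      intro z
      rw [← tsum_mul_right]
      refine tsum_congr fun n => ?_
      rw [mul_assoc, ← ee_add, map_sub]
      congr 2
      ring
    simp only [h1]
    rw [← integral_tsum_of_summable_integral_norm
      (fun n => integrableOn_cell (continuous_const.fun_mul (he' (m - n))) ℓ)]
    · simp only [integral_const_mul, integral_cell_ee hℓ, sub_eq_zero]
      rw [tsum_eq_single m fun n hn' => by rw [if_neg (Ne.symm hn'), mul_zero], if_pos rfl, mul_comm]
    · simp only [norm_mul, norm_ee, mul_one, integral_const, smul_eq_mul]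
      exact hs.mul_left _

end Crest.Agent.R17.Vor
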