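import Crest.Agent.R17.VoRho1
import Crest.Agent.R17.LMisc

/-!
# R17 / VoZero : the residue `rho0 0`

`g(c, 0) = ∑_{x mod c} cub c x` vanishes unless the primary `c` is a cube `m³` (`m` primary, unique),
and `g(m³, 0) = #{x mod m³ : (x, m) = 1} = N(m)² ∑_{e ∣ m} μ(e) N(m/e)` (`sum_mu_coprime`, `gs_lift`).
For the vanishing: if `c` is not a cube some primary prime has `c = p^k c'`, `3 ∤ k`, `p ∤ c'`
(induction on `nm c`), and `gs_cub_mul`, `gs_prime_pow_zero` apply.  Hence for `Re s > 2`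
`psi0 0 s = ∑_m N(m)^{2-3s} ∑_{e f = m} μ(e) N f = dser (prim 1) (3s-3) · dser (prim mu) (3s-2)`
(product of absolutely convergent series, `(e,f) ↦ (ef, e)`).  `dser (prim 1) (3s-3) =
Ef (prim 1) (3s-3) / (3 (s - 4/3))` (`Ef_eq`, `Per.prim` with `q = 1` or directly period `3`),
`dser (prim mu)` is holomorphic on `Re > 1` (`differentiableOn_dser`), so `hasRes_pole` gives
`rho0 0 = Ef (prim 1) 1 / 3 · dser (prim mu) 2`, `Ef (prim 1) 1 = c0/9` (`Ef_one`), and
`dser_mul_mu`.
-/

set_option autoImplicit false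

noncomputable section

open scoped Classical ComplexConjugate Topology ENNReal InnerProductSpace
open MeasureTheory Filter

namespace Crest.Agent.R17.Vor

theorem gs_cub_zero_of_not_cube {c : O} (hc : Prim c) (h : ¬ ∃ m, Prim m ∧ c = m ^ 3) :
    gs c (cub c) 0 = 0 :=
by
  induction hn : nm c using Nat.strong_induction_on generalizing c with
  | _ n ih =>
    have h1 : c ≠ 1 := fun e => h ⟨1, Prim.one, by rw [e, one_pow]⟩
    obtain ⟨p, hp, hp', hpc⟩ := hc.exists_prime_dvd h1
    obtain ⟨k, c', hc', e⟩ := WfDvdMonoid.max_power_factor hc.ne_zero hp.irreducible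
    have hk : k ≠ 0 := by
      rintro rfl
      rw [pow_zero, one_mul] at e
      exact hc' (e ▸ hpc)
    have hP : Prim c' := Prim.of_mul_left (e ▸ hc) (hp'.pow k)
    have hco : IsCoprime (p ^ k) c' := ((hp.coprime_iff_not_dvd).2 hc').pow_left
    rw [e, gs_cub_mul (hp'.pow k) hP hco, zero_mul, gs_prime_pow_zero hp hp' hk]
    split_ifs with h3
    · obtain ⟨j, rfl⟩ := h3
      rw [ih (nm c') ?_ hP ?_ rfl, mul_zero]
      · have h2 : (2 : ℝ) ≤ N p := Prime.two_le_N hp
        have h4 : N c = N p ^ (3 * j) * N c' := by rw [e, N_mul, N_pow]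
        have h5 : (1 : ℝ) < N p ^ (3 * j) := one_lt_pow₀ (by linarith) hk
        have h6 := N_pos hP.ne_zero
        have h7 : N c' < N c := by rw [h4]; nlinarith
        rw [← hn]
        unfold N at h7
        exact_mod_cast h7
      · rintro ⟨m, hm, rfl⟩
        exact h ⟨p ^ j * m, (hp'.pow j).mul hm, by rw [e]; ring⟩
    · rw [zero_mul]
theorem VoZero_dvd {e : O} (he : e ≠ 0) : gs e (fun x => if e ∣ x then 1 else 0) 0 = 1 := by
  obtain ⟨r, hr, hr'⟩ := exists_res he 0
  rw [zero_sub, dvd_neg] at hr'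
  unfold gs
  beta_reduce
  rw [Finset.sum_eq_single r]
  · rw [if_pos hr', zero_mul, ad_zero, one_mul]
  · intro x hx hne
    rw [if_neg fun h => hne (res_inj he hx hr (dvd_sub h hr')), zero_mul]
  · intro h; exact absurd hr h

theorem VoZero_zero_div (x : O) : (0 : O) / x = 0 := EuclideanDomain.zero_div

theorem gs_cube_zero {m : O} (hm : Prim m) :
    gs (m ^ 3) (cub (m ^ 3)) 0 = (N m : ℂ) ^ 2 * ∑ e ∈ pdiv m, mu e * (N (m / e) : ℂ) :=
by
  have hm0 := hm.ne_zero
  have e1 : cub (m ^ 3) = fun x => if IsCoprime x m then 1 else 0 := by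
    funext x
    unfold cub
    rw [sym_pow_left 3 hm0, sym_pow_eq (Or.inr (Or.inl rfl)) (by simpa using hm.isCoprime_three)]
  have hper : Per m (fun x => if IsCoprime x m then (1 : ℂ) else 0) := (s3_princ m).per
  rw [e1, show m ^ 3 = m * m ^ 2 by ring, gs_lift hm0 (pow_ne_zero 2 hm0) hper,
    if_pos (dvd_zero _), VoZero_zero_div, N_pow]
  push_cast
  refine congrArg _ ?_
  have e2 : gs m (fun x => if IsCoprime x m then (1 : ℂ) else 0) 0 =
      ∑ e ∈ pdiv m, mu e * gs m (fun x => if e ∣ x then 1 else 0) 0 := by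
    unfold gs
    simp only [Finset.mul_sum]
    rw [Finset.sum_comm]
    refine Finset.sum_congr rfl fun x _ => ?_
    rw [← sum_mu_coprime hm, Finset.sum_filter, Finset.sum_mul]
    refine Finset.sum_congr rfl fun e _ => ?_
    split_ifs <;> simp
  rw [e2]
  refine Finset.sum_congr rfl fun e he => ?_
  obtain ⟨he1, c, rfl⟩ := (mem_pdiv hm0).1 he
  have he0 := he1.ne_zero
  have hc0 : c ≠ 0 := right_ne_zero_of_mul hm0
  rw [gs_lift he0 hc0 (f := fun x => if e ∣ x then 1 else 0) (fun x t => by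
      simp only [dvd_add_left (dvd_mul_right e t)]),
    if_pos (dvd_zero _), VoZero_zero_div, VoZero_dvd he0, mul_one,
    mul_div_cancel_left₀ _ he0]
theorem VoZero_inj : Function.Injective (fun m : {m : O | Prim m} => m.1 ^ 3) := by
  rintro ⟨a, ha⟩ ⟨b, hb⟩ h
  replace h : a ^ 3 = b ^ 3 := h
  have h1 : a ∣ b := (IsIntegrallyClosed.pow_dvd_pow_iff (by norm_num : 3 ≠ 0)).1 h.dvd
  have h2 : b ∣ a := (IsIntegrallyClosed.pow_dvd_pow_iff (by norm_num : 3 ≠ 0)).1 h.symm.dvd
  exact Subtype.ext (Prim.eq_of_associated ha hb (associated_of_dvd_dvd h1 h2))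

theorem VoZero_cube (s : ℂ) : psi0 0 s = ∑' m : O, if Prim m then
    (N m : ℂ) ^ (2 - 3 * s) * ∑ e ∈ pdiv m, mu e * (N (m / e) : ℂ) else 0 := by
  unfold psi0
  rw [LM.dser_prim, ← VoZero_inj.tsum_eq]
  · rw [tsum_subtype {m : O | Prim m} (fun m => if Prim (m ^ 3) then
      gs (m ^ 3) (cub (m ^ 3)) 0 * (N (m ^ 3) : ℂ) ^ (-s) else 0)]
    refine tsum_congr fun m => ?_
    by_cases hm : Prim m
    · rw [Set.indicator_of_mem (by exact hm), if_pos (hm.pow 3), if_pos hm, gs_cube_zero hm]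
      have h0 : (N m : ℂ) ≠ 0 := by exact_mod_cast (N_pos hm.ne_zero).ne'
      have : (N (m ^ 3) : ℂ) ^ (-s) * (N m : ℂ) ^ 2 = (N m : ℂ) ^ (2 - 3 * s) := by
        rw [show m ^ 3 = m * m * m by ring, LM.N_cpow_mul, LM.N_cpow_mul, ← Complex.cpow_add _ _ h0,
          ← Complex.cpow_add _ _ h0, ← Complex.cpow_natCast, ← Complex.cpow_add _ _ h0]
        congr 1
        push_cast
        ring
      rw [← this]; ring
    · rw [Set.indicator_of_notMem (by exact hm), if_neg hm]
  · intro c hc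
    rw [Function.mem_support] at hc
    by_contra hn
    apply hc
    split_ifs with h1
    · rw [gs_cub_zero_of_not_cube h1, zero_mul]
      rintro ⟨m, hm, rfl⟩
      exact hn ⟨⟨m, hm⟩, rfl⟩
    · rfl

theorem psi0_zero_eq {s : ℂ} (hs : 2 < s.re) :
    psi0 0 s = dser (prim (fun _ => 1)) (3 * s - 3) * dser (prim mu) (3 * s - 2) :=
by
  let H : O → O → ℂ := fun n e =>
    if Prim e then (if Prim n ∧ e ∣ n then
      (N n : ℂ) ^ (2 - 3 * s) * (mu e * (N (n / e) : ℂ)) else 0) else 0
  have hfin : ∀ n e, e ∉ pdiv n → H n e = 0 := by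
    intro n e he
    simp only [H]
    split_ifs with h2 h3
    · exact absurd ((mem_pdiv h3.1.ne_zero).2 ⟨h2, h3.2⟩) he
    · rfl
    · rfl
  have hHb : ∀ n e, ‖H n e‖ ≤ N n ^ (-(3 / 2 : ℝ)) * N e ^ (-(3 / 2 : ℝ)) := by
    intro n e
    have h0 := mul_nonneg (Real.rpow_nonneg (N_nonneg n) (-(3 / 2 : ℝ)))
      (Real.rpow_nonneg (N_nonneg e) (-(3 / 2 : ℝ)))
    simp only [H]
    split_ifs with h2 h3
    · have hn := h3.1.ne_zero
      have hN := N_pos hn
      have h4 : N (n / e) ≤ N n := N_le_of_dvd hn (EuclideanDomain.div_dvd_of_dvd h3.2)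
      have h5 : N e ≤ N n := N_le_of_dvd hn h3.2
      rw [norm_mul, norm_mul, Complex.norm_cpow_eq_rpow_re_of_pos hN, Complex.norm_real,
        Real.norm_of_nonneg (N_nonneg _)]
      have h6 : (2 - 3 * s).re = 2 - 3 * s.re := by simp
      rw [h6]
      calc N n ^ (2 - 3 * s.re) * (‖mu e‖ * N (n / e)) ≤ N n ^ (-4 : ℝ) * (1 * N n) := by
            refine mul_le_mul (Real.rpow_le_rpow_of_exponent_le (one_le_N hn) (by linarith))
              (mul_le_mul (norm_mu_le e) h4 (N_nonneg _) zero_le_one)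
              (mul_nonneg (norm_nonneg _) (N_nonneg _)) (by positivity)
        _ = N n ^ (-(3 / 2 : ℝ)) * N n ^ (-(3 / 2 : ℝ)) := by
            rw [one_mul, ← Real.rpow_add_one hN.ne', ← Real.rpow_add hN]
            norm_num
        _ ≤ _ := mul_le_mul_of_nonneg_left
            (Real.rpow_le_rpow_of_nonpos (N_pos h2.ne_zero) h5 (by norm_num)) (by positivity)
    · simpa using h0
    · simpa using h0
  have hsum : Summable (Function.uncurry H) := by
    have h := summable_N_rpow (σ := 3 / 2) (by norm_num)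
    exact Summable.of_norm_bounded (h.mul_of_nonneg h (fun n => Real.rpow_nonneg (N_nonneg n) _)
      (fun n => Real.rpow_nonneg (N_nonneg n) _)) fun x => hHb x.1 x.2
  have h2 : dser (prim (fun _ => 1)) (3 * s - 3) * dser (prim mu) (3 * s - 2) =
      ∑' e, ∑' n, H n e := by
    rw [LM.dser_prim mu, ← tsum_mul_left]
    refine tsum_congr fun e => ?_
    simp only [H]
    split_ifs with he
    · rw [tsum_prim_dvd he (fun n => (N n : ℂ) ^ (2 - 3 * s) * (mu e * (N (n / e) : ℂ))),
        LM.dser_prim, ← tsum_mul_right]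
      refine tsum_congr fun m => ?_
      split_ifs with hm
      · have h0 : (N m : ℂ) ≠ 0 := by exact_mod_cast (N_pos hm.ne_zero).ne'
        rw [mul_div_cancel_left₀ _ he.ne_zero, LM.N_cpow_mul,
          show -(3 * s - 3) = (2 - 3 * s) + 1 by ring, Complex.cpow_add _ _ h0, Complex.cpow_one,
          show -(3 * s - 2) = 2 - 3 * s by ring]
        ring
      · simp
    · simp
  rw [h2, hsum.tsum_comm, VoZero_cube]
  refine tsum_congr fun n => ?_
  rw [tsum_eq_sum (s := pdiv n) (fun e he => hfin n e he)]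
  split_ifs with hn
  · rw [Finset.mul_sum]
    refine Finset.sum_congr rfl fun e he => ?_
    obtain ⟨h1, h2⟩ := (mem_pdiv hn.ne_zero).1 he
    simp only [H]
    rw [if_pos h1, if_pos ⟨hn, h2⟩]
  · refine (Finset.sum_eq_zero fun e _ => ?_).symm
    simp [H, hn]
theorem VoZero_Ef : Ef (prim (fun _ => 1)) 1 = (c0 : ℂ) / 9 := by
  have h3 : (3 : O) ≠ 0 := va2_ne (Or.inl rfl)
  have hper : Per 3 (prim (fun _ => 1)) := by
    simpa using Per.prim (q := 1) (φ := fun _ => 1) (fun _ _ => rfl)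
  rw [Ef_one h3 hper, ← sum_res_affine h3 hper isCoprime_one_left 1]
  have h1 := VoZero_dvd h3
  unfold gs at h1
  simp only [zero_mul, ad_zero, mul_one] at h1
  have h2 : ∑ x ∈ res 3, prim (fun _ => (1 : ℂ)) (1 * x + 1) = 1 := by
    refine Eq.trans (Finset.sum_congr rfl fun x _ => ?_) h1
    simp [prim, Prim]
  have h4 : N 3 = 9 := by
    have := nm_natCast 3
    unfold N
    rw [show (3 : O) = ((3 : ℕ) : O) by norm_num, this]
    norm_num
  rw [h2, h4]
  push_cast
  ring

theorem VoZero_res : rho0 0 = (c0 : ℂ) / 27 * dser (prim mu) 2 := by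
  have h3 : (3 : O) ≠ 0 := va2_ne (Or.inl rfl)
  have hper : Per 3 (prim (fun _ => 1)) := by
    simpa using Per.prim (q := 1) (φ := fun _ => 1) (fun _ _ => rfl)
  have hmu : DifferentiableOn ℂ (dser (prim mu)) {s | 1 + 0 < s.re} :=
    differentiableOn_dser (C := 1) fun n _ => by
      rw [Real.rpow_zero, mul_one]
      unfold prim
      split_ifs
      · exact norm_mu_le n
      · simp
  have hA : DifferentiableOn ℂ (fun s : ℂ => Ef (prim (fun _ => 1)) (3 * s - 3) / 3 *
      dser (prim mu) (3 * s - 2)) {s | 1 < s.re} := by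
    refine DifferentiableOn.mul ?_ ?_
    · exact (((Ef_differentiable h3 hper).comp (by fun_prop)).div_const 3).differentiableOn
    · refine hmu.comp (by fun_prop) fun s hs => ?_
      simp only [Set.mem_ofPred_eq] at hs ⊢
      simp
      linarith
  have h := (hasRes_pole hA).congr (F' := psi0 0) fun s _ hs => by
    have h1 : 1 < (3 * s - 3).re := by simp; linarith
    have h2 : s - 4 / 3 ≠ 0 := by
      intro e
      have := congrArg Complex.re e
      simp at this
      norm_num at this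
      linarith
    rw [psi0_zero_eq hs, Ef_eq h3 hper h1, div_eq_iff h2]
    ring
  rw [rho0, h.res43_eq, show (3 : ℂ) * (4 / 3) - 3 = 1 by ring, show (3 : ℂ) * (4 / 3) - 2 = 2 by ring,
    VoZero_Ef]
  ring

theorem VoZero_mul : dser (prim (fun _ => 1)) 2 * dser (prim mu) 2 = 1 := by
  have h := dser_mul_mu (ψ := fun _ => 1) rfl (fun _ _ => (mul_one _).symm) (fun _ => by simp)
    (s := 2) (by norm_num)
  have e : mm (fun _ => 1) = mu := by funext n; simp [mm]
  rwa [e] at h

theorem rho0_zero' : rho0 0 * dser (prim (fun _ => 1)) 2 = (c0 : ℂ) / 27 :=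
by
  rw [VoZero_res, mul_assoc, mul_comm (dser (prim mu) 2), VoZero_mul, mul_one]
theorem rho0_zero_ne : rho0 0 ≠ 0 :=
by
  intro h
  have h1 := rho0_zero'
  rw [h, zero_mul] at h1
  have h2 : (c0 : ℂ) = 0 := by linear_combination (-27) * h1
  have h3 : 0 < c0 := by unfold c0; positivity
  have : c0 = 0 := by exact_mod_cast h2
  linarith

end Crest.Agent.R17.Vor
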