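import Crest.Agent.R17.VoRho2
import Crest.Agent.R17.VoZero
import Crest.Agent.R17.VoFour

/-!
# R17 / VoExp : Fourier expansions of `theta` at all cusps
-/

set_option autoImplicit false

noncomputable section

open scoped Classical ComplexConjugate Topology ENNReal InnerProductSpace
open MeasureTheory Filter

namespace Crest.Agent.R17.Vor

/-- `fourier_hasSum` for `z ↦ F (pt z v)`; summability from `summable_Vr` -/
theorem hasExp_of_coef {F : X → ℂ} (hF : Continuous F) {ℓ : O} (hℓ : ℓ ≠ 0)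
    (hper : ∀ (t : O) (w : X), F (act (nn (toC (ℓ * t))) w) = F w) {a : O → ℂ} {C : ℝ}
    (ha : ∀ n, ‖a n‖ ≤ C)
    (hc : ∀ n v, 0 < v → coef ℓ n v F =
      ((v ^ (2 / 3 : ℝ) * Vr (‖toC n / toC ℓ‖ * v) : ℝ) : ℂ) * ((vol ℓ : ℂ) * a n)) :
    HasExp F ℓ a := by
  intro z v hv
  refine fourier_hasSum hℓ (f := fun z => F (pt z v)) (hF.comp (continuous_pt v))
    (fun z t => by rw [← act_nn _ _ hv, hper])
    (c := fun n => a n * ((v ^ (2 / 3 : ℝ) * Vr (‖toC n / toC ℓ‖ * v) : ℝ) : ℂ))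
    (fun n => ?_) ?_ z
  · have := hc n v hv
    unfold coef at this
    rw [this]; ring
  · refine Summable.of_nonneg_of_le (fun _ => norm_nonneg _) (fun n => ?_)
      ((summable_Vr hℓ hv).mul_left (C * v ^ (2 / 3 : ℝ)))
    have h1 := Vr_pos (‖toC n / toC ℓ‖ * v)
    have h2 : 0 < v ^ (2 / 3 : ℝ) := Real.rpow_pos_of_pos hv _
    rw [norm_mul, Complex.norm_real, Real.norm_of_nonneg (mul_pos h2 h1).le, mul_assoc]
    exact mul_le_mul_of_nonneg_right (ha n) (mul_pos h2 h1).le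

theorem voexp_norm_unit {u : O} (hu : IsUnit u) : ‖toC u‖ = 1 := by
  rw [norm_toC, N, isUnit_iff_nm.1 hu]; simp

theorem voexp_det {T : SL O} (hT : T.c = 0) : T.a * T.d = 1 := by
  have := T.det
  rwa [hT, mul_zero, sub_zero] at this

/-- `T = (u, y; 0, u⁻¹)` with `u` a unit: `act_upper`, reindex `n ↦ n u²`; `d = u⁻¹` -/
theorem HasExp.upperO {F : X → ℂ} {M : O} {a : O → ℂ} (h : HasExp F M a) (η : ℂ) {T : SL O}
    (hT : T.c = 0) : HasExp (fun w => η * F (act (ι T) w)) M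
      (fun n => η * a (n * T.d ^ 2) * ee (toC (n * T.d * T.b) / toC M)) := by
  intro z v hv
  have hdet := voexp_det hT
  have ha : ‖toC T.a‖ = 1 := voexp_norm_unit (IsUnit.of_mul_eq_one _ hdet)
  have hd : ‖toC T.d‖ = 1 := voexp_norm_unit (IsUnit.of_mul_eq_one T.a (by rw [mul_comm, hdet]))
  have hdC : toC T.a * toC T.d = 1 := by rw [← map_mul, hdet, map_one]
  let e : O ≃ O := ⟨fun n => n * T.d ^ 2, fun n => n * T.a ^ 2,
    fun n => by linear_combination n * (T.a * T.d + 1) * hdet,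
    fun n => by linear_combination n * (T.a * T.d + 1) * hdet⟩
  have h1 := ((Equiv.hasSum_iff e).2
    (h (toC T.a ^ 2 * z + toC T.a * toC T.b) v hv)).mul_left η
  show HasSum _ (η * F (act (ι T) (pt z v)))
  rw [act_upper _ (by rw [ι_c, hT, map_zero]) z hv, ι_a, ι_b, ha, one_pow, one_mul]
  have key : ∀ n : O, η * a (n * T.d ^ 2) * ee (toC (n * T.d * T.b) / toC M) *
      ((v ^ (2 / 3 : ℝ) * Vr (‖toC n / toC M‖ * v) : ℝ) : ℂ) * ee (toC n * z / toC M) =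
      η * (a (n * T.d ^ 2) *
        ((v ^ (2 / 3 : ℝ) * Vr (‖toC (n * T.d ^ 2) / toC M‖ * v) : ℝ) : ℂ) *
        ee (toC (n * T.d ^ 2) * (toC T.a ^ 2 * z + toC T.a * toC T.b) / toC M)) := fun n => by
    have e1 : ‖toC (n * T.d ^ 2) / toC M‖ = ‖toC n / toC M‖ := by
      rw [norm_div, norm_div, map_mul, map_pow, norm_mul, norm_pow, hd, one_pow, mul_one]
    have e2 : toC (n * T.d ^ 2) * (toC T.a ^ 2 * z + toC T.a * toC T.b) / toC M =
        toC (n * T.d * T.b) / toC M + toC n * z / toC M := by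
      rw [← add_div]
      congr 1
      simp only [map_mul, map_pow]
      linear_combination (toC n * (toC T.a * toC T.d + 1) * z + toC n * toC T.d * toC T.b) * hdC
    rw [e2, ee_add, e1]
    ring
  simp only [key]
  exact h1

theorem voexp_rho0_le : ∃ C : ℝ, ∀ r, ‖rho0 r‖ ≤ C := by
  obtain ⟨C, hC0, h0, hC⟩ := rho0_bound
  refine ⟨C, fun r => ?_⟩
  by_cases hr : r = 0
  · rwa [hr]
  obtain ⟨u, j, m, hu, hm, rfl⟩ := exists_eq_unit_lam_prim hr
  refine (hC u j m hu hm).trans ?_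
  have hN := N_pos hm.ne_zero
  rw [mul_assoc]
  refine mul_le_of_le_one_right hC0 ?_
  refine (mul_le_mul_of_nonneg_right (norm_tau_le hm) (Real.rpow_nonneg hN.le _)).trans ?_
  rw [← Real.rpow_add hN]
  simp

theorem voexp_aut {γ : SL O} (hγ : γ ∈ Gam 1) (σ : SL O) (w : X) :
    theta (act (ι (γ * σ)) w) = conj (kap γ) * theta (act (ι σ) w) := by
  rw [map_mul, act_mul, eig_theta.aut γ hγ]

/-- periodicity: `S n(3t) = (S n(3t) S⁻¹) S`, `S n(3t) S⁻¹ = LL (-3t) ∈ Γ(3)` has `kap = 1`;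
`coef_theta_SS`, `vol 3 = 9√3/2`; boundedness from `rho0_bound`, `norm_tau_le`,
`exists_eq_unit_lam_prim` -/
theorem theta_expS' : HasExp (fun w => theta (act SS w)) 3
    (fun n => ((2 / (9 * Real.sqrt 3) : ℝ) : ℂ) * rho0 (9 * n)) := by
  obtain ⟨C, hC⟩ := voexp_rho0_le
  refine hasExp_of_coef (F := fun w => theta (act SS w))
    (eig_theta.cont.comp (continuous_act _)) volink_three (fun t w => ?_)
    (C := ‖((2 / (9 * Real.sqrt 3) : ℝ) : ℂ)‖ * C) (fun n => ?_) (fun n v hv => ?_)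
  · have e : (SS : SL O) * nn (3 * t) = LL (-(3 * t)) * SS := by
      ext <;> simp [SS, nn, LL]
    have hL : (LL (-(3 * t)) : SL O) ∈ Gam 1 :=
      ⟨Prim.one, dvd_zero _, (dvd_neg).2 (dvd_mul_right _ _), Prim.one, one_dvd _⟩
    have hk : kap (LL (-(3 * t))) = 1 := sym_one _ _
    show theta (act SS (act (nn (toC (3 * t))) w)) = theta (act SS w)
    rw [← ι_nn, ← ι_SS, ← act_mul, ← map_mul, e, voexp_aut hL, hk, map_one, one_mul]
  · rw [norm_mul]
    exact mul_le_mul_of_nonneg_left (hC _) (norm_nonneg _)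
  · have h1 := coef_theta_SS n hv
    rw [ι_SS] at h1
    rw [h1]
    have h3 : (0 : ℝ) < Real.sqrt 3 := by positivity
    have hv3 : vol 3 * (2 / (9 * Real.sqrt 3)) = 1 := by
      have : N 3 = 9 := by
        have : nm 3 = 9 := by decide
        rw [N, this]; norm_num
      rw [vol, this]; field_simp
    rw [← mul_assoc (vol 3 : ℂ), ← Complex.ofReal_mul, hv3, Complex.ofReal_one, one_mul]

theorem voexp_rowFn : ∃ C : ℝ, ∀ σ : SL O, RowFn 9 (tr σ k0) → ∃ a : O → ℂ,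
    HasExp (fun w => theta (act (ι σ) w)) 9 a ∧ ‖a 0‖ ≤ C ∧
    ∀ (u : O) (j : ℕ) (m : O), IsUnit u → Prim m →
      ‖a (u * lam ^ j * m)‖ ≤ C * ‖tau m‖ * N m ^ (-(1 / 6 : ℝ)) := by
  obtain ⟨C, hC0, h0, hC⟩ := rho0_bound
  obtain ⟨C1, hC1⟩ := voexp_rho0_le
  have h9 : (9 : O) ≠ 0 := by decide
  have hv9 := vol_pos h9
  refine ⟨(vol 9)⁻¹ * (2000 * C), fun σ hσ => ?_⟩
  refine ⟨fun n => ((vol 9)⁻¹ : ℝ) * ∑ u ∈ units6, ∑' i : ℕ, (3 : ℂ) ^ (-(i * (4 / 3 : ℂ))) *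
      gs (9 * (u * lam ^ i)) (tr σ k0 (u * lam ^ i)) n * rho0 (9 ^ 2 * (u * lam ^ i) * n),
    ?_, ?_, fun u j m hu hm => ?_⟩
  · refine hasExp_of_coef (eig_theta.cont.comp (continuous_act _)) h9 (fun t w => ?_)
      (C := (vol 9)⁻¹ * (2000 * C1)) (fun n => ?_) (fun n v hv => ?_)
    · obtain ⟨h1, h2⟩ := kap_conj_nn σ t
      have e : σ * nn (9 * t) = σ * nn (9 * t) * σ⁻¹ * σ := by rw [inv_mul_cancel_right]
      show theta (act (ι σ) (act (nn (toC (9 * t))) w)) = theta (act (ι σ) w)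
      rw [← ι_nn, ← act_mul, ← map_mul, e, voexp_aut h1, h2, map_one, one_mul]
    · rw [norm_mul, Complex.norm_real, Real.norm_of_nonneg (inv_pos.2 hv9).le]
      exact mul_le_mul_of_nonneg_left (norm_res_DS_le hσ.bd n fun _ _ _ => hC1 _)
        (inv_pos.2 hv9).le
    · rw [← mul_assoc (vol 9 : ℂ), ← Complex.ofReal_mul, mul_inv_cancel₀ hv9.ne',
        Complex.ofReal_one, one_mul]
      exact coef_thK one_ne_zero (rowBd_kp _) (equi_k0 1) σ h9 hσ.p3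
        (hasRes_DS_of (Or.inr rfl) hσ hasRes_psi0 n) hv
  · rw [norm_mul, Complex.norm_real, Real.norm_of_nonneg (inv_pos.2 hv9).le]
    refine mul_le_mul_of_nonneg_left (norm_res_DS_le hσ.bd 0 fun _ _ _ => ?_) (inv_pos.2 hv9).le
    rwa [mul_zero]
  · rw [norm_mul, Complex.norm_real, Real.norm_of_nonneg (inv_pos.2 hv9).le]
    have h2 := norm_res_DS_le hσ.bd (u * lam ^ j * m)
      (B := C * ‖tau m‖ * N m ^ (-(1 / 6 : ℝ))) fun u' i hu' => by
        have h81 : (9 : O) ^ 2 = lam ^ 8 := by decide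
        have e : (9 : O) ^ 2 * (u' * lam ^ i) * (u * lam ^ j * m) =
            u' * u * lam ^ (8 + i + j) * m := by rw [h81]; ring
        rw [e]
        exact hC _ _ _ (hu'.mul hu) hm
    refine (mul_le_mul_of_nonneg_left h2 (inv_pos.2 hv9).le).trans (le_of_eq ?_)
    ring

/-- for `σ₀ = LL x` or `UU x`: periodicity by `kap_conj_nn`, coefficients by `coef_thK`,
`hasRes_DS_of` (`rowFn_LL`, `rowFn_UU`, `hasRes_psi0`), bounds by `norm_res_DS_le`, `rho0_bound`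
(`81 u' λ^i · u λ^j m = (u'u) λ^{8+i+j} m`).  General `σ = γ σ₀ T` by `decomp`, `eig_theta.aut`,
`HasExp.upperO`. -/
theorem theta_exp' : ∃ C : ℝ, ∀ σ : SL O, ∃ a : O → ℂ,
    HasExp (fun w => theta (act (ι σ) w)) 9 a ∧ ‖a 0‖ ≤ C ∧
    ∀ (u : O) (j : ℕ) (m : O), IsUnit u → Prim m →
      ‖a (u * lam ^ j * m)‖ ≤ C * ‖tau m‖ * N m ^ (-(1 / 6 : ℝ)) := by
  obtain ⟨C, hC⟩ := voexp_rowFn
  refine ⟨C, fun σ => ?_⟩
  obtain ⟨γ, hγ, x, T, hT, hσ⟩ := decomp σ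
  obtain ⟨σ0, hσ0, rfl⟩ : ∃ σ0, RowFn 9 (tr σ0 k0) ∧ σ = γ * σ0 * T := by
    rcases hσ with h | h
    · exact ⟨_, rowFn_LL x, h⟩
    · exact ⟨_, rowFn_UU x, h⟩
  obtain ⟨a, h1, h2, h3⟩ := hC σ0 hσ0
  have hd : IsUnit T.d := IsUnit.of_mul_eq_one T.a (by rw [mul_comm, voexp_det hT])
  have hn : ∀ n, ‖conj (kap γ) * a (n * T.d ^ 2) * ee (toC (n * T.d * T.b) / toC 9)‖ =
      ‖a (n * T.d ^ 2)‖ := fun n => by
    rw [norm_mul, norm_mul, norm_ee, Complex.norm_conj, norm_kap hγ, one_mul, mul_one]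
  refine ⟨fun n => conj (kap γ) * a (n * T.d ^ 2) * ee (toC (n * T.d * T.b) / toC 9), ?_, ?_,
    fun u j m hu hm => ?_⟩
  · have h4 := h1.upperO (conj (kap γ)) hT
    have e : (fun w => theta (act (ι (γ * σ0 * T)) w)) =
        fun w => conj (kap γ) * theta (act (ι σ0) (act (ι T) w)) := by
      funext w
      rw [mul_assoc, voexp_aut hγ, map_mul, act_mul]
    rw [e]
    exact h4
  · show ‖conj (kap γ) * a (0 * T.d ^ 2) * ee (toC (0 * T.d * T.b) / toC 9)‖ ≤ C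
    rw [hn, zero_mul]; exact h2
  · show ‖conj (kap γ) * a (u * lam ^ j * m * T.d ^ 2) *
      ee (toC (u * lam ^ j * m * T.d * T.b) / toC 9)‖ ≤ _
    rw [hn, show u * lam ^ j * m * T.d ^ 2 = u * T.d ^ 2 * lam ^ j * m by ring]
    exact h3 _ j m (hu.mul (hd.pow 2)) hm

/-- Otherwise all `rho0 (9 n)`, `n ≠ 0`, vanish (`rho0_hecke'`, `9 = λ⁴`), so
`theta (S (z,v)) = c v^{2/3}`, `c ≠ 0` (`theta_expS'`, `rho0_zero_ne`, `Vr_pos`).  But
`theta (n(3) S w) = theta (S w)` and `n(3) S = S · LL (-3)`, while `vc (LL (-3) o) = 1/10 ≠ 1`. -/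
theorem rho0_ne' : ∃ (u : O) (j : ℕ), IsUnit u ∧ rho0 (9 * (u * lam ^ j)) ≠ 0 := by
  by_contra hcon
  push Not at hcon
  have h9 : (9 : O) = lam ^ 4 := by decide
  have h1 : ∀ n : O, n ≠ 0 → rho0 (9 * n) = 0 := fun n hn => by
    obtain ⟨u, j, m, hu, hm, rfl⟩ := exists_eq_unit_lam_prim hn
    have h2 := rho0_hecke' hu (4 + j) hm
    have h3 := hcon u j hu
    rw [show (9 : O) * (u * lam ^ j) = u * lam ^ (4 + j) by rw [h9]; ring] at h3
    rw [h3, zero_mul, zero_mul, mul_eq_zero] at h2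
    rw [show (9 : O) * (u * lam ^ j * m) = u * lam ^ (4 + j) * m by rw [h9]; ring]
    refine h2.resolve_left ?_
    rw [Complex.ofReal_eq_zero]
    exact (Real.rpow_pos_of_pos (N_pos hm.ne_zero) _).ne'
  have h2 : ∀ w : X, theta (act SS w) = ((2 / (9 * Real.sqrt 3) : ℝ) : ℂ) * rho0 0 *
      ((vc w ^ (2 / 3 : ℝ) * Vr 0 : ℝ) : ℂ) := fun w => by
    have h3 := theta_expS' (zc w) (vc w) (vc_pos w)
    rw [pt_zc_vc] at h3
    have h4 := h3.unique (hasSum_single 0 fun n hn => by simp only [h1 n hn, mul_zero, zero_mul])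
    simpa [ee_zero] using h4
  have e : (nn 3 : SL O) * SS = SS * LL (-3) := by
    ext <;> simp [SS, nn, LL]
  have h3 : theta (act SS (act (ι (LL (-3))) o)) = theta (act SS o) := by
    rw [← ι_SS, ← act_mul, ← map_mul, ← e, voexp_aut (nn_mem_Gam.2 ⟨dvd_rfl, one_dvd _⟩), kap_nn,
      map_one, one_mul]
  have h4 : vc (act (ι (LL (-3))) o) = 1 / 10 := by
    have h5 : ‖toC (-3)‖ = 3 := by rw [map_neg, norm_neg, map_ofNat]; simp
    rw [vc_act, hr_eq, zc_o, vc_o, ι_c, ι_d]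
    show (1 : ℝ) / (‖toC (-3) * 0 + toC 1‖ ^ 2 + ‖toC (-3)‖ ^ 2 * 1 ^ 2) = 1 / 10
    rw [h5, mul_zero, zero_add, map_one, norm_one]
    norm_num
  rw [h2, h2, h4, vc_o] at h3
  have hk : ((2 / (9 * Real.sqrt 3) : ℝ) : ℂ) * rho0 0 ≠ 0 :=
    mul_ne_zero (Complex.ofReal_ne_zero.2 (by positivity)) rho0_zero_ne
  have h5 := Complex.ofReal_injective (mul_left_cancel₀ hk h3)
  have h6 := mul_right_cancel₀ (Vr_pos 0).ne' h5
  have h7 : (1 / 10 : ℝ) ^ (2 / 3 : ℝ) < 1 := Real.rpow_lt_one (by norm_num) (by norm_num) (by norm_num)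
  rw [h6, Real.one_rpow] at h7
  exact lt_irrefl _ h7

end Crest.Agent.R17.Vor
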