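import Crest.Agent.R17.VoDefs

/-!
# R17 / VoGeo1 : the action of `SL₂(ℂ)` on `X`, algebra and inequalities  (no measure theory)

Key algebraic facts (all by `Complex.ext` / `normSq` / `field_simp; ring`):
* `Qf w c d = re (Bq w c d c d)`, `Bq` is sesquilinear in the two rows with Gram matrix
  `H(w) = v⁻¹ (|z|²+v², z; z̄, 1)` (`det H = 1`);
* for `g = (a b; c d)` of determinant one, `Qf w a b * Qf w c d - ‖Bq w a b c d‖² = 1`
  (`det (g H g*) = 1`), i.e. `H(g w) = g H(w) g*`.  Hence `Bq (act g w) r r' = Bq w (r g) (r' g)`,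
  which gives `Qf_act`, `act_mul` (compare `zc` and `vc`, `ext_zv`) and `uu_act`
  (`2 uu w w' = H₁₁ H'₂₂ + H₂₂ H'₁₁ - 2 re (H₁₂ conj H'₁₂)` is the polarised determinant).
-/

set_option autoImplicit false

noncomputable section

open scoped Classical ComplexConjugate Topology
open MeasureTheory Filter

namespace Crest.Agent.R17.Vor

theorem vc_pos (w : X) : 0 < vc w := Real.exp_pos _
theorem geo1_vc_ne (w : X) : (vc w : ℂ) ≠ 0 := by exact_mod_cast (vc_pos w).ne'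
theorem vc_pt (z : ℂ) {v : ℝ} (hv : 0 < v) : vc (pt z v) = v := Real.exp_log hv
theorem zc_pt (z : ℂ) {v : ℝ} (hv : 0 < v) : zc (pt z v) = z := by
  have : (v : ℂ) ≠ 0 := by exact_mod_cast hv.ne'
  rw [zc, vc_pt z hv]
  exact div_mul_cancel₀ z this
theorem pt_zc_vc (w : X) : pt (zc w) (vc w) = w := by
  refine Prod.ext ?_ ?_
  · exact mul_div_cancel_right₀ w.1 (geo1_vc_ne w)
  · exact Real.log_exp w.2
theorem ext_zv {w w' : X} (hz : zc w = zc w') (hv : vc w = vc w') : w = w' := by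
  rw [← pt_zc_vc w, hz, hv, pt_zc_vc]
theorem zc_o : zc o = 0 := by simp [zc, o]
theorem vc_o : vc o = 1 := by simp [vc, o]
theorem continuous_vc : Continuous vc := Real.continuous_exp.comp continuous_snd
theorem continuous_zc : Continuous zc :=
  continuous_fst.mul (Complex.continuous_ofReal.comp continuous_vc)
/-- `z ↦ pt z v` is continuous; in fact `pt` is jointly continuous on `v > 0` -/
theorem continuous_pt (v : ℝ) : Continuous (fun z => pt z v) :=
  (continuous_id.div_const _).prodMk continuous_const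
theorem continuousOn_pt : ContinuousOn (fun q : ℂ × ℝ => pt q.1 q.2) {q | 0 < q.2} := by
  refine ContinuousOn.prodMk ?_ ?_
  · refine continuousOn_fst.div (Complex.continuous_ofReal.comp continuous_snd).continuousOn ?_
    intro q hq
    have : (0 : ℝ) < q.2 := hq
    exact_mod_cast this.ne'
  · exact continuousOn_snd.log fun q hq => ne_of_gt hq

theorem ι_nn (x : O) : ι (nn x) = nn (toC x) := by ext1 <;> simp [nn]
theorem ι_SS : ι SS = SS := by ext1 <;> simp [SS]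

theorem geo1_den_pos (w : X) {c d : ℂ} (h : c ≠ 0 ∨ d ≠ 0) :
    0 < ‖c * zc w + d‖ ^ 2 + ‖c‖ ^ 2 * vc w ^ 2 := by
  have hv := vc_pos w
  by_cases hc : c = 0
  · have hd : d ≠ 0 := h.resolve_left (not_not.2 hc)
    simp only [hc, zero_mul, zero_add, norm_zero]
    positivity
  · positivity

theorem Qf_nonneg (w : X) (c d : ℂ) : 0 ≤ Qf w c d := by
  have hv := vc_pos w
  unfold Qf; positivity
theorem Qf_pos (w : X) {c d : ℂ} (h : c ≠ 0 ∨ d ≠ 0) : 0 < Qf w c d :=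
  div_pos (geo1_den_pos w h) (vc_pos w)
theorem SL.row_ne (g : SL ℂ) : g.c ≠ 0 ∨ g.d ≠ 0 := by
  by_contra h
  push Not at h
  have := g.det
  rw [h.1, h.2] at this
  simp at this
theorem hr_nonneg (w : X) (c d : ℂ) : 0 ≤ hr w c d := inv_nonneg.2 (Qf_nonneg w c d)
theorem hr_pos (w : X) {c d : ℂ} (h : c ≠ 0 ∨ d ≠ 0) : 0 < hr w c d := inv_pos.2 (Qf_pos w h)
theorem hr_eq (w : X) (c d : ℂ) :
    hr w c d = vc w / (‖c * zc w + d‖ ^ 2 + ‖c‖ ^ 2 * vc w ^ 2) := by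
  rw [hr, Qf, inv_div]
/-- scaling a row by a complex number of modulus one -/
theorem hr_smul (w : X) {u : ℂ} (hu : ‖u‖ = 1) (c d : ℂ) : hr w (u * c) (u * d) = hr w c d := by
  rw [hr_eq, hr_eq, mul_assoc, ← mul_add, norm_mul, norm_mul, hu, one_mul, one_mul]
theorem hr_zero_one (w : X) : hr w 0 1 = vc w := by
  rw [hr_eq]; simp
theorem geo1_continuous_Qf (c d : ℂ) : Continuous (fun w => Qf w c d) := by
  unfold Qf
  have h1 := continuous_vc
  have h2 := continuous_zc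
  exact Continuous.div (by fun_prop) h1 fun w => (vc_pos w).ne'
theorem geo1_continuous_Bq (a b c d : ℂ) : Continuous (fun w => Bq w a b c d) := by
  unfold Bq
  have h1 := continuous_vc
  have h2 := continuous_zc
  exact Continuous.div (by fun_prop) (by fun_prop) fun w => geo1_vc_ne w
theorem continuous_hr {c d : ℂ} (h : c ≠ 0 ∨ d ≠ 0) : Continuous (fun w => hr w c d) :=
  (geo1_continuous_Qf c d).inv₀ fun w => (Qf_pos w h).ne'
theorem measurable_hr (c d : ℂ) : Measurable (fun w => hr w c d) :=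
  (geo1_continuous_Qf c d).measurable.inv

theorem vc_act (g : SL ℂ) (w : X) : vc (act g w) = hr w g.c g.d := by
  change Real.exp (-Real.log (Qf w g.c g.d)) = _
  rw [Real.exp_neg, Real.exp_log (Qf_pos w g.row_ne), hr]
theorem geo1_zc_act (g : SL ℂ) (w : X) :
    zc (act g w) = Bq w g.a g.b g.c g.d * ((Qf w g.c g.d : ℝ) : ℂ)⁻¹ := by
  rw [zc, vc_act, hr, Complex.ofReal_inv]; rfl
theorem zc_act (g : SL ℂ) (w : X) : zc (act g w) =
    ((g.a * zc w + g.b) * conj (g.c * zc w + g.d) + g.a * conj g.c * (vc w : ℂ) ^ 2) /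
      ((‖g.c * zc w + g.d‖ ^ 2 + ‖g.c‖ ^ 2 * vc w ^ 2 : ℝ) : ℂ) := by
  rw [geo1_zc_act, Bq, Qf, Complex.ofReal_div, inv_div, div_mul_div_cancel₀ (geo1_vc_ne w)]
/-- the classical formula for the action in the coordinates `(z, v)` -/
theorem act_pt (g : SL ℂ) (z : ℂ) {v : ℝ} (hv : 0 < v) : act g (pt z v) =
    pt (((g.a * z + g.b) * conj (g.c * z + g.d) + g.a * conj g.c * (v : ℂ) ^ 2) /
      ((‖g.c * z + g.d‖ ^ 2 + ‖g.c‖ ^ 2 * v ^ 2 : ℝ) : ℂ))
      (v / (‖g.c * z + g.d‖ ^ 2 + ‖g.c‖ ^ 2 * v ^ 2)) := by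
  rw [← pt_zc_vc (act g (pt z v)), zc_act, vc_act, hr_eq, zc_pt z hv, vc_pt z hv]
/-- upper triangular matrices: `(z, v) ↦ (a² z + a b, |a|² v)` (`d = a⁻¹`) -/
theorem act_upper (g : SL ℂ) (hc : g.c = 0) (z : ℂ) {v : ℝ} (hv : 0 < v) :
    act g (pt z v) = pt (g.a ^ 2 * z + g.a * g.b) (‖g.a‖ ^ 2 * v) := by
  have h1 : g.a * g.d = 1 := by have := g.det; rw [hc] at this; simpa using this
  have hd : g.d ≠ 0 := right_ne_zero_of_mul_eq_one h1
  have ha : g.a = g.d⁻¹ := eq_inv_of_mul_eq_one_left h1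
  have hd' : conj g.d ≠ 0 := by simpa using hd
  rw [act_pt g z hv, hc]
  congr 1
  · simp only [zero_mul, zero_add, map_zero, mul_zero, add_zero, norm_zero, ne_eq, OfNat.ofNat_ne_zero,
      not_false_eq_true, zero_pow, Complex.ofReal_pow]
    rw [← Complex.mul_conj', ha]
    field_simp
  · simp only [zero_mul, zero_add, norm_zero, ne_eq, OfNat.ofNat_ne_zero,
      not_false_eq_true, zero_pow, add_zero]
    rw [ha, norm_inv]
    field_simp
theorem act_nn (b z : ℂ) {v : ℝ} (hv : 0 < v) : act (nn b) (pt z v) = pt (z + b) v := by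
  rw [act_upper (nn b) rfl z hv]; simp [nn]
theorem zc_act_nn (b : ℂ) (w : X) : zc (act (nn b) w) = zc w + b := by
  rw [← pt_zc_vc w, act_nn _ _ (vc_pos w), zc_pt _ (vc_pos w), zc_pt _ (vc_pos w)]
theorem vc_act_nn (b : ℂ) (w : X) : vc (act (nn b) w) = vc w := by
  rw [← pt_zc_vc w, act_nn _ _ (vc_pos w), vc_pt _ (vc_pos w), vc_pt _ (vc_pos w)]

theorem geo1_Qf_eq (w : X) (c d : ℂ) : ((Qf w c d : ℝ) : ℂ) = Bq w c d c d := by
  rw [Qf, Bq, Complex.mul_conj', Complex.mul_conj']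
  push_cast; rfl
theorem geo1_conj_Bq (w : X) (a b c d : ℂ) : conj (Bq w a b c d) = Bq w c d a b := by
  simp only [Bq, map_div₀, map_add, map_mul, map_pow, Complex.conj_conj, Complex.conj_ofReal]
  ring
theorem geo1_det (w : X) (a b c d : ℂ) :
    Bq w a b a b * Bq w c d c d - Bq w a b c d * Bq w c d a b =
      (a * d - b * c) * conj (a * d - b * c) := by
  have := geo1_vc_ne w
  simp only [Bq, map_add, map_mul, map_sub]
  field_simp
  ring

theorem Bq_act (g : SL ℂ) (w : X) (a b c d : ℂ) : Bq (act g w) a b c d =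
    Bq w (a * g.a + b * g.c) (a * g.b + b * g.d) (c * g.a + d * g.c) (c * g.b + d * g.d) := by
  have hQ : Bq w g.c g.d g.c g.d ≠ 0 := by
    rw [← geo1_Qf_eq]; exact_mod_cast (Qf_pos w g.row_ne).ne'
  have hdet := geo1_det w g.a g.b g.c g.d
  rw [g.det, map_one, mul_one] at hdet
  have hR : Bq w (a * g.a + b * g.c) (a * g.b + b * g.d) (c * g.a + d * g.c) (c * g.b + d * g.d) =
      a * conj c * Bq w g.a g.b g.a g.b + a * conj d * Bq w g.a g.b g.c g.d +
        b * conj c * Bq w g.c g.d g.a g.b + b * conj d * Bq w g.c g.d g.c g.d := by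
    simp only [Bq, map_add, map_mul]
    ring
  have hv : ((vc (act g w) : ℝ) : ℂ) = (Bq w g.c g.d g.c g.d)⁻¹ := by
    rw [vc_act, hr, Complex.ofReal_inv, geo1_Qf_eq]
  rw [hR, Bq.eq_1 (act g w), hv, geo1_zc_act, geo1_Qf_eq]
  simp only [map_add, map_mul, map_inv₀, geo1_conj_Bq]
  have hP : Bq w g.a g.b g.a g.b =
      (1 + Bq w g.a g.b g.c g.d * Bq w g.c g.d g.a g.b) / Bq w g.c g.d g.c g.d := by
    rw [eq_div_iff hQ]; linear_combination hdet
  rw [hP]
  field_simp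
  ring
theorem Qf_act (g : SL ℂ) (w : X) (c d : ℂ) :
    Qf (act g w) c d = Qf w (c * g.a + d * g.c) (c * g.b + d * g.d) := by
  apply Complex.ofReal_injective
  rw [geo1_Qf_eq, geo1_Qf_eq, Bq_act]
theorem hr_act (g : SL ℂ) (w : X) (c d : ℂ) :
    hr (act g w) c d = hr w (c * g.a + d * g.c) (c * g.b + d * g.d) := by
  rw [hr, hr, Qf_act]
theorem act_one (w : X) : act 1 w = w := by
  have := act_upper 1 rfl (zc w) (vc_pos w)
  simpa [pt_zc_vc] using this
theorem act_mul (g h : SL ℂ) (w : X) : act (g * h) w = act g (act h w) := by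
  rw [act.eq_1 g, Bq_act, Qf_act]; rfl
theorem act_inv_act (g : SL ℂ) (w : X) : act g⁻¹ (act g w) = w := by
  rw [← act_mul, inv_mul_cancel, act_one]
theorem act_act_inv (g : SL ℂ) (w : X) : act g (act g⁻¹ w) = w := by
  rw [← act_mul, mul_inv_cancel, act_one]
theorem continuous_act (g : SL ℂ) : Continuous (act g) :=
  (geo1_continuous_Bq _ _ _ _).prodMk
    ((geo1_continuous_Qf _ _).log fun w => (Qf_pos w g.row_ne).ne').neg
theorem act_SS_o : act SS o = o := by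
  refine ext_zv ?_ ?_
  · rw [zc_act]; simp [SS, zc_o]
  · rw [vc_act, hr_eq]; simp [SS, zc_o, vc_o]
/-- every point is an upper triangular translate of `o`: `g = (√v, z/√v; 0, 1/√v)` -/
theorem exists_act_o (w : X) : ∃ g : SL ℂ, g.c = 0 ∧ act g o = w ∧
    ∀ w', vc (act g w') = vc w * vc w' := by
  have hs : 0 < Real.sqrt (vc w) := Real.sqrt_pos.2 (vc_pos w)
  have hs' : ((Real.sqrt (vc w) : ℝ) : ℂ) ≠ 0 := by exact_mod_cast hs.ne'
  let g : SL ℂ := ⟨Real.sqrt (vc w), zc w / Real.sqrt (vc w), 0, (Real.sqrt (vc w) : ℂ)⁻¹, by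
    rw [mul_inv_cancel₀ hs']; ring⟩
  have hn : ‖g.a‖ ^ 2 = vc w := by
    change ‖((Real.sqrt (vc w) : ℝ) : ℂ)‖ ^ 2 = _
    rw [Complex.norm_real, Real.norm_of_nonneg hs.le, Real.sq_sqrt (vc_pos w).le]
  refine ⟨g, rfl, ?_, fun w' => ?_⟩
  · rw [← pt_zc_vc o, act_upper g rfl _ (vc_pos o), zc_o, vc_o, hn, mul_zero, zero_add, mul_one]
    have : g.a * g.b = zc w := mul_div_cancel₀ _ hs'
    rw [this, pt_zc_vc]
  · rw [← pt_zc_vc w', act_upper g rfl _ (vc_pos w'), hn,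
      vc_pt _ (mul_pos (vc_pos w) (vc_pos w')), vc_pt _ (vc_pos w')]

theorem uu_symm (w w' : X) : uu w w' = uu w' w := by
  rw [uu, uu, norm_sub_rev]; ring
/-- `v² + v'² ≥ 2 v v'` -/
theorem one_le_uu (w w' : X) : 1 ≤ uu w w' := by
  have h1 := vc_pos w
  have h2 := vc_pos w'
  rw [uu, one_le_div (by positivity)]
  nlinarith [sq_nonneg (vc w - vc w'), sq_nonneg ‖zc w - zc w'‖]
theorem uu_self (w : X) : uu w w = 1 := by
  have h1 := vc_pos w
  rw [uu, sub_self, norm_zero]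
  field_simp
  ring
theorem geo1_polar (w w' : X) (a b c d : ℂ) :
    Bq w a b a b * Bq w' c d c d + Bq w c d c d * Bq w' a b a b -
      Bq w a b c d * Bq w' c d a b - Bq w c d a b * Bq w' a b c d =
      (a * d - b * c) * conj (a * d - b * c) * (2 * (uu w w' : ℝ)) := by
  have h1 := geo1_vc_ne w
  have h2 := geo1_vc_ne w'
  simp only [uu, Complex.ofReal_div, Complex.ofReal_add, Complex.ofReal_mul, Complex.ofReal_pow,
    Complex.ofReal_ofNat]
  rw [← Complex.mul_conj']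
  simp only [Bq, map_add, map_mul, map_sub]
  field_simp
  ring
theorem uu_act (g : SL ℂ) (w w' : X) : uu (act g w) (act g w') = uu w w' := by
  have h1 := geo1_polar (act g w) (act g w') 1 0 0 1
  have h2 := geo1_polar w w' g.a g.b g.c g.d
  simp only [Bq_act, one_mul, zero_mul, add_zero, zero_add, mul_zero, sub_zero, map_one] at h1
  rw [g.det, map_one, one_mul, one_mul, h1] at h2
  have h3 : ((uu (act g w) (act g w') : ℝ) : ℂ) = (uu w w' : ℝ) := by linear_combination h2 / 2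
  exact_mod_cast h3
theorem continuous_uu : Continuous (fun q : X × X => uu q.1 q.2) := by
  unfold uu
  have h1 := continuous_vc
  have h2 := continuous_zc
  refine Continuous.div (by fun_prop) (by fun_prop) fun q => ?_
  have := vc_pos q.1
  have := vc_pos q.2
  positivity
theorem geo1_uu_o (w : X) : uu w o = (‖zc w‖ ^ 2 + vc w ^ 2 + 1) / (2 * vc w) := by
  rw [uu, zc_o, vc_o, sub_zero, one_pow, mul_one]
theorem geo1_uu_le (w₁ w₃ : X) : uu w₁ w₃ ≤ 2 * uu w₁ o * uu w₃ o := by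
  have h1 := vc_pos w₁
  have h3 := vc_pos w₃
  have e : 2 * uu w₁ o * uu w₃ o = (‖zc w₁‖ ^ 2 + vc w₁ ^ 2 + 1) * (‖zc w₃‖ ^ 2 + vc w₃ ^ 2 + 1) /
      (2 * vc w₁ * vc w₃) := by
    rw [geo1_uu_o, geo1_uu_o]; field_simp
  rw [e, uu]
  refine div_le_div_of_nonneg_right ?_ (by positivity)
  have h4 : ‖zc w₁ - zc w₃‖ ^ 2 ≤ (‖zc w₁‖ + ‖zc w₃‖) ^ 2 :=
    pow_le_pow_left₀ (norm_nonneg _) (norm_sub_le _ _) 2
  nlinarith [sq_nonneg (1 - ‖zc w₁‖ * ‖zc w₃‖), sq_nonneg (‖zc w₁‖ * vc w₃), sq_nonneg (‖zc w₃‖ * vc w₁),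
    sq_nonneg (vc w₁ * vc w₃)]
/-- quasi-triangle inequality.  By `uu_act` and `exists_act_o` assume `w₂ = o`; then it reads
`|z₁-z₃|² + v₁² + v₃² ≤ (|z₁|²+v₁²+1)(|z₃|²+v₃²+1)`, and
`|z₁-z₃|² ≤ (|z₁|+|z₃|)² ≤ (1+|z₁|²)(1+|z₃|²)`. -/
theorem uu_le (w₁ w₂ w₃ : X) : uu w₁ w₃ ≤ 2 * uu w₁ w₂ * uu w₂ w₃ := by
  obtain ⟨g, -, hg, -⟩ := exists_act_o w₂
  have h : act g⁻¹ w₂ = o := by rw [← hg, act_inv_act]
  rw [← uu_act g⁻¹ w₁ w₃, ← uu_act g⁻¹ w₁ w₂, ← uu_act g⁻¹ w₂ w₃, h, uu_symm o]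
  exact geo1_uu_le _ _
theorem geo1_two_uu (w : X) : 2 * uu w o = Qf w 1 0 + Qf w 0 1 := by
  have h1 := vc_pos w
  rw [geo1_uu_o, Qf, Qf]
  simp only [one_mul, add_zero, norm_one, one_pow, zero_mul, zero_add, norm_zero]
  field_simp
  ring
theorem geo1_Qf_o (c d : ℂ) : Qf o c d = ‖c‖ ^ 2 + ‖d‖ ^ 2 := by
  rw [Qf, zc_o, vc_o]; simp [add_comm]
/-- `2 uu (g o) o = Qf o a b + Qf o c d` -/
theorem uu_act_o (g : SL ℂ) :
    uu (act g o) o = (‖g.a‖ ^ 2 + ‖g.b‖ ^ 2 + ‖g.c‖ ^ 2 + ‖g.d‖ ^ 2) / 2 := by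
  have := geo1_two_uu (act g o)
  rw [Qf_act, Qf_act, geo1_Qf_o, geo1_Qf_o] at this
  simp only [one_mul, zero_mul, add_zero, zero_add] at this
  linarith
/-- `uu (y, x) o = |y|² eˣ / 2 + cosh x` -/
theorem uu_o (y : ℂ) (x : ℝ) : uu (y, x) o = ‖y‖ ^ 2 * Real.exp x / 2 + Real.cosh x := by
  have h := Real.exp_pos x
  rw [geo1_uu_o, Real.cosh_eq, Real.exp_neg]
  simp only [zc, vc, norm_mul, Complex.norm_real, Real.norm_of_nonneg h.le]
  field_simp
  ring
/-- `H(w)` has determinant `1` and trace `2 uu w o`, so its smallest eigenvalue is at least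
`1 / (2 uu w o)`.  Directly, with `A = |cz+d|`, `B = |c|`: the claim is
`(B²+|d|²) v² ≤ (|z|²+v²+1)(A² + B²v²)`; use `|d| ≤ A + B|z|` and Cauchy-Schwarz
`(A v + Bv |z|)² ≤ (A² + B²v²)(v² + |z|²)`, and `B²v² ≤ A² + B²v²`. -/
theorem le_Qf (w : X) (c d : ℂ) : ‖c‖ ^ 2 + ‖d‖ ^ 2 ≤ 2 * uu w o * Qf w c d := by
  have h1 := vc_pos w
  have e : 2 * uu w o * Qf w c d = (‖zc w‖ ^ 2 + vc w ^ 2 + 1) *
      (‖c * zc w + d‖ ^ 2 + ‖c‖ ^ 2 * vc w ^ 2) / vc w ^ 2 := by
    rw [geo1_uu_o, Qf]; field_simp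
  rw [e, le_div_iff₀ (by positivity)]
  have h2 : ‖d‖ ≤ ‖c * zc w + d‖ + ‖c‖ * ‖zc w‖ := by
    have := norm_sub_le (c * zc w + d) (c * zc w)
    rwa [add_sub_cancel_left, norm_mul] at this
  have h3 : ‖d‖ ^ 2 ≤ (‖c * zc w + d‖ + ‖c‖ * ‖zc w‖) ^ 2 := pow_le_pow_left₀ (norm_nonneg _) h2 2
  have h4 := mul_le_mul_of_nonneg_right h3 (sq_nonneg (vc w))
  nlinarith [sq_nonneg (‖c * zc w + d‖ * ‖zc w‖ - ‖c‖ * vc w ^ 2), sq_nonneg ‖c * zc w + d‖]
/-- rows of `O²` have height `≤ 2 uu w o` -/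
theorem hr_le (w : X) {c d : O} (h : c ≠ 0 ∨ d ≠ 0) : hr w (toC c) (toC d) ≤ 2 * uu w o := by
  have h1 := le_Qf w (toC c) (toC d)
  rw [norm_toC_sq, norm_toC_sq] at h1
  have h2 : 1 ≤ N c + N d := by
    rcases h with h | h
    · linarith [one_le_N h, N_nonneg d]
    · linarith [one_le_N h, N_nonneg c]
  have h3 : toC c ≠ 0 ∨ toC d ≠ 0 :=
    h.imp (fun h => (map_ne_zero_iff toC toC_injective).2 h)
      fun h => (map_ne_zero_iff toC toC_injective).2 h
  rw [hr, inv_le_iff_one_le_mul₀ (Qf_pos w h3)]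
  linarith
/-- balls are compact: `uu (y,x) o ≤ R` gives `|x| ≤ cosh x ≤ R` and `|y|² ≤ 2 R e^R` -/
theorem isCompact_ball (w : X) (R : ℝ) : IsCompact {w' : X | uu w w' ≤ R} := by
  have hc : Continuous fun w' : X => uu w w' :=
    continuous_uu.comp (f := fun w' : X => (w, w')) (continuous_const.prodMk continuous_id)
  refine (isCompact_closedBall (0 : X) (2 * (2 * R * uu w o))).of_isClosed_subset
    (isClosed_le hc continuous_const) ?_
  rintro ⟨y, x⟩ hw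
  have h1 : uu w (y, x) ≤ R := hw
  have h2 := uu_le (y, x) w o
  rw [uu_symm (y, x) w] at h2
  have h3 := one_le_uu w o
  have h4 : uu (y, x) o ≤ 2 * R * uu w o := h2.trans (by gcongr)
  obtain ⟨S, hS⟩ : ∃ S, S = 2 * R * uu w o := ⟨_, rfl⟩
  rw [← hS] at h4 ⊢
  rw [uu_o, Real.cosh_eq] at h4
  have e1 := Real.exp_pos x
  have e2 := Real.exp_pos (-x)
  have e3 := Real.add_one_le_exp x
  have e4 := Real.add_one_le_exp (-x)
  have e5 : 0 ≤ ‖y‖ ^ 2 * Real.exp x := by positivity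
  have e6 : Real.exp x * Real.exp (-x) = 1 := by rw [← Real.exp_add]; simp
  rw [mem_closedBall_zero_iff, Prod.norm_def, max_le_iff]
  refine ⟨?_, ?_⟩
  · refine abs_le_of_sq_le_sq' ?_ (by linarith) |>.2
    calc ‖y‖ ^ 2 = (‖y‖ ^ 2 * Real.exp x) * Real.exp (-x) := by rw [mul_assoc, e6, mul_one]
      _ ≤ (2 * S) * (2 * S) := mul_le_mul (by linarith) (by linarith) e2.le (by linarith)
      _ = _ := by ring
  · rw [Real.norm_eq_abs, abs_le]
    constructor <;> linarith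

theorem continuous_kk : Continuous kk := by unfold kk; fun_prop
theorem kk_nonneg (u : ℝ) : 0 ≤ kk u := le_max_left _ _
theorem kk_uu_le (w w' : X) : kk (uu w w') ≤ 1 :=
  max_le zero_le_one (by linarith [one_le_uu w w'])
theorem kk_eq_zero {u : ℝ} (h : 2 ≤ u) : kk u = 0 := max_eq_left (by linarith)

/-- a coprime row is the bottom row of an element of `SL₂(O)` -/
theorem exists_row {c d : O} (h : IsCoprime c d) : ∃ g : SL O, g.c = c ∧ g.d = d := by
  obtain ⟨u, v, huv⟩ := h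
  exact ⟨⟨v, -u, c, d, by linear_combination huv⟩, rfl, rfl⟩
theorem SL.isCoprime_row (g : SL O) : IsCoprime g.c g.d :=
  ⟨-g.b, g.a, by linear_combination g.det⟩

end Crest.Agent.R17.Vor
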