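import Crest.Agent.R17.VoGeo1

/-!
# R17 / VoGeo2 : invariance of `volume` under `act`, integration in the coordinates `(z, x)`

In the coordinates `w = (y, x)` the generators act as skew products:
* `act (nn b) (y, x) = (y + b e^{-x}, x)` (swap the factors; translation in the fibre);
* `act (dg t) (y, x) = (y t²/|t|², x + 2 log |t|)` (rotation × translation; multiplication by a unit
  complex number is a linear isometry of `ℂ`: `rotation`, `LinearIsometryEquiv.measurePreserving`);
* `act SS (y, x) = (-conj y, -x - log (1 + |y|²))` (`MeasurePreserving.skew_product`).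
Bruhat: if `c ≠ 0`, `g = nn (a/c) * SS * dg c * nn (d/c)`; if `c = 0`, `g = nn (a b) * dg a`.
-/

set_option autoImplicit false

noncomputable section

open scoped Classical ComplexConjugate Topology ENNReal InnerProductSpace
open MeasureTheory Filter

namespace Crest.Agent.R17.Vor

theorem geo2_upper (g : SL ℂ) (hc : g.c = 0) : MeasurePreserving (act g) volume volume := by
  have h1 : g.a * g.d = 1 := by have := g.det; rw [hc] at this; simpa using this
  have hd : g.d ≠ 0 := right_ne_zero_of_mul_eq_one h1
  have hu : ‖g.a * conj g.d‖ = 1 := by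
    rw [norm_mul, Complex.norm_conj, ← norm_mul, h1, norm_one]
  let u : Circle := ⟨g.a * conj g.d, by simpa [Submonoid.unitSphere] using hu⟩
  have h2 : MeasurePreserving (fun p : ℝ × ℂ => (p.1 + -Real.log (‖g.d‖ ^ 2),
      g.b * conj g.d / (Real.exp p.1 : ℂ) + g.a * conj g.d * p.2))
      ((volume : Measure ℝ).prod (volume : Measure ℂ))
      ((volume : Measure ℝ).prod (volume : Measure ℂ)) := by
    refine MeasurePreserving.skew_product (measurePreserving_add_right volume _)
      (g := fun (x : ℝ) (y : ℂ) => g.b * conj g.d / (Real.exp x : ℂ) + g.a * conj g.d * y)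
      (Continuous.measurable ?_) (Eventually.of_forall fun x => ?_)
    · refine Continuous.add (Continuous.div continuous_const (by fun_prop) fun p => ?_)
        (by fun_prop)
      exact Complex.ofReal_ne_zero.2 (Real.exp_pos _).ne'
    · exact ((measurePreserving_add_left volume (g.b * conj g.d / (Real.exp x : ℂ))).comp
        (rotation u).measurePreserving).map_eq
  have h3 := (Measure.measurePreserving_swap.comp h2).comp
    (Measure.measurePreserving_swap (μ := (volume : Measure ℂ)) (ν := (volume : Measure ℝ)))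
  refine (show act g = _ from ?_) ▸ h3
  funext w
  have hv := vc_pos w
  have hv' := geo1_vc_ne w
  refine Prod.ext ?_ ?_
  · change Bq w g.a g.b g.c g.d = g.b * conj g.d / (vc w : ℂ) + g.a * conj g.d * w.1
    rw [Bq, hc, zc]
    simp only [zero_mul, zero_add, map_zero, mul_zero, add_zero]
    field_simp
    ring
  · change -Real.log (Qf w g.c g.d) = w.2 + -Real.log (‖g.d‖ ^ 2)
    rw [Qf, hc]
    simp only [zero_mul, zero_add, norm_zero, ne_eq, OfNat.ofNat_ne_zero, not_false_eq_true,
      zero_pow, add_zero]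
    rw [Real.log_div (by positivity) hv.ne', vc, Real.log_exp]
    ring

theorem geo2_SS : MeasurePreserving (act SS) volume volume := by
  have h2 : MeasurePreserving (fun p : ℂ × ℝ => (-conj p.1, -Real.log (‖p.1‖ ^ 2 + 1) - p.2))
      ((volume : Measure ℂ).prod (volume : Measure ℝ))
      ((volume : Measure ℂ).prod (volume : Measure ℝ)) := by
    refine MeasurePreserving.skew_product (f := fun y : ℂ => -conj y)
      ((Measure.measurePreserving_neg volume).comp Complex.conjLIE.measurePreserving)
      (g := fun (y : ℂ) (x : ℝ) => -Real.log (‖y‖ ^ 2 + 1) - x)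
      (Continuous.measurable ?_) (Eventually.of_forall fun y => ?_)
    · refine Continuous.sub (Continuous.neg (Continuous.log (by fun_prop) fun p => ?_))
        continuous_snd
      positivity
    · exact (Measure.measurePreserving_sub_left volume _).map_eq
  refine (show act SS = _ from ?_) ▸ h2
  funext w
  have hv := vc_pos w
  have hv' := geo1_vc_ne w
  refine Prod.ext ?_ ?_
  · change Bq w 0 (-1) 1 0 = -conj w.1
    rw [Bq, zc]
    simp only [zero_mul, zero_add, one_mul, add_zero, map_mul, Complex.conj_ofReal]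
    field_simp
  · change -Real.log (Qf w 1 0) = -Real.log (‖w.1‖ ^ 2 + 1) - w.2
    have h1 : Qf w 1 0 = (‖w.1‖ ^ 2 + 1) * vc w := by
      rw [Qf, zc]
      simp only [one_mul, add_zero, norm_mul, Complex.norm_real, Real.norm_of_nonneg hv.le,
        norm_one]
      field_simp
    rw [h1, Real.log_mul (by positivity) hv.ne', vc, Real.log_exp]
    ring

/-- `act g` as a homeomorphism -/
def geo2_homeo (g : SL ℂ) : X ≃ₜ X where
  toFun := act g
  invFun := act g⁻¹
  left_inv := act_inv_act g
  right_inv := act_act_inv g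
  continuous_toFun := continuous_act g
  continuous_invFun := continuous_act g⁻¹

theorem geo2_emb (g : SL ℂ) : MeasurableEmbedding (act g) := (geo2_homeo g).measurableEmbedding

theorem measurePreserving_act (g : SL ℂ) : MeasurePreserving (act g) volume volume := by
  by_cases hc : g.c = 0
  · exact geo2_upper g hc
  · let U : SL ℂ := ⟨g.c, g.d, 0, g.c⁻¹, by rw [mul_inv_cancel₀ hc]; ring⟩
    have h1 : g = nn (g.a / g.c) * (SS * U) := by
      ext1 <;> simp [nn, SS, U]
      · field_simp
      · field_simp
        linear_combination -g.det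
    have h2 : act g = act (nn (g.a / g.c)) ∘ act SS ∘ act U := by
      funext w
      rw [Function.comp_apply, Function.comp_apply, ← act_mul SS, ← act_mul, ← h1]
    rw [h2]
    exact (geo2_upper _ rfl).comp (geo2_SS.comp (geo2_upper U rfl))

/-- `act g` is a homeomorphism (`act_inv_act`), so no measurability of `f` is needed
(`MeasurePreserving.integral_comp` with `MeasurableEmbedding`) -/
theorem integral_act (g : SL ℂ) (f : X → ℂ) : ∫ w, f (act g w) = ∫ w, f w :=
  (measurePreserving_act g).integral_comp (geo2_emb g) f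
theorem lintegral_act (g : SL ℂ) (f : X → ℝ≥0∞) : ∫⁻ w, f (act g w) = ∫⁻ w, f w :=
  (measurePreserving_act g).lintegral_comp_emb (geo2_emb g) f
theorem integrable_act (g : SL ℂ) {f : X → ℂ} (hf : Integrable f) :
    Integrable (fun w => f (act g w)) :=
  ((measurePreserving_act g).integrable_comp_emb (geo2_emb g)).2 hf

/-- `dvol = e^{-2x} dz dx`: Fubini, then `y = z e^{-x}` (`Measure.integral_comp_smul`,
`finrank ℝ ℂ = 2`); note `pt z (exp x) = (z / exp x, x)`. -/
theorem integral_X {f : X → ℂ} (hf : Integrable f) :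
    ∫ w, f w = ∫ x : ℝ, ((Real.exp (-2 * x) : ℝ) : ℂ) * ∫ z : ℂ, f (pt z (Real.exp x)) := by
  rw [Measure.volume_eq_prod] at hf ⊢
  rw [integral_prod_symm f hf]
  refine integral_congr_ae (Eventually.of_forall fun x => ?_)
  have hx := Real.exp_pos x
  have h1 := Measure.integral_comp_smul (volume : Measure ℂ) (fun y => f (y, x)) (Real.exp x)⁻¹
  have h2 : ∀ z : ℂ, pt z (Real.exp x) = ((Real.exp x)⁻¹ • z, x) := by
    intro z
    rw [pt, Real.log_exp, Complex.real_smul, Complex.ofReal_inv, div_eq_inv_mul]
  simp only [h2]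
  rw [h1, Complex.finrank_real_complex, abs_of_pos (by positivity), Complex.real_smul,
    ← mul_assoc, ← Complex.ofReal_mul]
  have h3 : Real.exp (-2 * x) * ((Real.exp x)⁻¹ ^ 2)⁻¹ = 1 := by
    rw [inv_pow, inv_inv, ← Real.exp_nat_mul, ← Real.exp_add]
    simp
  rw [h3, Complex.ofReal_one, one_mul]

/-- a measurable function bounded on a compact set and vanishing outside is integrable -/
theorem integrable_of_ball {f : X → ℂ} (hf : AEStronglyMeasurable f volume) (w : X) (R C : ℝ)
    (hb : ∀ w', uu w w' ≤ R → ‖f w'‖ ≤ C) (h0 : ∀ w', R < uu w w' → f w' = 0) :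
    Integrable f := by
  refine (integrableOn_iff_integrable_of_support_subset (s := {w' | uu w w' ≤ R}) ?_).1 ?_
  · intro w' hw'
    by_contra h
    exact hw' (h0 w' (not_le.1 h))
  · refine Measure.integrableOn_of_bounded (M := C) (isCompact_ball w R).measure_lt_top.ne hf ?_
    exact (ae_restrict_iff' (isCompact_ball w R).measurableSet).2 (Eventually.of_forall hb)

/-- the Siegel set `|z| ≤ 1, v ≥ 1/2` has finite volume: in the coordinates `(y,x)` it is
`{x ≥ -log 2, |y| ≤ e^{-x}}`, of volume `∫_{-log 2}^∞ π e^{-2x} dx`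
(`Measure.prod_apply_symm`/`lintegral_prod_symm`, `Complex.volume_closedBall`). -/
theorem volume_siegel : volume {w : X | 1 / 2 ≤ vc w ∧ ‖zc w‖ ≤ 1} < ⊤ := by
  have hm : MeasurableSet {w : X | 1 / 2 ≤ vc w ∧ ‖zc w‖ ≤ 1} :=
    ((isClosed_le continuous_const continuous_vc).inter
      (isClosed_le continuous_zc.norm continuous_const)).measurableSet
  rw [Measure.volume_eq_prod, Measure.prod_apply_symm hm]
  have h1 : IntegrableOn (fun x : ℝ => Real.pi * Real.exp (-2 * x)) (Set.Ioi (-1)) :=
    (exp_neg_integrableOn_Ioi (-1) two_pos).const_mul _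
  refine lt_of_le_of_lt ?_ h1.setLIntegral_lt_top
  rw [← lintegral_indicator measurableSet_Ioi]
  refine lintegral_mono fun x => ?_
  have hx := Real.exp_pos x
  by_cases h2 : x ∈ Set.Ioi (-1 : ℝ)
  · rw [Set.indicator_of_mem h2]
    refine le_trans (measure_mono (t := Metric.closedBall 0 (Real.exp (-x))) fun y hy => ?_) ?_
    · have h3 : ‖y * (Real.exp x : ℂ)‖ ≤ 1 := hy.2
      rw [norm_mul, Complex.norm_real, Real.norm_of_nonneg hx.le] at h3
      rw [mem_closedBall_zero_iff, Real.exp_neg, inv_eq_one_div, le_div_iff₀ hx]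
      exact h3
    · rw [Complex.volume_closedBall, ENNReal.ofReal_mul Real.pi_pos.le, mul_comm,
        ← ENNReal.ofReal_pow (Real.exp_pos _).le, ← Real.exp_nat_mul, ← NNReal.coe_real_pi,
        ENNReal.ofReal_coe_nnreal]
      refine le_of_eq ?_
      congr 3
      push_cast
      ring
  · refine le_trans (le_of_eq (measure_mono_null (t := ∅) (fun y hy => ?_) measure_empty))
      zero_le
    have h3 : 1 / 2 ≤ Real.exp x := hy.1
    have h4 : Real.exp x ≤ Real.exp (-1) := Real.exp_le_exp.2 (not_lt.1 h2)
    have h5 := Real.exp_neg_one_lt_d9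
    linarith

/-- polar coordinates (`integral_fun_norm_addHaar` or `Complex.integral_comp_polarCoord_symm`):
`2π ∫_0^∞ max 0 (2 - c - r²/2) r dr = π (max 0 (2 - c))²` -/
theorem integral_kk_norm (c : ℝ) :
    ∫ y : ℂ, kk (‖y‖ ^ 2 / 2 + c) = Real.pi * (max 0 (2 - c)) ^ 2 := by
  have h1 := integral_fun_norm_addHaar (volume : Measure ℂ) (fun r : ℝ => kk (r ^ 2 / 2 + c))
  rw [h1, Complex.finrank_real_complex, measureReal_def, Complex.volume_ball]
  simp only [ENNReal.ofReal_one, one_pow, one_mul, ENNReal.coe_toReal, NNReal.coe_real_pi,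
    Nat.add_one_sub_one, pow_one, smul_eq_mul, nsmul_eq_mul, Nat.cast_ofNat]
  rcases le_total 2 c with hc | hc
  · rw [max_eq_left (by linarith), setIntegral_eq_zero_of_forall_eq_zero]
    · simp
    · intro y _
      rw [kk_eq_zero (by nlinarith [sq_nonneg y]), mul_zero]
  · rw [max_eq_right (by linarith)]
    obtain ⟨R, hR0, hR⟩ : ∃ R : ℝ, 0 ≤ R ∧ R ^ 2 = 2 * (2 - c) :=
      ⟨Real.sqrt (2 * (2 - c)), Real.sqrt_nonneg _, Real.sq_sqrt (by linarith)⟩
    rw [setIntegral_eq_of_subset_of_forall_sdiff_eq_zero (s := Set.Ioc 0 R) measurableSet_Ioi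
      Set.Ioc_subset_Ioi_self, ← intervalIntegral.integral_of_le hR0,
      intervalIntegral.integral_congr (g := fun y => (2 - c) * y - 1 / 2 * y ^ 3)]
    · rw [intervalIntegral.integral_sub (by apply Continuous.intervalIntegrable; fun_prop)
        (by apply Continuous.intervalIntegrable; fun_prop), intervalIntegral.integral_const_mul,
        intervalIntegral.integral_const_mul, integral_id, integral_pow]
      have h2 : R ^ (3 + 1) = (R ^ 2) ^ 2 := by ring
      rw [h2, hR]
      push_cast
      ring
    · intro y hy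
      rw [Set.uIcc_of_le hR0] at hy
      have h2 : y ^ 2 ≤ R ^ 2 := pow_le_pow_left₀ hy.1 hy.2 2
      simp only [kk]
      rw [max_eq_right (by linarith)]
      ring
    · intro y hy
      have h2 : R < y := by
        by_contra h
        exact hy.2 ⟨hy.1, not_lt.1 h⟩
      have h3 : R ^ 2 ≤ y ^ 2 := pow_le_pow_left₀ hR0 h2.le 2
      rw [kk_eq_zero (by linarith), mul_zero]

/-- **`TX` on functions of the height.**  With `g` from `exists_act_o`, substitute `w' = g w''`
(`integral_act`, `uu_act`): `∫ kk (uu o w'') φ(v · vc w'')`.  Fubini (integrable by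
`integrable_of_ball`), `uu_o`, and `∫ kk (|y|² eˣ/2 + cosh x) dy = e^{-x} Qk x` by scaling
`y ↦ e^{x/2} y` and `integral_kk_norm`. -/
theorem TX_vc {φ : ℝ → ℂ} (hm : Measurable φ) (hb : LocBd φ) (w : X) :
    TX (fun w' => φ (vc w')) w = Tt φ (vc w) := by
  obtain ⟨g, -, hg, hv⟩ := exists_act_o w
  have hw := vc_pos w
  have h1 : TX (fun w' => φ (vc w')) w =
      ∫ w', (kk (uu o w') : ℂ) * φ (vc w * vc w') := by
    rw [TX, ← integral_act g]
    refine integral_congr_ae (Eventually.of_forall fun w' => ?_)
    simp only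
    rw [hv, ← uu_act g o w', hg]
  have hc : Continuous fun w' : X => uu o w' :=
    continuous_uu.comp (f := fun w' : X => (o, w')) (continuous_const.prodMk continuous_id)
  obtain ⟨C, hC⟩ := hb (vc w / 4) (vc w * 4) (by positivity)
  have h2 : Integrable (fun w' : X => (kk (uu o w') : ℂ) * φ (vc w * vc w')) := by
    refine integrable_of_ball (Measurable.aestronglyMeasurable ?_) o 2 C (fun w' hw' => ?_)
      (fun w' hw' => ?_)
    · exact (Complex.continuous_ofReal.comp (continuous_kk.comp hc)).measurable.mul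
        (hm.comp (continuous_const.mul continuous_vc).measurable)
    · obtain ⟨y, x⟩ := w'
      rw [norm_mul, Complex.norm_real, Real.norm_of_nonneg (kk_nonneg _)]
      refine (mul_le_of_le_one_left (norm_nonneg _) (kk_uu_le _ _)).trans ?_
      rw [uu_symm, uu_o, Real.cosh_eq] at hw'
      have e1 := Real.exp_pos x
      have e2 := Real.exp_pos (-x)
      have e5 : 0 ≤ ‖y‖ ^ 2 * Real.exp x := by positivity
      have e6 : Real.exp x * Real.exp (-x) = 1 := by rw [← Real.exp_add]; simp
      have e7 : 1 / 4 ≤ Real.exp x := by nlinarith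
      have e8 : vc (y, x) = Real.exp x := rfl
      rw [e8]
      refine hC _ (by nlinarith) (mul_le_mul_of_nonneg_left (by linarith) hw.le)
    · rw [kk_eq_zero hw'.le]
      simp
  rw [h1, Measure.volume_eq_prod] at *
  rw [integral_prod_symm _ h2, Tt]
  refine integral_congr_ae (Eventually.of_forall fun x => ?_)
  have e8 : ∀ y : ℂ, vc (y, x) = Real.exp x := fun _ => rfl
  simp only [e8]
  rw [integral_mul_const, integral_complex_ofReal]
  congr 2
  have h3 := Measure.integral_comp_smul (volume : Measure ℂ)
    (fun y => kk (‖y‖ ^ 2 / 2 + Real.cosh x)) (Real.exp (x / 2))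
  have h4 : Real.exp (x / 2) ^ 2 = Real.exp x := by
    rw [← Real.exp_nat_mul]
    congr 1
    push_cast
    ring
  rw [integral_kk_norm, Complex.finrank_real_complex, h4, abs_of_pos (by positivity),
    ← Real.exp_neg, smul_eq_mul, mul_comm] at h3
  rw [Qk, ← h3]
  refine integral_congr_ae (Eventually.of_forall fun y => ?_)
  simp only
  rw [uu_symm, uu_o, norm_smul, mul_pow, Real.norm_of_nonneg (Real.exp_pos _).le, h4, mul_comm]

/-- `∫ kk (uu w w') dw'` is finite and independent of `w` (`exists_act_o`, `lintegral_act`,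
`kk ≤ 1` supported in a compact ball) -/
theorem lintegral_kk : ∃ M : ℝ, 0 ≤ M ∧ ∀ w : X,
    ∫⁻ w', ENNReal.ofReal (kk (uu w w')) ≤ ENNReal.ofReal M := by
  refine ⟨(volume {w' : X | uu o w' ≤ 2}).toReal, ENNReal.toReal_nonneg, fun w => ?_⟩
  obtain ⟨g, -, hg, -⟩ := exists_act_o w
  rw [ENNReal.ofReal_toReal (isCompact_ball o 2).measure_lt_top.ne, ← lintegral_act g,
    ← lintegral_indicator_one (isCompact_ball o 2).measurableSet]
  refine lintegral_mono fun w' => ?_
  rw [← hg, uu_act]
  by_cases h : w' ∈ {w' : X | uu o w' ≤ 2}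
  · rw [Set.indicator_of_mem h]
    exact ENNReal.ofReal_le_one.2 (kk_uu_le _ _)
  · rw [kk_eq_zero (not_le.1 h).le]
    simp

end Crest.Agent.R17.Vor
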