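import Crest.Agent.R17.VoGeo1
import Crest.Agent.R17.RecKub

/-!
# R17 / VoGrp : Kubota's character on `Gam p`, conjugations, finite index, rows
-/

set_option autoImplicit false

noncomputable section

open scoped Classical ComplexConjugate Topology ENNReal InnerProductSpace
open MeasureTheory Filter

namespace Crest.Agent.R17.Vor

theorem Gam_le (p : O) : Gam p ≤ Gam 1 :=
  fun _ h => ⟨h.1, h.2.1, h.2.2.1, h.2.2.2.1, one_dvd _⟩
theorem kap_one : kap 1 = 1 := sym_one 3 _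
/-- `kubota` -/
theorem kap_mul {γ γ' : SL O} (h : γ ∈ Gam 1) (h' : γ' ∈ Gam 1) :
    kap (γ * γ') = kap γ * kap γ' :=
  kubota γ.det γ'.det h.1 h.2.1 h.2.2.1 h.2.2.2.1 h'.1 h'.2.1 h'.2.2.1 h'.2.2.2.1
theorem norm_kap {γ : SL O} (h : γ ∈ Gam 1) : ‖kap γ‖ = 1 :=
  (rcub_isChar h.2.2.2.1).norm_eq_one h.2.2.2.1.ne_zero (SL.isCoprime_row γ)
theorem kap_inv {γ : SL O} (h : γ ∈ Gam 1) : kap γ⁻¹ = conj (kap γ) := by
  have h1 := kap_mul (inv_mem h) h
  rw [inv_mul_cancel, kap_one] at h1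
  have h2 : conj (kap γ) * kap γ = 1 := by
    rw [Complex.conj_mul', norm_kap h]
    simp
  rw [eq_inv_of_mul_eq_one_left h1.symm, eq_inv_of_mul_eq_one_left h2]
theorem nn_mem_Gam {p x : O} : nn x ∈ Gam p ↔ (3 : O) ∣ x ∧ p ∣ x :=
  ⟨fun h => ⟨h.2.1, h.2.2.2.2⟩, fun h => ⟨Prim.one, h.1, dvd_zero _, Prim.one, h.2⟩⟩
theorem kap_nn (x : O) : kap (nn x) = 1 := sym_one 3 _
/-- `Γ(3)` is normal -/
theorem conj_mem_Gam (σ : SL O) {γ : SL O} (h : γ ∈ Gam 1) : σ * γ * σ⁻¹ ∈ Gam 1 := by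
  obtain ⟨⟨a, ha⟩, ⟨b, hb⟩, ⟨c, hc⟩, ⟨d, hd⟩, -⟩ := h
  have ha' : γ.a = 1 + 3 * a := by linear_combination ha
  have hd' : γ.d = 1 + 3 * d := by linear_combination hd
  refine ⟨⟨σ.a * a * σ.d + σ.b * c * σ.d - σ.a * b * σ.c - σ.b * d * σ.c, ?_⟩,
    ⟨-σ.a * σ.b * a - σ.b ^ 2 * c + σ.a ^ 2 * b + σ.a * σ.b * d, ?_⟩,
    ⟨σ.c * σ.d * a + σ.d ^ 2 * c - σ.c ^ 2 * b - σ.c * σ.d * d, ?_⟩,
    ⟨-σ.c * σ.b * a - σ.d * σ.b * c + σ.c * σ.a * b + σ.d * σ.a * d, ?_⟩, one_dvd _⟩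
  all_goals simp only [SL.mul_a, SL.mul_b, SL.mul_c, SL.mul_d, SL.inv_a, SL.inv_b, SL.inv_c,
    SL.inv_d, ha', hb, hc, hd']
  · linear_combination σ.det
  · ring
  · ring
  · linear_combination σ.det
/-- `S γ S⁻¹ = (d, -c; -b, a)`, so the claim is `cub a b = cub d c`: `cub a b · cub a c =
cub a (bc) = cub a (-1) = 1` and `cub a c · cub d c = cub (1 + bc) c = cub 1 c = 1`
(`cub_congr_three_mul`). -/
theorem kap_conj_SS {γ : SL O} (h : γ ∈ Gam 1) : kap (SS * γ * SS⁻¹) = kap γ := by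
  obtain ⟨ha, hb, hc, hd, -⟩ := h
  have h1 : kap (SS * γ * SS⁻¹) = cub γ.a (-1 * γ.b) := by simp [kap, SS]
  have h2 : cub γ.a (-1) = 1 := cub_neg_one ha.isCoprime_three
  have h3 : cub γ.a γ.b * cub γ.a γ.c = 1 := by
    rw [← (rcub_isChar ha).mul, ← h2]
    exact rkub_congr ⟨γ.d, by linear_combination -γ.det⟩
  have h4 : cub γ.d γ.c * cub γ.a γ.c = 1 := by
    rw [← rkub_mul_left hd ha, cub_congr_three_mul (hd.mul ha) Prim.one hc]
    · exact sym_one 3 _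
    · obtain ⟨b, hb⟩ := hb
      exact ⟨b, by linear_combination γ.det + γ.c * hb⟩
  rw [h1, (rcub_isChar ha).mul, h2, one_mul, kap, eq_inv_of_mul_eq_one_left h3,
    eq_inv_of_mul_eq_one_left h4]
/-- `σ n(9t) σ⁻¹ = (1 - 9tac, 9ta²; -9tc², 1 + 9tac)`; `cub_congr` with `d' = 1` (`tc ≠ 0`),
otherwise `d = 1` -/
theorem kap_conj_nn (σ : SL O) (t : O) :
    σ * nn (9 * t) * σ⁻¹ ∈ Gam 1 ∧ kap (σ * nn (9 * t) * σ⁻¹) = 1 := by
  have h1 : σ * nn (9 * t) * σ⁻¹ ∈ Gam 1 :=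
    conj_mem_Gam σ (nn_mem_Gam.2 ⟨⟨3 * t, by ring⟩, one_dvd _⟩)
  refine ⟨h1, ?_⟩
  have hc : (σ * nn (9 * t) * σ⁻¹).c = -(9 * t * σ.c * σ.c) := by
    simp only [SL.mul_c, SL.mul_d, SL.inv_a, SL.inv_c, nn]
    ring
  have hd : (σ * nn (9 * t) * σ⁻¹).d - 1 = 9 * t * σ.c * σ.a := by
    simp only [SL.mul_c, SL.mul_d, SL.inv_b, SL.inv_d, nn]
    linear_combination σ.det
  by_cases h0 : 9 * t * σ.c * σ.c = 0
  · have h2 : 9 * t * σ.c = 0 := by
      rcases mul_eq_zero.1 h0 with h | h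
      · exact h
      · rw [h, mul_zero]
    rw [h2, zero_mul, sub_eq_zero] at hd
    rw [kap, hd]
    exact sym_one 3 _
  · rw [kap, cub_congr h1.2.2.2.1 Prim.one (by rw [hc]; exact neg_ne_zero.2 h0)
      (by rw [hd]; exact ⟨t * σ.c * σ.a, by ring⟩)]
    · exact sym_one 3 _
    · intro r hr h
      rw [hc, dvd_neg] at h
      rw [hd]
      rcases hr.dvd_or_dvd h with h | h
      · exact h.mul_right _
      · exact (h.mul_left _).mul_right _
/-- if the cusp `δ⁻¹∞` has width `ℓ`, `kap` is trivial on its stabiliser whenever `κ ≠ 0`; we only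
need the following form: a row fixed by `γ` -/
theorem Equi.kap_eq_one {p : O} {κ : O → O → ℂ} (he : Equi p κ) {γ : SL O} (hγ : γ ∈ Gam p)
    {c d : O} (h0 : κ c d ≠ 0) (h1 : c * γ.a + d * γ.c = c) (h2 : c * γ.b + d * γ.d = d) :
    kap γ = 1 := by
  have h := he γ hγ c d
  rw [h1, h2] at h
  exact (mul_eq_left₀ h0).1 h.symm

/-- matrices congruent modulo `3p` lie in the same coset; choose one matrix for each of the finitely
many residue patterns in `res (3p)⁴` (`exists_res`) -/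
theorem finite_index {p : O} (hp : p ≠ 0) :
    ∃ T : Finset (SL O), ∀ g : SL O, ∃ γ ∈ Gam p, ∃ σ ∈ T, g = γ * σ := by
  have hq : 3 * p ≠ 0 := mul_ne_zero (by norm_num) hp
  let f : SL O → O × O × O × O := fun g =>
    (g.a % (3 * p), g.b % (3 * p), g.c % (3 * p), g.d % (3 * p))
  refine ⟨(res (3 * p) ×ˢ res (3 * p) ×ˢ res (3 * p) ×ˢ res (3 * p)).image (Function.invFun f),
    fun g => ?_⟩
  have h1 : f (Function.invFun f (f g)) = f g := Function.invFun_eq ⟨g, rfl⟩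
  refine ⟨g * (Function.invFun f (f g))⁻¹, ?_, Function.invFun f (f g), ?_, by simp⟩
  · obtain ⟨σ, hσ⟩ : ∃ σ, σ = Function.invFun f (f g) := ⟨_, rfl⟩
    rw [← hσ] at h1 ⊢
    simp only [f, Prod.mk.injEq] at h1
    have key : ∀ x y : O, y % (3 * p) = x % (3 * p) → ∃ t, x = y + 3 * p * t := by
      intro x y h
      obtain ⟨s, hs⟩ := b4_dvd_sub_mod (3 * p) x
      obtain ⟨t, ht⟩ := b4_dvd_sub_mod (3 * p) y
      exact ⟨s - t, by linear_combination hs - ht - h⟩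
    obtain ⟨a, ha⟩ := key _ _ h1.1
    obtain ⟨b, hb⟩ := key _ _ h1.2.1
    obtain ⟨c, hc⟩ := key _ _ h1.2.2.1
    obtain ⟨d, hd⟩ := key _ _ h1.2.2.2
    refine ⟨⟨p * (a * σ.d - b * σ.c), ?_⟩, ⟨p * (b * σ.a - a * σ.b), ?_⟩,
      ⟨p * (c * σ.d - d * σ.c), ?_⟩, ⟨p * (d * σ.a - c * σ.b), ?_⟩, ⟨3 * (b * σ.a - a * σ.b), ?_⟩⟩
    all_goals simp only [SL.mul_a, SL.mul_b, SL.mul_c, SL.mul_d, SL.inv_a, SL.inv_b, SL.inv_c,
      SL.inv_d, ha, hb, hc, hd]
    · linear_combination σ.det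
    · ring
    · ring
    · linear_combination σ.det
    · ring
  · refine Finset.mem_image_of_mem _ ?_
    simp only [f, Finset.mem_product]
    exact ⟨b4_mod_mem_res hq _, b4_mod_mem_res hq _, b4_mod_mem_res hq _, b4_mod_mem_res hq _⟩

/-- `uu_act_o`, `norm_toC_sq`, `mem_ball` -/
theorem finite_uu (R : ℝ) : {g : SL O | uu (act (ι g) o) o ≤ R}.Finite := by
  let B : Finset O := insert 0 (ball (2 * R))
  have hB : ∀ x : O, N x ≤ 2 * R → x ∈ B := by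
    intro x hx
    by_cases h : x = 0
    · exact Finset.mem_insert.2 (Or.inl h)
    · exact Finset.mem_insert_of_mem (mem_ball.2 ⟨h, hx⟩)
  refine Set.Finite.of_injOn (f := fun g : SL O => (g.a, g.b, g.c, g.d))
    (t := ((B ×ˢ B ×ˢ B ×ˢ B : Finset _) : Set _)) (fun g hg => ?_) (fun g _ h _ e => ?_)
    (Finset.finite_toSet _)
  · have h1 : uu (act (ι g) o) o ≤ R := hg
    rw [uu_act_o] at h1
    simp only [ι_a, ι_b, ι_c, ι_d, norm_toC_sq] at h1
    have a1 := N_nonneg g.a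
    have a2 := N_nonneg g.b
    have a3 := N_nonneg g.c
    have a4 := N_nonneg g.d
    simp only [Finset.mem_coe, Finset.mem_product]
    exact ⟨hB _ (by linarith), hB _ (by linarith), hB _ (by linarith), hB _ (by linarith)⟩
  · simp only [Prod.mk.injEq] at e
    exact SL.ext e.1 e.2.1 e.2.2.1 e.2.2.2

/-- bounded multiplicity: if `g₁ w'` lies in the ball, every other `g` with `g w'` in the ball has
`uu (g g₁⁻¹ o) o ≤ R'(R)` by `uu_le`, `uu_act` -/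
theorem card_ball_bound (R : ℝ) : ∃ M : ℕ, ∀ w' : X,
    {g : SL O | uu (act (ι g) w') o ≤ R}.Finite ∧
    {g : SL O | uu (act (ι g) w') o ≤ R}.ncard ≤ M := by
  refine ⟨{g : SL O | uu (act (ι g) o) o ≤ 2 * R * R}.ncard, fun w' => ?_⟩
  rcases Set.eq_empty_or_nonempty {g : SL O | uu (act (ι g) w') o ≤ R} with h | ⟨g₁, h₁⟩
  · rw [h]
    simp
  · have h1 : uu (act (ι g₁) w') o ≤ R := h₁
    have hm : Set.MapsTo (fun g : SL O => g * g₁⁻¹) {g : SL O | uu (act (ι g) w') o ≤ R}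
        {g : SL O | uu (act (ι g) o) o ≤ 2 * R * R} := by
      intro g hg
      have h2 : uu (act (ι g) w') o ≤ R := hg
      have h3 : uu (act (ι (g * g₁⁻¹)) o) (act (ι g) w') ≤ R := by
        have : act (ι g) w' = act (ι (g * g₁⁻¹)) (act (ι g₁) w') := by
          rw [← act_mul, ← map_mul, inv_mul_cancel_right]
        rw [this, uu_act, uu_symm]
        exact h1
      have h4 := one_le_uu (act (ι g) w') o
      refine (uu_le _ (act (ι g) w') _).trans ?_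
      exact mul_le_mul (by linarith) h2 (by linarith) (by linarith)
    have hi : Set.InjOn (fun g : SL O => g * g₁⁻¹) {g : SL O | uu (act (ι g) w') o ≤ R} :=
      (mul_left_injective g₁⁻¹).injOn
    exact ⟨Set.Finite.of_injOn hm hi (finite_uu _),
      Set.ncard_le_ncard_of_injOn _ hm hi (finite_uu _)⟩

/-- completing a row inside `Gam p`: solve `a d ≡ 1 mod 3pc` -/
theorem exists_Gam_row {p c d : O} (hc : (3 : O) ∣ c) (hd : Prim d) (hcd : IsCoprime c d)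
    (hpd : IsCoprime p d) : ∃ γ ∈ Gam p, γ.c = c ∧ γ.d = d := by
  obtain ⟨u, v, h⟩ := (hd.isCoprime_three.mul_right hpd.symm).mul_right hcd.symm
  refine ⟨⟨u, -(3 * p * v), c, d, by linear_combination h⟩,
    ⟨?_, ⟨-(p * v), by ring⟩, hc, hd, ⟨-(3 * v), by ring⟩⟩, rfl, rfl⟩
  refine Prim.of_mul_left (a := d) ⟨-(p * c * v), ?_⟩ hd
  change d * u - 1 = _
  linear_combination h

/-- two elements with the same bottom row differ by a translation -/
theorem exists_nn_of_row {g h : SL O} (hc : g.c = h.c) (hd : g.d = h.d) :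
    ∃ x : O, g = nn x * h := by
  refine ⟨g.b * h.a - g.a * h.b, SL.ext ?_ ?_ ?_ ?_⟩
  all_goals simp only [SL.mul_a, SL.mul_b, SL.mul_c, SL.mul_d, nn, ← hc, ← hd]
  · have h1 := h.det
    rw [← hc, ← hd] at h1
    linear_combination h.a * g.det - g.a * h1
  · have h1 := h.det
    rw [← hc, ← hd] at h1
    linear_combination h.b * g.det - g.b * h1
  · ring
  · ring

/-- **double cosets** `Γ(3) \ SL₂(O) / B`.  If `a` is coprime to `3` take a unit `u` with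
`ua ≡ 1 (3)` (`exists_unit_mul_prim`), `x = uc`; the matrix `σ · (u, y; 0, u⁻¹)` is `≡ LL x` for a
suitable `y`.  Otherwise `λ ∣ a`, `c` is coprime to `3`, `uc ≡ 1`, `x = ua`, and one gets `UU x`. -/
theorem decomp (σ : SL O) : ∃ γ ∈ Gam 1, ∃ (x : O) (T : SL O), T.c = 0 ∧
    (σ = γ * LL x * T ∨ σ = γ * UU x * T) := by
  by_cases ha : lam ∣ σ.a
  · have hc : ¬ lam ∣ σ.c := by
      intro hc
      have : lam ∣ 1 := σ.det ▸ dvd_sub (ha.mul_right _) (hc.mul_left _)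
      exact prime_lam.not_dvd_one this
    obtain ⟨u, hu, k, hk⟩ := b1_exists_unit hc
    obtain ⟨v, hv⟩ := hu.exists_right_inv
    let T : SL O := ⟨v, σ.d, 0, u, by linear_combination hv⟩
    refine ⟨σ * T⁻¹ * (UU (u * σ.a))⁻¹, ⟨⟨k * σ.b * v, ?_⟩, ⟨-(k * σ.a * σ.b), ?_⟩,
      ⟨k * σ.d * v, ?_⟩, ⟨k - k * σ.a * σ.d, ?_⟩, one_dvd _⟩, u * σ.a, T, rfl, Or.inr (by simp)⟩
    all_goals simp only [SL.mul_a, SL.mul_b, SL.mul_c, SL.mul_d, SL.inv_a, SL.inv_b, SL.inv_c,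
      SL.inv_d, UU, T]
    · linear_combination σ.det + σ.b * v * hk - σ.b * σ.c * hv
    · linear_combination -u * σ.a * σ.det - σ.a * σ.b * hk + σ.a * σ.b * hv
    · linear_combination σ.d * v * hk - σ.c * σ.d * hv
    · linear_combination (1 - σ.a * σ.d) * hk + σ.a * σ.d * hv
  · obtain ⟨u, hu, k, hk⟩ := b1_exists_unit ha
    obtain ⟨v, hv⟩ := hu.exists_right_inv
    let T : SL O := ⟨v, σ.b, 0, u, by linear_combination hv⟩
    refine ⟨σ * T⁻¹ * (LL (u * σ.c))⁻¹, ⟨⟨k + k * σ.b * σ.c, ?_⟩, ⟨-(k * σ.b * v), ?_⟩,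
      ⟨k * σ.c * σ.d, ?_⟩, ⟨-(k * σ.d * v), ?_⟩, one_dvd _⟩, u * σ.c, T, rfl, Or.inl (by simp)⟩
    all_goals simp only [SL.mul_a, SL.mul_b, SL.mul_c, SL.mul_d, SL.inv_a, SL.inv_b, SL.inv_c,
      SL.inv_d, LL, T]
    · linear_combination (1 + σ.b * σ.c) * hk - σ.b * σ.c * hv
    · linear_combination -σ.b * v * hk + σ.a * σ.b * hv
    · linear_combination -u * σ.c * σ.det + σ.c * σ.d * hk - σ.c * σ.d * hv
    · linear_combination σ.det - σ.d * v * hk + σ.a * σ.d * hv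

end Crest.Agent.R17.Vor
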