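import Crest.Agent.R17.VoLink
import Crest.Agent.R17.VoHecke1

/-!
# R17 / VoHecke2 : the Hecke relation `θ¹ = q θ⁰`

`θ⁰ = thK (kp (p ∣ ·))`, `θ¹ = thK (kp (¬ p ∣ ·))`, `D = θ¹ - q θ⁰ ∈ Eig p` (`theta_main`).  Let
`HasRes (DS 3 k0 0) r` (`hasRes_DS` with `σ = 1`, `tr_one`, `rowFn_k0.p3`).  By `coef_thK`,
`hasRes_phiP` and the identities of `VoHecke1`, the constant terms of `D` vanish at both cusps:
at `σ = 1`, `ℓ = 3p`: `(q r - q r/(q+1)) - q · q r/(q+1) = 0`; at `σ = δ⁻¹`, `ℓ = 3`: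
`kap δ (q r/(q+1) - q (r - q r/(q+1))) = 0` (`coef_sub`, `coef_const_mul`; periodicity from
`per_kp`, `tr_delta_*`).  `theta_orth` for both cusps gives `∫ conj D · D = 0`, so `D = 0`.
Since `theta = θ⁰ + θ¹` (`k0_eq_add`, `Eis_add_left`, `HasRes.add`, uniqueness), `θ¹ = q/(q+1) θ`.
Compare the coefficients at `S` (`coef_thK`, `DS_SS`, `coef_theta_SS`, `Vr_pos`).
-/

set_option autoImplicit false

noncomputable section

open scoped Classical ComplexConjugate Topology ENNReal InnerProductSpace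
open MeasureTheory Filter

namespace Crest.Agent.R17.Vor

theorem VoHecke2_coef {F G : X → ℂ} (hF : Continuous F) (hG : Continuous G) (a : ℂ) (g : SL ℂ)
    (ℓ n : O) (v : ℝ) :
    coef ℓ n v (fun w => F (act g w) - a * G (act g w)) =
      coef ℓ n v (fun w => F (act g w)) - a * coef ℓ n v (fun w => G (act g w)) := by
  rw [coef_sub (F := fun w => F (act g w)) (G := fun w => a * G (act g w))
    (hF.comp (continuous_act g)) (continuous_const.mul (hG.comp (continuous_act g))),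
    coef_const_mul a (fun w => G (act g w))]

theorem VoHecke2_q {p : O} : (N p : ℂ) + 1 ≠ 0 := by
  have := N_nonneg p
  have h : (0 : ℝ) < N p + 1 := by linarith
  exact_mod_cast h.ne'

theorem hecke_theta {p : O} (hp : Prime p) (hp' : Prim p) (w : X) :
    thK (kp (fun d => ¬ p ∣ d)) w = (N p : ℂ) * thK (kp (fun d => p ∣ d)) w :=
by
  have hp0 := hp.ne_zero
  have h3 : (3 : O) ≠ 0 := va2_ne (Or.inl rfl)
  have h3p : 3 * p ≠ 0 := mul_ne_zero h3 hp0
  have hq := VoHecke2_q (p := p)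
  set κ0 := kp (fun d => p ∣ d) with hκ0
  set κ1 := kp (fun d => ¬ p ∣ d) with hκ1
  have b0 : RowBd κ0 := rowBd_kp _
  have b1 : RowBd κ1 := rowBd_kp _
  have e0 : Equi p κ0 := equi_dvd p
  have e1 : Equi p κ1 := equi_not_dvd p
  have E0 := (theta_main hp0 b0 e0).1
  have E1 := (theta_main hp0 b1 e1).1
  have ED : Eig p (fun w => thK κ1 w - (N p : ℂ) * thK κ0 w) := E1.sub (E0.const_mul _)
  obtain ⟨r, hr⟩ := hasRes_DS one_ne_zero (rowBd_kp _) (equi_k0 1) 1 h3
    (by rw [tr_one]; exact rowFn_k0.p3) 0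
  rw [tr_one] at hr
  replace hr : HasRes (DS 3 k0 0) r := hr
  have hφ := hasRes_phiP hp hp' hr
  have hd : ∀ d t : O, p ∣ d + p * t ↔ p ∣ d := fun d t =>
    (dvd_add_left (dvd_mul_right p t))
  -- the cusp `1`
  have z1 : ∀ v, 0 < v → coef (3 * p) 0 v
      (fun w => (fun w => thK κ1 w - (N p : ℂ) * thK κ0 w) (act (ι (1 : SL O)⁻¹) w)) = 0 := by
    intro v hv
    rw [inv_one]
    beta_reduce
    rw [VoHecke2_coef E1.cont E0.cont,
      coef_thK hp0 b0 e0 1 h3p (by rw [tr_one]; exact per_kp hd)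
        (r := (N p : ℂ) / (N p + 1) * r) (by
          rw [tr_one]; exact hφ.congr fun s _ _ => (DS_dvd hp hp' s).symm) hv,
      coef_thK hp0 b1 e1 1 h3p (by rw [tr_one]; exact per_kp fun d t => not_congr (hd d t))
        (r := (N p : ℂ) * r - (N p : ℂ) / (N p + 1) * r) (by
          rw [tr_one]
          exact ((hr.const_mul _).sub hφ).congr fun s _ hs => (DS_not_dvd hp hp' hs).symm) hv]
    field_simp
    ring
  obtain ⟨δ, hδ, -, hδd, hc0⟩ := cusp_dvd hp'
  have hC : ∀ C D t : O, k0 C (D + 3 * C * t) = k0 C D := rowFn_k0.p3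
  have z0 : ∀ v, 0 < v → coef 3 0 v
      (fun w => (fun w => thK κ1 w - (N p : ℂ) * thK κ0 w) (act (ι δ⁻¹) w)) = 0 := by
    intro v hv
    beta_reduce
    rw [VoHecke2_coef E1.cont E0.cont,
      coef_thK hp0 b0 e0 δ⁻¹ h3 (fun C D t => by
          rw [tr_delta_dvd hp hδ hδd, tr_delta_dvd hp hδ hδd, hC])
        (r := kap δ * (r - (N p : ℂ) / (N p + 1) * r))
        (((hr.sub hφ).const_mul _).congr fun s _ hs => (DS_delta_dvd hp hδ hδd hs).symm) hv,
      coef_thK hp0 b1 e1 δ⁻¹ h3 (fun C D t => by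
          rw [tr_delta_not_dvd hp hδ hδd, tr_delta_not_dvd hp hδ hδd, hC])
        (r := kap δ * ((N p : ℂ) / (N p + 1) * r))
        ((hφ.const_mul _).congr fun s _ _ => (DS_delta_not_dvd hp hδ hδd s).symm) hv]
    field_simp
    ring
  have o1 := theta_orth hp0 b1 e1 (cusp_not_dvd hp hp') ED z1
  have o0 := theta_orth hp0 b0 e0 hc0 ED z0
  have hz := ED.eq_zero (by
    have : (fun w => conj (thK κ1 w - (N p : ℂ) * thK κ0 w) * (thK κ1 w - (N p : ℂ) * thK κ0 w)) =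
        fun w => conj (thK κ1 w) * (thK κ1 w - (N p : ℂ) * thK κ0 w) -
          conj (N p : ℂ) * (conj (thK κ0 w) * (thK κ1 w - (N p : ℂ) * thK κ0 w)) := by
      funext w
      rw [map_sub, map_mul]; ring
    beta_reduce
    rw [this, integral_sub (E1.integrable_mul ED) ((E0.integrable_mul ED).const_mul _),
      integral_const_mul, o1, o0, mul_zero, sub_zero]) w
  exact sub_eq_zero.1 hz

theorem theta_eq_add {p : O} (hp : p ≠ 0) (w : X) :
    theta w = thK (kp (fun d => p ∣ d)) w + thK (kp (fun d => ¬ p ∣ d)) w :=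
by
  have b0 : RowBd (kp (fun d => p ∣ d)) := rowBd_kp _
  have b1 : RowBd (kp (fun d => ¬ p ∣ d)) := rowBd_kp _
  have h0 := (theta_main hp b0 (equi_dvd p)).2.1 w
  have h1 := (theta_main hp b1 (equi_not_dvd p)).2.1 w
  refine HasRes.res43_eq ((h0.add h1).congr fun s _ hs => ?_)
  rw [k0_eq_add p, Eis_add_left b0 b1 (adm_pw hs)]

theorem hasRes_psiP {p : O} (hp : Prime p) (hp' : Prim p) (r : O) :
    HasRes (psi (fun c => ¬ p ∣ c) r) ((N p : ℂ) / (N p + 1) * rho0 r) :=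
by
  have hp0 := hp.ne_zero
  have h3 : (3 : O) ≠ 0 := va2_ne (Or.inl rfl)
  have hq := VoHecke2_q (p := p)
  have b1 : RowBd (kp (fun d => ¬ p ∣ d)) := rowBd_kp _
  have e9 : 9 * (lam ^ 2 * r) = r * lam ^ 3 * lam ^ 3 := by
    have : lam ^ 2 = -3 := lam_sq
    linear_combination (-(r * lam ^ 2 * (lam ^ 2 - 3))) * this
  obtain ⟨ρ, hρ⟩ := hasRes_DS hp0 b1 (equi_not_dvd p) SS h3 (per_SS _) (lam ^ 2 * r)
  have c1 := coef_thK hp0 b1 (equi_not_dvd p) SS h3 (per_SS _) hρ one_pos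
  have c2 := coef_theta_SS (lam ^ 2 * r) one_pos
  rw [e9, rho0_lam_cube', rho0_lam_cube'] at c2
  have c3 : (fun w => thK (kp (fun d => ¬ p ∣ d)) (act (ι SS) w)) =
      fun w => (N p : ℂ) / (N p + 1) * theta (act (ι SS) w) := by
    funext w
    rw [theta_eq_add hp0, hecke_theta hp hp']
    field_simp
    ring
  rw [c3, coef_const_mul _ (fun w => theta (act (ι SS) w)), c2] at c1
  have hV : (((1 : ℝ) ^ (2 / 3 : ℝ) * Vr (‖toC (lam ^ 2 * r) / toC 3‖ * 1) : ℝ) : ℂ) ≠ 0 := by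
    have := Vr_pos (‖toC (lam ^ 2 * r) / toC 3‖ * 1)
    rw [Real.one_rpow, one_mul]
    exact_mod_cast this.ne'
  have : ρ = (N p : ℂ) / (N p + 1) * rho0 r := by
    apply mul_left_cancel₀ hV
    rw [← c1]; ring
  rw [← this]
  refine hρ.congr fun s _ _ => ?_
  rw [DS_SS, e9, psi_lam_cube, psi_lam_cube]

end Crest.Agent.R17.Vor
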