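import Crest.Agent.R17.VoEis
import Crest.Agent.R17.VoCell

/-!
# R17 / VoUnf : unfolding an incomplete Eisenstein series against an automorphic function

Put `Ψ(w) = 1_{cell ℓ}(zc (δ w)) · conj φ(vc (δ w)) · D w`.  It is measurable, bounded and supported
in a ball (`zc (δ w)` bounded, `vc (δ w) ∈ [2,50]`), so integrable (`integrable_of_ball`).
*Pointwise*: `conj κ(row δ) · ∑_{γ ∈ Gam p} Ψ(γ w) = conj (Eis κ φ w) · D w`.  Indeed
`conj κ(row δ) D(γ w) = conj κ(row (δγ)) D w` (`Equi`, `Aut`), `vc (δγ w) = hr w (row (δγ))`, and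
the sum is finite (`card_ball_bound`); group it along the fibres of `γ ↦ row (δγ)`
(`HasSum.sigma`/`tsum_fiberwise`, or `Finset.sum_fiberwise`): the fibre through `γ₀` is
`{δ⁻¹ n(ℓ t) δ γ₀}` (`exists_nn_of_row`, `Cusp.stab`), on which `zc` runs through
`zc (δγ₀ w) + ℓ t`, and exactly one of them lies in `cell ℓ` (`existsUnique_cell`); rows outside
the image have `κ = 0` (`Cusp.supp`).  An equivalent way: the map
`{γ ∈ Gam p : zc (δγ w) ∈ cell ℓ} → O × O`, `γ ↦ row (δγ)` is injective with image containing the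
support of `κ` (`Function.Injective.tsum_eq`).  Then `unfold_integral`, `integral_act δ⁻¹`,
`integral_X` give `∫ Ψ = ∫ e^{-2x} conj φ(eˣ) coef ℓ 0 (eˣ) (D ∘ δ⁻¹) dx = 0`.
-/

set_option autoImplicit false

noncomputable section

open scoped Classical ComplexConjugate Topology ENNReal InnerProductSpace
open MeasureTheory Filter

namespace Crest.Agent.R17.Vor

theorem unf_tsum {p : O} {κ : O → O → ℂ} {δ : SL O} {ℓ : O} (hc : Cusp p κ δ ℓ) (w : X)
    {G : O × O → ℂ} (hG : ∀ r, G r ≠ 0 → κ r.1 r.2 ≠ 0) :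
    ∑' γ : Gam p, (if zc (act (ι (δ * γ)) w) ∈ cell ℓ then G ((δ * γ).c, (δ * γ).d) else 0) =
      ∑' r, G r := by
  have hz : ∀ (x : O) (g : SL O), zc (act (ι (nn x * g)) w) = zc (act (ι g) w) + toC x := by
    intro x g
    rw [map_mul, act_mul, ι_nn, zc_act_nn]
  have h1 := tsum_subtype {γ : Gam p | zc (act (ι (δ * γ)) w) ∈ cell ℓ}
    fun γ => G ((δ * γ).c, (δ * γ).d)
  simp only [Set.indicator_apply, Set.mem_ofPred_eq] at h1
  rw [← h1]
  refine Function.Injective.tsum_eq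
    (g := fun γ : {γ : Gam p | zc (act (ι (δ * γ)) w) ∈ cell ℓ} => ((δ * γ.1).c, (δ * γ.1).d)) ?_ ?_
  · rintro ⟨γ₁, h₁⟩ ⟨γ₂, h₂⟩ h
    simp only [Prod.mk.injEq] at h
    obtain ⟨x, hx⟩ := exists_nn_of_row h.1 h.2
    have h2 : δ⁻¹ * nn x * δ = γ₁.1 * (γ₂.1)⁻¹ := by
      rw [eq_mul_inv_iff_mul_eq, mul_assoc, mul_assoc, ← hx, inv_mul_cancel_left]
    obtain ⟨t, rfl⟩ := (hc.stab x).1 (h2 ▸ mul_mem γ₁.2 (inv_mem γ₂.2))
    rw [Set.mem_ofPred_eq] at h₁ h₂
    rw [hx, hz] at h₁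
    have h3 : t = 0 := (existsUnique_cell hc.ne _).unique h₁ (by simpa using h₂)
    have h4 : nn (ℓ * t) = 1 := by rw [h3, mul_zero]; rfl
    rw [h4, one_mul] at hx
    exact Subtype.ext (Subtype.ext (mul_left_cancel hx))
  · rintro ⟨c, d⟩ hr'
    obtain ⟨γ, hγ, h2, h3⟩ := hc.supp c d (hG _ hr')
    obtain ⟨t, ht, -⟩ := existsUnique_cell hc.ne (zc (act (ι (δ * γ)) w))
    have h4 : δ * (δ⁻¹ * nn (ℓ * t) * δ * γ) = nn (ℓ * t) * (δ * γ) := by group
    refine ⟨⟨⟨δ⁻¹ * nn (ℓ * t) * δ * γ, mul_mem ((hc.stab _).2 (dvd_mul_right _ _)) hγ⟩, ?_⟩, ?_⟩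
    · rw [Set.mem_ofPred_eq, h4, hz]
      exact ht
    · simp only [h4]
      rw [← h2, ← h3]
      simp [nn]

theorem pairing_zero {p : O} {κ : O → O → ℂ} (he : Equi p κ) {δ : SL O} {ℓ : O}
    (hc : Cusp p κ δ ℓ) {φ : ℝ → ℂ} (hm : Measurable φ) {C : ℝ} (hb : ∀ v, 0 < v → ‖φ v‖ ≤ C)
    (h0 : ∀ v, 0 < v → v < 2 ∨ 50 < v → φ v = 0) {D : X → ℂ} (hD : Continuous D) (hA : Aut p D)
    (hz : ∀ v, 0 < v → coef ℓ 0 v (fun w => D (act (ι δ⁻¹) w)) = 0) :
    ∫ w, conj (Eis κ φ w) * D w ∂(nu p) = 0 := by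
  obtain ⟨Ψ, hΨ⟩ : ∃ Ψ : X → ℂ, Ψ = fun w =>
    if zc w ∈ cell ℓ then conj (φ (vc w)) * D (act (ι δ⁻¹) w) else 0 := ⟨_, rfl⟩
  have hD' : Continuous fun w => D (act (ι δ⁻¹) w) := hD.comp (continuous_act _)
  have hΨm : Measurable Ψ := by
    rw [hΨ]
    exact Measurable.ite (continuous_zc.measurable (measurableSet_cell ℓ))
      ((Complex.continuous_conj.measurable.comp (hm.comp continuous_vc.measurable)).mul hD'.measurable)
      measurable_const
  have hΨi : Integrable Ψ := by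
    obtain ⟨B, hB⟩ := (isCompact_ball o ((2 * ‖toC ℓ‖) ^ 2 + 50 ^ 2 + 1)).exists_bound_of_continuousOn
      hD'.continuousOn
    have hC : 0 ≤ C := (norm_nonneg _).trans (hb 1 one_pos)
    refine integrable_of_ball hΨm.aestronglyMeasurable o ((2 * ‖toC ℓ‖) ^ 2 + 50 ^ 2 + 1) (C * B)
      (fun w hw => ?_) fun w hw => ?_
    · have h1 := hB w hw
      rw [hΨ]
      dsimp only
      split_ifs
      · rw [norm_mul, Complex.norm_conj]
        exact mul_le_mul (hb _ (vc_pos w)) h1 (norm_nonneg _) hC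
      · rw [norm_zero]
        exact mul_nonneg hC ((norm_nonneg _).trans h1)
    · rw [hΨ]
      dsimp only
      split_ifs with h1
      · rw [h0 _ (vc_pos w), map_zero, zero_mul]
        by_contra h2
        push Not at h2
        have h3 : ‖zc w‖ ^ 2 ≤ (2 * ‖toC ℓ‖) ^ 2 :=
          pow_le_pow_left₀ (norm_nonneg _) (norm_le_of_mem_cell h1) 2
        have h4 : vc w ^ 2 ≤ 50 ^ 2 := pow_le_pow_left₀ (vc_pos w).le h2.2 2
        rw [uu_symm, geo1_uu_o, lt_div_iff₀ (by linarith)] at hw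
        nlinarith [sq_nonneg (2 * ‖toC ℓ‖)]
      · rfl
  have hint : ∫ w, Ψ w = 0 := by
    rw [integral_X hΨi]
    refine integral_eq_zero_of_ae (Eventually.of_forall fun x => ?_)
    have hx := Real.exp_pos x
    have h1 : (fun z => Ψ (pt z (Real.exp x))) = (cell ℓ).indicator fun z =>
        conj (φ (Real.exp x)) * (D (act (ι δ⁻¹) (pt z (Real.exp x))) * ee (-(toC 0 * z / toC ℓ))) := by
      funext z
      rw [hΨ, Set.indicator_apply]
      simp only [zc_pt z hx, vc_pt z hx, map_zero, zero_mul, zero_div, neg_zero, ee_zero, mul_one]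
    have h2 := hz _ hx
    rw [coef] at h2
    simp only [Pi.zero_apply]
    rw [h1, integral_indicator (measurableSet_cell ℓ), integral_const_mul, h2, mul_zero, mul_zero]
  have hpt : ∀ w, conj (Eis κ φ w) * D w =
      conj (κ δ.c δ.d) * ∑' γ : Gam p, Ψ (act (ι δ) (act (ι γ) w)) := by
    intro w
    rw [Eis, Complex.conj_tsum, ← tsum_mul_right, ← tsum_mul_left,
      ← unf_tsum hc w (G := fun r => conj (κ r.1 r.2 * φ (hr w (toC r.1) (toC r.2))) * D w)
        fun r hr' h => hr' (by rw [h, zero_mul, map_zero, zero_mul])]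
    refine tsum_congr fun γ => ?_
    rw [hΨ]
    dsimp only
    have h1 : κ (δ * γ).c (δ * γ).d = κ δ.c δ.d * kap γ := he γ γ.2 δ.c δ.d
    rw [map_inv, act_inv_act, ← act_mul, ← map_mul, hA γ γ.2, vc_act, ι_c, ι_d, h1]
    split_ifs
    · simp only [map_mul]; ring
    · rw [mul_zero]
  simp only [hpt]
  rw [integral_const_mul, unfold_integral p (f := fun w => Ψ (act (ι δ) w))
    (hΨm.comp (continuous_act _).measurable) (integrable_act _ hΨi), integral_act, hint, mul_zero]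

end Crest.Agent.R17.Vor
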