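import Crest.Agent.R17.VoDefs

/-!
# R17 / VoVr : the function `Vr`
-/

set_option autoImplicit false

noncomputable section

open scoped Classical ComplexConjugate Topology ENNReal InnerProductSpace
open MeasureTheory Filter

namespace Crest.Agent.R17.Vor

theorem VoVr_c0 : 1 ≤ c0 := by
  unfold c0
  have h1 : Real.sqrt 3 ≤ 2 := Real.sqrt_le_iff.2 ⟨by norm_num, by norm_num⟩
  rw [le_div_iff₀ (by positivity)]
  linarith [Real.pi_gt_three]

theorem VoVr_int {b : ℝ} (hb : 0 < b) :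
    IntegrableOn (fun t : ℝ => t ^ (-(2 / 3 : ℝ)) * Real.exp (-b * t)) (Set.Ioi 0) := by
  simpa using integrableOn_rpow_mul_exp_neg_mul_rpow (s := -(2 / 3)) (p := 1) (b := b)
    (by norm_num) one_pos hb

theorem VoVr_meas (y : ℝ) :
    Measurable fun t : ℝ => t ^ (-(2 / 3 : ℝ)) * Real.exp (-t - c0 ^ 2 * y ^ 2 / t) := by
  fun_prop

theorem VoVr_bd (y : ℝ) {t : ℝ} (ht : 0 < t) :
    ‖t ^ (-(2 / 3 : ℝ)) * Real.exp (-t - c0 ^ 2 * y ^ 2 / t)‖ ≤
      t ^ (-(2 / 3 : ℝ)) * Real.exp (-1 * t) := by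
  rw [Real.norm_eq_abs, abs_of_pos (by positivity)]
  refine mul_le_mul_of_nonneg_left (Real.exp_le_exp.2 ?_) (by positivity)
  have : 0 ≤ c0 ^ 2 * y ^ 2 / t := by positivity
  linarith

theorem VoVr_K : 0 < Real.pi / Real.Gamma (4 / 3) :=
  div_pos Real.pi_pos (Real.Gamma_pos_of_pos (by norm_num))

theorem integrableOn_Vr (y : ℝ) : IntegrableOn
    (fun t : ℝ => t ^ (-(2 / 3 : ℝ)) * Real.exp (-t - c0 ^ 2 * y ^ 2 / t)) (Set.Ioi 0) :=
  Integrable.mono' (VoVr_int one_pos) (VoVr_meas y).aestronglyMeasurable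
    ((ae_restrict_mem measurableSet_Ioi).mono fun _ ht => VoVr_bd y ht)

theorem Vr_pos (y : ℝ) : 0 < Vr y := by
  refine mul_pos VoVr_K ?_
  have h0 : ∀ t ∈ Set.Ioi (0 : ℝ),
      0 < t ^ (-(2 / 3 : ℝ)) * Real.exp (-t - c0 ^ 2 * y ^ 2 / t) := fun t ht => by
    have : (0 : ℝ) < t := ht
    positivity
  rw [setIntegral_pos_iff_support_of_nonneg_ae
    ((ae_restrict_mem measurableSet_Ioi).mono fun t ht => (h0 t ht).le) (integrableOn_Vr y),
    Set.inter_eq_right.2 fun t ht => Function.mem_support.2 (h0 t ht).ne']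
  simp

/-- dominated convergence with `t^{-2/3} e^{-t}` -/
theorem continuous_Vr : Continuous Vr :=
  continuous_const.mul (continuous_of_dominated (fun y => (VoVr_meas y).aestronglyMeasurable)
    (fun y => (ae_restrict_mem measurableSet_Ioi).mono fun _ ht => VoVr_bd y ht) (VoVr_int one_pos)
    (Eventually.of_forall fun t => by fun_prop))

/-- `t + c0² y²/t ≥ t/2 + (t/2 + c0² y²/t) ≥ t/2 + √2 c0 y ≥ t/2 + y` -/
theorem Vr_le : ∃ C : ℝ, ∀ y, 0 ≤ y → Vr y ≤ C * Real.exp (-y) := by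
  refine ⟨Real.pi / Real.Gamma (4 / 3) *
    ∫ t in Set.Ioi (0 : ℝ), t ^ (-(2 / 3 : ℝ)) * Real.exp (-(1 / 2) * t), fun y hy => ?_⟩
  rw [mul_assoc, ← integral_mul_const]
  refine mul_le_mul_of_nonneg_left (setIntegral_mono_on (integrableOn_Vr y)
    ((VoVr_int (by norm_num)).mul_const _) measurableSet_Ioi fun t ht => ?_) VoVr_K.le
  have ht0 : (0 : ℝ) < t := ht
  rw [mul_assoc, ← Real.exp_add]
  refine mul_le_mul_of_nonneg_left (Real.exp_le_exp.2 ?_) (by positivity)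
  have h1 : y - t / 2 ≤ c0 ^ 2 * y ^ 2 / t := by
    rw [le_div_iff₀ ht0]
    have h2 : 1 ≤ c0 ^ 2 := one_le_pow₀ VoVr_c0
    nlinarith [sq_nonneg (y - t / 2), sq_nonneg t, mul_le_mul_of_nonneg_right h2 (sq_nonneg y)]
  linarith

/-- `Γ(1/3)/Γ(4/3) = 3` -/
theorem Vr_zero : Vr 0 = 3 * Real.pi := by
  have h1 : ∫ t in Set.Ioi (0 : ℝ), t ^ (-(2 / 3 : ℝ)) * Real.exp (-t - c0 ^ 2 * 0 ^ 2 / t) =
      Real.Gamma (1 / 3) := by
    rw [Real.Gamma_eq_integral (by norm_num), show (1 / 3 - 1 : ℝ) = -(2 / 3) by norm_num]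
    simp [mul_comm]
  have h2 := Real.Gamma_add_one (s := 1 / 3) (by norm_num)
  have h3 := Real.Gamma_pos_of_pos (s := 1 / 3) (by norm_num)
  rw [Vr, h1, show (4 / 3 : ℝ) = 1 / 3 + 1 by norm_num, h2]
  field_simp

theorem VoVr_gauss {w : ℂ} (hw : 0 < w.re) {b : ℝ} (hb : 0 < b) :
    ∫ y in Set.Ioi (0 : ℝ), (y : ℂ) ^ (w - 1) * ((Real.exp (-(b * y ^ 2)) : ℝ) : ℂ) =
      2⁻¹ * ((b : ℂ) ^ (-(w / 2)) * Complex.Gamma (w / 2)) := by
  have h1 := mellin_comp_rpow (fun u => ((Real.exp (-(b * u)) : ℝ) : ℂ)) w 2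
  have h2 := mellin_comp_mul_left (fun u => ((Real.exp (-u) : ℝ) : ℂ)) (w / 2) hb
  rw [Complex.ofReal_ofNat, h2, ← Complex.GammaIntegral_eq_mellin,
    ← Complex.Gamma_eq_integral (by simpa using hw)] at h1
  simpa [mellin] using h1

theorem VoVr_fubini {w : ℂ} (hw : 0 < w.re) :
    Integrable (fun p : ℝ × ℝ => (p.2 : ℂ) ^ (w - 1) *
      ((p.1 ^ (-(2 / 3 : ℝ)) * Real.exp (-p.1 - c0 ^ 2 * p.2 ^ 2 / p.1) : ℝ) : ℂ))
      ((volume.restrict (Set.Ioi 0)).prod (volume.restrict (Set.Ioi 0))) := by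
  have hm : Measurable fun p : ℝ × ℝ => (p.2 : ℂ) ^ (w - 1) *
      ((p.1 ^ (-(2 / 3 : ℝ)) * Real.exp (-p.1 - c0 ^ 2 * p.2 ^ 2 / p.1) : ℝ) : ℂ) :=
    ((Complex.measurable_ofReal.comp measurable_snd).pow_const _).mul
      (Complex.measurable_ofReal.comp (by fun_prop))
  have hc : 0 < c0 := by linarith [VoVr_c0]
  have hn : ∀ t y : ℝ, 0 < t → 0 < y → ‖(y : ℂ) ^ (w - 1) *
      ((t ^ (-(2 / 3 : ℝ)) * Real.exp (-t - c0 ^ 2 * y ^ 2 / t) : ℝ) : ℂ)‖ =
      t ^ (-(2 / 3 : ℝ)) * Real.exp (-t) *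
        (y ^ (w.re - 1) * Real.exp (-(c0 ^ 2 / t) * y ^ (2 : ℝ))) := fun t y ht hy => by
    rw [norm_mul, Complex.norm_cpow_eq_rpow_re_of_pos hy, Complex.norm_real, Real.norm_eq_abs,
      abs_of_pos (by positivity), Real.rpow_two,
      show -t - c0 ^ 2 * y ^ 2 / t = -t + -(c0 ^ 2 / t) * y ^ 2 by ring, Real.exp_add,
      Complex.sub_re, Complex.one_re]
    ring
  rw [integrable_prod_iff hm.aestronglyMeasurable]
  constructor
  · refine (ae_restrict_mem measurableSet_Ioi).mono fun t ht => ?_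
    have ht0 : (0 : ℝ) < t := ht
    have h1 := integrableOn_rpow_mul_exp_neg_mul_rpow (s := w.re - 1) (p := 2)
      (b := c0 ^ 2 / t) (by linarith) two_pos (by positivity)
    exact Integrable.mono' (h1.const_mul (t ^ (-(2 / 3 : ℝ)) * Real.exp (-t)))
      (hm.comp measurable_prodMk_left).aestronglyMeasurable
      ((ae_restrict_mem measurableSet_Ioi).mono fun y hy => (hn t y ht hy).le)
  · have h1 := Real.GammaIntegral_convergent (s := w.re / 2 + 1 / 3) (by linarith)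
    refine (h1.mul_const ((c0 ^ 2) ^ (-(w.re / 2)) * (1 / 2) * Real.Gamma (w.re / 2))).congr
      ((ae_restrict_mem measurableSet_Ioi).mono fun t ht => ?_)
    have ht0 : (0 : ℝ) < t := ht
    simp only
    rw [setIntegral_congr_fun measurableSet_Ioi fun y hy => hn t y ht hy, integral_const_mul,
      integral_rpow_mul_exp_neg_mul_rpow two_pos (by linarith) (by positivity), sub_add_cancel,
      Real.div_rpow (by positivity) ht0.le, neg_div, Real.rpow_neg ht0.le (w.re / 2),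
      show w.re / 2 + 1 / 3 - 1 = -(2 / 3) + w.re / 2 by ring, Real.rpow_add ht0]
    field_simp

/-- Fubini; `∫_0^∞ y^{w-1} e^{-c²y²/t} dy = ½ (t/c²)^{w/2} Γ(w/2)` (`mellin_comp_rpow`,
`mellin_comp_mul_left`, `Complex.GammaIntegral_eq_mellin`), then `∫ t^{w/2 - 2/3} e^{-t} =
Γ(w/2 + 1/3)` -/
theorem mellin_Vr {w : ℂ} (hw : 0 < w.re) :
    HasMellin (fun y => (Vr y : ℂ)) w ((Real.pi / (2 * Real.Gamma (4 / 3)) : ℝ) *
      (c0 : ℂ) ^ (-w) * Complex.Gamma (w / 2) * Complex.Gamma (w / 2 + 1 / 3)) := by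
  have hc : 0 < c0 := by linarith [VoVr_c0]
  have hc' : (c0 : ℂ) ≠ 0 := by exact_mod_cast hc.ne'
  constructor
  · obtain ⟨C, hC⟩ := Vr_le
    have hb : ∀ y : ℝ, 0 < y → ‖(Vr y : ℂ)‖ ≤ C * Real.exp (-y) := fun y hy => by
      rw [Complex.norm_real, Real.norm_eq_abs, abs_of_pos (Vr_pos y)]
      exact hC y hy.le
    have hC0 : 0 ≤ C := by simpa using (Vr_pos 0).le.trans (hC 0 le_rfl)
    refine mellinConvergent_of_isBigO_rpow_exp (a := 1) (b := 0) one_pos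
      ((Complex.continuous_ofReal.comp continuous_Vr).continuousOn.locallyIntegrableOn
        measurableSet_Ioi) ?_ ?_ hw
    · refine Asymptotics.IsBigO.of_bound C ((eventually_gt_atTop 0).mono fun t ht => ?_)
      simpa using hb t ht
    · refine Asymptotics.IsBigO.of_bound C (eventually_mem_nhdsWithin.mono fun t ht => ?_)
      have ht0 : (0 : ℝ) < t := ht
      have := (hb t ht0).trans (mul_le_of_le_one_right hC0 (Real.exp_le_one_iff.2 (by linarith)))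
      simpa using this
  · have e1 : ∀ y : ℝ, (y : ℂ) ^ (w - 1) • (Vr y : ℂ) =
        ((Real.pi / Real.Gamma (4 / 3) : ℝ) : ℂ) * ∫ t in Set.Ioi (0 : ℝ), (y : ℂ) ^ (w - 1) *
          ((t ^ (-(2 / 3 : ℝ)) * Real.exp (-t - c0 ^ 2 * y ^ 2 / t) : ℝ) : ℂ) := fun y => by
      rw [integral_const_mul, integral_complex_ofReal, Vr, Complex.ofReal_mul, smul_eq_mul]
      ring
    have e2 : ∀ t ∈ Set.Ioi (0 : ℝ), ∫ y in Set.Ioi (0 : ℝ), (y : ℂ) ^ (w - 1) *
        ((t ^ (-(2 / 3 : ℝ)) * Real.exp (-t - c0 ^ 2 * y ^ 2 / t) : ℝ) : ℂ) =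
        2⁻¹ * (c0 : ℂ) ^ (-w) * Complex.Gamma (w / 2) *
          (((Real.exp (-t) : ℝ) : ℂ) * (t : ℂ) ^ (w / 2 + 1 / 3 - 1)) := fun t ht => by
      have ht0 : (0 : ℝ) < t := ht
      have ht' : (t : ℂ) ≠ 0 := by exact_mod_cast ht0.ne'
      have a1 : ∀ y : ℝ, (y : ℂ) ^ (w - 1) *
          ((t ^ (-(2 / 3 : ℝ)) * Real.exp (-t - c0 ^ 2 * y ^ 2 / t) : ℝ) : ℂ) =
          ((t ^ (-(2 / 3 : ℝ)) * Real.exp (-t) : ℝ) : ℂ) *
            ((y : ℂ) ^ (w - 1) * ((Real.exp (-(c0 * c0 * t⁻¹ * y ^ 2)) : ℝ) : ℂ)) := fun y => by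
        rw [show -t - c0 ^ 2 * y ^ 2 / t = -t + -(c0 * c0 * t⁻¹ * y ^ 2) by ring, Real.exp_add]
        simp only [Complex.ofReal_mul]
        ring
      simp only [a1]
      rw [integral_const_mul, VoVr_gauss hw (by positivity), Complex.ofReal_mul (c0 * c0),
        Complex.mul_cpow_ofReal_nonneg (by positivity) (by positivity), Complex.ofReal_mul c0,
        Complex.mul_cpow_ofReal_nonneg hc.le hc.le, ← Complex.cpow_add _ _ hc', Complex.ofReal_inv,
        Complex.inv_cpow _ _ (by rw [Complex.arg_ofReal_of_nonneg ht0.le]; exact Real.pi_pos.ne),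
        ← Complex.cpow_neg, neg_neg, Complex.ofReal_mul, Complex.ofReal_cpow ht0.le,
        show w / 2 + 1 / 3 - 1 = ((-(2 / 3) : ℝ) : ℂ) + w / 2 by push_cast; ring,
        Complex.cpow_add _ _ ht', show -(w / 2) + -(w / 2) = -w by ring]
      ring
    unfold mellin
    simp only [e1]
    rw [integral_const_mul, ← integral_integral_swap (VoVr_fubini hw),
      setIntegral_congr_fun measurableSet_Ioi e2, integral_const_mul,
      Complex.Gamma_eq_integral (s := w / 2 + 1 / 3) (by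
        have : (w / 2 + 1 / 3).re = w.re / 2 + 1 / 3 := by simp
        rw [this]; linarith), Complex.GammaIntegral]
    push_cast
    ring

/-- `e^{-a √(N n)} ≤ C N(n)^{-2}` and `summable_N_rpow` -/
theorem summable_Vr {M : O} (hM : M ≠ 0) {v : ℝ} (hv : 0 < v) :
    Summable (fun n : O => Vr (‖toC n / toC M‖ * v)) := by
  obtain ⟨C, hC⟩ := Vr_le
  have hC0 : 0 ≤ C := by simpa using (Vr_pos 0).le.trans (hC 0 le_rfl)
  have hM' := N_pos hM
  refine Summable.of_norm_bounded_eventually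
    ((summable_N_rpow (σ := 2) (by norm_num)).mul_left (C * (24 * N M ^ 2 / v ^ 4))) ?_
  refine (Set.Finite.eventually_cofinite_notMem (Set.finite_singleton (0 : O))).mono fun n hn => ?_
  have hn' := N_pos (x := n) hn
  rw [Real.norm_eq_abs, abs_of_pos (Vr_pos _), mul_assoc]
  have hx : 0 ≤ ‖toC n / toC M‖ * v := by positivity
  refine (hC _ hx).trans (mul_le_mul_of_nonneg_left ?_ hC0)
  have h1 := Real.pow_div_factorial_le_exp _ hx 4
  have h2 : (‖toC n / toC M‖ * v) ^ 4 = N n ^ 2 / N M ^ 2 * v ^ 4 := by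
    rw [norm_div, ← norm_toC_sq, ← norm_toC_sq]
    ring
  rw [h2] at h1
  rw [Real.exp_neg, Real.rpow_neg hn'.le, Real.rpow_two]
  refine (inv_anti₀ (by positivity) h1).trans (le_of_eq ?_)
  simp only [Nat.factorial]
  push_cast
  field_simp

end Crest.Agent.R17.Vor
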