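import Crest.Agent.R17.VoTheta2
import Crest.Agent.R17.VoUnf
import Crest.Agent.R17.VoCoef
import Crest.Agent.R17.VoVr
import Crest.Agent.R17.VoArith1

/-!
# R17 / VoLink : residues of the Dirichlet series; orthogonality
-/

set_option autoImplicit false

noncomputable section

open scoped Classical ComplexConjugate Topology ENNReal InnerProductSpace
open MeasureTheory Filter

namespace Crest.Agent.R17.Vor

theorem volink_hol (ξ : ℂ) {v : ℝ} (hv : 0 < v) :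
    DifferentiableOn ℂ (fun s => pw (2 - s) v * W s ξ) {s | 1 < s.re} := by
  refine DifferentiableOn.mul ?_ (differentiableOn_W ξ)
  exact ((differentiable_pw hv).comp ((differentiable_const _).sub differentiable_id)).differentiableOn

theorem volink_43 (ξ : ℂ) {v : ℝ} (hv : 0 < v) :
    pw (2 - 4 / 3) v * W (4 / 3) (ξ * v) = ((v ^ (2 / 3 : ℝ) * Vr (‖ξ‖ * v) : ℝ) : ℂ) := by
  rw [W_43, norm_mul, Complex.norm_real, Real.norm_of_nonneg hv.le, Complex.ofReal_mul,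
    Complex.ofReal_cpow hv.le, pw]
  congr 2
  push_cast
  ring

theorem volink_res {p : O} (hp : p ≠ 0) {κ : O → O → ℂ} (hκ : RowBd κ) (he : Equi p κ) (σ : SL O)
    {ℓ : O} (hℓ : ℓ ≠ 0) (hper : ∀ C D t, tr σ κ C (D + ℓ * C * t) = tr σ κ C D) (n : O) {v : ℝ}
    (hv : 0 < v) :
    HasRes (fun s => pw (2 - s) v * W s (toC n / toC ℓ * v) * DS ℓ (tr σ κ) n s)
      (coef ℓ n v (fun w => thK κ (act (ι σ) w))) := by
  have h1 := (theta_main hp hκ he).2.2.1 σ ℓ n v hv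
  have h2 : HasRes (fun s => if n = 0 then (vol ℓ : ℂ) * (∑ u ∈ units6, tr σ κ 0 u) * pw s v else 0)
      0 := by
    refine hasRes_of_hol ?_
    split_ifs
    · exact ((differentiable_pw hv).const_mul _).differentiableOn
    · exact differentiableOn_const _
  have h3 := h1.sub h2
  rw [sub_zero] at h3
  refine h3.congr fun s _ hs => ?_
  rw [coef_Eis hℓ (hκ.tr σ) hper hs n hv]
  ring

/-- `theta_main` and `coef_Eis`: for every `v > 0`, `A v · DS` has a residue, `A v s =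
v^{2-s} W s (n v/ℓ)` (subtract the entire term, `hasRes_of_hol`); `HasRes.of_mul` with
`exists_W_ne`, `W_43`, `Vr_pos`. -/
theorem hasRes_DS {p : O} (hp : p ≠ 0) {κ : O → O → ℂ} (hκ : RowBd κ) (he : Equi p κ) (σ : SL O)
    {ℓ : O} (hℓ : ℓ ≠ 0) (hper : ∀ C D t, tr σ κ C (D + ℓ * C * t) = tr σ κ C D) (n : O) :
    ∃ r, HasRes (DS ℓ (tr σ κ) n) r := by
  refine ⟨_, HasRes.of_mul (ι := {v : ℝ // 0 < v})
    (A := fun v s => pw (2 - s) v.1 * W s (toC n / toC ℓ * v.1))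
    (fun v => volink_hol _ v.2) (fun s hs => ?_)
    (fun v => volink_res hp hκ he σ hℓ hper n v.2) (i0 := ⟨1, one_pos⟩) ?_⟩
  · obtain ⟨v, hv, h⟩ := exists_W_ne hs (toC n / toC ℓ)
    refine ⟨⟨v, hv⟩, mul_ne_zero ?_ h⟩
    rw [← norm_ne_zero_iff, norm_pw _ hv]
    exact (Real.rpow_pos_of_pos hv _).ne'
  · show pw (2 - 4 / 3) 1 * W (4 / 3) (toC n / toC ℓ * (1 : ℝ)) ≠ 0
    rw [volink_43 _ one_pos, Complex.ofReal_ne_zero]
    exact (mul_pos (Real.rpow_pos_of_pos one_pos _) (Vr_pos _)).ne'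

theorem coef_thK {p : O} (hp : p ≠ 0) {κ : O → O → ℂ} (hκ : RowBd κ) (he : Equi p κ) (σ : SL O)
    {ℓ : O} (hℓ : ℓ ≠ 0) (hper : ∀ C D t, tr σ κ C (D + ℓ * C * t) = tr σ κ C D) {n : O} {r : ℂ}
    (h : HasRes (DS ℓ (tr σ κ) n) r) {v : ℝ} (hv : 0 < v) :
    coef ℓ n v (fun w => thK κ (act (ι σ) w)) =
      ((v ^ (2 / 3 : ℝ) * Vr (‖toC n / toC ℓ‖ * v) : ℝ) : ℂ) * r := by
  rw [← volink_43 _ hv]
  exact (volink_res hp hκ he σ hℓ hper n hv).unique (h.hol_mul (volink_hol _ hv))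

/-- `pairing_zero` with `φ = phs (4/3)` and the last part of `theta_main` -/
theorem theta_orth {p : O} (hp : p ≠ 0) {κ : O → O → ℂ} (hκ : RowBd κ) (he : Equi p κ) {δ : SL O}
    {ℓ : O} (hc : Cusp p κ δ ℓ) {D : X → ℂ} (hD : Eig p D)
    (hz : ∀ v, 0 < v → coef ℓ 0 v (fun w => D (act (ι δ⁻¹) w)) = 0) :
    ∫ w, conj (thK κ w) * D w ∂(nu p) = 0 := by
  obtain ⟨C, hC0, hC⟩ := phs_bound ‖(4 / 3 : ℂ)‖
  refine (theta_main hp hκ he).2.2.2 D hD (pairing_zero he hc (measurable_phs _)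
    (C := C * 10 ^ (3 : ℝ)) (fun v hv => (hC _ le_rfl v hv).trans ?_)
    (fun v hv h => phs_eq_zero _ hv h) hD.cont hD.aut hz)
  exact mul_le_mul_of_nonneg_left (Real.rpow_le_rpow (le_min hv.le (by norm_num))
    (min_le_right _ _) (by norm_num)) hC0

theorem eig_theta : Eig 1 theta := (theta_main one_ne_zero (rowBd_kp _) (equi_k0 1)).1

theorem volink_three : (3 : O) ≠ 0 := by decide

/-- `hasRes_DS` at `σ = S`, `ℓ = 3`, `n = λ² r` (`DS_SS`, `9 λ² r = r λ³ λ³`) -/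
theorem hasRes_psi0 (r : O) : HasRes (psi0 r) (rho0 r) := by
  obtain ⟨ρ, h⟩ := hasRes_DS one_ne_zero (rowBd_kp fun _ => True) (equi_k0 1) SS volink_three
    (per_SS _) (lam ^ 2 * r)
  have e : (9 : O) * (lam ^ 2 * r) = r * lam ^ 3 * lam ^ 3 := by
    have h9 : (9 : O) = lam ^ 4 := by decide
    rw [h9]; ring
  have h2 : HasRes (psi0 r) ρ := h.congr fun s _ _ => by
    rw [DS_SS, e, psi_lam_cube, psi_lam_cube, psi0_eq_psi]
  exact h2.hasRes_res43

theorem coef_theta_SS (n : O) {v : ℝ} (hv : 0 < v) :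
    coef 3 n v (fun w => theta (act (ι SS) w)) =
      ((v ^ (2 / 3 : ℝ) * Vr (‖toC n / toC 3‖ * v) : ℝ) : ℂ) * rho0 (9 * n) :=
  coef_thK one_ne_zero (rowBd_kp fun _ => True) (equi_k0 1) SS volink_three (per_SS _)
    ((hasRes_psi0 (9 * n)).congr fun s _ _ => by rw [DS_SS, psi0_eq_psi]) hv

end Crest.Agent.R17.Vor
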