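import Crest.Agent.R17.VoGeo1

/-!
# R17 / VoRed : reduction theory and the uniform bound `∑_{rows} min (hr, 10)^σ ≤ B`
-/

set_option autoImplicit false

noncomputable section

open scoped Classical ComplexConjugate Topology ENNReal InnerProductSpace
open MeasureTheory Filter

namespace Crest.Agent.R17.Vor

/-- write `z = a + bω` (`b4_exists_coord`) and round `a`, `b` to the nearest integers;
`|a + bω|² = a² - ab + b² ≤ 3/4` for `|a|, |b| ≤ 1/2` -/
theorem exists_near (z : ℂ) : ∃ t : O, ‖z + toC t‖ ^ 2 ≤ 3 / 4 := by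
  obtain ⟨a, b, rfl⟩ := b4_exists_coord z
  refine ⟨⟨-round a, -round b⟩, ?_⟩
  have h3 : Real.sqrt 3 * Real.sqrt 3 = 3 := Real.mul_self_sqrt (by norm_num)
  have e : ‖(a : ℂ) + b * omC + toC ⟨-round a, -round b⟩‖ ^ 2 =
      (a - round a) ^ 2 - (a - round a) * (b - round b) + (b - round b) ^ 2 := by
    rw [← Complex.normSq_eq_norm_sq, toC_apply, Complex.normSq_apply]
    simp [omC]
    linear_combination ((b - round b) ^ 2 / 4) * h3
  rw [e]
  obtain ⟨h1, h2⟩ := abs_le.1 (abs_sub_round a)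
  obtain ⟨h4, h5⟩ := abs_le.1 (abs_sub_round b)
  nlinarith [mul_nonneg (sub_nonneg.2 h2) (sub_nonneg.2 h5),
    mul_nonneg (sub_nonneg.2 h1) (sub_nonneg.2 h4), mul_nonneg (sub_nonneg.2 h1) (sub_nonneg.2 h2),
    mul_nonneg (sub_nonneg.2 h4) (sub_nonneg.2 h5)]

/-- only finitely many rows have `Qf ≤ A` (`le_Qf`, `mem_ball`) -/
theorem finite_rows (w : X) (A : ℝ) :
    {r : O × O | Qf w (toC r.1) (toC r.2) ≤ A}.Finite := by
  have hu := one_le_uu w o
  have key : ∀ x : O, N x ≤ 2 * uu w o * A → x ∈ (insert 0 (ball (2 * uu w o * A)) : Finset O) := by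
    intro x hx
    by_cases h0 : x = 0
    · rw [h0]
      exact Finset.mem_insert_self _ _
    · exact Finset.mem_insert_of_mem (mem_ball.2 ⟨h0, hx⟩)
  refine ((insert 0 (ball (2 * uu w o * A)) ×ˢ insert 0 (ball (2 * uu w o * A)) :
    Finset (O × O)).finite_toSet).subset fun r hr => ?_
  have h1 := le_Qf w (toC r.1) (toC r.2)
  rw [norm_toC_sq, norm_toC_sq] at h1
  have h2 : Qf w (toC r.1) (toC r.2) ≤ A := hr
  have h3 : 2 * uu w o * Qf w (toC r.1) (toC r.2) ≤ 2 * uu w o * A :=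
    mul_le_mul_of_nonneg_left h2 (by linarith)
  have h4 := N_nonneg r.1
  have h5 := N_nonneg r.2
  exact Finset.mem_coe.2 (Finset.mem_product.2 ⟨key _ (by linarith), key _ (by linarith)⟩)

/-- **Reduction.**  Among the coprime rows choose one minimising `Qf w` (`finite_rows`), complete it
to `g₀` (`exists_row`) and translate (`exists_near`, `g = nn t * g₀`).  For `w' = g w` every coprime
row has `Qf w' r ≥ Qf w' 0 1` (`Qf_act`: rows are permuted); the row `(1, 0)` gives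
`|z|² + v² ≥ 1`, so `v² ≥ 1/4`. -/
theorem exists_reduced (w : X) :
    ∃ g : SL O, 1 / 2 ≤ vc (act (ι g) w) ∧ ‖zc (act (ι g) w)‖ ≤ 1 := by
  obtain ⟨r, hr, hmin⟩ := Set.exists_min_image
    {r : O × O | IsCoprime r.1 r.2 ∧ Qf w (toC r.1) (toC r.2) ≤ Qf w (toC 0) (toC 1)}
    (fun r => Qf w (toC r.1) (toC r.2)) ((finite_rows w _).subset fun r hr => hr.2)
    ⟨(0, 1), isCoprime_one_right, le_rfl⟩
  have hmin' : ∀ c d : O, IsCoprime c d → Qf w (toC r.1) (toC r.2) ≤ Qf w (toC c) (toC d) := by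
    intro c d h
    rcases le_total (Qf w (toC c) (toC d)) (Qf w (toC 0) (toC 1)) with h1 | h1
    · exact hmin (c, d) ⟨h, h1⟩
    · exact hr.2.trans h1
  obtain ⟨g0, hc, hd⟩ := exists_row hr.1
  obtain ⟨t, ht⟩ := exists_near (zc (act (ι g0) w))
  have hz : zc (act (ι (nn t * g0)) w) = zc (act (ι g0) w) + toC t := by
    rw [map_mul, act_mul, ι_nn, zc_act_nn]
  rw [← hz] at ht
  have h1 : Qf (act (ι (nn t * g0)) w) 0 1 ≤ Qf (act (ι (nn t * g0)) w) 1 0 := by
    rw [Qf_act, Qf_act]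
    have h2 := hmin' (nn t * g0).a (nn t * g0).b
      ⟨(nn t * g0).d, -(nn t * g0).c, by linear_combination (nn t * g0).det⟩
    have h3 : (nn t * g0).c = r.1 := by simp [nn, hc]
    have h4 : (nn t * g0).d = r.2 := by simp [nn, hd]
    simpa only [ι_a, ι_b, ι_c, ι_d, zero_mul, one_mul, zero_add, add_zero, h3, h4] using h2
  refine ⟨nn t * g0, ?_, ?_⟩
  · generalize act (ι (nn t * g0)) w = w' at ht h1
    have hv := vc_pos w'
    simp only [Qf, zero_mul, zero_add, norm_one, one_pow, norm_zero, one_mul, add_zero] at h1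
    have h2 := (div_le_div_iff_of_pos_right hv).1 h1
    nlinarith
  · have := norm_nonneg (zc (act (ι (nn t * g0)) w))
    nlinarith

theorem red_lat0 {σ : ℝ} (hσ : 1 < σ) : ∃ C : ℝ, 0 ≤ C ∧ ∀ (ζ : ℂ) (t : ℝ), ‖ζ‖ ^ 2 ≤ 3 / 4 →
    1 / 2 ≤ t → ∀ s : Finset O,
    ∑ d ∈ s, (‖ζ + toC d‖ ^ 2 + t ^ 2) ^ (-σ) ≤ C * t ^ (2 - 2 * σ) := by
  obtain ⟨C, hC, h⟩ := b2_tail hσ
  refine ⟨22 + 6 ^ σ * C, by positivity, fun ζ t hζ ht s => ?_⟩
  have ht0 : 0 < t := by linarith
  have ht2 : 0 < t ^ 2 := by positivity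
  have h1 : ∀ d : O, (‖ζ + toC d‖ ^ 2 + t ^ 2) ^ (-σ) ≤
      (if d ∈ (insert 0 (ball (t ^ 2)) : Finset O) then (t ^ 2) ^ (-σ) else 0) +
        6 ^ σ * (if t ^ 2 < N d then N d ^ (-σ) else 0) := by
    intro d
    by_cases hd : t ^ 2 < N d
    · have h2 : N d / 6 ≤ ‖ζ + toC d‖ ^ 2 + t ^ 2 := by
        have h3 : ‖toC d‖ ≤ ‖ζ + toC d‖ + ‖ζ‖ := by
          have := norm_sub_le (ζ + toC d) ζ
          rwa [add_sub_cancel_left] at this
        have h4 := pow_le_pow_left₀ (norm_nonneg _) h3 2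
        rw [norm_toC_sq] at h4
        nlinarith [sq_nonneg (‖ζ + toC d‖ - ‖ζ‖), sq_nonneg ‖ζ + toC d‖]
      have h3 : (‖ζ + toC d‖ ^ 2 + t ^ 2) ^ (-σ) ≤ (N d / 6) ^ (-σ) :=
        Real.rpow_le_rpow_of_nonpos (by linarith) h2 (by linarith)
      rw [Real.div_rpow (N_nonneg _) (by norm_num), Real.rpow_neg (by norm_num : (0 : ℝ) ≤ 6),
        div_inv_eq_mul, mul_comm] at h3
      rw [if_pos hd]
      refine h3.trans (le_add_of_nonneg_left ?_)
      split_ifs <;> positivity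
    · have h2 : d ∈ (insert 0 (ball (t ^ 2)) : Finset O) := by
        by_cases h0 : d = 0
        · rw [h0]
          exact Finset.mem_insert_self _ _
        · exact Finset.mem_insert_of_mem (mem_ball.2 ⟨h0, not_lt.1 hd⟩)
      rw [if_pos h2, if_neg hd, mul_zero, add_zero]
      exact Real.rpow_le_rpow_of_nonpos ht2 (le_add_of_nonneg_left (sq_nonneg _)) (by linarith)
  have e1 : (t ^ 2) ^ (1 - σ) = t ^ (2 - 2 * σ) := by
    rw [← Real.rpow_natCast, ← Real.rpow_mul ht0.le]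
    congr 1
    push_cast
    ring
  have e2 : t ^ 2 * (t ^ 2) ^ (-σ) = t ^ (2 - 2 * σ) := by
    rw [← e1, sub_eq_add_neg, Real.rpow_add ht2, Real.rpow_one]
  have h2 : ∑ d ∈ s, (if d ∈ (insert 0 (ball (t ^ 2)) : Finset O) then (t ^ 2) ^ (-σ) else 0) ≤
      22 * t ^ (2 - 2 * σ) := by
    rw [← Finset.sum_filter, Finset.sum_const, nsmul_eq_mul, ← e2, ← mul_assoc]
    refine mul_le_mul_of_nonneg_right ?_ (by positivity)
    have h3 : (s.filter fun d => d ∈ (insert 0 (ball (t ^ 2)) : Finset O)).card ≤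
        (ball (t ^ 2)).card + 1 :=
      (Finset.card_le_card fun d hd => (Finset.mem_filter.1 hd).2).trans (Finset.card_insert_le _ _)
    have h4 : ((s.filter fun d => d ∈ (insert 0 (ball (t ^ 2)) : Finset O)).card : ℝ) ≤
        (ball (t ^ 2)).card + 1 := by exact_mod_cast h3
    have h5 := card_ball_le ht2.le
    nlinarith
  refine (Finset.sum_le_sum fun d _ => h1 d).trans ?_
  rw [Finset.sum_add_distrib, ← Finset.mul_sum, add_mul, mul_assoc]
  refine add_le_add h2 (mul_le_mul_of_nonneg_left ?_ (by positivity))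
  rw [← e1]
  exact h _ ht2 s

theorem red_lat {σ : ℝ} (hσ : 1 < σ) : ∃ C : ℝ, 0 ≤ C ∧ ∀ (ζ : ℂ) (t : ℝ), 1 / 2 ≤ t →
    ∀ s : Finset O, ∑ d ∈ s, (‖ζ + toC d‖ ^ 2 + t ^ 2) ^ (-σ) ≤ C * t ^ (2 - 2 * σ) := by
  obtain ⟨C, hC, h⟩ := red_lat0 hσ
  refine ⟨C, hC, fun ζ t ht s => ?_⟩
  obtain ⟨t0, ht0⟩ := exists_near ζ
  refine le_trans (le_of_eq ?_) (h _ t ht0 ht (s.map (Equiv.subRight t0).toEmbedding))
  rw [Finset.sum_map]
  refine Finset.sum_congr rfl fun d _ => ?_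
  simp only [Equiv.coe_toEmbedding, Equiv.subRight_apply, map_sub, add_add_sub_cancel]

/-- Shift `d` by `exists_near` so that `|ζ| ≤ 1`; then `N e + t² ≤ 9 (|ζ + e|² + t²)` for
`t ≥ 1/2`.  Split `N e ≤ t²` (at most `1 + 18 t²` terms, `card_ball_le`) and `N e > t²`
(`tsum_tail_N_rpow`). -/
theorem lattice_sum {σ : ℝ} (hσ : 1 < σ) : ∃ C : ℝ, ∀ (ζ : ℂ) (t : ℝ), 1 / 2 ≤ t →
    Summable (fun d : O => (‖ζ + toC d‖ ^ 2 + t ^ 2) ^ (-σ)) ∧
    ∑' d : O, (‖ζ + toC d‖ ^ 2 + t ^ 2) ^ (-σ) ≤ C * t ^ (2 - 2 * σ) := by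
  obtain ⟨C, -, h⟩ := red_lat hσ
  refine ⟨C, fun ζ t ht => ?_⟩
  have h0 : ∀ d : O, 0 ≤ (‖ζ + toC d‖ ^ 2 + t ^ 2) ^ (-σ) := fun d => by positivity
  have hs := summable_of_sum_le h0 (h ζ t ht)
  exact ⟨hs, hs.tsum_le_of_sum_le (h ζ t ht)⟩

theorem red_mh_nonneg (σ : ℝ) (w : X) (r : O × O) : 0 ≤ mh σ w r := by
  unfold mh
  split_ifs
  · exact Real.rpow_nonneg (le_min (hr_nonneg _ _ _) (by norm_num)) _
  · exact le_rfl

/-- right multiplication of rows -/
def red_rm (g : SL O) : O × O ≃ O × O where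
  toFun r := (r.1 * g.a + r.2 * g.c, r.1 * g.b + r.2 * g.d)
  invFun r := (r.1 * g.d - r.2 * g.c, -(r.1 * g.b) + r.2 * g.a)
  left_inv r := Prod.ext (by simp only; linear_combination r.1 * g.det)
    (by simp only; linear_combination r.2 * g.det)
  right_inv r := Prod.ext (by simp only; linear_combination r.1 * g.det)
    (by simp only; linear_combination r.2 * g.det)

theorem red_mh_act (σ : ℝ) (g : SL O) (w : X) (r : O × O) :
    mh σ (act (ι g) w) r = mh σ w (red_rm g r) := by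
  have h : IsCoprime (red_rm g r).1 (red_rm g r).2 ↔ IsCoprime r.1 r.2 := by
    change IsCoprime (r.1 * g.a + r.2 * g.c) (r.1 * g.b + r.2 * g.d) ↔ _
    constructor
    · rintro ⟨x, y, h⟩
      exact ⟨x * g.a + y * g.b, x * g.c + y * g.d, by linear_combination h⟩
    · rintro ⟨x, y, h⟩
      exact ⟨x * g.d - y * g.b, -(x * g.c) + y * g.a, by
        linear_combination h + (x * r.1 + y * r.2) * g.det⟩
  unfold mh
  rw [hr_act]
  refine if_congr h.symm ?_ rfl
  change _ = min (hr w (toC (r.1 * g.a + r.2 * g.c)) (toC (r.1 * g.b + r.2 * g.d))) 10 ^ σ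
  simp only [map_add, map_mul, ι_a, ι_b, ι_c, ι_d]

theorem red_rows {σ : ℝ} (hσ : 2 < σ) : ∃ B : ℝ, ∀ w : X, 1 / 2 ≤ vc w →
    ∀ s : Finset (O × O), ∑ r ∈ s, mh σ w r ≤ B := by
  obtain ⟨C, hC, h⟩ := red_lat (σ := σ) (by linarith)
  have hsum := summable_N_rpow (σ := σ - 1) (by linarith)
  refine ⟨6 * 10 ^ σ + C * (1 / 2) ^ (2 - σ) * ∑' n : O, N n ^ (-(σ - 1)), fun w hw s => ?_⟩
  have hv := vc_pos w
  have h1 : ∀ (c : O) (s2 : Finset O), ∑ d ∈ s2, mh σ w (c, d) ≤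
      (if c = 0 then 6 * 10 ^ σ else 0) + C * (1 / 2) ^ (2 - σ) * N c ^ (-(σ - 1)) := by
    intro c s2
    have hN := N_nonneg c
    by_cases hc : c = 0
    · rw [if_pos hc]
      refine le_trans ?_ (le_add_of_nonneg_right (by positivity))
      have h2 : ∀ d, mh σ w (c, d) ≤ if d ∈ units6 then (10 : ℝ) ^ σ else 0 := by
        intro d
        unfold mh
        by_cases hd : IsCoprime c d
        · rw [if_pos hd, if_pos (isUnit_iff_mem_units6.1 (isCoprime_zero_left.1 (hc ▸ hd)))]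
          exact Real.rpow_le_rpow (le_min (hr_nonneg _ _ _) (by norm_num)) (min_le_right _ _)
            (by linarith)
        · rw [if_neg hd]
          split_ifs <;> positivity
      refine (Finset.sum_le_sum fun d _ => h2 d).trans ?_
      rw [← Finset.sum_filter, Finset.sum_const, nsmul_eq_mul]
      refine mul_le_mul_of_nonneg_right ?_ (by positivity)
      have h3 : (s2.filter fun d => d ∈ units6).card ≤ 6 :=
        (Finset.card_le_card fun d hd => (Finset.mem_filter.1 hd).2).trans card_units6.le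
      exact_mod_cast h3
    · rw [if_neg hc, zero_add]
      have hc1 : 1 ≤ ‖toC c‖ := by
        rw [norm_toC]
        exact Real.one_le_sqrt.2 (one_le_N hc)
      have ht : 1 / 2 ≤ ‖toC c‖ * vc w := by nlinarith
      have h2 : ∀ d, mh σ w (c, d) ≤
          vc w ^ σ * (‖toC c * zc w + toC d‖ ^ 2 + (‖toC c‖ * vc w) ^ 2) ^ (-σ) := by
        intro d
        have h3 : hr w (toC c) (toC d) ^ σ =
            vc w ^ σ * (‖toC c * zc w + toC d‖ ^ 2 + (‖toC c‖ * vc w) ^ 2) ^ (-σ) := by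
          rw [hr_eq, Real.div_rpow hv.le (by positivity), Real.rpow_neg (by positivity), mul_pow,
            div_eq_mul_inv]
        rw [← h3]
        unfold mh
        split_ifs
        · exact Real.rpow_le_rpow (le_min (hr_nonneg _ _ _) (by norm_num)) (min_le_left _ _)
            (by linarith)
        · exact Real.rpow_nonneg (hr_nonneg _ _ _) _
      refine (Finset.sum_le_sum fun d _ => h2 d).trans ?_
      rw [← Finset.mul_sum]
      refine (mul_le_mul_of_nonneg_left (h _ _ ht s2) (by positivity)).trans ?_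
      have e1 : ‖toC c‖ ^ (2 - 2 * σ) = N c ^ (-(σ - 1)) := by
        rw [← norm_toC_sq, ← Real.rpow_natCast, ← Real.rpow_mul (norm_nonneg _)]
        congr 1
        push_cast
        ring
      have e2 : vc w ^ σ * vc w ^ (2 - 2 * σ) = vc w ^ (2 - σ) := by
        rw [← Real.rpow_add hv]
        congr 1
        ring
      have h3 : vc w ^ (2 - σ) ≤ (1 / 2) ^ (2 - σ) :=
        Real.rpow_le_rpow_of_nonpos (by norm_num) hw (by linarith)
      rw [Real.mul_rpow (norm_nonneg _) hv.le, e1]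
      calc _ = C * (vc w ^ σ * vc w ^ (2 - 2 * σ)) * N c ^ (-(σ - 1)) := by ring
        _ ≤ _ := by
          rw [e2]
          gcongr
  calc ∑ r ∈ s, mh σ w r ≤ ∑ r ∈ s.image Prod.fst ×ˢ s.image Prod.snd, mh σ w r :=
        Finset.sum_le_sum_of_subset_of_nonneg Finset.subset_product
          fun r _ _ => red_mh_nonneg σ w r
    _ = ∑ c ∈ s.image Prod.fst, ∑ d ∈ s.image Prod.snd, mh σ w (c, d) := Finset.sum_product _ _ _
    _ ≤ ∑ c ∈ s.image Prod.fst, ((if c = 0 then 6 * 10 ^ σ else 0) +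
          C * (1 / 2) ^ (2 - σ) * N c ^ (-(σ - 1))) := Finset.sum_le_sum fun c _ => h1 c _
    _ ≤ _ := by
        rw [Finset.sum_add_distrib, ← Finset.mul_sum]
        refine add_le_add ?_ (mul_le_mul_of_nonneg_left
          (hsum.sum_le_tsum _ fun n _ => Real.rpow_nonneg (N_nonneg n) _) (by positivity))
        rw [Finset.sum_ite_eq']
        split_ifs
        · exact le_rfl
        · positivity

/-- **(U).**  The sum is invariant under `w ↦ g w`, `g ∈ SL₂(O)` (`hr_act`; right multiplication by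
`g` permutes the coprime rows), so assume `v ≥ 1/2` (`exists_reduced`).  Rows with `c = 0`: `d` is a
unit, six terms `≤ 10^σ`.  Rows with `c ≠ 0`: `∑_d hr^σ = v^σ ∑_d (|cz+d|² + (|c|v)²)^{-σ}
≤ C v^σ (|c| v)^{2-2σ} = C v^{2-σ} N(c)^{1-σ}`, `v^{2-σ} ≤ 2^{σ-2}`, `summable_N_rpow`
(`summable_prod_of_nonneg`). -/
theorem rows_bound {σ : ℝ} (hσ : 2 < σ) : ∃ B : ℝ, ∀ w : X,
    Summable (mh σ w) ∧ ∑' r, mh σ w r ≤ B := by
  obtain ⟨B, h⟩ := red_rows hσ
  refine ⟨B, fun w => ?_⟩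
  obtain ⟨g, hg, -⟩ := exists_reduced w
  have hs := summable_of_sum_le (red_mh_nonneg σ _) (h _ hg)
  have hb := hs.tsum_le_of_sum_le (h _ hg)
  have e : mh σ (act (ι g) w) = mh σ w ∘ red_rm g := funext (red_mh_act σ g w)
  rw [e] at hs hb
  exact ⟨(red_rm g).summable_iff.1 hs, ((red_rm g).tsum_eq (mh σ w)).symm.trans_le hb⟩

end Crest.Agent.R17.Vor
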