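import Crest.Agent.R17.VoGeo2
import Crest.Agent.R17.VoRed
import Crest.Agent.R17.VoGrp

/-!
# R17 / VoNu : the weight `rho`, the finite measure `nu`, unfolding
-/

set_option autoImplicit false

noncomputable section

open scoped Classical ComplexConjugate Topology ENNReal InnerProductSpace
open MeasureTheory Filter

namespace Crest.Agent.R17.Vor

theorem nu_uu_pos (w w' : X) : 0 < uu w w' := zero_lt_one.trans_le (one_le_uu w w')

theorem nu_summable : Summable fun n : O => (1 + N n) ^ (-(5 / 4) : ℝ) := by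
  refine Summable.of_norm_bounded_eventually (summable_N_rpow (σ := 5 / 4) (by norm_num)) ?_
  filter_upwards [eventually_cofinite_ne (0 : O)] with n hn
  rw [Real.norm_of_nonneg (Real.rpow_nonneg (by linarith [N_nonneg n]) _)]
  exact Real.rpow_le_rpow_of_nonpos (N_pos hn) (by linarith) (by norm_num)

/-- `uu (g o) o ≤ 2 uu (g o) (g w) uu (g w) o`, so `wa (g w) ≤ (2 uu w o)^5 (uu (g o) o)^{-5}`;
`2 uu (g o) o = Na + Nb + Nc + Nd =: Σ ≥ 1`, `(1+Na)(1+Nb)(1+Nc)(1+Nd) ≤ (2Σ)⁴`, so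
`Σ^{-5} ≤ C ∏ (1 + N ·)^{-5/4}`, summable over `O⁴` (`summable_N_rpow`, `Summable.mul_of_nonneg`,
`Summable.comp_injective`). -/
theorem summable_wa (w : X) : Summable (fun g : SL O => wa (act (ι g) w)) := by
  have h0 : ∀ n : O, 0 ≤ (1 + N n) ^ (-(5 / 4) : ℝ) := fun n =>
    Real.rpow_nonneg (by linarith [N_nonneg n]) _
  have h1 := nu_summable
  have h2 := h1.mul_of_nonneg h1 h0 h0
  have h3 := h2.mul_of_nonneg h2 (fun _ => mul_nonneg (h0 _) (h0 _)) fun _ => mul_nonneg (h0 _) (h0 _)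
  have hinj : Function.Injective fun g : SL O => ((g.a, g.b), (g.c, g.d)) := fun g h e => by
    simp only [Prod.mk.injEq] at e
    exact SL.ext e.1.1 e.1.2 e.2.1 e.2.2
  refine Summable.of_nonneg_of_le (fun g => pow_nonneg (inv_nonneg.2 (nu_uu_pos _ _).le) _)
    (fun g => ?_) ((h3.comp_injective hinj).mul_left ((2 * uu o w) ^ 5 * 3 ^ 5))
  obtain ⟨u, hu⟩ : ∃ u, u = uu (act (ι g) o) o := ⟨_, rfl⟩
  have hu1 : 1 ≤ u := hu ▸ one_le_uu _ _
  have h4 : u ≤ 2 * uu o w * uu (act (ι g) w) o := by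
    rw [hu, ← uu_act (ι g) o w]; exact uu_le _ _ _
  have h5 : u = (N g.a + N g.b + N g.c + N g.d) / 2 := by
    rw [hu, uu_act_o]; simp only [ι_a, ι_b, ι_c, ι_d, norm_toC_sq]
  have h6 : ∀ n : O, N n ≤ 2 * u → (3 * u) ^ (-(5 / 4) : ℝ) ≤ (1 + N n) ^ (-(5 / 4) : ℝ) := fun n hn =>
    Real.rpow_le_rpow_of_nonpos (by linarith [N_nonneg n]) (by linarith) (by norm_num)
  have a0 := N_nonneg g.a
  have b0 := N_nonneg g.b
  have c0 := N_nonneg g.c
  have d0 := N_nonneg g.d
  have h7 : 0 ≤ (3 * u) ^ (-(5 / 4) : ℝ) := Real.rpow_nonneg (by linarith) _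
  have h8 : ((3 * u)⁻¹) ^ 5 = (3 * u) ^ (-(5 / 4) : ℝ) * (3 * u) ^ (-(5 / 4) : ℝ) *
      ((3 * u) ^ (-(5 / 4) : ℝ) * (3 * u) ^ (-(5 / 4) : ℝ)) := by
    rw [← Real.rpow_add (by linarith), ← Real.rpow_add (by linarith), inv_pow, ← Real.rpow_natCast,
      ← Real.rpow_neg (by linarith)]
    norm_num
  have h9 : (uu (act (ι g) w) o)⁻¹ ≤ 2 * uu o w * 3 * (3 * u)⁻¹ := by
    have := nu_uu_pos (act (ι g) w) o
    rw [← div_eq_mul_inv, inv_eq_one_div, div_le_div_iff₀ this (by linarith)]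
    linarith
  calc wa (act (ι g) w) ≤ (2 * uu o w * 3 * (3 * u)⁻¹) ^ 5 :=
        pow_le_pow_left₀ (inv_nonneg.2 (nu_uu_pos _ _).le) h9 5
    _ = (2 * uu o w) ^ 5 * 3 ^ 5 * ((3 * u)⁻¹) ^ 5 := by rw [mul_pow, mul_pow _ 3]
    _ ≤ _ := by
      rw [h8]
      refine mul_le_mul_of_nonneg_left ?_ (by have := nu_uu_pos o w; positivity)
      exact mul_le_mul (mul_le_mul (h6 _ (by linarith)) (h6 _ (by linarith)) h7 (h0 _))
        (mul_le_mul (h6 _ (by linarith)) (h6 _ (by linarith)) h7 (h0 _)) (mul_nonneg h7 h7)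
        (mul_nonneg (h0 _) (h0 _))
theorem wa_pos (w : X) : 0 < wa w := by
  exact pow_pos (inv_pos.2 (nu_uu_pos _ _)) _
theorem continuous_wa : Continuous wa := by
  have hc : Continuous fun w : X => uu w o :=
    continuous_uu.comp (f := fun w : X => (w, o)) (continuous_id.prodMk continuous_const)
  exact (hc.inv₀ fun w => (nu_uu_pos _ _).ne').pow 5
theorem nu_summable_Gam (p : O) (w : X) : Summable fun γ : Gam p => wa (act (ι γ) w) :=
  (summable_wa w).subtype _

theorem nu_den_pos (p : O) (w : X) : 0 < ∑' γ : Gam p, wa (act (ι γ) w) :=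
  (nu_summable_Gam p w).tsum_pos (fun _ => (wa_pos _).le) 1 (wa_pos _)

theorem rho_pos (p : O) (w : X) : 0 < rho p w := by
  exact div_pos (wa_pos w) (nu_den_pos p w)
theorem measurable_rho (p : O) : Measurable (rho p) := by
  have h : (fun w => ∑' γ : Gam p, wa (act (ι γ) w)) =
      fun w => (∑' γ : Gam p, ENNReal.ofReal (wa (act (ι γ) w))).toReal := by
    funext w
    rw [← ENNReal.ofReal_tsum_of_nonneg (fun _ => (wa_pos _).le) (nu_summable_Gam p w),
      ENNReal.toReal_ofReal (nu_den_pos p w).le]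
  refine continuous_wa.measurable.div ?_
  rw [h]
  exact (Measurable.tsum fun γ =>
    (continuous_wa.comp (continuous_act _)).measurable.ennreal_ofReal).ennreal_toReal
/-- the denominator is `Gam p`-invariant (`Equiv.mulRight`) -/
theorem hasSum_rho (p : O) (w : X) : HasSum (fun γ : Gam p => rho p (act (ι γ) w)) 1 := by
  have h : ∀ δ : Gam p, ∑' γ : Gam p, wa (act (ι γ) (act (ι δ) w)) = ∑' γ : Gam p, wa (act (ι γ) w) := by
    intro δ
    rw [← (Equiv.mulRight δ).tsum_eq fun γ : Gam p => wa (act (ι γ) w)]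
    refine tsum_congr fun γ => ?_
    rw [Equiv.coe_mulRight, Subgroup.coe_mul, map_mul, act_mul]
  simp only [rho, h]
  rw [← div_self (nu_den_pos p w).ne']
  exact (nu_summable_Gam p w).hasSum.div_const _

theorem nu_hasSum_inv (p : O) (w : X) :
    HasSum (fun γ : Gam p => rho p (act (ι (γ⁻¹ : Gam p)) w)) 1 :=
  (Equiv.inv (Gam p)).hasSum_iff.2 (hasSum_rho p w)

theorem nu_tsum_inv (p : O) (w : X) :
    ∑' γ : Gam p, ENNReal.ofReal (rho p (act (ι (γ⁻¹ : Gam p)) w)) = 1 := by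
  rw [← ENNReal.ofReal_tsum_of_nonneg (fun _ => (rho_pos p _).le) (nu_hasSum_inv p w).summable,
    (nu_hasSum_inv p w).tsum_eq, ENNReal.ofReal_one]

/-- **unfolding**: `∫ ρ ∑_γ f(γ w) = ∑_γ ∫ ρ(γ⁻¹ w) f(w) = ∫ f` (`lintegral_tsum`, `lintegral_act`,
`Equiv.inv`, `hasSum_rho`) -/
theorem unfold_lintegral (p : O) {f : X → ℝ≥0∞} (hf : Measurable f) :
    ∫⁻ w, ∑' γ : Gam p, f (act (ι γ) w) ∂(nu p) = ∫⁻ w, f w := by
  have hm : ∀ γ : Gam p, Measurable fun w => f (act (ι γ) w) := fun γ =>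
    hf.comp (continuous_act _).measurable
  have hρ := (measurable_rho p).ennreal_ofReal
  rw [lintegral_tsum fun γ => (hm γ).aemeasurable]
  have h1 : ∀ γ : Gam p, ∫⁻ w, f (act (ι γ) w) ∂(nu p) =
      ∫⁻ w, ENNReal.ofReal (rho p (act (ι (γ⁻¹ : Gam p)) w)) * f w := by
    intro γ
    rw [nu, lintegral_withDensity_eq_lintegral_mul _ hρ (hm γ),
      ← lintegral_act (ι γ) fun w => ENNReal.ofReal (rho p (act (ι (γ⁻¹ : Gam p)) w)) * f w]
    refine lintegral_congr fun w => ?_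
    rw [Subgroup.coe_inv, map_inv, act_inv_act]; rfl
  simp only [h1]
  have h2 : ∀ γ : Gam p, Measurable fun w => ENNReal.ofReal (rho p (act (ι (γ⁻¹ : Gam p)) w)) * f w :=
    fun γ => (hρ.comp (continuous_act _).measurable).mul hf
  rw [← lintegral_tsum fun γ => (h2 γ).aemeasurable]
  refine lintegral_congr fun w => ?_
  rw [ENNReal.tsum_mul_right, nu_tsum_inv, one_mul]

/-- the same for integrable functions (`integral_tsum` / `hasSum_integral_of_summable_integral_norm`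
twice, the norms being controlled by `unfold_lintegral` applied to a measurable modification) -/
theorem unfold_integral (p : O) {f : X → ℂ} (hm : Measurable f) (hf : Integrable f) :
    ∫ w, ∑' γ : Gam p, f (act (ι γ) w) ∂(nu p) = ∫ w, f w := by
  have hm' : ∀ γ : Gam p, Measurable fun w => f (act (ι γ) w) := fun γ =>
    hm.comp (continuous_act _).measurable
  have hρ := (measurable_rho p).ennreal_ofReal
  have hfin : ∫⁻ w, ‖f w‖ₑ ≠ ∞ := hf.2.ne
  rw [integral_tsum (fun γ => (hm' γ).aestronglyMeasurable) (by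
    rw [← lintegral_tsum fun γ => (hm' γ).enorm.aemeasurable,
      unfold_lintegral p (f := fun w => ‖f w‖ₑ) hm.enorm]
    exact hfin)]
  have h1 : ∀ γ : Gam p, ∫ w, f (act (ι γ) w) ∂(nu p) =
      ∫ w, (rho p (act (ι (γ⁻¹ : Gam p)) w) : ℂ) * f w := by
    intro γ
    rw [nu, integral_withDensity_eq_integral_toReal_smul hρ (Eventually.of_forall fun _ => by simp),
      ← integral_act (ι γ) fun w => (rho p (act (ι (γ⁻¹ : Gam p)) w) : ℂ) * f w]
    refine integral_congr_ae (Eventually.of_forall fun w => ?_)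
    simp only
    rw [Subgroup.coe_inv, map_inv, act_inv_act, ENNReal.toReal_ofReal (rho_pos p w).le,
      Complex.real_smul]
  simp only [h1]
  have h2 : ∀ γ : Gam p, Measurable fun w => (rho p (act (ι (γ⁻¹ : Gam p)) w) : ℂ) * f w := fun γ =>
    (Complex.measurable_ofReal.comp ((measurable_rho p).comp (continuous_act _).measurable)).mul hm
  rw [← integral_tsum (fun γ => (h2 γ).aestronglyMeasurable)]
  · refine integral_congr_ae (Eventually.of_forall fun w => ?_)
    simp only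
    rw [tsum_mul_right, ← Complex.ofReal_tsum, (nu_hasSum_inv p w).tsum_eq]
    simp
  · rw [← lintegral_tsum fun γ => (h2 γ).enorm.aemeasurable]
    refine ne_of_eq_of_ne (lintegral_congr fun w => ?_) hfin
    have h3 : ∀ γ : Gam p, ‖(rho p (act (ι (γ⁻¹ : Gam p)) w) : ℂ) * f w‖ₑ =
        ENNReal.ofReal (rho p (act (ι (γ⁻¹ : Gam p)) w)) * ‖f w‖ₑ := by
      intro γ
      rw [enorm_mul, ← ofReal_norm, Complex.norm_real, Real.norm_of_nonneg (rho_pos p _).le]
    simp only [h3]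
    rw [ENNReal.tsum_mul_right, nu_tsum_inv, one_mul]

/-- `1 ≤ ∑_{σ ∈ T} ∑_γ 1_{𝔖}(σ⁻¹ γ w)` where `𝔖` is the Siegel set (`exists_reduced`; write
`g⁻¹ = γ σ` with `finite_index`, so `g = σ⁻¹ γ⁻¹`); unfold, `lintegral_act`, `volume_siegel`. -/
theorem isFiniteMeasure_nu {p : O} (hp : p ≠ 0) : IsFiniteMeasure (nu p) := by
  obtain ⟨T, hT⟩ := finite_index hp
  obtain ⟨S, hS⟩ : ∃ S, S = {w : X | 1 / 2 ≤ vc w ∧ ‖zc w‖ ≤ 1} := ⟨_, rfl⟩
  have hm : MeasurableSet S := by
    rw [hS]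
    exact ((isClosed_le continuous_const continuous_vc).inter
      (isClosed_le continuous_zc.norm continuous_const)).measurableSet
  have hv : volume S < ⊤ := hS ▸ volume_siegel
  have h1 : ∀ σ : SL O, Measurable fun w => S.indicator (1 : X → ℝ≥0∞) (act (ι σ⁻¹) w) := fun σ =>
    (measurable_one.indicator hm).comp (continuous_act _).measurable
  have h2 := unfold_lintegral p (f := fun w => ∑ σ ∈ T, S.indicator (1 : X → ℝ≥0∞) (act (ι σ⁻¹) w))
    (Finset.measurable_sum _ fun σ _ => h1 σ)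
  rw [lintegral_finsetSum _ fun σ _ => h1 σ] at h2
  simp only [lintegral_act, lintegral_indicator_one hm] at h2
  refine ⟨?_⟩
  rw [← lintegral_one]
  refine lt_of_le_of_lt (lintegral_mono fun w => ?_) (h2 ▸ ENNReal.sum_lt_top.2 fun _ _ => hv)
  obtain ⟨g, hg⟩ := exists_reduced w
  obtain ⟨γ, hγ, σ, hσ, h3⟩ := hT g⁻¹
  refine le_trans ?_ (ENNReal.le_tsum (⟨γ, hγ⟩ : Gam p)⁻¹)
  refine le_trans ?_ (Finset.single_le_sum (f := fun σ : SL O => S.indicator (1 : X → ℝ≥0∞)
    (act (ι σ⁻¹) (act (ι ((⟨γ, hγ⟩ : Gam p)⁻¹ : Gam p)) w))) (fun _ _ => zero_le) hσ)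
  have h4 : σ⁻¹ * γ⁻¹ = g := by rw [← mul_inv_rev, ← h3, inv_inv]
  simp only [Subgroup.coe_inv]
  rw [← act_mul, ← map_mul, h4, Set.indicator_of_mem (by rw [hS]; exact hg)]
  rfl

theorem nu_ac (p : O) : nu p ≪ volume := by
  exact withDensity_absolutelyContinuous _ _
theorem volume_ac (p : O) : (volume : Measure X) ≪ nu p := by
  exact withDensity_absolutelyContinuous' (measurable_rho p).ennreal_ofReal.aemeasurable
    (Eventually.of_forall fun w => (ENNReal.ofReal_pos.2 (rho_pos p w)).ne')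
/-- continuous functions that agree `nu`-a.e. agree (`Continuous.ae_eq_iff_eq`) -/
theorem eq_of_ae_nu (p : O) {f g : X → ℂ} (hf : Continuous f) (hg : Continuous g)
    (h : f =ᵐ[nu p] g) : f = g := by
  exact (Continuous.ae_eq_iff_eq volume hf hg).1 (volume_ac p h)

/-- `wa (S w) = wa w` (`act_SS_o`) and `S` normalises `Γ(3)` (`conj_mem_Gam`), so
`rho 1 (S w) = rho 1 w` -/
theorem rho_SS (w : X) : rho 1 (act SS w) = rho 1 w := by
  have h1 : ∀ w, wa (act SS w) = wa w := fun w => by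
    rw [wa, wa, ← uu_act SS w o, act_SS_o]
  let e : Gam 1 ≃ Gam 1 :=
    { toFun := fun γ => ⟨SS * γ.1 * SS⁻¹, conj_mem_Gam _ γ.2⟩
      invFun := fun γ => ⟨SS⁻¹ * γ.1 * SS⁻¹⁻¹, conj_mem_Gam _ γ.2⟩
      left_inv := fun γ => Subtype.ext (by simp [mul_assoc])
      right_inv := fun γ => Subtype.ext (by simp [mul_assoc]) }
  rw [rho, rho, h1, ← e.tsum_eq]
  congr 1
  refine tsum_congr fun γ => ?_
  change wa (act (ι (SS * γ.1 * SS⁻¹)) (act SS w)) = _
  rw [map_mul, map_mul, map_inv, ι_SS, act_mul, act_inv_act, act_mul, h1]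
theorem measurePreserving_SS : MeasurePreserving (act SS) (nu 1) (nu 1) := by
  refine ⟨(continuous_act _).measurable, Measure.ext fun s hs => ?_⟩
  have hs' := (continuous_act SS).measurable hs
  rw [Measure.map_apply (continuous_act _).measurable hs, nu, withDensity_apply _ hs,
    withDensity_apply _ hs', ← lintegral_indicator hs, ← lintegral_indicator hs',
    ← lintegral_act SS (s.indicator _)]
  refine lintegral_congr fun w => ?_
  by_cases h : act SS w ∈ s
  · rw [Set.indicator_of_mem h, Set.indicator_of_mem (show w ∈ act SS ⁻¹' s from h), rho_SS]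
  · rw [Set.indicator_of_notMem h, Set.indicator_of_notMem (show w ∉ act SS ⁻¹' s from h)]

end Crest.Agent.R17.Vor
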