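import Crest.Agent.R17.VoNu
import Crest.Agent.R17.VoSchur

/-!
# R17 / VoOp : the automorphic kernel and the operators `TK`, `TX`; the class `Eig`
-/

set_option autoImplicit false

noncomputable section

open scoped Classical ComplexConjugate Topology ENNReal InnerProductSpace
open MeasureTheory Filter

namespace Crest.Agent.R17.Vor

theorem voop_supp (p : O) (R : ℝ) : ∃ M : ℕ, ∀ w', ∃ s : Finset (Gam p), s.card ≤ M ∧
    ∀ w, uu w o ≤ R → ∀ γ ∉ s, kk (uu w (act (ι γ) w')) = 0 := by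
  obtain ⟨M, hM⟩ := card_ball_bound (4 * R)
  refine ⟨M, fun w' => ?_⟩
  obtain ⟨h1, h2⟩ := hM w'
  have h3 := h1.preimage (f := fun γ : Gam p => (γ : SL O)) Subtype.val_injective.injOn
  refine ⟨h3.toFinset, ?_, fun w hw γ hγ => kk_eq_zero ?_⟩
  · rw [← Set.ncard_eq_toFinset_card _ h3]
    exact (Set.ncard_le_ncard_of_injOn (fun γ : Gam p => (γ : SL O)) (fun _ h => h)
      Subtype.val_injective.injOn h1).trans h2
  · by_contra hc
    refine hγ (h3.mem_toFinset.2 ?_)
    change uu (act (ι γ) w') o ≤ 4 * R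
    have h4 := uu_le (act (ι γ) w') w o
    rw [uu_symm _ w] at h4
    have h5 := one_le_uu w o
    have h6 := one_le_uu w (act (ι γ) w')
    nlinarith

theorem voop_norm_kap {p : O} (γ : Gam p) : ‖kap γ‖ = 1 := norm_kap (Gam_le p γ.2)

theorem voop_norm_term {p : O} (γ : Gam p) (u : ℝ) : ‖conj (kap γ) * (kk u : ℂ)‖ = kk u := by
  rw [norm_mul, Complex.norm_conj, voop_norm_kap, one_mul, Complex.norm_real,
    Real.norm_of_nonneg (kk_nonneg u)]

theorem voop_cont_kk (g : SL ℂ) : Continuous fun q : X × X => kk (uu q.1 (act g q.2)) :=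
  continuous_kk.comp (continuous_uu.comp (f := fun q : X × X => (q.1, act g q.2))
    (continuous_fst.prodMk ((continuous_act g).comp continuous_snd)))

theorem voop_cont_kk' (w : X) : Continuous fun w' => kk (uu w w') :=
  continuous_kk.comp (continuous_uu.comp (f := fun w' : X => (w, w'))
    (continuous_const.prodMk continuous_id))

theorem voop_nhds (w₀ : X) : ∀ᶠ w in 𝓝 w₀, uu w o ≤ uu w₀ o + 1 := by
  have h : Continuous fun w : X => uu w o :=
    continuous_uu.comp (f := fun w : X => (w, o)) (continuous_id.prodMk continuous_const)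
  exact (h.continuousAt.eventually_lt continuousAt_const (lt_add_one _)).mono fun _ h => h.le

/-- for continuous `D` the integrand of `TX D w` is integrable -/
theorem voop_integrable {D : X → ℂ} (hD : Continuous D) (w : X) :
    Integrable (fun w' => (kk (uu w w') : ℂ) * D w') := by
  refine Continuous.integrable_of_hasCompactSupport
    ((Complex.continuous_ofReal.comp (voop_cont_kk' w)).mul hD) ?_
  refine HasCompactSupport.intro (isCompact_ball w 2) fun w' hw' => ?_
  rw [kk_eq_zero (le_of_not_ge hw')]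
  simp

/-- only finitely many terms of `Ker` are non-zero, boundedly many on balls (`card_ball_bound`:
`uu w (γ w') ≤ 2` and `uu w o ≤ R` give `uu (γ w') o ≤ 4R`) -/
theorem tsum_kk_le (p : O) (R : ℝ) : ∃ M : ℝ, ∀ w, uu w o ≤ R → ∀ w',
    Summable (fun γ : Gam p => kk (uu w (act (ι γ) w'))) ∧
    ∑' γ : Gam p, kk (uu w (act (ι γ) w')) ≤ M := by
  obtain ⟨M, hM⟩ := voop_supp p R
  refine ⟨M, fun w hw w' => ?_⟩
  obtain ⟨s, hs, h0⟩ := hM w'
  refine ⟨summable_of_ne_finset_zero (h0 w hw), ?_⟩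
  rw [tsum_eq_sum (h0 w hw)]
  refine (Finset.sum_le_card_nsmul _ _ 1 fun γ _ => kk_uu_le _ _).trans ?_
  rw [nsmul_eq_mul, mul_one]
  exact_mod_cast hs
theorem norm_Ker_le (p : O) (R : ℝ) : ∃ M : ℝ, ∀ w, uu w o ≤ R → ∀ w', ‖Ker p w w'‖ ≤ M := by
  obtain ⟨M, hM⟩ := tsum_kk_le p R
  refine ⟨M, fun w hw w' => ?_⟩
  exact (tsum_of_norm_bounded (hM w hw w').1.hasSum fun γ => (voop_norm_term γ _).le).trans
    (hM w hw w').2
theorem measurable_Ker (p : O) : Measurable (Function.uncurry (Ker p)) :=   Measurable.tsum (f := fun (γ : Gam p) (q : X × X) =>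
    conj (kap γ) * (kk (uu q.1 (act (ι γ) q.2)) : ℂ)) fun γ =>
    (continuous_const.mul (Complex.continuous_ofReal.comp (voop_cont_kk (ι γ)))).measurable
/-- `γ ↦ γ⁻¹`, `uu_act`, `kap_inv` -/
theorem Ker_symm (p : O) (w w' : X) : Ker p w' w = conj (Ker p w w') := by
  rw [Ker, Ker, Complex.conj_tsum, ← (Equiv.inv (Gam p)).tsum_eq]
  refine tsum_congr fun γ => ?_
  rw [Equiv.inv_apply, Subgroup.coe_inv, kap_inv (Gam_le p γ.2), map_inv, ← uu_act (ι γ),
    act_act_inv, uu_symm, map_mul, Complex.conj_ofReal]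
/-- `γ ↦ γ₀ γ`, `kap_mul` -/
theorem Ker_act {p : O} {γ : SL O} (hγ : γ ∈ Gam p) (w w' : X) :
    Ker p (act (ι γ) w) w' = conj (kap γ) * Ker p w w' := by
  rw [Ker, Ker, ← tsum_mul_left, ← (Equiv.mulLeft (⟨γ, hγ⟩ : Gam p)).tsum_eq]
  refine tsum_congr fun δ => ?_
  rw [Equiv.coe_mulLeft, Subgroup.coe_mul, kap_mul (Gam_le p hγ) (Gam_le p δ.2), map_mul, map_mul,
    act_mul, uu_act, mul_assoc]
/-- on the open set `uu w o < R` the sum is a fixed finite sum -/
theorem continuous_Ker (p : O) (w' : X) : Continuous (fun w => Ker p w w') := by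
  refine continuous_iff_continuousAt.2 fun w₀ => ?_
  obtain ⟨M, hM⟩ := voop_supp p (uu w₀ o + 1)
  obtain ⟨s, -, h0⟩ := hM w'
  have h1 : Continuous fun w => ∑ γ ∈ s, conj (kap γ) * (kk (uu w (act (ι γ) w')) : ℂ) :=
    continuous_finsetSum _ fun γ _ => continuous_const.mul (Complex.continuous_ofReal.comp
      ((voop_cont_kk (ι γ)).comp (f := fun w : X => (w, w'))
        (continuous_id.prodMk continuous_const)))
  refine h1.continuousAt.congr ((voop_nhds w₀).mono fun w hw => ?_)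
  exact (tsum_eq_sum fun γ hγ => by rw [h0 w hw γ hγ]; simp).symm
/-- `unfold_lintegral`, `lintegral_kk` -/
theorem lintegral_Ker (p : O) : ∃ M : ℝ, 0 ≤ M ∧ ∀ w,
    ∫⁻ w', ‖Ker p w w'‖ₑ ∂(nu p) ≤ ENNReal.ofReal M := by
  obtain ⟨M, hM, h⟩ := lintegral_kk
  refine ⟨M, hM, fun w => le_trans ?_ (h w)⟩
  rw [← unfold_lintegral p (f := fun w' => ENNReal.ofReal (kk (uu w w')))
    (voop_cont_kk' w).measurable.ennreal_ofReal]
  refine lintegral_mono fun w' => enorm_tsum_le_tsum_enorm.trans_eq (tsum_congr fun γ => ?_)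
  rw [← ofReal_norm, voop_norm_term]

/-- `schur` -/
theorem exists_T {p : O} (hp : p ≠ 0) : ∃ T : Lp ℂ 2 (nu p) →L[ℂ] Lp ℂ 2 (nu p),
    IsSelfAdjoint T ∧ ∀ f : Lp ℂ 2 (nu p), T f =ᵐ[nu p] TK p f := by
  have := isFiniteMeasure_nu hp
  obtain ⟨M, hM, h⟩ := lintegral_Ker p
  exact schur (measurable_Ker p) hM h fun x y => Ker_symm p x y
/-- `exists_functional`, `norm_Ker_le` -/
theorem exists_ev {p : O} (hp : p ≠ 0) : ∃ ev : X → (Lp ℂ 2 (nu p) →L[ℂ] ℂ),
    (∀ w (f : Lp ℂ 2 (nu p)), ev w f = TK p f w) ∧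
    ∀ R : ℝ, ∃ M : ℝ, ∀ w, uu w o ≤ R → ‖ev w‖ ≤ M := by
  have := isFiniteMeasure_nu hp
  have hm : ∀ w, AEStronglyMeasurable (Ker p w) (nu p) := fun w =>
    (measurable_Ker p).of_uncurry_left.aestronglyMeasurable
  have h1 : ∀ w, ∃ Λ : Lp ℂ 2 (nu p) →L[ℂ] ℂ, ∀ f : Lp ℂ 2 (nu p), Λ f = TK p f w := fun w => by
    obtain ⟨M, hM⟩ := norm_Ker_le p (uu w o)
    obtain ⟨Λ, h, -⟩ := exists_functional (hm w) (hM w le_rfl)
    exact ⟨Λ, h⟩
  choose ev hev using h1
  refine ⟨ev, hev, fun R => ?_⟩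
  obtain ⟨M, hM⟩ := norm_Ker_le p R
  refine ⟨M * Real.sqrt ((nu p).real Set.univ), fun w hw => ?_⟩
  obtain ⟨Λ, h, h'⟩ := exists_functional (hm w) (hM w hw)
  rwa [show ev w = Λ from ContinuousLinearMap.ext fun f => (hev w f).trans (h f).symm]
theorem TK_congr {p : O} {f g : X → ℂ} (h : f =ᵐ[nu p] g) : TK p f = TK p g :=   funext fun _ => integral_congr_ae (h.mono fun _ h' => by simp only [h'])
/-- dominated convergence (`continuousAt_of_dominated`) on `uu w o < R` -/
theorem continuous_TK {p : O} {f : X → ℂ} (hf : Integrable f (nu p)) : Continuous (TK p f) := by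
  refine continuous_iff_continuousAt.2 fun w₀ => ?_
  obtain ⟨M, hM⟩ := norm_Ker_le p (uu w₀ o + 1)
  refine continuousAt_of_dominated (bound := fun w' => M * ‖f w'‖) (Eventually.of_forall fun w =>
    (measurable_Ker p).of_uncurry_left.aestronglyMeasurable.mul hf.1)
    ((voop_nhds w₀).mono fun w hw => Eventually.of_forall fun w' => ?_) (hf.norm.const_mul M)
    (Eventually.of_forall fun w' => ((continuous_Ker p w').mul continuous_const).continuousAt)
  rw [norm_mul]
  exact mul_le_mul_of_nonneg_right (hM w hw w') (norm_nonneg _)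
theorem aut_TK (p : O) (f : X → ℂ) : Aut p (TK p f) := fun γ hγ w => by
  simp only [TK, Ker_act hγ, mul_assoc]
  exact integral_const_mul _ _

/-- `F = kk (uu w ·) f` is `volume`-integrable: `∫⁻ ‖F‖ = ∫⁻ ∑_γ ‖F(γ ·)‖ dν = ∫⁻ (∑_γ kk) ‖f‖ dν` -/
theorem integrable_kk_mul {p : O} {f : X → ℂ} (hm : Measurable f) (ha : Aut p f)
    (hf : Integrable f (nu p)) (w : X) :
    Integrable (fun w' => (kk (uu w w') : ℂ) * f w') := by
  have h1 : Measurable fun w' => (kk (uu w w') : ℂ) * f w' :=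
    (Complex.continuous_ofReal.comp (voop_cont_kk' w)).measurable.mul hm
  refine ⟨h1.aestronglyMeasurable, ?_⟩
  obtain ⟨M, hM⟩ := tsum_kk_le p (uu w o)
  rw [hasFiniteIntegral_iff_enorm, ← unfold_lintegral p h1.enorm]
  refine lt_of_le_of_lt (lintegral_mono fun w' => ?_) (hf.const_mul (M : ℂ)).2
  have h2 : ∀ γ : Gam p, ‖(kk (uu w (act (ι γ) w')) : ℂ) * f (act (ι γ) w')‖ₑ =
      ENNReal.ofReal (kk (uu w (act (ι γ) w'))) * ‖f w'‖ₑ := fun γ => by
    rw [ha γ γ.2, ← mul_assoc, mul_comm _ (conj _), enorm_mul, ← ofReal_norm, voop_norm_term]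
  simp only [h2]
  rw [ENNReal.tsum_mul_right, ← ENNReal.ofReal_tsum_of_nonneg (fun _ => kk_nonneg _)
    (hM w le_rfl w').1, enorm_mul]
  gcongr
  rw [← ofReal_norm, Complex.norm_real]
  exact ENNReal.ofReal_le_ofReal ((hM w le_rfl w').2.trans (le_abs_self M))
/-- `Ker p w w' · f w' = ∑_γ F(γ w')` and `unfold_integral` -/
theorem TK_eq_TX {p : O} {f : X → ℂ} (hm : Measurable f) (ha : Aut p f)
    (hf : Integrable f (nu p)) (w : X) : TK p f w = TX f w := by
  rw [TX, ← unfold_integral p (f := fun w' => (kk (uu w w') : ℂ) * f w')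
    ((Complex.continuous_ofReal.comp (voop_cont_kk' w)).measurable.mul hm)
    (integrable_kk_mul hm ha hf w), TK]
  refine integral_congr_ae (Eventually.of_forall fun w' => ?_)
  simp only [Ker]
  rw [← tsum_mul_right]
  refine tsum_congr fun γ => ?_
  rw [ha γ γ.2]
  ring
theorem TX_act (g : SL ℂ) (f : X → ℂ) (w : X) :
    TX (fun w' => f (act g w')) w = TX f (act g w) := by
  rw [TX, TX, ← integral_act g fun w' => (kk (uu (act g w) w') : ℂ) * f w']
  simp only [uu_act]
theorem TX_congr {f g : X → ℂ} {w : X} (h : ∀ w', uu w w' ≤ 2 → f w' = g w') :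
    TX f w = TX g w := by
  refine integral_congr_ae (Eventually.of_forall fun w' => ?_)
  by_cases h1 : uu w w' ≤ 2
  · simp only [h w' h1]
  · simp [kk_eq_zero (le_of_not_ge h1)]

theorem Eig.add {p : O} {D E : X → ℂ} (hD : Eig p D) (hE : Eig p E) :
    Eig p (fun w => D w + E w) :=   ⟨hD.cont.add hE.cont, fun γ hγ w => by simp only [hD.aut γ hγ w, hE.aut γ hγ w, mul_add],
    hD.mem.add hE.mem, fun w => by
      rw [mul_add, ← hD.eig, ← hE.eig, TX, TX, TX,
        ← integral_add (voop_integrable hD.cont w) (voop_integrable hE.cont w)]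
      simp only [mul_add]⟩
theorem Eig.const_mul {p : O} {D : X → ℂ} (hD : Eig p D) (a : ℂ) :
    Eig p (fun w => a * D w) :=   ⟨continuous_const.mul hD.cont, fun γ hγ w => by simp only [hD.aut γ hγ w, mul_left_comm],
    hD.mem.const_mul a, fun w => by
      rw [mul_left_comm, ← hD.eig, TX, TX, ← integral_const_mul]
      simp only [mul_left_comm]⟩
theorem Eig.sub {p : O} {D E : X → ℂ} (hD : Eig p D) (hE : Eig p E) :
    Eig p (fun w => D w - E w) := by
  simpa [sub_eq_add_neg] using hD.add (hE.const_mul (-1))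
/-- `ι SS = SS`, `kap_conj_SS`, `measurePreserving_SS`, `TX_act` -/
theorem Eig.comp_SS {D : X → ℂ} (hD : Eig 1 D) : Eig 1 (fun w => D (act SS w)) := by
  refine ⟨hD.cont.comp (continuous_act _), fun γ hγ w => ?_,
    hD.mem.comp_measurePreserving measurePreserving_SS, fun w => by rw [TX_act, hD.eig]⟩
  have h := hD.aut _ (conj_mem_Gam SS hγ) (act SS w)
  rw [kap_conj_SS hγ, map_mul, map_mul, map_inv, ι_SS, act_mul, act_mul, act_inv_act] at h
  exact h
theorem Eig.integrable_mul {p : O} {D E : X → ℂ} (hD : Eig p D) (hE : Eig p E) :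
    Integrable (fun w => conj (D w) * E w) (nu p) :=   hD.mem.star.integrable_mul hE.mem
/-- `∫ |D|² dν = 0` forces `D = 0` -/
theorem Eig.eq_zero {p : O} {D : X → ℂ} (hD : Eig p D)
    (h : ∫ w, conj (D w) * D w ∂(nu p) = 0) (w : X) : D w = 0 := by
  have h1 : ∀ w, conj (D w) * D w = ((‖D w‖ ^ 2 : ℝ) : ℂ) := fun w => by
    rw [Complex.conj_mul']; push_cast; rfl
  simp only [h1] at h
  rw [integral_complex_ofReal, Complex.ofReal_eq_zero, integral_eq_zero_iff_of_nonneg
    (fun _ => sq_nonneg _) ((memLp_two_iff_integrable_sq_norm hD.mem.1).1 hD.mem)] at h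
  exact congrFun (eq_of_ae_nu p hD.cont continuous_const (g := fun _ => 0)
    (h.mono fun w hw => by simpa using hw)) w

end Crest.Agent.R17.Vor
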