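import Crest.Agent.R17.VoHecke1

/-!
# R17 / VoRho1 : removing the `p`-part of `psi0`

For primary `c = p^k c'`, `p ∤ c'`: `g(p^k c', r) = g(p^k, r) g(c', r p^k)` (`gs_mul`, `cub_rec`,
`cub_mul_gs`).  `cub (p^k)` is periodic modulo `p`, so `gs_lift` gives `g(p^k, r) = 0` unless
`p^{k-1} ∣ r`.  Hence for `p ∤ r` only `k ≤ 1` contributes to `psi0 r`, and for `r p²` only `k = 0, 3`
(`k = 1, 2`: `g(p^k, r p²) = g(p^k, 0) = 0` by `gs_per`, `gs_prime_pow_zero`; `k = 3`:
`q² · (-1)` by `gs_lift`, `gs_prime_princ`).  Split the absolutely convergent series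
(`summable_dser`, `|g(c,r)| ≤ N c`) into `p ∤ c` and `c = p^k c'` (`Function.Injective.tsum_eq`).
-/

set_option autoImplicit false

noncomputable section

open scoped Classical ComplexConjugate Topology ENNReal InnerProductSpace
open MeasureTheory Filter

namespace Crest.Agent.R17.Vor

theorem gs_cub_mul {a b : O} (ha : Prim a) (hb : Prim b) (hab : IsCoprime a b) (r : O) :
    gs (a * b) (cub (a * b)) r = gs a (cub a) r * gs b (cub b) (r * a) := by
  have e : cub (a * b) = fun n => cub a n * cub b n := funext (rkub_mul_left ha hb)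
  rw [e, gs_mul ha.ne_zero hb.ne_zero hab (va2_isChar ha) (va2_isChar hb), cub_rec ha hb,
    ← gs_cub_cube hb hab (r * a), show r * a * a ^ 3 = a ^ 2 * (a ^ 2 * r) by ring,
    ← cub_mul_gs hb hab, ← cub_mul_gs hb hab]
  ring

theorem vorho1_cub_pow {p : O} (hp' : Prim p) (k : ℕ) : cub (p ^ k) = fun x => cub p x ^ k :=
  funext fun x => sym_pow_left 3 hp'.ne_zero k x

theorem vorho1_per {p : O} (k : ℕ) : Per p fun x => cub p x ^ k := fun x t => by
  have h : cub p (x + p * t) = cub p x := sym_per 3 p x t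
  simp only [h]

theorem gs_prime_pow_eq_zero {p : O} (hp' : Prim p) {k : ℕ} {r : O} (h : ¬ p ^ k ∣ r) :
    gs (p ^ (k + 1)) (cub (p ^ (k + 1))) r = 0 := by
  rw [vorho1_cub_pow hp', pow_succ', gs_lift hp'.ne_zero (hp'.pow k).ne_zero (vorho1_per _),
    if_neg h]

theorem gs_prime_cube {p : O} (hp : Prime p) (hp' : Prim p) {r : O} (hr : ¬ p ∣ r) :
    gs (p ^ 3) (cub (p ^ 3)) (r * p ^ 2) = -(N p : ℂ) ^ 2 := by
  have hn : ¬ NonPrinc p fun x => cub p x ^ 3 := by
    rintro ⟨n, h1, h2⟩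
    exact h2 (va2_cube hp' h1)
  rw [vorho1_cub_pow hp', pow_succ' p 2, gs_lift hp'.ne_zero (hp'.pow 2).ne_zero (vorho1_per _),
    if_pos (Dvd.intro_left r rfl), mul_div_cancel_right₀ _ (hp'.pow 2).ne_zero,
    gs_prime_princ hp ((va2_isChar hp').pow_char (by norm_num)) hn, if_neg hr, N_pow]
  push_cast
  ring

theorem vorho1_vanish {p : O} (hp : Prime p) (hp' : Prim p) {c r : O} (hc : Prim c)
    (h : ∀ j, p ^ j ∣ c → ¬ p ^ (j + 1) ∣ c → gs (p ^ j) (cub (p ^ j)) r = 0) :
    gs c (cub c) r = 0 := by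
  obtain ⟨j, c', h1, rfl⟩ := WfDvdMonoid.max_power_factor' hc.ne_zero hp.not_isUnit
  have hc' : Prim c' := hc.of_mul_left (hp'.pow j)
  have hco : IsCoprime (p ^ j) c' := (hp.irreducible.coprime_iff_not_dvd.2 h1).pow_left
  rw [gs_cub_mul (hp'.pow j) hc' hco, h j (Dvd.intro _ rfl), zero_mul]
  rw [pow_succ, mul_dvd_mul_iff_left (hp'.pow j).ne_zero]
  exact h1

theorem vorho1_summable (π : O → Prop) (r : O) {s : ℂ} (hs : 2 < s.re) :
    Summable fun n : O => if n = 0 then 0 else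
      prim (fun c => if π c then gs c (cub c) r else 0) n * (N n : ℂ) ^ (-s) := by
  refine (summable_dser (C := 1) (α := 1) (fun n hn => ?_) (by linarith)).of_norm
  rw [one_mul, Real.rpow_one]
  simp only [prim]
  split_ifs with h1 h2
  · exact norm_gs_le hn (fun x => (va2_isChar h1).norm_le hn x) r
  · simpa using N_nonneg n
  · simpa using N_nonneg n

theorem vorho1_split {p : O} (hp : Prime p) (hp' : Prim p) {k : ℕ} (hk : k ≠ 0) {r : O}
    (h1 : ∀ c, Prim c → p ∣ c → ¬ p ^ k ∣ c → gs c (cub c) r = 0)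
    (h2 : ∀ c, Prim c → p ^ (k + 1) ∣ c → gs c (cub c) r = 0) {s : ℂ} (hs : 2 < s.re) :
    psi0 r s = psi (fun c => ¬ p ∣ c) r s + (N (p ^ k) : ℂ) ^ (-s) *
      gs (p ^ k) (cub (p ^ k)) r * psi (fun c => ¬ p ∣ c) (r * p ^ k) s := by
  have hpk := hp'.pow k
  have e1 : psi0 r s = psi (fun c => ¬ p ∣ c) r s + psi (fun c => p ∣ c) r s := by
    unfold psi0 psi dser
    rw [← (vorho1_summable _ r hs).tsum_add (vorho1_summable _ r hs)]
    refine tsum_congr fun n => ?_
    unfold prim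
    by_cases a1 : n = 0 <;> by_cases a2 : Prim n <;> by_cases a3 : p ∣ n <;> simp [a1, a2, a3]
  rw [e1]
  congr 1
  unfold psi dser
  rw [← tsum_mul_left]
  have e2 := tsum_dvd hpk.ne_zero fun n => if n = 0 then 0 else
    prim (fun c => gs c (cub c) r) n * (N n : ℂ) ^ (-s)
  refine Eq.trans (tsum_congr fun n => ?_) (e2.trans (tsum_congr fun m => ?_))
  · unfold prim
    by_cases a1 : n = 0
    · simp [a1]
    by_cases a2 : Prim n
    · by_cases a3 : p ^ k ∣ n
      · simp [a1, a2, a3, (dvd_pow_self p hk).trans a3]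
      · by_cases a4 : p ∣ n
        · simp [a3, h1 n a2 a4 a3]
        · simp [a3, a4]
    · simp [a2]
  · unfold prim
    by_cases a1 : m = 0
    · simp [a1]
    have a1' : p ^ k * m ≠ 0 := mul_ne_zero hpk.ne_zero a1
    rw [if_neg a1, if_neg a1']
    by_cases a2 : Prim m
    · rw [if_pos a2, if_pos (hpk.mul a2)]
      beta_reduce
      by_cases a3 : p ∣ m
      · rw [h2 _ (hpk.mul a2) (by rw [pow_succ]; exact mul_dvd_mul_left _ a3)]
        simp [a3]
      · rw [if_pos a3, gs_cub_mul hpk a2 (hp.irreducible.coprime_iff_not_dvd.2 a3).pow_left, N_mul,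
          Complex.ofReal_mul, Complex.mul_cpow_ofReal_nonneg (N_nonneg _) (N_nonneg _)]
        ring
    · rw [if_neg a2, if_neg fun h => a2 (h.of_mul_left hpk)]
      simp

theorem psi0_split_one {p : O} (hp : Prime p) (hp' : Prim p) {r : O} (hr : ¬ p ∣ r) {s : ℂ}
    (hs : 2 < s.re) : psi0 r s = psi (fun c => ¬ p ∣ c) r s +
      (N p : ℂ) ^ (-s) * gs p (cub p) r * psi (fun c => ¬ p ∣ c) (r * p) s := by
  have h := vorho1_split hp hp' one_ne_zero (r := r) (fun c _ h1 h2 => absurd (by simpa using h1) h2)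
    (fun c hc h1 => vorho1_vanish hp hp' hc fun j _ h3 => by
      have hj : 2 ≤ j := by
        by_contra hj
        exact h3 ((pow_dvd_pow p (by omega)).trans h1)
      obtain ⟨i, rfl⟩ : ∃ i, j = i + 1 := ⟨j - 1, by omega⟩
      exact gs_prime_pow_eq_zero hp' fun h4 => hr ((dvd_pow_self p (by omega)).trans h4)) hs
  simpa only [pow_one] using h

theorem psi0_split_sq {p : O} (hp : Prime p) (hp' : Prim p) {r : O} (hr : ¬ p ∣ r) {s : ℂ}
    (hs : 2 < s.re) : psi0 (r * p ^ 2) s =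
      (1 - (N p : ℂ) ^ (2 - 3 * s)) * psi (fun c => ¬ p ∣ c) (r * p ^ 2) s := by
  have h := vorho1_split hp hp' (k := 3) (by norm_num) (r := r * p ^ 2)
    (fun c hc h1 h2 => vorho1_vanish hp hp' hc fun j h3 h4 => by
      have hj : j ≠ 0 := by
        rintro rfl
        exact h4 (by simpa using h1)
      have hj' : j ≤ 2 := by
        by_contra hj'
        exact h2 ((pow_dvd_pow p (by omega)).trans h3)
      have e : r * p ^ 2 = 0 + p ^ j * (r * p ^ (2 - j)) := by
        rw [zero_add, mul_left_comm, ← pow_add]; congr 2; omega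
      rw [e, gs_per, gs_prime_pow_zero hp hp' hj, if_neg (by omega)])
    (fun c hc h1 => vorho1_vanish hp hp' hc fun j _ h3 => by
      have hj : 4 ≤ j := by
        by_contra hj
        exact h3 ((pow_dvd_pow p (by omega)).trans h1)
      obtain ⟨i, rfl⟩ : ∃ i, j = i + 1 := ⟨j - 1, by omega⟩
      refine gs_prime_pow_eq_zero hp' fun h4 => hr ?_
      have h5 : p * p ^ 2 ∣ r * p ^ 2 := by
        rw [← pow_succ']; exact (pow_dvd_pow p (by omega)).trans h4
      exact (mul_dvd_mul_iff_right (hp'.pow 2).ne_zero).1 h5) hs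
  have hN : (N p : ℂ) ≠ 0 := by exact_mod_cast (N_pos hp.ne_zero).ne'
  have e : (N (p ^ 3) : ℂ) ^ (-s) * (N p : ℂ) ^ 2 = (N p : ℂ) ^ (2 - 3 * s) := by
    have h0 := N_nonneg p
    rw [show p ^ 3 = p * (p * p) by ring, N_mul, N_mul, Complex.ofReal_mul,
      Complex.mul_cpow_ofReal_nonneg h0 (mul_nonneg h0 h0), Complex.ofReal_mul,
      Complex.mul_cpow_ofReal_nonneg h0 h0,
      show 2 - 3 * s = -s + (-s + -s) + (2 : ℕ) by push_cast; ring, Complex.cpow_add _ _ hN,
      Complex.cpow_add _ _ hN, Complex.cpow_add _ _ hN, Complex.cpow_natCast]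
  rw [h, gs_prime_cube hp hp' hr, psi_prime_cube hp, ← e]
  ring

end Crest.Agent.R17.Vor
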