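import Crest.Agent.R17.VoRho1
import Crest.Agent.R17.VoHecke2
import Crest.Agent.R17.RecKey

/-!
# R17 / VoRho2 : the Hecke relations for `rho0`

Take residues in `psi_prime_cube`, `psi0_split_sq`, `psi0_split_one` (`hasRes_psiP`, `hasRes_psi0`,
`HasRes.hol_mul`, `HasRes.unique`):
`ρ(rp²) = (1 - q⁻²) q/(q+1) ρ(rp²)` and `ρ(r) = q/(q+1) (ρ(r) + q^{-4/3} g(p,r) ρ(rp))`,
with `g(p,r) = conj (cub p r) √q g3 p` (`gs_cub`), `|g3 p| = 1`, `tau p = conj (g3 p)` (`tau_eq` with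
`c = 1`).
-/

set_option autoImplicit false

noncomputable section

open scoped Classical ComplexConjugate Topology ENNReal InnerProductSpace
open MeasureTheory Filter

namespace Crest.Agent.R17.Vor

theorem vr2_q {p : O} (hp : Prime p) : (N p : ℂ) ≠ 0 := by
  exact_mod_cast (N_pos hp.ne_zero).ne'

theorem rho0_mul_cube {p : O} (hp : Prime p) (hp' : Prim p) (r : O) :
    rho0 (r * p ^ 3) = rho0 r := by
  have h := hasRes_psiP hp hp' (r * p ^ 3)
  rw [psi_prime_cube hp] at h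
  exact mul_left_cancel₀ (div_ne_zero (vr2_q hp) VoHecke2_q) (h.unique (hasRes_psiP hp hp' r))
theorem rho0_mul_sq {p : O} (hp : Prime p) (hp' : Prim p) {r : O} (hr : ¬ p ∣ r) :
    rho0 (r * p ^ 2) = 0 := by
  have hq := vr2_q hp
  have hq1 := VoHecke2_q (p := p)
  have hd : Differentiable ℂ fun s : ℂ => 1 - (N p : ℂ) ^ (2 - 3 * s) :=
    (Differentiable.const_cpow (by fun_prop) (Or.inl hq)).const_sub 1
  have h := (((hasRes_psiP hp hp' (r * p ^ 2)).hol_mul hd.differentiableOn).congr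
    fun s _ hs => (psi0_split_sq hp hp' hr hs).symm).unique (hasRes_psi0 _)
  rw [show (2 : ℂ) - 3 * (4 / 3) = -((2 : ℕ) : ℂ) by norm_num, Complex.cpow_neg,
    Complex.cpow_natCast] at h
  refine mul_left_cancel₀ hq1 ?_
  field_simp at h
  linear_combination -h
theorem rho0_mul_prime {p : O} (hp : Prime p) (hp' : Prim p) {r : O} (hr : ¬ p ∣ r) :
    ((N p ^ (1 / 6 : ℝ) : ℝ) : ℂ) * rho0 (r * p) = cub p r * tau p * rho0 r := by
  have hq := vr2_q hp
  have hq1 := VoHecke2_q (p := p)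
  have h0 := N_pos hp.ne_zero
  have h3 := hp'.isCoprime_three
  have hd : Differentiable ℂ fun s : ℂ => (N p : ℂ) ^ (-s) * gs p (cub p) r :=
    (Differentiable.const_cpow (by fun_prop) (Or.inl hq)).mul_const _
  have h := (((hasRes_psiP hp hp' r).add ((hasRes_psiP hp hp' (r * p)).hol_mul
    hd.differentiableOn)).congr fun s _ hs => (psi0_split_one hp hp' hr hs).symm).unique
    (hasRes_psi0 _)
  have h1 := tau_eq hp' hp.squarefree Prim.one
  rw [one_pow, mul_one, N_one, Real.sqrt_one, Complex.ofReal_one, mul_one] at h1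
  have h2 : gs p (cub p) 1 = g3 p * (Real.sqrt (N p) : ℂ) := by
    rw [g3, div_mul_cancel₀]
    exact_mod_cast (Real.sqrt_pos.2 h0).ne'
  have h4 : ((N p ^ (1 / 6 : ℝ) : ℝ) : ℂ) =
      (N p : ℂ) ^ (-(4 / 3 : ℂ)) * N p * (Real.sqrt (N p) : ℂ) := by
    have e := Complex.ofReal_cpow h0.le (-(4 / 3))
    push_cast at e
    rw [← e, Real.sqrt_eq_rpow, ← Complex.ofReal_mul, ← Complex.ofReal_mul,
      ← Real.rpow_add_one h0.ne', ← Real.rpow_add h0]
    norm_num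
  have h5 := rkey_mul_conj (norm_g3 h3 hp.squarefree)
  have h6 := rkey_mul_conj ((va2_isChar hp').norm_eq_one hp.ne_zero
    (hp.coprime_iff_not_dvd.2 hr).symm)
  rw [gs_cub h3 hp.squarefree, h2] at h
  rw [h1, h4]
  field_simp at h
  generalize (N p : ℂ) ^ (-(4 / 3 : ℂ)) = a at *
  linear_combination (cub p r * conj (g3 p)) * h -
    (a * N p * (Real.sqrt (N p) : ℂ) * rho0 (r * p) * (g3 p * conj (g3 p))) * h6 -
    (a * N p * (Real.sqrt (N p) : ℂ) * rho0 (r * p)) * h5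

/-- strong induction on `nm m`: take a primary prime `p ∣ m` (`Prim.exists_prime_dvd`).  If `p³ ∣ m`
use `rho0_mul_cube`, `tau_mul_cube`, `cub p r₀ ^ 3 = 1`; if `m = p² m'`, `p ∤ m'`, both sides vanish
(`tau_mul`, `tau (p²) = 0` by `tau_ne_zero`); if `m = p m'`, `p ∤ m'`, use `rho0_mul_prime`,
`tau_mul`. -/
theorem rho0_hecke' {u : O} (hu : IsUnit u) (j : ℕ) {m : O} (hm : Prim m) :
    ((N m ^ (1 / 6 : ℝ) : ℝ) : ℂ) * rho0 (u * lam ^ j * m) =
      rho0 (u * lam ^ j) * cub m (u * lam ^ j) * tau m := by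
  induction' hn : nm m using Nat.strong_induction_on with n ih generalizing m
  by_cases h1 : m = 1
  · have h2 := tau_eq Prim.one squarefree_one Prim.one
    have h4 : gs 1 (cub 1) 1 = 1 := rkey_gs_one 3
    rw [one_pow, one_mul] at h2
    simp [h1, h2, g3, h4, cub, sym_one]
  obtain ⟨p, hp, hp', hpm⟩ := hm.exists_prime_dvd h1
  have hco := va2_coprime_ul hp' hu j
  have hlt : ∀ a : O, p ∣ a → ∀ b, m = b * a → nm b < n := fun a ⟨c, hc⟩ b hb => by
    have h2 : 2 ≤ nm p := by exact_mod_cast (show (2 : ℝ) ≤ nm p from Prime.two_le_N hp)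
    have h3 := nm_pos hm.ne_zero
    rw [← hn]
    rw [hb, hc, nm_mul, nm_mul] at h3 ⊢
    have h4 : 0 < nm c := Nat.pos_of_mul_pos_left (Nat.pos_of_mul_pos_left h3)
    exact lt_mul_of_one_lt_right (Nat.pos_of_mul_pos_right h3) (by nlinarith)
  by_cases h3 : p ^ 3 ∣ m
  · obtain ⟨b, hb⟩ := h3
    have hb' : Prim b := (hb ▸ hm).of_mul_left (hp'.pow 3)
    rw [mul_comm] at hb
    have h4 := ih _ (hlt _ (dvd_pow_self p three_ne_zero) b hb) hb' rfl
    have h5 : (N p ^ 3) ^ (1 / 6 : ℝ) = Real.sqrt (N p) := by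
      rw [Real.sqrt_eq_rpow, ← Real.rpow_natCast, ← Real.rpow_mul (N_nonneg _)]
      norm_num
    have h6 : cub (b * p ^ 3) (u * lam ^ j) = cub b (u * lam ^ j) := by
      rw [cub, sym_mul_left 3 hb'.ne_zero (pow_ne_zero 3 hp.ne_zero), sym_pow_left 3 hp.ne_zero,
        ← cub, ← cub, va2_cube hp' hco, mul_one]
    rw [hb, ← mul_assoc, rho0_mul_cube hp hp', tau_mul_cube hb' hp', h6, N_mul, N_pow,
      Real.mul_rpow (N_nonneg _) (pow_nonneg (N_nonneg _) _), h5, Complex.ofReal_mul]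
    linear_combination (Real.sqrt (N p) : ℂ) * h4
  have hnd : ∀ b, ¬ p ∣ b → ¬ p ∣ u * lam ^ j * b := fun b hb h =>
    hb (hco.symm.dvd_of_dvd_mul_left h)
  by_cases h2 : p ^ 2 ∣ m
  · have h4 : tau m = 0 := by
      by_contra h
      obtain ⟨m0, c, -, hs, -, e⟩ := tau_ne_zero hm h
      by_cases hc : p ∣ c
      · exact h3 (e ▸ (pow_dvd_pow_of_dvd hc 3).mul_left _)
      · exact hp.not_isUnit (hs p (by
          rw [← sq]
          exact (hp.coprime_iff_not_dvd.2 hc).pow.dvd_of_dvd_mul_right (e ▸ h2)))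
    obtain ⟨b, rfl⟩ := h2
    rw [h4, mul_comm (p ^ 2), ← mul_assoc, rho0_mul_sq hp hp' (hnd b fun h =>
      h3 (pow_succ p 2 ▸ mul_dvd_mul_left _ h)), mul_zero, mul_zero]
  obtain ⟨b, hb⟩ := hpm
  have hb' : Prim b := (hb ▸ hm).of_mul_left hp'
  have hpb : ¬ p ∣ b := fun h => h2 (hb ▸ sq p ▸ mul_dvd_mul_left _ h)
  have h4 := ih _ (hlt p dvd_rfl b (hb.trans (mul_comm _ _))) hb' rfl
  have h5 := rho0_mul_prime hp hp' (hnd b hpb)
  have h6 : cub (p * b) (u * lam ^ j) = cub p (u * lam ^ j) * cub b (u * lam ^ j) :=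
    sym_mul_left 3 hp.ne_zero hb'.ne_zero _
  rw [(va2_isChar hp').mul _ b] at h5
  rw [hb, tau_mul hp' hb' (hp.coprime_iff_not_dvd.2 hpb), h6, N_mul,
    Real.mul_rpow (N_nonneg _) (N_nonneg _), Complex.ofReal_mul, mul_comm p b, ← mul_assoc _ b p]
  linear_combination ((N b ^ (1 / 6 : ℝ) : ℝ) : ℂ) * h5 +
    (cub p (u * lam ^ j) * cub p b * tau p) * h4

/-- finitely many values `rho0 (u λ^j)` (`rho0_lam_cube'`, `units6`) -/
theorem rho0_bound : ∃ C : ℝ, 0 ≤ C ∧ ‖rho0 0‖ ≤ C ∧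
    ∀ (u : O) (j : ℕ) (m : O), IsUnit u → Prim m →
      ‖rho0 (u * lam ^ j * m)‖ ≤ C * ‖tau m‖ * N m ^ (-(1 / 6 : ℝ)) := by
  have h0 : 0 ≤ ∑ u ∈ units6, ∑ i ∈ Finset.range 3, ‖rho0 (u * lam ^ i)‖ := by positivity
  refine ⟨‖rho0 0‖ + ∑ u ∈ units6, ∑ i ∈ Finset.range 3, ‖rho0 (u * lam ^ i)‖, by positivity,
    le_add_of_nonneg_right h0, fun u j m hu hm => ?_⟩
  have h1 : ∀ k i, rho0 (u * lam ^ (i + 3 * k)) = rho0 (u * lam ^ i) := fun k i => by
    induction k with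
    | zero => rfl
    | succ k ih => rw [Nat.mul_succ, ← add_assoc, pow_add, ← mul_assoc, rho0_lam_cube', ih]
  have h2 : ‖rho0 (u * lam ^ j)‖ ≤
      ‖rho0 0‖ + ∑ u ∈ units6, ∑ i ∈ Finset.range 3, ‖rho0 (u * lam ^ i)‖ := by
    rw [← Nat.mod_add_div j 3, h1]
    refine le_add_of_nonneg_of_le (norm_nonneg _) (le_trans ?_ (Finset.single_le_sum
      (f := fun u => ∑ i ∈ Finset.range 3, ‖rho0 (u * lam ^ i)‖) (fun _ _ => by positivity)
      (isUnit_iff_mem_units6.1 hu)))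
    exact Finset.single_le_sum (f := fun i => ‖rho0 (u * lam ^ i)‖) (fun _ _ => norm_nonneg _)
      (Finset.mem_range.2 (Nat.mod_lt j three_pos))
  have h3 := congrArg norm (rho0_hecke' hu j hm)
  have h4 := Real.rpow_pos_of_pos (N_pos hm.ne_zero) (1 / 6)
  have h5 := (va2_isChar hm).norm_le hm.ne_zero (u * lam ^ j)
  rw [norm_mul, norm_mul, norm_mul, Complex.norm_real, Real.norm_of_nonneg h4.le] at h3
  rw [Real.rpow_neg (N_nonneg _), ← div_eq_mul_inv, le_div_iff₀ h4, mul_comm, h3]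
  exact mul_le_mul_of_nonneg_right ((mul_le_of_le_one_right (norm_nonneg _) h5).trans h2)
    (norm_nonneg _)

end Crest.Agent.R17.Vor
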