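import Crest.Agent.R17.VoEis
import Crest.Agent.R17.VoOp
import Crest.Agent.R17.VoAbs

/-!
# R17 / VoTheta1 : continuation of the Eisenstein series in `L²(nu p)`

Let `T` be the operator of `exists_T`, `f s = Eis κ (phs s)` and `H s = Eis κ (mid A s)` in `L²`
(`exists_Lp_Eis` with `phs_bound`, `mid_bound`), and `g, u₀` from `resolvent_main` applied to
`T, hh, f` (`hh_im_pos`, `hh_43`, `deriv_hh_43`).  For `s ∈ Omg`, `Re s > 2`, the function
`L = Eis κ (lo s)` is bounded (`Eis_bound`, `lo_bound`), measurable, automorphic, so it is in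
`L²(nu p)` (finite measure), and `TK L = TX L = Eis κ (Tt (lo s)) = hh s · L - f s` pointwise
(`TK_eq_TX`, `TX_Eis`, `Tt_lo`, `Eis_congr`, `Eis_mul_sub`).  So `x = -L` solves
`T x - hh s • x = f s`, i.e. `L = -g s` in `L²`.  For `uu w o ≤ R` take `A = 8R`: if `uu w w' ≤ 2`
then `uu w' o ≤ 4R`, all rows have `hr w' ≤ A` (`hr_le`), so `Eis (pw s) w' = Eis (mid A s) w' + L w'`
(`pw_eq_mid_add_lo`, `Eis_add`).  Hence `hh s · Eis (pw s) w = Eis (Tt (pw s)) w = TX (Eis (pw s)) w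
= TK (Eis (mid A s) + L) w` (`Tt_pw`, `TX_congr`, `TK_eq_TX`).  Put `U s = (hh s)⁻¹ • (H s - g s)`,
`u = (μ₀⁻¹ h₁⁻¹) • u₀`; `TK` is linear on `L²` because it is `ev w` (`exists_ev`, `TK_congr`).
`iε H(4/3+iε) → 0` by continuity.  The last claim is the last claim of `resolvent_main`
(`L2.inner_def`, `RCLike.inner_apply`).
-/

set_option autoImplicit false

noncomputable section

open scoped Classical ComplexConjugate Topology ENNReal InnerProductSpace
open MeasureTheory Filter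

namespace Crest.Agent.R17.Vor

theorem VoTheta1_inner {p : O} (f g : Lp ℂ 2 (nu p)) :
    ⟪f, g⟫_ℂ = ∫ w, conj (f w) * g w ∂(nu p) := by
  rw [L2.inner_def]
  simp only [RCLike.inner_apply']

theorem VoTheta1_memLp {p : O} (hp : p ≠ 0) {κ : O → O → ℂ} (hκ : RowBd κ) {s : ℂ}
    (hs : 2 < s.re) : MemLp (Eis κ (lo s)) 2 (nu p) := by
  have := isFiniteMeasure_nu hp
  obtain ⟨B, hB⟩ := Eis_bound hs
  exact MemLp.of_bound (measurable_Eis hκ (adm_lo hs)).aestronglyMeasurable (1 * B)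
    (Eventually.of_forall (hB κ hκ (lo s) 1 zero_le_one fun v hv => lo_bound hs hv))

theorem VoTheta1_TK_lo {p : O} (hp : p ≠ 0) {κ : O → O → ℂ} (hκ : RowBd κ) (he : Equi p κ) {s : ℂ}
    (hs : 2 < s.re) (w : X) :
    TK p (Eis κ (lo s)) w = hh s * Eis κ (lo s) w - Eis κ (phs s) w := by
  have := isFiniteMeasure_nu hp
  rw [TK_eq_TX (measurable_Eis hκ (adm_lo hs)) (aut_Eis he _)
    ((VoTheta1_memLp hp hκ hs).integrable one_le_two), TX_Eis hκ (adm_lo hs),
    ← Eis_mul_sub hκ (adm_lo hs) (adm_phs s)]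
  exact Eis_congr fun c d h => Tt_lo s (hκ.hr_pos h w)

theorem VoTheta1_TK_sum {p : O} {κ : O → O → ℂ} (hκ : RowBd κ) (he : Equi p κ) {s : ℂ}
    (hs : 2 < s.re) {R : ℝ}
    (hi : Integrable (fun w => Eis κ (mid (8 * R) s) w + Eis κ (lo s) w) (nu p)) {w : X}
    (hw : uu w o ≤ R) :
    TK p (fun w => Eis κ (mid (8 * R) s) w + Eis κ (lo s) w) w = hh s * Eis κ (pw s) w := by
  have hF : (fun w => Eis κ (mid (8 * R) s) w + Eis κ (lo s) w) =
      Eis κ (fun v => mid (8 * R) s v + lo s v) :=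
    funext fun w => (Eis_add hκ (adm_mid _ s) (adm_lo hs) w).symm
  have hm : Measurable (fun w => Eis κ (mid (8 * R) s) w + Eis κ (lo s) w) :=
    (measurable_Eis hκ (adm_mid _ s)).add (measurable_Eis hκ (adm_lo hs))
  have ha : Aut p (fun w => Eis κ (mid (8 * R) s) w + Eis κ (lo s) w) := by
    rw [hF]
    exact aut_Eis he _
  rw [TK_eq_TX hm ha hi, TX_congr (g := Eis κ (pw s)), TX_Eis hκ (adm_pw hs),
    Eis_congr (ψ := fun v => hh s * pw s v) fun c d h => Tt_pw s (hκ.hr_pos h w)]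
  · unfold Eis
    rw [← tsum_mul_left]
    exact tsum_congr fun r => by ring
  · intro w' hw'
    rw [← Eis_add hκ (adm_mid _ s) (adm_lo hs)]
    refine Eis_congr fun c d h => (pw_eq_mid_add_lo s ?_).symm
    have h1 := hr_le w' (hκ.2 c d h).ne_zero_or_ne_zero
    have h2 := uu_le w' w o
    rw [uu_symm w' w] at h2
    have h3 := one_le_uu w w'
    have h4 := one_le_uu w o
    have h5 : 2 * uu w w' * uu w o ≤ 2 * 2 * R := by gcongr
    linarith

theorem exists_cont {p : O} (hp : p ≠ 0) {κ : O → O → ℂ} (hκ : RowBd κ) (he : Equi p κ) :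
    ∃ u : Lp ℂ 2 (nu p), (TK p u =ᵐ[nu p] fun w => hh (4 / 3) * u w) ∧
      (∀ R : ℝ, ∃ U : ℂ → Lp ℂ 2 (nu p), DifferentiableOn ℂ U Omg ∧
        Tendsto (fun ε : ℝ => ((ε : ℂ) * Complex.I) • U (4 / 3 + ε * Complex.I)) (𝓝[>] 0) (𝓝 u) ∧
        ∀ s ∈ Omg, 2 < s.re → ∀ w, uu w o ≤ R → TK p (U s) w = Eis κ (pw s) w) ∧
      ∀ D : Lp ℂ 2 (nu p), (TK p D =ᵐ[nu p] fun w => hh (4 / 3) * D w) →
        ∫ w, conj (Eis κ (phs (4 / 3)) w) * D w ∂(nu p) = 0 →
        ∫ w, conj (u w) * D w ∂(nu p) = 0 := by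
  have hfin := isFiniteMeasure_nu hp
  obtain ⟨T, hT, hTK⟩ := exists_T hp
  obtain ⟨ev, hev, -⟩ := exists_ev hp
  obtain ⟨f, hf, hfae⟩ := exists_Lp_Eis hp hκ measurable_phs (fun v hv => differentiable_phs hv)
    phs_bound
  obtain ⟨μ0, hμ0, h0⟩ := hh_43
  obtain ⟨h1, hh1, hd⟩ := deriv_hh_43
  obtain ⟨g, u0, hg, hsol, hTu, hlim, hinner⟩ := resolvent_main T hT differentiable_hh
    (fun s hs => (hh_im_pos hs).ne') h0 hd hh1.ne' hf
  have hne : ∀ s ∈ Omg, hh s ≠ 0 := by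
    intro s hs h
    have := hh_im_pos hs
    rw [h] at this
    simp at this
  refine ⟨((μ0 : ℂ)⁻¹ * (h1 : ℂ)⁻¹) • u0, ?_, fun R => ?_, fun D hD hI => ?_⟩
  · have e : T (((μ0 : ℂ)⁻¹ * (h1 : ℂ)⁻¹) • u0) = (μ0 : ℂ) • (((μ0 : ℂ)⁻¹ * (h1 : ℂ)⁻¹) • u0) := by
      rw [map_smul, hTu, smul_comm]
    have e1 := hTK (((μ0 : ℂ)⁻¹ * (h1 : ℂ)⁻¹) • u0)
    rw [e] at e1
    filter_upwards [e1, Lp.coeFn_smul (μ0 : ℂ) (((μ0 : ℂ)⁻¹ * (h1 : ℂ)⁻¹) • u0)] with w a1 a2
    rw [← a1, a2, h0, Pi.smul_apply, smul_eq_mul]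
  · obtain ⟨H, hH, hHae⟩ := exists_Lp_Eis hp hκ (measurable_mid (8 * R))
      (fun v hv => differentiable_mid (8 * R) hv) (mid_bound (8 * R))
    refine ⟨fun s => (hh s)⁻¹ • (H s - g s), ?_, ?_, fun s hs hs2 w hw => ?_⟩
    · exact (differentiable_hh.differentiableOn.inv hne).smul (hH.differentiableOn.sub hg)
    · have t0 : Tendsto (fun ε : ℝ => (4 / 3 : ℂ) + ε * Complex.I) (𝓝[>] 0) (𝓝 (4 / 3)) := by
        have : Continuous (fun ε : ℝ => (4 / 3 : ℂ) + ε * Complex.I) := by fun_prop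
        simpa using (this.tendsto 0).mono_left nhdsWithin_le_nhds
      have t1 : Tendsto (fun ε : ℝ => (ε : ℂ) * Complex.I) (𝓝[>] 0) (𝓝 0) := by
        have : Continuous (fun ε : ℝ => (ε : ℂ) * Complex.I) := by fun_prop
        simpa using (this.tendsto 0).mono_left nhdsWithin_le_nhds
      have t2 : Tendsto (fun ε : ℝ => (hh (4 / 3 + ε * Complex.I))⁻¹) (𝓝[>] 0) (𝓝 (μ0 : ℂ)⁻¹) := by
        refine Tendsto.inv₀ ?_ (Complex.ofReal_ne_zero.mpr hμ0.ne')
        rw [← h0]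
        exact (differentiable_hh.continuous.tendsto _).comp t0
      have t3 := t1.smul ((hH.continuous.tendsto _).comp t0)
      have t4 := t2.smul (t3.sub hlim)
      rw [zero_smul, zero_sub, neg_neg, smul_smul] at t4
      refine t4.congr fun ε => ?_
      simp only [Function.comp_apply]
      rw [← smul_sub, smul_comm]
    · have hL := VoTheta1_memLp hp hκ hs2
      have hLae := hL.coeFn_toLp
      set L := hL.toLp _ with hLdef
      have hx : T (-L) - hh s • (-L) = f s := by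
        rw [map_neg, smul_neg, sub_neg_eq_add, neg_add_eq_sub]
        refine Lp.ext ?_
        have e1 := hTK L
        rw [TK_congr hLae] at e1
        filter_upwards [e1, hLae, hfae s, Lp.coeFn_sub (hh s • L) (T L), Lp.coeFn_smul (hh s) L]
          with x a1 a2 a3 a4 a5
        rw [a4, Pi.sub_apply, a5, a1, a3, Pi.smul_apply, a2, VoTheta1_TK_lo hp hκ he hs2,
          smul_eq_mul, sub_sub_cancel]
      have hgs := hsol s hs _ hx
      have hsum : (H s + L : Lp ℂ 2 (nu p)) =ᵐ[nu p]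
          fun w => Eis κ (mid (8 * R) s) w + Eis κ (lo s) w := by
        filter_upwards [Lp.coeFn_add (H s) L, hHae s, hLae] with x a1 a2 a3
        rw [a1, Pi.add_apply, a2, a3]
      have hi : Integrable (fun w => Eis κ (mid (8 * R) s) w + Eis κ (lo s) w) (nu p) :=
        ((Lp.memLp (H s + L)).integrable one_le_two).congr hsum
      beta_reduce
      rw [← hev, ← hgs, sub_neg_eq_add, map_smul, hev, TK_congr hsum,
        VoTheta1_TK_sum hκ he hs2 hi hw, smul_eq_mul, inv_mul_cancel_left₀ (hne s hs)]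
  · have hTD : T D = (μ0 : ℂ) • D := by
      refine Lp.ext ?_
      filter_upwards [hTK D, hD, Lp.coeFn_smul (μ0 : ℂ) D] with x a1 a2 a3
      rw [a1, a2, a3, h0, Pi.smul_apply, smul_eq_mul]
    have e1 := hinner D hTD
    have e2 : ⟪f (4 / 3), D⟫_ℂ = 0 := by
      rw [VoTheta1_inner, ← hI]
      refine integral_congr_ae ?_
      filter_upwards [hfae (4 / 3)] with x a1
      rw [a1]
    rw [← VoTheta1_inner, inner_smul_left, ← e1, e2, mul_zero]

end Crest.Agent.R17.Vor
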