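import Crest.Agent.R17.VoTheta1
import Crest.Agent.R17.VoCell
import Crest.Agent.R17.VoRes

/-!
# R17 / VoTheta2 : the residue `thK κ` and its properties

With `u, U` from `exists_cont` and `ev` from `exists_ev`, `hasRes_clm (ev w)` gives
`HasRes (Eis κ (pw ·) w) (TK p u w)`, so `thK κ = TK p u` (`HasRes.res43_eq`).  It is continuous and
automorphic (`continuous_TK`, `aut_TK`), equals `μ₀ u` a.e., hence is in `L²`, and
`TX Θ = TK Θ = TK (μ₀ u) = μ₀ Θ`.  For the coefficients apply `hasRes_clm` to the functional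
`Λ f = ∫_{cell ℓ} ev (σ (z,v)) f · ee(-nz/ℓ) dz` (linear since the integrands are continuous,
`integrableOn_cell`; bounded by `M · vol ℓ` with `R` from `exists_ball_cell`), and use `Eis_act`.
For `D` in `Eig p`, `TK D = TX D = hh (4/3) D`, so `MemLp.toLp D` satisfies the hypothesis of the
last part of `exists_cont`; `μ₀` is real and non-zero.
-/

set_option autoImplicit false

noncomputable section

open scoped Classical ComplexConjugate Topology ENNReal InnerProductSpace
open MeasureTheory Filter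

namespace Crest.Agent.R17.Vor

/-- the coefficient functional -/
theorem VoTheta2_fun {p : O} (hp : p ≠ 0) (g : SL ℂ) (ℓ n : O) (v : ℝ) :
    ∃ Λ : Lp ℂ 2 (nu p) →L[ℂ] ℂ, ∀ f : Lp ℂ 2 (nu p),
      Λ f = coef ℓ n v (fun w => TK p f (act g w)) := by
  haveI := isFiniteMeasure_nu hp
  obtain ⟨ev, hev, hb⟩ := exists_ev hp
  obtain ⟨R, hR⟩ := exists_ball_cell g ℓ v
  obtain ⟨M, hM⟩ := hb R
  have hint : ∀ f : Lp ℂ 2 (nu p), Integrable f (nu p) := fun f =>
    (Lp.memLp f).integrable one_le_two
  have hce : Continuous fun z : ℂ => ee (-(toC n * z / toC ℓ)) :=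
    continuous_ee.comp (by fun_prop)
  have hcont : ∀ f : Lp ℂ 2 (nu p),
      Continuous fun z : ℂ => ev (act g (pt z v)) f * ee (-(toC n * z / toC ℓ)) := fun f => by
    simp only [hev]
    exact (((continuous_TK (hint f)).comp (continuous_act g)).comp (continuous_pt v)).mul hce
  let L : Lp ℂ 2 (nu p) →ₗ[ℂ] ℂ :=
    { toFun := fun f => ∫ z in cell ℓ, ev (act g (pt z v)) f * ee (-(toC n * z / toC ℓ))
      map_add' := fun f f' => by
        rw [← integral_add (integrableOn_cell (hcont f) ℓ) (integrableOn_cell (hcont f') ℓ)]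
        simp only [map_add, add_mul]
      map_smul' := fun a f => by
        simp only [map_smul, smul_eq_mul, RingHom.id_apply, mul_assoc]
        exact integral_const_mul _ _ }
  have hfin : volume (cell ℓ) < ⊤ := by rw [volume_cell]; exact ENNReal.ofReal_lt_top
  refine ⟨L.mkContinuous (M * (volume (cell ℓ)).toReal) fun f => ?_, fun f => ?_⟩
  · have := norm_setIntegral_le_of_norm_le_const (μ := volume) (s := cell ℓ) hfin
      (f := fun z => ev (act g (pt z v)) f * ee (-(toC n * z / toC ℓ))) (C := M * ‖f‖)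
      (fun z hz => by
        rw [norm_mul, norm_ee, mul_one]
        exact ((ev _).le_opNorm f).trans
          (mul_le_mul_of_nonneg_right (hM _ (hR z hz)) (norm_nonneg _)))
    refine le_trans this (le_of_eq ?_)
    rw [Measure.real]; ring
  · simp only [LinearMap.mkContinuous_apply, L, LinearMap.coe_mk, AddHom.coe_mk, coef, hev]

theorem theta_main {p : O} (hp : p ≠ 0) {κ : O → O → ℂ} (hκ : RowBd κ) (he : Equi p κ) :
    Eig p (thK κ) ∧ (∀ w, HasRes (fun s => Eis κ (pw s) w) (thK κ w)) ∧
      (∀ (σ : SL O) (ℓ n : O) (v : ℝ), 0 < v →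
        HasRes (fun s => coef ℓ n v (Eis (tr σ κ) (pw s)))
          (coef ℓ n v (fun w => thK κ (act (ι σ) w)))) ∧
      ∀ D, Eig p D → ∫ w, conj (Eis κ (phs (4 / 3)) w) * D w ∂(nu p) = 0 →
        ∫ w, conj (thK κ w) * D w ∂(nu p) = 0 :=
by
  haveI := isFiniteMeasure_nu hp
  obtain ⟨u, hu, hU, hD⟩ := exists_cont hp hκ he
  obtain ⟨ev, hev, -⟩ := exists_ev hp
  have hint : ∀ f : Lp ℂ 2 (nu p), Integrable f (nu p) := fun f =>
    (Lp.memLp f).integrable one_le_two
  have hres : ∀ w, HasRes (fun s => Eis κ (pw s) w) (TK p u w) := fun w => by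
    obtain ⟨U, h1, h2, h3⟩ := hU (uu w o)
    have := hasRes_clm (ev w) h1 h2 (F := fun s => Eis κ (pw s) w)
      (fun s hs h2s => by rw [hev]; exact h3 s hs h2s w le_rfl)
    rwa [hev] at this
  have hth : thK κ = TK p u := funext fun w => (hres w).res43_eq
  have hc : Continuous (TK p u) := continuous_TK (hint u)
  have hmem : MemLp (TK p u) 2 (nu p) :=
    (memLp_congr_ae hu).2 ((Lp.memLp u).const_mul _)
  have hTK : ∀ w, TK p (fun w => hh (4 / 3) * u w) w = hh (4 / 3) * TK p u w := fun w => by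
    unfold TK
    rw [← integral_const_mul]
    exact integral_congr_ae (Eventually.of_forall fun w' => by ring)
  refine ⟨?_, ?_, ?_, ?_⟩
  · rw [hth]
    refine ⟨hc, aut_TK p u, hmem, fun w => ?_⟩
    rw [← TK_eq_TX hc.measurable (aut_TK p u) (hmem.integrable one_le_two), TK_congr hu, hTK]
  · intro w; rw [hth]; exact hres w
  · intro σ ℓ n v _
    obtain ⟨Λ, hΛ⟩ := VoTheta2_fun hp (ι σ) ℓ n v
    obtain ⟨R, hR⟩ := exists_ball_cell (ι σ) ℓ v
    obtain ⟨U, h1, h2, h3⟩ := hU R
    have := hasRes_clm Λ h1 h2 (F := fun s => coef ℓ n v (Eis (tr σ κ) (pw s)))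
      (fun s hs h2s => by
        rw [hΛ]
        unfold coef
        refine setIntegral_congr_fun (measurableSet_cell ℓ) fun z hz => ?_
        beta_reduce
        rw [h3 s hs h2s _ (hR z hz), Eis_act])
    rw [hth]
    rwa [hΛ] at this
  · intro D hE h0
    have hae : (hE.mem.toLp D : X → ℂ) =ᵐ[nu p] D := hE.mem.coeFn_toLp
    have h1 : TK p (hE.mem.toLp D) =ᵐ[nu p] fun w => hh (4 / 3) * (hE.mem.toLp D) w := by
      rw [TK_congr hae]
      filter_upwards [hae] with w hw
      rw [hw, TK_eq_TX hE.cont.measurable hE.aut (hE.mem.integrable one_le_two), hE.eig]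
    have h2 := hD _ h1 (by
      rw [← h0]
      refine integral_congr_ae ?_
      filter_upwards [hae] with w hw
      rw [hw])
    have h3 : ∫ w, conj (thK κ w) * D w ∂(nu p) =
        conj (hh (4 / 3)) * ∫ w, conj (u w) * (hE.mem.toLp D) w ∂(nu p) := by
      rw [← integral_const_mul, hth]
      refine integral_congr_ae ?_
      filter_upwards [hae, hu] with w hw hw'
      rw [hw, hw', map_mul, mul_assoc]
    rw [h3, h2, mul_zero]

end Crest.Agent.R17.Vor
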